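/-
Row 269, P1 Section 4: shared definitions and the three INTERNAL INTERFACES of the new architecture
(memo S4-1 of helper36 + origin/helper264:notes269/S4-architecture.md).   Owner: helper36 (sub-captain sec 4).

  `pd a b u`     iterated partial derivatives `∂_y^a ∂_t^b u`
  `Idx`          jet variables `(j, c, a, b)`: shift index, coordinate, orders
  `jetAt F z`    the jets of `F` at the shifted points `(y + j t, t)`
  `jetAtH F z`   the same at the half-integer shifts `(y + (j + 1/2) t, t)`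
  `G.dom N`      initial domain on which all `L(y + j t, t)`, `|j| ≤ N`, (and `X(y+(j+1/2)t,t)`) are holomorphic

  `LensL G`   = P1 Theorem 4.3 (line-endpoint determination), explicit separable form
  `LensP G`   = P1 Theorem 4.4 (point-endpoint determination), explicit separable form, for the EDGE `L(y,t)`
  `Alg2 G`    = the new local statement replacing all monodromy arguments of Theorem 4.8:
                `L_1` is a rational differential function of finitely many `L_j`, `j ≤ 0` or `j > K`.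
-/
import Claimed.Agent.R269.Cplx

set_option autoImplicit false

namespace Claimed.Agent.R269

open Complex Polynomial

/-- `∂_y u`. -/
noncomputable def pdy (u : ℂ × ℂ → ℂ) (z : ℂ × ℂ) : ℂ := deriv (fun y => u (y, z.2)) z.1

/-- `∂_t u`. -/
noncomputable def pdt (u : ℂ × ℂ → ℂ) (z : ℂ × ℂ) : ℂ := deriv (fun t => u (z.1, t)) z.2

/-- `∂_y^a ∂_t^b u`. -/
noncomputable def pd (a b : ℕ) (u : ℂ × ℂ → ℂ) : ℂ × ℂ → ℂ := (pdy^[a]) ((pdt^[b]) u)

/-- the two coordinates of a pair. -/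
def crd (c : Fin 2) (v : ℂ × ℂ) : ℂ := if c = 0 then v.1 else v.2

/-- jet variables: (shift index `j`, coordinate `c`, order in `y`, order in `t`). -/
abbrev Idx := ℤ × Fin 2 × ℕ × ℕ

/-- the jets of `F` at the shifted points `(y + j t, t)`. -/
noncomputable def jetAt (F : ℂ × ℂ → ℂ × ℂ) (z : ℂ × ℂ) : Idx → ℂ :=
  fun i => pd i.2.2.1 i.2.2.2 (fun w => crd i.2.1 (F w)) (z.1 + (i.1 : ℂ) * z.2, z.2)

/-- the jets of `F` at the half-integer shifts `(y + (j + 1/2) t, t)`. -/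
noncomputable def jetAtH (F : ℂ × ℂ → ℂ × ℂ) (z : ℂ × ℂ) : Idx → ℂ :=
  fun i => pd i.2.2.1 i.2.2.2 (fun w => crd i.2.1 (F w)) (z.1 + ((i.1 : ℂ) + 1 / 2) * z.2, z.2)

/-- jets of the endpoint impacts together with the jets of the area coefficient `A(t)`. -/
noncomputable def jetAtHA (F : ℂ × ℂ → ℂ × ℂ) (A : ℂ → ℂ) (z : ℂ × ℂ) : Idx ⊕ ℕ → ℂ :=
  Sum.elim (jetAtH F z) (fun b => iteratedDeriv b A z.2)

namespace Glance

variable (G : Glance)

/-- the initial domain for shift indices `|j| ≤ N` (also for the shifts `j + 1/2`, `|j + 1/2| ≤ N`, of `X0`). -/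
def dom (N : ℕ) : Set (ℂ × ℂ) :=
  hstrip (G.s / 2) ×ˢ Metric.ball (0 : ℂ) (min G.r₁ (G.s / (N + 1)))

/-- P1 Theorem 4.3.  For `m < 0 < n` each coordinate of `L(y,t)` is a root of a separable polynomial whose coefficients
are polynomials in the jets of `L(y+mt,t)`, `L(y+nt,t)`.
`Π` the polynomial, `A Π + B Π' = D` the Bezout identity (valid on the actual jets). -/
def LensL : Prop :=
  ∀ (m n : ℤ), m < 0 → 0 < n → ∀ c : Fin 2, ∀ N : ℕ, |m| ≤ N → |n| ≤ N →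
    ∃ (Pi A B : Polynomial (MvPolynomial Idx ℂ)) (D : MvPolynomial Idx ℂ),
      (∀ l, ∀ i ∈ (Pi.coeff l).vars, i.1 = m ∨ i.1 = n) ∧
      (∀ l, ∀ i ∈ (A.coeff l).vars, i.1 = m ∨ i.1 = n) ∧
      (∀ l, ∀ i ∈ (B.coeff l).vars, i.1 = m ∨ i.1 = n) ∧
      (∀ i ∈ D.vars, i.1 = m ∨ i.1 = n) ∧
      1 ≤ Pi.natDegree ∧
      (∀ z ∈ G.dom N,
        (A * Pi + B * derivative Pi - C D).map (MvPolynomial.eval (jetAt G.L0 z)) = 0) ∧
      (∃ z ∈ G.dom N, MvPolynomial.eval (jetAt G.L0 z) D ≠ 0 ∧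
        MvPolynomial.eval (jetAt G.L0 z) Pi.leadingCoeff ≠ 0) ∧
      (∀ z ∈ G.dom N, (Pi.map (MvPolynomial.eval (jetAt G.L0 z))).eval (crd c (G.L0 z)) = 0)

/-- P1 Theorem 4.4, for the edge `L(y,t)` of the chain of impacts `X(y+(j+1/2)t,t)`, `m ≤ j ≤ n`, `m ≤ -1`, `0 ≤ n`. -/
def LensP : Prop :=
  ∀ (m n : ℤ), m ≤ -1 → 0 ≤ n → ∀ c : Fin 2, ∀ N : ℕ, |m| + 1 ≤ N → |n| + 1 ≤ N →
    ∃ (Pi A B : Polynomial (MvPolynomial (Idx ⊕ ℕ) ℂ)) (D : MvPolynomial (Idx ⊕ ℕ) ℂ),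
      (∀ l, ∀ i : Idx, Sum.inl i ∈ (Pi.coeff l).vars → i.1 = m ∨ i.1 = n) ∧
      (∀ l, ∀ i : Idx, Sum.inl i ∈ (A.coeff l).vars → i.1 = m ∨ i.1 = n) ∧
      (∀ l, ∀ i : Idx, Sum.inl i ∈ (B.coeff l).vars → i.1 = m ∨ i.1 = n) ∧
      (∀ i : Idx, Sum.inl i ∈ D.vars → i.1 = m ∨ i.1 = n) ∧
      1 ≤ Pi.natDegree ∧
      (∀ z ∈ G.dom N,
        (A * Pi + B * derivative Pi - C D).map (MvPolynomial.eval (jetAtHA G.X0 G.A z)) = 0) ∧
      (∃ z ∈ G.dom N, MvPolynomial.eval (jetAtHA G.X0 G.A z) D ≠ 0 ∧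
        MvPolynomial.eval (jetAtHA G.X0 G.A z) Pi.leadingCoeff ≠ 0) ∧
      (∀ z ∈ G.dom N, (Pi.map (MvPolynomial.eval (jetAtHA G.X0 G.A z))).eval (crd c (G.L0 z)) = 0)

/-- ALG2.  For every `K` each coordinate of `L_1 = L(y+t,t)` is a rational function of finitely many jets of the
`L_j = L(y+jt,t)` with `j ≤ 0` or `j > K`. -/
def Alg2 : Prop :=
  ∀ (K : ℕ) (c : Fin 2), ∃ (P Q : MvPolynomial Idx ℂ) (N : ℕ), 1 ≤ N ∧
    (∀ i ∈ P.vars, (i.1 ≤ 0 ∨ (K : ℤ) < i.1) ∧ |i.1| ≤ N) ∧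
    (∀ i ∈ Q.vars, (i.1 ≤ 0 ∨ (K : ℤ) < i.1) ∧ |i.1| ≤ N) ∧
    (∃ z ∈ G.dom N, MvPolynomial.eval (jetAt G.L0 z) Q ≠ 0) ∧
    (∀ z ∈ G.dom N, crd c (G.L0 (z.1 + z.2, z.2)) * MvPolynomial.eval (jetAt G.L0 z) Q
      = MvPolynomial.eval (jetAt G.L0 z) P)

end Glance

end Claimed.Agent.R269
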