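/-
Row 269, P1 Section 4, unit 4C, file WidthBase: `X0` and `L0` are bases; conjugation symmetries.   Statements: helper19.
LEAF PACKAGE LF-S4-4C-base (this file).  No paper reading: unfold `Glance.X0`, `Glance.L0`, `suppPt` (R269/Cplx.lean) and
use the fields of `Glance` (R269/Glance.lean).

HINTS.  * For `z = (y,t) ∈ G.ini`: `|Im (y ± t/2)| < 3s/2 + r₁/2 < 2s`, so `(y ± t/2, t)` lies in the domain of `Θ_diff`, ... .
* joint analyticity: `SCV.analyticOnNhd_of_differentiableOn` (R269/Lib/SCV0.lean) turns `Θ_diff`, `p_diff` into `AnalyticOnNhd`;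
  `hc` and `deriv hc` are analytic on the open strip `hstrip σ` (`DifferentiableOn.analyticOnNhd`, `AnalyticOnNhd.deriv`);
  the mean of two points of `hstrip σ` is in `hstrip σ` (convexity).
* `deriv hc (ψ + 2π) = deriv hc ψ` and `deriv hc (conj ψ) = conj (deriv hc ψ)` on `hstrip σ`: the functions agree near the point
  (`Filter.EventuallyEq.deriv_eq`, `deriv_comp_add_const`; for conj: `HasDerivAt.conj_conj` or `deriv_conj_conj`).
-/
import Claimed.Agent.R269.S4.WidthTool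

set_option autoImplicit false

open Complex ComplexConjugate Filter Topology Set
open scoped ENNReal Real

namespace Claimed.Agent.R269

theorem s4c_isOpen_hstrip (s : ℝ) : IsOpen (hstrip s) :=
  isOpen_lt (continuous_abs.comp Complex.continuous_im) continuous_const

theorem s4c_convex_hband (a b : ℝ) : Convex ℝ (hband a b) := by
  have h1 : hband a b = Complex.imCLM ⁻¹' (Set.Ioo a b) := by
    ext z
    simp [hband]
  rw [h1]
  exact (convex_Ioo a b).linear_preimage Complex.imCLM.toLinearMap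

theorem s4c_hstrip_eq_hband (s : ℝ) : hstrip s = hband (-s) s := by
  ext z
  simp [hstrip, hband, abs_lt]

theorem s4c_convex_hstrip (s : ℝ) : Convex ℝ (hstrip s) := by
  rw [s4c_hstrip_eq_hband]
  exact s4c_convex_hband _ _

namespace Glance

variable (G : Glance)

theorem s4c_s_pos : 0 < G.s := G.r₁_pos.trans G.r₁_lt

theorem s4c_isOpen_ini : IsOpen G.ini := (s4c_isOpen_hstrip _).prod Metric.isOpen_ball

theorem s4c_convex_ini : Convex ℝ G.ini := (s4c_convex_hstrip _).prod (convex_ball _ _)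

/-- the shifted points stay in the domain of `Θ`, `p`. -/
theorem s4c_shift_mem {z : ℂ × ℂ} (hz : z ∈ G.ini) {q : ℝ} (hq : |q| ≤ 1 / 2) :
    z.1 + q * z.2 ∈ hstrip (2 * G.s) := by
  have h1 : |z.1.im| < 3 * G.s / 2 := hz.1
  have h2 : ‖z.2‖ < G.r₁ := mem_ball_zero_iff.1 hz.2
  have h3 : |z.2.im| ≤ ‖z.2‖ := Complex.abs_im_le_norm _
  have h4 := G.r₁_lt
  show |(z.1 + q * z.2).im| < 2 * G.s
  have e : (z.1 + q * z.2).im = z.1.im + q * z.2.im := by simp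
  rw [e]
  have h5 : |q * z.2.im| ≤ 1 / 2 * ‖z.2‖ := by
    rw [abs_mul]
    exact mul_le_mul hq h3 (abs_nonneg _) (by norm_num)
  have h6 := abs_add_le z.1.im (q * z.2.im)
  linarith

theorem s4c_sub_mem {z : ℂ × ℂ} (hz : z ∈ G.ini) : z.1 - z.2 / 2 ∈ hstrip (2 * G.s) := by
  have h := G.s4c_shift_mem hz (q := -1 / 2) (by rw [abs_div, abs_neg]; norm_num)
  have e : z.1 + ((-1 / 2 : ℝ) : ℂ) * z.2 = z.1 - z.2 / 2 := by
    push_cast
    ring
  rwa [e] at h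

theorem s4c_add_mem {z : ℂ × ℂ} (hz : z ∈ G.ini) : z.1 + z.2 / 2 ∈ hstrip (2 * G.s) := by
  have h := G.s4c_shift_mem hz (q := 1 / 2) (by rw [abs_div]; norm_num)
  have e : z.1 + ((1 / 2 : ℝ) : ℂ) * z.2 = z.1 + z.2 / 2 := by
    push_cast
    ring
  rwa [e] at h

theorem s4c_fst_mem {z : ℂ × ℂ} (hz : z ∈ G.ini) : z.1 ∈ hstrip (2 * G.s) := by
  have h := G.s4c_shift_mem hz (q := 0) (by norm_num)
  simpa using h

theorem s4c_Θ_analytic :
    AnalyticOnNhd ℂ (fun z : ℂ × ℂ => G.Θ z.1 z.2) (hstrip (2 * G.s) ×ˢ Metric.ball 0 G.r₁) :=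
  SCV.analyticOnNhd_of_differentiableOn ((s4c_isOpen_hstrip _).prod Metric.isOpen_ball) G.Θ_diff

theorem s4c_p_analytic :
    AnalyticOnNhd ℂ (fun z : ℂ × ℂ => G.p z.1 z.2) (hstrip (2 * G.s) ×ˢ Metric.ball 0 G.r₁) :=
  SCV.analyticOnNhd_of_differentiableOn ((s4c_isOpen_hstrip _).prod Metric.isOpen_ball) G.p_diff

theorem s4c_hc_analytic : AnalyticOnNhd ℂ G.hc (hstrip G.σ) :=
  G.hc_diff.analyticOnNhd (s4c_isOpen_hstrip _)

theorem s4c_deriv_hc_per {ψ : ℂ} (hψ : ψ ∈ hstrip G.σ) :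
    deriv G.hc (ψ + 2 * π) = deriv G.hc ψ := by
  rw [← deriv_comp_add_const]
  refine Filter.EventuallyEq.deriv_eq ?_
  filter_upwards [(s4c_isOpen_hstrip G.σ).mem_nhds hψ] with z hz
  exact G.hc_per z hz

theorem s4c_deriv_hc_conj {ψ : ℂ} (hψ : ψ ∈ hstrip G.σ) :
    deriv G.hc (conj ψ) = conj (deriv G.hc ψ) := by
  have h1 : (conj ∘ G.hc ∘ conj) =ᶠ[𝓝 ψ] G.hc := by
    filter_upwards [(s4c_isOpen_hstrip G.σ).mem_nhds hψ] with z hz
    simp only [Function.comp_apply]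
    rw [G.hc_conj z hz, Complex.conj_conj]
  have h2 := h1.deriv_eq
  rw [deriv_conj_conj] at h2
  simp only [Function.comp_apply] at h2
  have h3 : conj (conj (deriv G.hc (conj ψ))) = conj (deriv G.hc ψ) := by rw [h2]
  rwa [Complex.conj_conj] at h3

/-- the mean normal angle `ψ(y,t) = (Θ(y - t/2,t) + Θ(y + t/2,t))/2` of the impact. -/
noncomputable def ψm (z : ℂ × ℂ) : ℂ := (G.Θ (z.1 - z.2 / 2) z.2 + G.Θ (z.1 + z.2 / 2) z.2) / 2

theorem s4c_X0_eq (z : ℂ × ℂ) : G.X0 z = suppPt G.hc (G.ψm z) := rfl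

theorem s4c_ψm_mem {z : ℂ × ℂ} (hz : z ∈ G.ini) : G.ψm z ∈ hstrip G.σ := by
  have h1 : |(G.Θ (z.1 - z.2 / 2) z.2).im| < G.σ := G.Θ_mem _ (G.s4c_sub_mem hz) _ hz.2
  have h2 : |(G.Θ (z.1 + z.2 / 2) z.2).im| < G.σ := G.Θ_mem _ (G.s4c_add_mem hz) _ hz.2
  show |(G.ψm z).im| < G.σ
  have e : (G.ψm z).im = ((G.Θ (z.1 - z.2 / 2) z.2).im + (G.Θ (z.1 + z.2 / 2) z.2).im) / 2 := by
    unfold ψm
    have : ((G.Θ (z.1 - z.2 / 2) z.2 + G.Θ (z.1 + z.2 / 2) z.2) / 2)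
        = ((1 / 2 : ℝ) : ℂ) * (G.Θ (z.1 - z.2 / 2) z.2 + G.Θ (z.1 + z.2 / 2) z.2) := by
      push_cast
      ring
    rw [this, Complex.im_ofReal_mul, Complex.add_im]
    ring
  rw [e]
  rw [abs_lt] at h1 h2 ⊢
  constructor <;> linarith [h1.1, h1.2, h2.1, h2.2]

/-- `Θ` composed with an analytic change of the first variable. -/
theorem s4c_Θ_comp {a : ℂ × ℂ → ℂ} {z : ℂ × ℂ} (ha : AnalyticAt ℂ a z)
    (hm : a z ∈ hstrip (2 * G.s)) (ht : z.2 ∈ Metric.ball (0 : ℂ) G.r₁) :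
    AnalyticAt ℂ (fun w : ℂ × ℂ => G.Θ (a w) w.2) z :=
  AnalyticAt.comp (g := fun z : ℂ × ℂ => G.Θ z.1 z.2) (f := fun w : ℂ × ℂ => (a w, w.2))
    (G.s4c_Θ_analytic (a z, z.2) ⟨hm, ht⟩) (ha.prod analyticAt_snd)

theorem s4c_p_comp {a : ℂ × ℂ → ℂ} {z : ℂ × ℂ} (ha : AnalyticAt ℂ a z)
    (hm : a z ∈ hstrip (2 * G.s)) (ht : z.2 ∈ Metric.ball (0 : ℂ) G.r₁) :
    AnalyticAt ℂ (fun w : ℂ × ℂ => G.p (a w) w.2) z :=
  AnalyticAt.comp (g := fun z : ℂ × ℂ => G.p z.1 z.2) (f := fun w : ℂ × ℂ => (a w, w.2))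
    (G.s4c_p_analytic (a z, z.2) ⟨hm, ht⟩) (ha.prod analyticAt_snd)

theorem s4c_ψm_analytic : AnalyticOnNhd ℂ G.ψm G.ini := by
  intro z hz
  have h1 : AnalyticAt ℂ (fun w : ℂ × ℂ => G.Θ (w.1 - w.2 / 2) w.2) z :=
    G.s4c_Θ_comp (analyticAt_fst.sub (analyticAt_snd.div analyticAt_const (by norm_num)))
      (G.s4c_sub_mem hz) hz.2
  have h2 : AnalyticAt ℂ (fun w : ℂ × ℂ => G.Θ (w.1 + w.2 / 2) w.2) z :=
    G.s4c_Θ_comp (analyticAt_fst.add (analyticAt_snd.div analyticAt_const (by norm_num)))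
      (G.s4c_add_mem hz) hz.2
  exact (h1.add h2).div analyticAt_const (by norm_num)

theorem s4c_add_two_pi_mem {s : ℝ} {y : ℂ} (hy : y ∈ hstrip s) : y + 2 * π ∈ hstrip s := by
  show |(y + 2 * π).im| < s
  have : (y + 2 * π).im = y.im := by simp
  rw [this]
  exact hy

/-- `L0` is a base. -/
theorem s4c_L0_base : G.IsBase G.L0 where
  an₁ := by
    intro z hz
    have h1 : AnalyticAt ℂ (fun w : ℂ × ℂ => G.Θ w.1 w.2) z :=
      G.s4c_Θ_analytic z ⟨G.s4c_fst_mem hz, hz.2⟩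
    exact (analyticAt_const.mul h1).cexp
  an₂ := by
    intro z hz
    have h1 : AnalyticAt ℂ (fun w : ℂ × ℂ => G.Θ w.1 w.2) z :=
      G.s4c_Θ_analytic z ⟨G.s4c_fst_mem hz, hz.2⟩
    have h2 : AnalyticAt ℂ (fun w : ℂ × ℂ => G.p w.1 w.2) z :=
      G.s4c_p_analytic z ⟨G.s4c_fst_mem hz, hz.2⟩
    exact h2.mul (analyticAt_const.mul h1).cexp
  per := by
    intro z hz
    unfold L0
    simp only
    rw [G.Θ_per _ (G.s4c_fst_mem hz) _ hz.2, G.p_per _ (G.s4c_fst_mem hz) _ hz.2]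
    have e1 : 2 * I * (G.Θ z.1 z.2 + 2 * π) = 2 * I * G.Θ z.1 z.2 + (2 : ℤ) * (2 * π * I) := by
      push_cast
      ring
    have e2 : I * (G.Θ z.1 z.2 + 2 * π) = I * G.Θ z.1 z.2 + 2 * π * I := by ring
    rw [e1, e2, Complex.exp_add, Complex.exp_int_mul_two_pi_mul_I, mul_one, Complex.exp_periodic]
  even := by
    intro z hz
    unfold L0
    simp only
    rw [G.Θ_even _ (G.s4c_fst_mem hz) _ hz.2, G.p_even _ (G.s4c_fst_mem hz) _ hz.2]

theorem s4c_ψm_per {z : ℂ × ℂ} (hz : z ∈ G.ini) : G.ψm (z.1 + 2 * π, z.2) = G.ψm z + 2 * π := by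
  unfold ψm
  simp only
  have e1 : z.1 + 2 * π - z.2 / 2 = z.1 - z.2 / 2 + 2 * π := by ring
  have e2 : z.1 + 2 * π + z.2 / 2 = z.1 + z.2 / 2 + 2 * π := by ring
  rw [e1, e2, G.Θ_per _ (G.s4c_sub_mem hz) _ hz.2, G.Θ_per _ (G.s4c_add_mem hz) _ hz.2]
  ring

theorem s4c_ψm_even {z : ℂ × ℂ} (hz : z ∈ G.ini) : G.ψm (z.1, -z.2) = G.ψm z := by
  unfold ψm
  simp only
  have e1 : z.1 - -z.2 / 2 = z.1 + z.2 / 2 := by ring
  have e2 : z.1 + -z.2 / 2 = z.1 - z.2 / 2 := by ring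
  rw [e1, e2, G.Θ_even _ (G.s4c_sub_mem hz) _ hz.2, G.Θ_even _ (G.s4c_add_mem hz) _ hz.2]
  ring

theorem s4c_ψm_conj {z : ℂ × ℂ} (hz : z ∈ G.ini) :
    G.ψm (conj z.1, conj z.2) = conj (G.ψm z) := by
  unfold ψm
  simp only
  have e1 : conj z.1 - conj z.2 / 2 = conj (z.1 - z.2 / 2) := by simp [Complex.conj_ofNat]
  have e2 : conj z.1 + conj z.2 / 2 = conj (z.1 + z.2 / 2) := by simp [Complex.conj_ofNat]
  rw [e1, e2, G.Θ_conj _ (G.s4c_sub_mem hz) _ hz.2, G.Θ_conj _ (G.s4c_add_mem hz) _ hz.2]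
  simp [Complex.conj_ofNat]

theorem s4c_deriv_hc_analytic : AnalyticOnNhd ℂ (deriv G.hc) (hstrip G.σ) :=
  G.s4c_hc_analytic.deriv

/-- `X0` is a base. -/
theorem s4c_X0_base : G.IsBase G.X0 where
  an₁ := by
    intro z hz
    have hψ := G.s4c_ψm_analytic z hz
    have h1 : AnalyticAt ℂ (fun w => G.hc (G.ψm w)) z :=
      (G.s4c_hc_analytic _ (G.s4c_ψm_mem hz)).comp hψ
    have h2 : AnalyticAt ℂ (fun w => deriv G.hc (G.ψm w)) z :=
      (G.s4c_deriv_hc_analytic _ (G.s4c_ψm_mem hz)).comp hψ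
    exact (h1.mul (Complex.analyticAt_cos.comp hψ)).sub (h2.mul (Complex.analyticAt_sin.comp hψ))
  an₂ := by
    intro z hz
    have hψ := G.s4c_ψm_analytic z hz
    have h1 : AnalyticAt ℂ (fun w => G.hc (G.ψm w)) z :=
      (G.s4c_hc_analytic _ (G.s4c_ψm_mem hz)).comp hψ
    have h2 : AnalyticAt ℂ (fun w => deriv G.hc (G.ψm w)) z :=
      (G.s4c_deriv_hc_analytic _ (G.s4c_ψm_mem hz)).comp hψ
    exact (h1.mul (Complex.analyticAt_sin.comp hψ)).add (h2.mul (Complex.analyticAt_cos.comp hψ))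
  per := by
    intro z hz
    rw [s4c_X0_eq, s4c_X0_eq, G.s4c_ψm_per hz]
    unfold suppPt
    rw [G.hc_per _ (G.s4c_ψm_mem hz), G.s4c_deriv_hc_per (G.s4c_ψm_mem hz), Complex.cos_add_two_pi,
      Complex.sin_add_two_pi]
  even := by
    intro z hz
    rw [s4c_X0_eq, s4c_X0_eq, G.s4c_ψm_even hz]

/-- real symmetry of the impact map. -/
theorem s4c_X0_conj {z : ℂ × ℂ} (hz : z ∈ G.ini) :
    G.X0 (conj z.1, conj z.2) = (conj (G.X0 z).1, conj (G.X0 z).2) := by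
  rw [s4c_X0_eq, s4c_X0_eq, G.s4c_ψm_conj hz]
  unfold suppPt
  rw [G.hc_conj _ (G.s4c_ψm_mem hz), G.s4c_deriv_hc_conj (G.s4c_ψm_mem hz), Complex.cos_conj,
    Complex.sin_conj]
  simp

/-- real symmetry of the line map in the chart `(E,P) = (exp 2iΘ, p exp iΘ)`: `E ↦ 1/conj E`, `P ↦ conj P/conj E`. -/
theorem s4c_L0_conj {z : ℂ × ℂ} (hz : z ∈ G.ini) :
    G.L0 (conj z.1, conj z.2) = (conj ((G.L0 z).1)⁻¹, conj ((G.L0 z).2 / (G.L0 z).1)) := by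
  unfold L0
  simp only
  rw [G.Θ_conj _ (G.s4c_fst_mem hz) _ hz.2, G.p_conj _ (G.s4c_fst_mem hz) _ hz.2]
  have e1 : (Complex.exp (2 * I * G.Θ z.1 z.2))⁻¹ = Complex.exp (-(2 * I * G.Θ z.1 z.2)) :=
    (Complex.exp_neg _).symm
  have e2 : G.p z.1 z.2 * Complex.exp (I * G.Θ z.1 z.2) / Complex.exp (2 * I * G.Θ z.1 z.2)
      = G.p z.1 z.2 * Complex.exp (-(I * G.Θ z.1 z.2)) := by
    rw [mul_div_assoc, ← Complex.exp_sub]
    congr 2
    ring
  rw [e1, e2, map_mul, ← Complex.exp_conj, ← Complex.exp_conj]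
  simp [Complex.conj_ofNat]

theorem s4c_L0_fst_ne_zero (z : ℂ × ℂ) : (G.L0 z).1 ≠ 0 := Complex.exp_ne_zero _

end Glance

end Claimed.Agent.R269
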