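/-
Row 269, P1 Section 4, unit 4K: the potential-theoretic transfer at the end of the proof of Theorem 4.8.  HOST-FREE.
Sub-captain sec 4: helper36.

  `s4k_transfer` : `u ≥ 0` lower semicontinuous with the supermean inequality on a disc centred at the real point `t₀`;
                   `u ≥ M` on the real diameter outside a COUNTABLE set  ⇒  `u t₀ ≥ M`.

PLAN (explicit functions only).  Reduce to `M < ∞` and replace `u` by `v = min u M` (real valued, still lsc + supermean).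
Choose `a < t₀ < b` real, outside `C`, `[a,b]` inside the disc, symmetric enough; `D⁺` = upper half of the disc with
diameter `[a,b]`.
 * `ω(t) = (2/π) arg((t-b)/(t-a)) - 1` is harmonic on the upper half plane (imaginary part of a holomorphic logarithm),
   `≤ 1`, tends to `0` at the open semicircle (Thales).
 * `w(t) = Σ_n 2^{-n} log(2(b-a)/|t-c_n|) ≥ 0`, `(c_n)` an enumeration of `C ∩ [a,b]`: harmonic on `D⁺`, `→ +∞` at `c_n`.
 * `s4k_min_principle` for `v + ε w - M ω` on `D⁺` (boundary `liminf ≥ 0`: on the arc since `ω → 0`; at real points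
   outside `C` (including `a`, `b`) by lower semicontinuity of `u` on the FULL disc; at `c_n` since `w → ∞`).  `ε → 0`.
 * the same in the lower half disc.  Then the supermean inequality on the circles `|t - t₀| = r`, `r → 0`
   (`ω ≥ 1 - C r` on them; the two real points have measure zero).

PROOF AS WRITTEN (helper114, no sorry): instead of `ω` the POLYNOMIAL barrier `H(t) = Re((t-t₀)²)/ρ² + 2|Im t|/ρ` (`s4kH`, `ρ = κ/2`): harmonic off the
real axis, `≥ 0` on the disc, `≥ 1` on the circle, `≤ 3s` on `|t-t₀| ≤ ρ s`; one application of `s4k_min_principle` on `ball t₀ ρ \ ℝ` to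
`v - M + M H + ε Re G`, `G = Σ 2^{-n} (log κ - log (t - c_n))` (`s4kG`, holomorphic off the real axis).
-/
import Mathlib

set_option autoImplicit false

namespace Claimed.Agent.R269

open Complex MeasureTheory Filter Topology
open scoped ENNReal Real

/-- the truncated extension by zero is lower semicontinuous -/
theorem s4k_ext_lsc (U : Set ℂ) (hU : IsOpen U) (f : ℂ → ℝ) (hlsc : LowerSemicontinuousOn f U)
    (hbd : ∀ ξ ∈ frontier U, ∀ ε : ℝ, 0 < ε → ∀ᶠ t in 𝓝[U] ξ, -ε < f t) :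
    LowerSemicontinuous (U.indicator (fun t => min (f t) 0)) := by
  classical
  intro x y hy'
  have hy : y < U.indicator (fun t => min (f t) 0) x := hy'
  show ∀ᶠ x' in 𝓝 x, y < U.indicator (fun t => min (f t) 0) x'
  by_cases hxU : x ∈ U
  · rw [Set.indicator_of_mem hxU] at hy
    have h1 : y < f x := lt_of_lt_of_le hy (min_le_left _ _)
    have h2 : y < 0 := lt_of_lt_of_le hy (min_le_right _ _)
    have h3 : ∀ᶠ t in 𝓝 x, y < f t := by
      have := hlsc x hxU y h1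
      rwa [hU.nhdsWithin_eq hxU] at this
    filter_upwards [h3, hU.mem_nhds hxU] with t ht htU
    rw [Set.indicator_of_mem htU]
    exact lt_min ht h2
  · rw [Set.indicator_of_notMem hxU] at hy
    by_cases hxc : x ∈ closure U
    · have hfr : x ∈ frontier U := by
        rw [frontier, hU.interior_eq]
        exact ⟨hxc, hxU⟩
      have h1 := hbd x hfr (-y) (by linarith)
      rw [eventually_nhdsWithin_iff] at h1
      filter_upwards [h1] with t ht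
      by_cases htU : t ∈ U
      · rw [Set.indicator_of_mem htU]
        have := ht htU
        exact lt_min (by linarith) hy
      · rw [Set.indicator_of_notMem htU]
        exact hy
    · have h1 : (closure U)ᶜ ∈ 𝓝 x := isClosed_closure.isOpen_compl.mem_nhds hxc
      filter_upwards [h1] with t ht
      have htU : t ∉ U := fun h => ht (subset_closure h)
      rw [Set.indicator_of_notMem htU]
      exact hy

/-- minimum principle: `U` bounded open, `f` lower semicontinuous on `U` with the supermean inequality on small circles,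
`liminf f ≥ 0` at every boundary point.  Then `f ≥ 0` on `U`. -/
theorem s4k_min_principle (U : Set ℂ) (hU : IsOpen U) (hb : Bornology.IsBounded U) (f : ℂ → ℝ)
    (hlsc : LowerSemicontinuousOn f U)
    (hsm : ∀ c ∈ U, ∃ r₀ : ℝ, 0 < r₀ ∧ ∀ r : ℝ, 0 < r → r < r₀ →
      IntervalIntegrable (fun θ : ℝ => f (c + r * Complex.exp (θ * I))) volume 0 (2 * π) ∧
      ∫ θ in (0 : ℝ)..(2 * π), f (c + r * Complex.exp (θ * I)) ≤ 2 * π * f c)
    (hbd : ∀ ξ ∈ frontier U, ∀ ε : ℝ, 0 < ε → ∀ᶠ t in 𝓝[U] ξ, -ε < f t) :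
    ∀ t ∈ U, 0 ≤ f t := by
  classical
  by_contra hcon
  push Not at hcon
  obtain ⟨t₁, ht₁, hft₁⟩ := hcon
  obtain ⟨g, hg⟩ : ∃ g : ℂ → ℝ, g = U.indicator (fun t => min (f t) 0) := ⟨_, rfl⟩
  have hgl : LowerSemicontinuous g := by
    rw [hg]; exact s4k_ext_lsc U hU f hlsc hbd
  have hgU : ∀ t ∈ U, g t = min (f t) 0 := fun t ht => by rw [hg]; exact Set.indicator_of_mem ht _
  have hgN : ∀ t, t ∉ U → g t = 0 := fun t ht => by rw [hg]; exact Set.indicator_of_notMem ht _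
  have hcpt : IsCompact (closure U) := hb.isCompact_closure
  obtain ⟨a, ha, hamin⟩ := (hgl.lowerSemicontinuousOn (closure U)).exists_isMinOn
    ⟨t₁, subset_closure ht₁⟩ hcpt
  obtain ⟨m, hm⟩ : ∃ m, m = g a := ⟨_, rfl⟩
  have hmle : ∀ t ∈ closure U, m ≤ g t := fun t ht => by rw [hm]; exact hamin ht
  have hm0 : m < 0 := by
    have h1 := hmle t₁ (subset_closure ht₁)
    rw [hgU t₁ ht₁] at h1
    exact lt_of_le_of_lt (h1.trans (min_le_left _ _)) hft₁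
  -- the set of minimum points
  have hKc : IsCompact (closure U ∩ g ⁻¹' Set.Iic m) := hcpt.inter_right (hgl.isClosed_preimage m)
  have hKne : (closure U ∩ g ⁻¹' Set.Iic m).Nonempty := ⟨a, ha, by rw [Set.mem_preimage, hm]; exact Set.mem_Iic.2 le_rfl⟩
  obtain ⟨c, hcK, hcmax⟩ := hKc.exists_isMaxOn hKne Complex.continuous_re.continuousOn
  have hcU : c ∈ U := by
    by_contra h
    have h1 : g c ≤ m := hcK.2
    rw [hgN c h] at h1
    linarith
  have hfc : f c = m := by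
    have h1 : g c ≤ m := hcK.2
    have h2 := hmle c hcK.1
    have h3 : min (f c) 0 = m := by rw [← hgU c hcU]; exact le_antisymm h1 h2
    rcases min_choice (f c) 0 with h | h
    · rw [h] at h3; exact h3
    · rw [h] at h3; linarith
  obtain ⟨r₀, hr₀, hr⟩ := hsm c hcU
  obtain ⟨ρ, hρ, hball⟩ := Metric.isOpen_iff.1 hU c hcU
  obtain ⟨r, hrdef⟩ : ∃ r, r = min r₀ ρ / 2 := ⟨_, rfl⟩
  have hr0 : 0 < r := by rw [hrdef]; have := lt_min hr₀ hρ; linarith
  have hrr₀ : r < r₀ := by rw [hrdef]; have := min_le_left r₀ ρ; have := lt_min hr₀ hρ; linarith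
  have hrρ : r < ρ := by rw [hrdef]; have := min_le_right r₀ ρ; have := lt_min hr₀ hρ; linarith
  obtain ⟨hint, hle⟩ := hr r hr0 hrr₀
  have hpU : ∀ θ : ℝ, c + r * Complex.exp (θ * I) ∈ U := by
    intro θ
    apply hball
    rw [Metric.mem_ball, dist_eq_norm, add_sub_cancel_left, norm_mul, Complex.norm_exp_ofReal_mul_I, mul_one,
      Complex.norm_real, Real.norm_eq_abs, abs_of_pos hr0]
    exact hrρ
  have hge : ∀ θ : ℝ, m ≤ f (c + r * Complex.exp (θ * I)) := by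
    intro θ
    have h1 := hmle _ (subset_closure (hpU θ))
    rw [hgU _ (hpU θ)] at h1
    exact h1.trans (min_le_left _ _)
  have hgt : ∀ θ : ℝ, 0 < Real.cos θ → m < f (c + r * Complex.exp (θ * I)) := by
    intro θ hθ
    by_contra hcon
    push Not at hcon
    have hmem : c + r * Complex.exp (θ * I) ∈ closure U ∩ g ⁻¹' Set.Iic m := by
      refine ⟨subset_closure (hpU θ), ?_⟩
      rw [Set.mem_preimage, hgU _ (hpU θ)]
      exact Set.mem_Iic.2 ((min_le_left _ _).trans hcon)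
    have h1 : (c + r * Complex.exp (θ * I)).re ≤ c.re := hcmax hmem
    have h2 : (c + r * Complex.exp (θ * I)).re = c.re + r * Real.cos θ := by
      rw [Complex.add_re, Complex.re_ofReal_mul, Complex.exp_ofReal_mul_I_re]
    rw [h2] at h1
    have := mul_pos hr0 hθ
    linarith
  -- the integral of `f - m` is positive
  have hint2 : IntervalIntegrable (fun θ : ℝ => f (c + r * Complex.exp (θ * I)) - m) volume 0 (2 * π) :=
    hint.sub intervalIntegrable_const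
  have hpi := Real.pi_pos
  have hI1 : IntervalIntegrable (fun θ : ℝ => f (c + r * Complex.exp (θ * I)) - m) volume 0 (π / 2) :=
    hint2.mono_set (by
      rw [Set.uIcc_of_le (by positivity), Set.uIcc_of_le (by positivity)]
      exact Set.Icc_subset_Icc le_rfl (by linarith))
  have hI2 : IntervalIntegrable (fun θ : ℝ => f (c + r * Complex.exp (θ * I)) - m) volume (π / 2) (2 * π) :=
    hint2.mono_set (by
      rw [Set.uIcc_of_le (by linarith), Set.uIcc_of_le (by positivity)]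
      exact Set.Icc_subset_Icc (by positivity) le_rfl)
  have hpos1 : 0 < ∫ θ in (0 : ℝ)..(π / 2), (f (c + r * Complex.exp (θ * I)) - m) := by
    refine intervalIntegral.intervalIntegral_pos_of_pos_on hI1 (fun θ hθ => ?_) (by positivity)
    have := hgt θ (Real.cos_pos_of_mem_Ioo ⟨by linarith [hθ.1], hθ.2⟩)
    linarith
  have hpos2 : 0 ≤ ∫ θ in (π / 2)..(2 * π), (f (c + r * Complex.exp (θ * I)) - m) :=
    intervalIntegral.integral_nonneg (by linarith) fun θ _ => by linarith [hge θ]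
  have hsplit := intervalIntegral.integral_add_adjacent_intervals hI1 hI2
  have htot : ∫ θ in (0 : ℝ)..(2 * π), (f (c + r * Complex.exp (θ * I)) - m)
      = (∫ θ in (0 : ℝ)..(2 * π), f (c + r * Complex.exp (θ * I))) - 2 * π * m := by
    rw [intervalIntegral.integral_sub hint intervalIntegrable_const, intervalIntegral.integral_const]
    simp
  rw [hfc] at hle
  linarith

/-- points of the circle -/
theorem s4k_circle_mem (c : ℂ) (r : ℝ) (hr : 0 ≤ r) (θ : ℝ) :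
    c + r * Complex.exp (θ * I) ∈ Metric.closedBall c r := by
  rw [Metric.mem_closedBall, dist_eq_norm, add_sub_cancel_left, norm_mul, Complex.norm_exp_ofReal_mul_I, mul_one,
    Complex.norm_real, Real.norm_eq_abs, abs_of_nonneg hr]

theorem s4k_circle_cont (c : ℂ) (r : ℝ) : Continuous fun θ : ℝ => c + r * Complex.exp (θ * I) := by
  fun_prop

/-- mean value property of the real part of a holomorphic function -/
theorem s4k_re_mean (F : ℂ → ℂ) (c : ℂ) (R r : ℝ) (hr : 0 < r) (hrR : r < R)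
    (hF : DifferentiableOn ℂ F (Metric.ball c R)) :
    IntervalIntegrable (fun θ : ℝ => (F (c + r * Complex.exp (θ * I))).re) volume 0 (2 * π) ∧
      ∫ θ in (0 : ℝ)..(2 * π), (F (c + r * Complex.exp (θ * I))).re = 2 * π * (F c).re := by
  have hsub : Metric.closedBall c r ⊆ Metric.ball c R := Metric.closedBall_subset_ball hrR
  have hcont : Continuous fun θ : ℝ => F (c + r * Complex.exp (θ * I)) := by
    refine hF.continuousOn.comp_continuous (s4k_circle_cont c r) fun θ => hsub (s4k_circle_mem c r hr.le θ)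
  have hint : IntervalIntegrable (fun θ : ℝ => F (c + r * Complex.exp (θ * I))) volume 0 (2 * π) :=
    hcont.intervalIntegrable _ _
  have hD : DiffContOnCl ℂ F (Metric.ball c |r|) := by
    rw [abs_of_pos hr]
    exact hF.diffContOnCl_ball hsub
  have hav := hD.circleAverage
  rw [Real.circleAverage_def] at hav
  have hpi : (2 * π : ℝ) ≠ 0 := by positivity
  have hI : ∫ θ in (0 : ℝ)..(2 * π), F (c + r * Complex.exp (θ * I)) = (2 * π : ℝ) • F c := by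
    rw [← hav, smul_smul, mul_inv_cancel₀ hpi, one_smul]
    rfl
  refine ⟨(Complex.continuous_re.comp hcont).intervalIntegrable _ _, ?_⟩
  have h1 := Complex.reCLM.intervalIntegral_comp_comm hint
  simp only [Complex.reCLM_apply] at h1
  rw [h1, hI]
  simp

/-- the truncation of `u` at height `M` -/
noncomputable def s4kv (u : ℂ → ℝ≥0∞) (M : ℝ) (t : ℂ) : ℝ := (min (u t) (ENNReal.ofReal M)).toReal

theorem s4kv_nonneg (u : ℂ → ℝ≥0∞) (M : ℝ) (t : ℂ) : 0 ≤ s4kv u M t := ENNReal.toReal_nonneg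

theorem s4kv_ofReal (u : ℂ → ℝ≥0∞) (M : ℝ) (t : ℂ) :
    ENNReal.ofReal (s4kv u M t) = min (u t) (ENNReal.ofReal M) :=
  ENNReal.ofReal_toReal (ne_top_of_le_ne_top ENNReal.ofReal_ne_top (min_le_right _ _))

theorem s4kv_le (u : ℂ → ℝ≥0∞) (M : ℝ) (hM : 0 ≤ M) (t : ℂ) : s4kv u M t ≤ M := by
  have h := ENNReal.toReal_mono ENNReal.ofReal_ne_top (min_le_right (u t) (ENNReal.ofReal M))
  rwa [ENNReal.toReal_ofReal hM] at h

theorem s4kv_eq (u : ℂ → ℝ≥0∞) (M : ℝ) (hM : 0 ≤ M) (t : ℂ) (h : ENNReal.ofReal M ≤ u t) : s4kv u M t = M := by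
  unfold s4kv
  rw [min_eq_right h, ENNReal.toReal_ofReal hM]

theorem s4kv_lt_iff (u : ℂ → ℝ≥0∞) (M : ℝ) (t : ℂ) (y : ℝ) (hy : 0 ≤ y) :
    y < s4kv u M t ↔ ENNReal.ofReal y < u t ∧ y < M := by
  have hne : min (u t) (ENNReal.ofReal M) ≠ ⊤ := ne_top_of_le_ne_top ENNReal.ofReal_ne_top (min_le_right _ _)
  unfold s4kv
  rw [← ENNReal.ofReal_lt_iff_lt_toReal hy hne, lt_min_iff]
  constructor
  · rintro ⟨h1, h2⟩
    exact ⟨h1, (ENNReal.ofReal_lt_ofReal_iff_of_nonneg hy).1 h2⟩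
  · rintro ⟨h1, h2⟩
    exact ⟨h1, (ENNReal.ofReal_lt_ofReal_iff_of_nonneg hy).2 h2⟩

theorem s4kv_lsc (u : ℂ → ℝ≥0∞) (M : ℝ) (B : Set ℂ) (hlsc : LowerSemicontinuousOn u B) :
    LowerSemicontinuousOn (s4kv u M) B := by
  intro x hx y hy'
  have hy : y < s4kv u M x := hy'
  show ∀ᶠ t in 𝓝[B] x, y < s4kv u M t
  by_cases hy0 : 0 ≤ y
  · obtain ⟨h1, h2⟩ := (s4kv_lt_iff u M x y hy0).1 hy
    have h3 : ∀ᶠ t in 𝓝[B] x, ENNReal.ofReal y < u t := hlsc x hx _ h1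
    filter_upwards [h3] with t ht
    exact (s4kv_lt_iff u M t y hy0).2 ⟨ht, h2⟩
  · exact Eventually.of_forall fun t => lt_of_lt_of_le (not_le.1 hy0) (s4kv_nonneg u M t)

/-- `u` along a circle is measurable -/
theorem s4k_circle_meas (u : ℂ → ℝ≥0∞) (B : Set ℂ) (hB : IsOpen B) (hlsc : LowerSemicontinuousOn u B) (c : ℂ) (r : ℝ)
    (hr : 0 ≤ r) (hsub : Metric.closedBall c r ⊆ B) : Measurable fun θ : ℝ => u (c + r * Complex.exp (θ * I)) := by
  have hl : LowerSemicontinuous fun θ : ℝ => u (c + r * Complex.exp (θ * I)) := by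
    intro θ y hy
    have hmem := hsub (s4k_circle_mem c r hr θ)
    have h1 : ∀ᶠ t in 𝓝[B] (c + r * Complex.exp (θ * I)), y < u t := hlsc _ hmem y hy
    rw [hB.nhdsWithin_eq hmem] at h1
    exact (s4k_circle_cont c r).continuousAt.eventually h1
  exact hl.measurable

/-- the truncation has the supermean property -/
theorem s4kv_supermean (u : ℂ → ℝ≥0∞) (M : ℝ) (hM : 0 ≤ M) (B : Set ℂ) (hB : IsOpen B)
    (hlsc : LowerSemicontinuousOn u B) (c : ℂ) (r : ℝ) (hr : 0 ≤ r) (hsub : Metric.closedBall c r ⊆ B)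
    (hsm : ∫⁻ θ in Set.Ioc (0 : ℝ) (2 * π), u (c + r * Complex.exp (θ * I)) ≤ ENNReal.ofReal (2 * π) * u c) :
    IntervalIntegrable (fun θ : ℝ => s4kv u M (c + r * Complex.exp (θ * I))) volume 0 (2 * π) ∧
      ∫ θ in (0 : ℝ)..(2 * π), s4kv u M (c + r * Complex.exp (θ * I)) ≤ 2 * π * s4kv u M c := by
  have hpi : (0 : ℝ) ≤ 2 * π := by positivity
  have hmeas := s4k_circle_meas u B hB hlsc c r hr hsub
  have hmφ : Measurable fun θ : ℝ => min (u (c + r * Complex.exp (θ * I))) (ENNReal.ofReal M) :=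
    hmeas.min measurable_const
  have hmv : Measurable fun θ : ℝ => s4kv u M (c + r * Complex.exp (θ * I)) := hmφ.ennreal_toReal
  constructor
  · rw [intervalIntegrable_iff_integrableOn_Ioc_of_le hpi]
    refine Integrable.of_bound hmv.aestronglyMeasurable M (Eventually.of_forall fun θ => ?_)
    rw [Real.norm_eq_abs, abs_of_nonneg (s4kv_nonneg _ _ _)]
    exact s4kv_le u M hM _
  · rw [intervalIntegral.integral_of_le hpi]
    have h1 : ∫ θ in Set.Ioc (0 : ℝ) (2 * π), s4kv u M (c + r * Complex.exp (θ * I))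
        = (∫⁻ θ in Set.Ioc (0 : ℝ) (2 * π), min (u (c + r * Complex.exp (θ * I))) (ENNReal.ofReal M)).toReal :=
      integral_toReal hmφ.aemeasurable (Eventually.of_forall fun θ =>
        lt_of_le_of_lt (min_le_right _ _) ENNReal.ofReal_lt_top)
    have h2 : ∫⁻ θ in Set.Ioc (0 : ℝ) (2 * π), min (u (c + r * Complex.exp (θ * I))) (ENNReal.ofReal M)
        ≤ ENNReal.ofReal (2 * π) * min (u c) (ENNReal.ofReal M) := by
      rw [mul_min]
      refine le_min ((lintegral_mono fun θ => min_le_left _ _).trans hsm) ?_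
      refine (lintegral_mono fun θ => min_le_right _ _).trans ?_
      rw [lintegral_const, Measure.restrict_apply MeasurableSet.univ, Set.univ_inter, Real.volume_Ioc, sub_zero,
        mul_comm]
    have h3 : ENNReal.ofReal (2 * π) * min (u c) (ENNReal.ofReal M) ≠ ⊤ :=
      ENNReal.mul_ne_top ENNReal.ofReal_ne_top (ne_top_of_le_ne_top ENNReal.ofReal_ne_top (min_le_right _ _))
    have h4 := ENNReal.toReal_mono h3 h2
    rw [ENNReal.toReal_mul, ENNReal.toReal_ofReal hpi] at h4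
    rw [h1]
    exact h4

/-- the polynomial barrier: harmonic off the real axis, `≥ 0` on the disc, `≥ 1` on the circle, `0` at the centre -/
noncomputable def s4kH (t₀ ρ : ℝ) (t : ℂ) : ℝ := ((t.re - t₀) ^ 2 - t.im ^ 2) / ρ ^ 2 + 2 * |t.im| / ρ

theorem s4kH_cont (t₀ ρ : ℝ) : Continuous (s4kH t₀ ρ) := by
  unfold s4kH
  fun_prop

theorem s4k_norm_sq (t₀ : ℝ) (t : ℂ) : ‖t - (t₀ : ℂ)‖ ^ 2 = (t.re - t₀) ^ 2 + t.im ^ 2 := by
  rw [Complex.sq_norm, Complex.normSq_apply]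
  simp
  ring

theorem s4k_abs_im_le (t₀ : ℝ) (t : ℂ) : |t.im| ≤ ‖t - (t₀ : ℂ)‖ := by
  have := Complex.abs_im_le_norm (t - (t₀ : ℂ))
  simpa using this

theorem s4kH_nonneg (t₀ ρ : ℝ) (hρ : 0 < ρ) (t : ℂ) (ht : ‖t - (t₀ : ℂ)‖ ≤ ρ) : 0 ≤ s4kH t₀ ρ t := by
  have h1 : |t.im| ≤ ρ := (s4k_abs_im_le t₀ t).trans ht
  have h2 : t.im ^ 2 = |t.im| ^ 2 := (sq_abs _).symm
  have h3 : 0 ≤ |t.im| := abs_nonneg _
  have e : s4kH t₀ ρ t = ((t.re - t₀) ^ 2 - t.im ^ 2 + 2 * |t.im| * ρ) / ρ ^ 2 := by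
    unfold s4kH
    field_simp
  rw [e]
  apply div_nonneg _ (by positivity)
  rw [h2]
  nlinarith [sq_nonneg (t.re - t₀), mul_nonneg h3 (sub_nonneg.2 h1)]

theorem s4kH_sphere (t₀ ρ : ℝ) (hρ : 0 < ρ) (t : ℂ) (ht : ‖t - (t₀ : ℂ)‖ = ρ) : 1 ≤ s4kH t₀ ρ t := by
  have h1 : |t.im| ≤ ρ := (s4k_abs_im_le t₀ t).trans ht.le
  have h2 : t.im ^ 2 = |t.im| ^ 2 := (sq_abs _).symm
  have h3 : 0 ≤ |t.im| := abs_nonneg _
  have h4 := s4k_norm_sq t₀ t
  rw [ht] at h4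
  have e : s4kH t₀ ρ t = ((t.re - t₀) ^ 2 - t.im ^ 2 + 2 * |t.im| * ρ) / ρ ^ 2 := by
    unfold s4kH
    field_simp
  rw [e, le_div_iff₀ (by positivity)]
  rw [h2] at h4 ⊢
  nlinarith [mul_nonneg h3 (sub_nonneg.2 h1)]

theorem s4kH_le (t₀ ρ : ℝ) (hρ : 0 < ρ) (t : ℂ) (s : ℝ) (hs : 0 ≤ s) (hs1 : s ≤ 1) (ht : ‖t - (t₀ : ℂ)‖ ≤ ρ * s) :
    s4kH t₀ ρ t ≤ 3 * s := by
  have h1 : |t.im| ≤ ρ * s := (s4k_abs_im_le t₀ t).trans ht
  have h4 := s4k_norm_sq t₀ t
  have h5 : ‖t - (t₀ : ℂ)‖ ^ 2 ≤ (ρ * s) ^ 2 := pow_le_pow_left₀ (norm_nonneg _) ht 2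
  have e : s4kH t₀ ρ t = ((t.re - t₀) ^ 2 - t.im ^ 2 + 2 * |t.im| * ρ) / ρ ^ 2 := by
    unfold s4kH
    field_simp
  rw [e, div_le_iff₀ (by positivity)]
  have h6 : s ^ 2 ≤ s := by nlinarith
  have h7 : 2 * |t.im| * ρ ≤ 2 * (ρ * s) * ρ := by
    have := mul_le_mul_of_nonneg_right h1 hρ.le
    linarith
  have h8 : (ρ * s) ^ 2 ≤ s * ρ ^ 2 := by
    rw [mul_pow]
    have := mul_le_mul_of_nonneg_left h6 (sq_nonneg ρ)
    linarith
  nlinarith [sq_nonneg t.im]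

/-- the barrier is locally the real part of a polynomial -/
theorem s4kH_eq_re (t₀ ρ σ : ℝ) (t : ℂ) (hσ : σ * t.im = |t.im|) :
    s4kH t₀ ρ t = ((t - (t₀ : ℂ)) ^ 2 / (ρ : ℂ) ^ 2 - 2 * (σ : ℂ) * I * (t - (t₀ : ℂ)) / (ρ : ℂ)).re := by
  have e1 : (t - (t₀ : ℂ)) ^ 2 / (ρ : ℂ) ^ 2 = (((ρ ^ 2)⁻¹ : ℝ) : ℂ) * (t - (t₀ : ℂ)) ^ 2 := by
    push_cast
    rw [div_eq_inv_mul]
  have e2 : 2 * (σ : ℂ) * I * (t - (t₀ : ℂ)) / (ρ : ℂ) = ((2 * σ * ρ⁻¹ : ℝ) : ℂ) * (I * (t - (t₀ : ℂ))) := by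
    push_cast
    rw [div_eq_mul_inv]
    ring
  rw [Complex.sub_re, e1, e2, Complex.re_ofReal_mul, Complex.re_ofReal_mul]
  have e3 : ((t - (t₀ : ℂ)) ^ 2).re = (t.re - t₀) ^ 2 - t.im ^ 2 := by
    rw [sq, Complex.mul_re]
    simp
    ring
  have e4 : (I * (t - (t₀ : ℂ))).re = -t.im := by
    rw [Complex.mul_re]
    simp
  rw [e3, e4]
  unfold s4kH
  rw [← hσ]
  ring

/-- the logarithmic barrier at a sequence of real points, as a holomorphic function off the real axis -/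
noncomputable def s4kG (c : ℕ → ℝ) (R : ℝ) (t : ℂ) : ℂ :=
  ∑' n : ℕ, (((1 / 2 : ℝ) ^ n : ℝ) : ℂ) * ((Real.log R : ℂ) - Complex.log (t - (c n : ℂ)))

theorem s4kG_term_le (R δ K : ℝ) (hδ : 0 < δ) (z : ℂ) (h1 : δ ≤ ‖z‖) (h2 : ‖z‖ ≤ K) :
    ‖(Real.log R : ℂ) - Complex.log z‖ ≤ |Real.log R| + |Real.log δ| + |Real.log K| + π := by
  have hz : 0 < ‖z‖ := lt_of_lt_of_le hδ h1
  have a1 : ‖(Real.log R : ℂ)‖ = |Real.log R| := by rw [Complex.norm_real, Real.norm_eq_abs]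
  have a2 : ‖Complex.log z‖ ≤ |Real.log ‖z‖| + |Complex.arg z| := by
    have := Complex.norm_le_abs_re_add_abs_im (Complex.log z)
    rwa [Complex.log_re, Complex.log_im] at this
  have a3 : |Real.log ‖z‖| ≤ |Real.log δ| + |Real.log K| := by
    have := abs_le_max_abs_abs (Real.log_le_log hδ h1) (Real.log_le_log hz h2)
    refine this.trans (max_le ?_ ?_)
    · linarith [abs_nonneg (Real.log K)]
    · linarith [abs_nonneg (Real.log δ)]
  have a4 := Complex.abs_arg_le_pi z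
  calc ‖(Real.log R : ℂ) - Complex.log z‖ ≤ ‖(Real.log R : ℂ)‖ + ‖Complex.log z‖ := norm_sub_le _ _
    _ ≤ _ := by rw [a1]; linarith

theorem s4kG_coef_norm (n : ℕ) : ‖(((1 / 2 : ℝ) ^ n : ℝ) : ℂ)‖ = (1 / 2 : ℝ) ^ n := by
  rw [Complex.norm_real, Real.norm_eq_abs, abs_of_nonneg (by positivity)]

theorem s4kG_im (c : ℝ) (t : ℂ) : (t - (c : ℂ)).im = t.im := by simp

theorem s4kG_diff (c : ℕ → ℝ) (R K₀ : ℝ) (p : ℂ) (hp : p.im ≠ 0) (hK : ∀ n, ‖p - (c n : ℂ)‖ ≤ K₀) :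
    DifferentiableOn ℂ (s4kG c R) (Metric.ball p (|p.im| / 2)) := by
  obtain ⟨δ, hδdef⟩ : ∃ δ, δ = |p.im| / 2 := ⟨_, rfl⟩
  have hδ : 0 < δ := by rw [hδdef]; have := abs_pos.2 hp; linarith
  rw [← hδdef]
  have him : ∀ t ∈ Metric.ball p δ, δ ≤ |t.im| := by
    intro t ht
    have h1 : |(p - t).im| ≤ ‖p - t‖ := Complex.abs_im_le_norm _
    have h2 : ‖p - t‖ < δ := by rw [← dist_eq_norm, dist_comm]; exact ht
    rw [Complex.sub_im] at h1
    have h3 : |p.im| ≤ |p.im - t.im| + |t.im| := by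
      have := abs_add_le (p.im - t.im) t.im
      simpa using this
    have h4 : |p.im| = 2 * δ := by rw [hδdef]; ring
    linarith
  unfold s4kG
  refine differentiableOn_tsum_of_summable_norm
    (u := fun n => (1 / 2 : ℝ) ^ n * (|Real.log R| + |Real.log δ| + |Real.log (δ + K₀)| + π))
    (summable_geometric_two.mul_right _) ?_ Metric.isOpen_ball ?_
  · intro n t ht
    have hne : t.im ≠ 0 := by
      have := him t ht
      intro h
      rw [h, abs_zero] at this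
      linarith
    have hsl : t - (c n : ℂ) ∈ Complex.slitPlane := by
      rw [Complex.mem_slitPlane_iff]
      right
      rw [s4kG_im]
      exact hne
    have hd : DifferentiableAt ℂ (fun t : ℂ => (((1 / 2 : ℝ) ^ n : ℝ) : ℂ) *
        ((Real.log R : ℂ) - Complex.log (t - (c n : ℂ)))) t := by
      have h1 : DifferentiableAt ℂ (fun t : ℂ => Complex.log (t - (c n : ℂ))) t :=
        (differentiableAt_id.sub_const _).clog hsl
      exact ((differentiableAt_const _).sub h1).const_mul _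
    exact hd.differentiableWithinAt
  · intro n t ht
    rw [norm_mul, s4kG_coef_norm]
    refine mul_le_mul_of_nonneg_left ?_ (by positivity)
    refine s4kG_term_le R δ (δ + K₀) hδ _ ?_ ?_
    · have := Complex.abs_im_le_norm (t - (c n : ℂ))
      rw [s4kG_im] at this
      exact (him t ht).trans this
    · have h2 : ‖t - p‖ < δ := by rw [← dist_eq_norm]; exact ht
      calc ‖t - (c n : ℂ)‖ = ‖(t - p) + (p - (c n : ℂ))‖ := by congr 1; ring
        _ ≤ ‖t - p‖ + ‖p - (c n : ℂ)‖ := norm_add_le _ _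
        _ ≤ δ + K₀ := by linarith [hK n]

theorem s4kG_summable (c : ℕ → ℝ) (R : ℝ) (t : ℂ) (ht : t.im ≠ 0) (hR : ∀ n, ‖t - (c n : ℂ)‖ ≤ R) :
    Summable fun n : ℕ => (((1 / 2 : ℝ) ^ n : ℝ) : ℂ) * ((Real.log R : ℂ) - Complex.log (t - (c n : ℂ))) := by
  have hδ : 0 < |t.im| := abs_pos.2 ht
  refine Summable.of_norm_bounded
    (g := fun n => (1 / 2 : ℝ) ^ n * (|Real.log R| + |Real.log (|t.im|)| + |Real.log R| + π))
    (summable_geometric_two.mul_right _) fun n => ?_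
  rw [norm_mul, s4kG_coef_norm]
  refine mul_le_mul_of_nonneg_left ?_ (by positivity)
  refine s4kG_term_le R |t.im| R hδ _ ?_ (hR n)
  have := Complex.abs_im_le_norm (t - (c n : ℂ))
  rwa [s4kG_im] at this

theorem s4kG_term_re (c : ℕ → ℝ) (R : ℝ) (t : ℂ) (n : ℕ) :
    ((((1 / 2 : ℝ) ^ n : ℝ) : ℂ) * ((Real.log R : ℂ) - Complex.log (t - (c n : ℂ)))).re
      = (1 / 2 : ℝ) ^ n * (Real.log R - Real.log ‖t - (c n : ℂ)‖) := by
  rw [Complex.re_ofReal_mul, Complex.sub_re, Complex.ofReal_re, Complex.log_re]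

theorem s4kG_re_ge (c : ℕ → ℝ) (R : ℝ) (t : ℂ) (ht : t.im ≠ 0) (hR : ∀ n, ‖t - (c n : ℂ)‖ ≤ R) (n : ℕ) :
    (1 / 2 : ℝ) ^ n * (Real.log R - Real.log ‖t - (c n : ℂ)‖) ≤ (s4kG c R t).re := by
  have hs := s4kG_summable c R t ht hR
  have hre : (s4kG c R t).re = ∑' n : ℕ, (1 / 2 : ℝ) ^ n * (Real.log R - Real.log ‖t - (c n : ℂ)‖) := by
    unfold s4kG
    rw [Complex.re_tsum hs]
    exact tsum_congr fun n => s4kG_term_re c R t n
  have hs' : Summable fun n : ℕ => (1 / 2 : ℝ) ^ n * (Real.log R - Real.log ‖t - (c n : ℂ)‖) := by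
    have := (Complex.hasSum_re hs.hasSum).summable
    simpa only [s4kG_term_re] using this
  rw [hre]
  refine hs'.le_tsum n fun k _ => ?_
  have hpos : 0 < ‖t - (c k : ℂ)‖ := by
    have := Complex.abs_im_le_norm (t - (c k : ℂ))
    rw [s4kG_im] at this
    exact lt_of_lt_of_le (abs_pos.2 ht) this
  have := Real.log_le_log hpos (hR k)
  have h2 : (0 : ℝ) ≤ (1 / 2 : ℝ) ^ k := by positivity
  exact mul_nonneg h2 (by linarith)

theorem s4kG_re_nonneg (c : ℕ → ℝ) (R : ℝ) (t : ℂ) (ht : t.im ≠ 0) (hR : ∀ n, ‖t - (c n : ℂ)‖ ≤ R) :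
    0 ≤ (s4kG c R t).re := by
  refine le_trans ?_ (s4kG_re_ge c R t ht hR 0)
  have hpos : 0 < ‖t - (c 0 : ℂ)‖ := by
    have := Complex.abs_im_le_norm (t - (c 0 : ℂ))
    rw [s4kG_im] at this
    exact lt_of_lt_of_le (abs_pos.2 ht) this
  have := Real.log_le_log hpos (hR 0)
  simp
  linarith

/-- the harmonic part of the comparison function -/
noncomputable def s4kh (t₀ ρ R M ε : ℝ) (c : ℕ → ℝ) (t : ℂ) : ℝ :=
  -M + M * s4kH t₀ ρ t + ε * (s4kG c R t).re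

theorem s4kh_contAt (t₀ ρ R M ε K₀ : ℝ) (c : ℕ → ℝ) (p : ℂ) (hp : p.im ≠ 0) (hK : ∀ n, ‖p - (c n : ℂ)‖ ≤ K₀) :
    ContinuousAt (s4kh t₀ ρ R M ε c) p := by
  have hδ : 0 < |p.im| / 2 := by have := abs_pos.2 hp; linarith
  have h1 : ContinuousAt (s4kG c R) p :=
    ((s4kG_diff c R K₀ p hp hK).differentiableAt (Metric.ball_mem_nhds p hδ)).continuousAt
  have h2 : ContinuousAt (fun t => (s4kG c R t).re) p := Complex.continuous_re.continuousAt.comp h1
  have h3 : ContinuousAt (s4kH t₀ ρ) p := (s4kH_cont t₀ ρ).continuousAt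
  unfold s4kh
  exact (continuousAt_const.add (continuousAt_const.mul h3)).add (continuousAt_const.mul h2)

theorem s4k_same_sign (p t : ℂ) (ht : t ∈ Metric.ball p (|p.im| / 2)) (σ : ℝ)
    (hσ : (σ = 1 ∧ 0 < p.im) ∨ (σ = -1 ∧ p.im < 0)) : σ * t.im = |t.im| := by
  have h1 : |(t - p).im| ≤ ‖t - p‖ := Complex.abs_im_le_norm _
  have h2 : ‖t - p‖ < |p.im| / 2 := by rw [← dist_eq_norm]; exact ht
  rw [Complex.sub_im] at h1
  have h3 := abs_le.1 (h1.trans h2.le)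
  rcases hσ with ⟨rfl, hp⟩ | ⟨rfl, hp⟩
  · rw [abs_of_pos hp] at h3
    rw [abs_of_pos (by linarith [h3.1]), one_mul]
  · rw [abs_of_neg hp] at h3
    rw [abs_of_neg (by linarith [h3.2])]
    ring

theorem s4kh_mean (t₀ ρ R M ε K₀ : ℝ) (c : ℕ → ℝ) (p : ℂ) (hp : p.im ≠ 0) (hK : ∀ n, ‖p - (c n : ℂ)‖ ≤ K₀)
    (r : ℝ) (hr : 0 < r) (hr' : r < |p.im| / 2) :
    IntervalIntegrable (fun θ : ℝ => s4kh t₀ ρ R M ε c (p + r * Complex.exp (θ * I))) volume 0 (2 * π) ∧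
      ∫ θ in (0 : ℝ)..(2 * π), s4kh t₀ ρ R M ε c (p + r * Complex.exp (θ * I)) = 2 * π * s4kh t₀ ρ R M ε c p := by
  obtain ⟨σ, hσ⟩ : ∃ σ : ℝ, (σ = 1 ∧ 0 < p.im) ∨ (σ = -1 ∧ p.im < 0) := by
    rcases lt_or_gt_of_ne hp with h | h
    · exact ⟨-1, Or.inr ⟨rfl, h⟩⟩
    · exact ⟨1, Or.inl ⟨rfl, h⟩⟩
  obtain ⟨F, hF⟩ : ∃ F : ℂ → ℂ, F = fun t => (-M : ℂ) + (M : ℂ) * ((t - (t₀ : ℂ)) ^ 2 / (ρ : ℂ) ^ 2
      - 2 * (σ : ℂ) * I * (t - (t₀ : ℂ)) / (ρ : ℂ)) + (ε : ℂ) * s4kG c R t := ⟨_, rfl⟩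
  have hFd : DifferentiableOn ℂ F (Metric.ball p (|p.im| / 2)) := by
    rw [hF]
    have h1 : Differentiable ℂ fun t : ℂ => (-M : ℂ) + (M : ℂ) * ((t - (t₀ : ℂ)) ^ 2 / (ρ : ℂ) ^ 2
      - 2 * (σ : ℂ) * I * (t - (t₀ : ℂ)) / (ρ : ℂ)) := by fun_prop
    exact h1.differentiableOn.add ((s4kG_diff c R K₀ p hp hK).const_mul _)
  have hFre : ∀ t ∈ Metric.ball p (|p.im| / 2), (F t).re = s4kh t₀ ρ R M ε c t := by
    intro t ht
    have h1 := s4kH_eq_re t₀ ρ σ t (s4k_same_sign p t ht σ hσ)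
    rw [hF]
    unfold s4kh
    rw [h1]
    simp only [Complex.add_re, Complex.re_ofReal_mul, Complex.neg_re, Complex.ofReal_re]
  have hδ : 0 < |p.im| / 2 := by have := abs_pos.2 hp; linarith
  obtain ⟨h1, h2⟩ := s4k_re_mean F p (|p.im| / 2) r hr hr' hFd
  have hcirc : ∀ θ : ℝ, (F (p + r * Complex.exp (θ * I))).re = s4kh t₀ ρ R M ε c (p + r * Complex.exp (θ * I)) :=
    fun θ => hFre _ (Metric.closedBall_subset_ball hr' (s4k_circle_mem p r hr.le θ))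
  simp only [hcirc] at h1 h2
  rw [hFre p (Metric.mem_ball_self hδ)] at h2
  exact ⟨h1, h2⟩

theorem s4k_dist_le (t₀ κ : ℝ) (c : ℕ → ℝ) (hc : ∀ n, |c n - t₀| ≤ κ / 2) (t : ℂ) (ht : ‖t - (t₀ : ℂ)‖ ≤ κ / 2)
    (n : ℕ) : ‖t - (c n : ℂ)‖ ≤ κ := by
  have h1 : ‖(t₀ : ℂ) - (c n : ℂ)‖ = |c n - t₀| := by
    rw [← Complex.ofReal_sub, Complex.norm_real, Real.norm_eq_abs, abs_sub_comm]
  calc ‖t - (c n : ℂ)‖ = ‖(t - (t₀ : ℂ)) + ((t₀ : ℂ) - (c n : ℂ))‖ := by congr 1; ring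
    _ ≤ ‖t - (t₀ : ℂ)‖ + ‖(t₀ : ℂ) - (c n : ℂ)‖ := norm_add_le _ _
    _ ≤ κ := by rw [h1]; linarith [hc n]

/-- boundary behaviour of the comparison function -/
theorem s4k_bdry (u : ℂ → ℝ≥0∞) (t₀ κ : ℝ) (hκ : 0 < κ)
    (hlsc : LowerSemicontinuousOn u (Metric.ball (t₀ : ℂ) κ))
    (c : ℕ → ℝ) (hc : ∀ n, |c n - t₀| ≤ κ / 2) (M : ℝ) (hM0 : 0 ≤ M)
    (hM : ∀ x : ℝ, |x - t₀| ≤ κ / 2 → x ∉ Set.range c → ENNReal.ofReal M ≤ u (x : ℂ)) (ε : ℝ) (hε : 0 < ε)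
    (ξ : ℂ) (hξ : ξ ∈ frontier (Metric.ball (t₀ : ℂ) (κ / 2) ∩ {t : ℂ | t.im ≠ 0})) (ε' : ℝ) (hε' : 0 < ε') :
    ∀ᶠ t in 𝓝[Metric.ball (t₀ : ℂ) (κ / 2) ∩ {t : ℂ | t.im ≠ 0}] ξ,
      -ε' < s4kv u M t + s4kh t₀ (κ / 2) κ M ε c t := by
  have hρ : 0 < κ / 2 := by linarith
  have hUo : IsOpen (Metric.ball (t₀ : ℂ) (κ / 2) ∩ {t : ℂ | t.im ≠ 0}) :=
    Metric.isOpen_ball.inter (isOpen_ne_fun Complex.continuous_im continuous_const)
  rw [hUo.frontier_eq] at hξ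
  obtain ⟨hξc, hξU⟩ := hξ
  have hξn : ‖ξ - (t₀ : ℂ)‖ ≤ κ / 2 := by
    have h1 : closure (Metric.ball (t₀ : ℂ) (κ / 2) ∩ {t : ℂ | t.im ≠ 0}) ⊆ Metric.closedBall (t₀ : ℂ) (κ / 2) :=
      closure_minimal (Set.inter_subset_left.trans Metric.ball_subset_closedBall) Metric.isClosed_closedBall
    have := h1 hξc
    rwa [Metric.mem_closedBall, dist_eq_norm] at this
  -- lower bounds on `U`
  have hbase : ∀ t ∈ Metric.ball (t₀ : ℂ) (κ / 2) ∩ {t : ℂ | t.im ≠ 0},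
      0 ≤ s4kv u M t ∧ 0 ≤ s4kH t₀ (κ / 2) t ∧ 0 ≤ (s4kG c κ t).re ∧ t.im ≠ 0 ∧ ∀ n, ‖t - (c n : ℂ)‖ ≤ κ := by
    intro t ht
    have h1 : ‖t - (t₀ : ℂ)‖ ≤ κ / 2 := by
      have := ht.1
      rw [Metric.mem_ball, dist_eq_norm] at this
      exact this.le
    have h2 := s4k_dist_le t₀ κ c hc t h1
    exact ⟨s4kv_nonneg u M t, s4kH_nonneg t₀ (κ / 2) hρ t h1, s4kG_re_nonneg c κ t ht.2 h2, ht.2, h2⟩
  by_cases him : ξ.im = 0
  · -- a real boundary point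
    have hξx : ξ = ((ξ.re : ℝ) : ℂ) := by
      apply Complex.ext
      · simp
      · simp [him]
    have hx : |ξ.re - t₀| ≤ κ / 2 := by
      have h1 : ‖ξ - (t₀ : ℂ)‖ = |ξ.re - t₀| := by
        rw [hξx, ← Complex.ofReal_sub, Complex.norm_real, Real.norm_eq_abs]
        simp
      rwa [h1] at hξn
    by_cases hr : ξ.re ∈ Set.range c
    · obtain ⟨n, hn⟩ := hr
      obtain ⟨L, hL⟩ : ∃ L, L = Real.log κ - M * 2 ^ n / ε := ⟨_, rfl⟩
      have hnb : Metric.ball ξ (Real.exp L) ∈ 𝓝 ξ := Metric.ball_mem_nhds ξ (Real.exp_pos L)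
      filter_upwards [self_mem_nhdsWithin, mem_nhdsWithin_of_mem_nhds hnb] with t htU htb
      obtain ⟨b1, b2, -, b4, b5⟩ := hbase t htU
      have h1 : ‖t - (c n : ℂ)‖ < Real.exp L := by
        rw [hn, ← hξx, ← dist_eq_norm]
        exact htb
      have hpos : 0 < ‖t - (c n : ℂ)‖ := by
        have := Complex.abs_im_le_norm (t - (c n : ℂ))
        rw [s4kG_im] at this
        exact lt_of_lt_of_le (abs_pos.2 b4) this
      have h2 : Real.log ‖t - (c n : ℂ)‖ < L := (Real.log_lt_iff_lt_exp hpos).2 h1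
      have h3 := s4kG_re_ge c κ t b4 b5 n
      have h4 : M / ε < (1 / 2 : ℝ) ^ n * (Real.log κ - Real.log ‖t - (c n : ℂ)‖) := by
        have h5 : M * 2 ^ n / ε < Real.log κ - Real.log ‖t - (c n : ℂ)‖ := by rw [hL] at h2; linarith
        have h6 : (0 : ℝ) < (1 / 2 : ℝ) ^ n := by positivity
        have h7 := mul_lt_mul_of_pos_left h5 h6
        have h8 : (1 / 2 : ℝ) ^ n * (M * 2 ^ n / ε) = M / ε := by
          rw [one_div, inv_pow]
          field_simp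
        rwa [h8] at h7
      have h5 : M < ε * (s4kG c κ t).re := by
        have := lt_of_lt_of_le h4 h3
        rwa [div_lt_iff₀ hε, mul_comm] at this
      unfold s4kh
      have := mul_nonneg hM0 b2
      linarith
    · have hv : s4kv u M ξ = M := by
        rw [hξx]
        exact s4kv_eq u M hM0 _ (hM _ hx hr)
      have hξB : ξ ∈ Metric.ball (t₀ : ℂ) κ := by
        rw [Metric.mem_ball, dist_eq_norm]
        linarith
      have h1 : ∀ᶠ t in 𝓝[Metric.ball (t₀ : ℂ) κ] ξ, M - ε' < s4kv u M t :=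
        s4kv_lsc u M _ hlsc ξ hξB (M - ε') (by show M - ε' < s4kv u M ξ; rw [hv]; linarith)
      rw [Metric.isOpen_ball.nhdsWithin_eq hξB] at h1
      filter_upwards [self_mem_nhdsWithin, mem_nhdsWithin_of_mem_nhds h1] with t htU ht
      obtain ⟨-, b2, b3, -, -⟩ := hbase t htU
      have ht' : M - ε' < s4kv u M t := ht
      unfold s4kh
      have := mul_nonneg hM0 b2
      have := mul_nonneg hε.le b3
      linarith
  · -- a point of the circle
    have hn : ‖ξ - (t₀ : ℂ)‖ = κ / 2 := by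
      refine le_antisymm hξn ?_
      by_contra hlt
      push Not at hlt
      exact hξU ⟨by rw [Metric.mem_ball, dist_eq_norm]; exact hlt, him⟩
    have hH := s4kH_sphere t₀ (κ / 2) hρ ξ hn
    have h1 : ∀ᶠ t in 𝓝 ξ, 1 - ε' / (M + 1) < s4kH t₀ (κ / 2) t := by
      refine (s4kH_cont t₀ (κ / 2)).continuousAt.eventually (lt_mem_nhds ?_)
      have : 0 < ε' / (M + 1) := by positivity
      linarith
    filter_upwards [self_mem_nhdsWithin, mem_nhdsWithin_of_mem_nhds h1] with t htU ht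
    obtain ⟨b1, -, b3, -, -⟩ := hbase t htU
    have ht' : 1 - ε' / (M + 1) < s4kH t₀ (κ / 2) t := ht
    unfold s4kh
    have h2 := mul_nonneg hε.le b3
    have h3 : M * (1 - ε' / (M + 1)) ≤ M * s4kH t₀ (κ / 2) t := mul_le_mul_of_nonneg_left ht'.le hM0
    have h4 : M * (ε' / (M + 1)) < ε' := by
      have h5 : M * (ε' / (M + 1)) = ε' * (M / (M + 1)) := by ring
      rw [h5]
      have h6 : M / (M + 1) < 1 := by rw [div_lt_one (by linarith)]; linarith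
      nlinarith
    nlinarith

/-- comparison on the two half discs -/
theorem s4k_half (u : ℂ → ℝ≥0∞) (t₀ κ : ℝ) (hκ : 0 < κ)
    (hlsc : LowerSemicontinuousOn u (Metric.ball (t₀ : ℂ) κ))
    (hsm : ∀ (c : ℂ) (r : ℝ), 0 < r → Metric.closedBall c r ⊆ Metric.ball (t₀ : ℂ) κ →
      ∫⁻ θ in Set.Ioc (0 : ℝ) (2 * π), u (c + r * Complex.exp (θ * I)) ≤ ENNReal.ofReal (2 * π) * u c)
    (c : ℕ → ℝ) (hc : ∀ n, |c n - t₀| ≤ κ / 2) (M : ℝ) (hM0 : 0 ≤ M)
    (hM : ∀ x : ℝ, |x - t₀| ≤ κ / 2 → x ∉ Set.range c → ENNReal.ofReal M ≤ u (x : ℂ)) (ε : ℝ) (hε : 0 < ε) :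
    ∀ t ∈ Metric.ball (t₀ : ℂ) (κ / 2) ∩ {t : ℂ | t.im ≠ 0},
      0 ≤ s4kv u M t + s4kh t₀ (κ / 2) κ M ε c t := by
  have hρ : 0 < κ / 2 := by linarith
  have hUo : IsOpen (Metric.ball (t₀ : ℂ) (κ / 2) ∩ {t : ℂ | t.im ≠ 0}) :=
    Metric.isOpen_ball.inter (isOpen_ne_fun Complex.continuous_im continuous_const)
  have hUb : Bornology.IsBounded (Metric.ball (t₀ : ℂ) (κ / 2) ∩ {t : ℂ | t.im ≠ 0}) :=
    Metric.isBounded_ball.subset Set.inter_subset_left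
  have hUB : Metric.ball (t₀ : ℂ) (κ / 2) ∩ {t : ℂ | t.im ≠ 0} ⊆ Metric.ball (t₀ : ℂ) κ :=
    Set.inter_subset_left.trans (Metric.ball_subset_ball (by linarith))
  have hK : ∀ p ∈ Metric.ball (t₀ : ℂ) (κ / 2) ∩ {t : ℂ | t.im ≠ 0}, ∀ n, ‖p - (c n : ℂ)‖ ≤ κ := by
    intro p hp
    have h1 : ‖p - (t₀ : ℂ)‖ ≤ κ / 2 := by
      have := hp.1
      rw [Metric.mem_ball, dist_eq_norm] at this
      exact this.le
    exact s4k_dist_le t₀ κ c hc p h1
  refine s4k_min_principle _ hUo hUb (fun t => s4kv u M t + s4kh t₀ (κ / 2) κ M ε c t) ?_ ?_ ?_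
  · have h1 : LowerSemicontinuousOn (s4kv u M) (Metric.ball (t₀ : ℂ) (κ / 2) ∩ {t : ℂ | t.im ≠ 0}) :=
      (s4kv_lsc u M _ hlsc).mono hUB
    have h2 : ContinuousOn (s4kh t₀ (κ / 2) κ M ε c) (Metric.ball (t₀ : ℂ) (κ / 2) ∩ {t : ℂ | t.im ≠ 0}) :=
      fun p hp => (s4kh_contAt t₀ (κ / 2) κ M ε κ c p hp.2 (hK p hp)).continuousWithinAt
    exact h1.add h2.lowerSemicontinuousOn
  · intro p hp
    have hpn : ‖p - (t₀ : ℂ)‖ < κ / 2 := by
      have := hp.1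
      rwa [Metric.mem_ball, dist_eq_norm] at this
    have hpi : 0 < |p.im| / 2 := by have := abs_pos.2 hp.2; linarith
    refine ⟨min (|p.im| / 2) (κ / 2 - ‖p - (t₀ : ℂ)‖), lt_min hpi (by linarith), ?_⟩
    intro r hr hr'
    have hr1 : r < |p.im| / 2 := lt_of_lt_of_le hr' (min_le_left _ _)
    have hr2 : r < κ / 2 - ‖p - (t₀ : ℂ)‖ := lt_of_lt_of_le hr' (min_le_right _ _)
    have hsub : Metric.closedBall p r ⊆ Metric.ball (t₀ : ℂ) κ := by
      intro q hq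
      rw [Metric.mem_closedBall, dist_eq_norm] at hq
      rw [Metric.mem_ball, dist_eq_norm]
      calc ‖q - (t₀ : ℂ)‖ = ‖(q - p) + (p - (t₀ : ℂ))‖ := by congr 1; ring
        _ ≤ ‖q - p‖ + ‖p - (t₀ : ℂ)‖ := norm_add_le _ _
        _ < κ := by linarith
    obtain ⟨v1, v2⟩ := s4kv_supermean u M hM0 _ Metric.isOpen_ball hlsc p r hr.le hsub (hsm p r hr hsub)
    obtain ⟨g1, g2⟩ := s4kh_mean t₀ (κ / 2) κ M ε κ c p hp.2 (hK p hp) r hr hr1
    refine ⟨v1.add g1, ?_⟩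
    rw [intervalIntegral.integral_add v1 g1, g2]
    linarith
  · intro ξ hξ ε' hε'
    exact s4k_bdry u t₀ κ hκ hlsc c hc M hM0 hM ε hε ξ hξ ε' hε'

/-- the lower bound on the two half discs -/
theorem s4k_lower (u : ℂ → ℝ≥0∞) (t₀ κ : ℝ) (hκ : 0 < κ)
    (hlsc : LowerSemicontinuousOn u (Metric.ball (t₀ : ℂ) κ))
    (hsm : ∀ (c : ℂ) (r : ℝ), 0 < r → Metric.closedBall c r ⊆ Metric.ball (t₀ : ℂ) κ →
      ∫⁻ θ in Set.Ioc (0 : ℝ) (2 * π), u (c + r * Complex.exp (θ * I)) ≤ ENNReal.ofReal (2 * π) * u c)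
    (c : ℕ → ℝ) (hc : ∀ n, |c n - t₀| ≤ κ / 2) (M : ℝ) (hM0 : 0 ≤ M)
    (hM : ∀ x : ℝ, |x - t₀| ≤ κ / 2 → x ∉ Set.range c → ENNReal.ofReal M ≤ u (x : ℂ)) :
    ∀ t ∈ Metric.ball (t₀ : ℂ) (κ / 2) ∩ {t : ℂ | t.im ≠ 0}, M * (1 - s4kH t₀ (κ / 2) t) ≤ s4kv u M t := by
  intro t ht
  by_contra hcon
  push Not at hcon
  have h1 : ‖t - (t₀ : ℂ)‖ ≤ κ / 2 := by
    have := ht.1
    rw [Metric.mem_ball, dist_eq_norm] at this
    exact this.le
  have hw : 0 ≤ (s4kG c κ t).re := s4kG_re_nonneg c κ t ht.2 (s4k_dist_le t₀ κ c hc t h1)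
  obtain ⟨X, hX⟩ : ∃ X, X = M * (1 - s4kH t₀ (κ / 2) t) - s4kv u M t := ⟨_, rfl⟩
  have hX0 : 0 < X := by rw [hX]; linarith
  have hε : 0 < X / (2 * ((s4kG c κ t).re + 1)) := by positivity
  have h2 := s4k_half u t₀ κ hκ hlsc hsm c hc M hM0 hM _ hε t ht
  unfold s4kh at h2
  have h3 : X / (2 * ((s4kG c κ t).re + 1)) * (s4kG c κ t).re ≤ X / 2 := by
    rw [div_mul_eq_mul_div, div_le_div_iff₀ (by positivity) (by norm_num)]
    nlinarith
  linarith

theorem s4k_ae_sin : ∀ᵐ θ : ℝ ∂(volume.restrict (Set.Ioc (0 : ℝ) (2 * π))), Real.sin θ ≠ 0 := by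
  have hcount : {θ : ℝ | Real.sin θ = 0}.Countable := by
    have : {θ : ℝ | Real.sin θ = 0} = Set.range fun n : ℤ => (n : ℝ) * π := by
      ext θ
      show Real.sin θ = 0 ↔ _
      rw [Real.sin_eq_zero_iff]
      rfl
    rw [this]
    exact Set.countable_range _
  exact hcount.ae_notMem _

/-- the transfer lemma. -/
theorem s4k_transfer (u : ℂ → ℝ≥0∞) (t₀ κ : ℝ) (hκ : 0 < κ)
    (hlsc : LowerSemicontinuousOn u (Metric.ball (t₀ : ℂ) κ))
    (hsm : ∀ (c : ℂ) (r : ℝ), 0 < r → Metric.closedBall c r ⊆ Metric.ball (t₀ : ℂ) κ →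
      ∫⁻ θ in Set.Ioc (0 : ℝ) (2 * π), u (c + r * Complex.exp (θ * I)) ≤ ENNReal.ofReal (2 * π) * u c)
    (C : Set ℝ) (hC : C.Countable) (M : ℝ≥0∞)
    (hM : ∀ x : ℝ, |x - t₀| < κ → x ∉ C → M ≤ u (x : ℂ)) : M ≤ u (t₀ : ℂ) := by
  refine ENNReal.le_of_forall_nnreal_lt fun M' hM' => ?_
  obtain ⟨c, hc⟩ : ∃ c : ℕ → ℝ, insert t₀ (C ∩ Set.Icc (t₀ - κ / 2) (t₀ + κ / 2)) = Set.range c :=
    ((hC.mono Set.inter_subset_left).insert t₀).exists_eq_range (Set.insert_nonempty _ _)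
  have hcb : ∀ n, |c n - t₀| ≤ κ / 2 := by
    intro n
    have h1 : c n ∈ insert t₀ (C ∩ Set.Icc (t₀ - κ / 2) (t₀ + κ / 2)) := by rw [hc]; exact Set.mem_range_self n
    rcases h1 with h | h
    · rw [h, sub_self, abs_zero]; linarith
    · rw [abs_le]
      constructor <;> linarith [h.2.1, h.2.2]
  have hM0 : (0 : ℝ) ≤ (M' : ℝ) := M'.2
  have hMx : ∀ x : ℝ, |x - t₀| ≤ κ / 2 → x ∉ Set.range c → ENNReal.ofReal (M' : ℝ) ≤ u (x : ℂ) := by
    intro x hx hxc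
    rw [ENNReal.ofReal_coe_nnreal]
    refine hM'.le.trans (hM x (by linarith) fun hxC => hxc ?_)
    rw [← hc]
    refine Set.mem_insert_of_mem _ ⟨hxC, ?_⟩
    rw [abs_le] at hx
    constructor <;> linarith [hx.1, hx.2]
  have hlow := s4k_lower u t₀ κ hκ hlsc hsm c hcb (M' : ℝ) hM0 hMx
  have hpi : (0 : ℝ) < 2 * π := by positivity
  have key : ∀ s : ℝ, 0 < s → s < 1 → ENNReal.ofReal ((M' : ℝ) * (1 - 3 * s)) ≤ u (t₀ : ℂ) := by
    intro s hs hs1
    have hr : 0 < κ / 2 * s := by positivity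
    have hrκ : κ / 2 * s < κ / 2 := by nlinarith
    have hsub : Metric.closedBall (t₀ : ℂ) (κ / 2 * s) ⊆ Metric.ball (t₀ : ℂ) κ :=
      Metric.closedBall_subset_ball (by linarith)
    have h1 := hsm (t₀ : ℂ) (κ / 2 * s) hr hsub
    have h2 : ∀ᵐ θ : ℝ ∂(volume.restrict (Set.Ioc (0 : ℝ) (2 * π))),
        ENNReal.ofReal ((M' : ℝ) * (1 - 3 * s)) ≤ u ((t₀ : ℂ) + ((κ / 2 * s : ℝ) : ℂ) * Complex.exp (θ * I)) := by
      filter_upwards [s4k_ae_sin] with θ hθ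
      have hq := s4k_circle_mem (t₀ : ℂ) (κ / 2 * s) hr.le θ
      rw [Metric.mem_closedBall, dist_eq_norm] at hq
      have him : ((t₀ : ℂ) + ((κ / 2 * s : ℝ) : ℂ) * Complex.exp (θ * I)).im = κ / 2 * s * Real.sin θ := by
        rw [Complex.add_im, Complex.ofReal_im, zero_add, Complex.im_ofReal_mul, Complex.exp_ofReal_mul_I_im]
      have hU : (t₀ : ℂ) + ((κ / 2 * s : ℝ) : ℂ) * Complex.exp (θ * I) ∈
          Metric.ball (t₀ : ℂ) (κ / 2) ∩ {t : ℂ | t.im ≠ 0} := by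
        refine ⟨by rw [Metric.mem_ball, dist_eq_norm]; linarith, ?_⟩
        show ((t₀ : ℂ) + ((κ / 2 * s : ℝ) : ℂ) * Complex.exp (θ * I)).im ≠ 0
        rw [him]
        exact mul_ne_zero hr.ne' hθ
      have h3 := hlow _ hU
      have h4 := s4kH_le t₀ (κ / 2) (by linarith) _ s hs.le hs1.le hq
      have h5 : (M' : ℝ) * (1 - 3 * s) ≤ s4kv u (M' : ℝ) ((t₀ : ℂ) + ((κ / 2 * s : ℝ) : ℂ) * Complex.exp (θ * I)) :=
        le_trans (mul_le_mul_of_nonneg_left (by linarith) hM0) h3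
      calc ENNReal.ofReal ((M' : ℝ) * (1 - 3 * s))
          ≤ ENNReal.ofReal (s4kv u (M' : ℝ) ((t₀ : ℂ) + ((κ / 2 * s : ℝ) : ℂ) * Complex.exp (θ * I))) :=
            ENNReal.ofReal_le_ofReal h5
        _ = min _ _ := s4kv_ofReal _ _ _
        _ ≤ _ := min_le_left _ _
    have h3 := lintegral_mono_ae h2
    rw [lintegral_const, Measure.restrict_apply MeasurableSet.univ, Set.univ_inter, Real.volume_Ioc, sub_zero,
      mul_comm] at h3
    exact (ENNReal.mul_le_mul_iff_right (by simpa using hpi) ENNReal.ofReal_ne_top).1 (h3.trans h1)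
  refine ENNReal.le_of_forall_pos_le_add fun ε hε _ => ?_
  have hεR : (0 : ℝ) < (ε : ℝ) := hε
  obtain ⟨s, hsdef⟩ : ∃ s : ℝ, s = min (1 / 2) ((ε : ℝ) / (3 * (M' : ℝ) + 1)) := ⟨_, rfl⟩
  have hs0 : 0 < s := by rw [hsdef]; exact lt_min (by norm_num) (by positivity)
  have hs1 : s < 1 := by rw [hsdef]; exact lt_of_le_of_lt (min_le_left _ _) (by norm_num)
  have hs2 : 3 * (M' : ℝ) * s ≤ (ε : ℝ) := by
    have h1 : s ≤ (ε : ℝ) / (3 * (M' : ℝ) + 1) := by rw [hsdef]; exact min_le_right _ _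
    rw [le_div_iff₀ (by positivity)] at h1
    nlinarith
  have h1 := key s hs0 hs1
  calc (M' : ℝ≥0∞) = ENNReal.ofReal (M' : ℝ) := (ENNReal.ofReal_coe_nnreal).symm
    _ ≤ ENNReal.ofReal ((M' : ℝ) * (1 - 3 * s) + (ε : ℝ)) := ENNReal.ofReal_le_ofReal (by nlinarith)
    _ ≤ ENNReal.ofReal ((M' : ℝ) * (1 - 3 * s)) + ENNReal.ofReal (ε : ℝ) := ENNReal.ofReal_add_le
    _ ≤ u (t₀ : ℂ) + ε := by
        rw [ENNReal.ofReal_coe_nnreal]
        exact add_le_add_left h1 _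

end Claimed.Agent.R269
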