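/-
Row 269, P1 Section 4, unit 4F (Theorem 4.3): the VARIATIONAL SYSTEM of a chain of `n + 1` reflections, FIRST ORDER.   Statements: helper36.
HOST-FREE (Mathlib + Lib/Dv): pure differential algebra in a field `S` of characteristic zero.

MODEL.  Lines with angles `α_0, …, α_{n+1}` (functions of `(y,t)`), edges `i ≤ n`: `ψ_i = (α_i + α_{i+1})/2`, `d_i = (α_{i+1} - α_i)/2`,
   `s i = sin d_i`,  `c i = cos d_i`,  `H i l = h^{(l)}(ψ_i)`,  `a1 j = ∂_y α_j`,  `a2 j = ∂_t α_j`;   `d1 = ∂_y`, `d2 = ∂_t`.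
   `pIn i = H i 0 * c i - H i 1 * s i` (momentum of the line `α_i`),  `pOut i = H i 0 * c i + H i 1 * s i` (momentum of `α_{i+1}`).
`Dl` is a derivation commuting with `d1`, `d2` ("infinitesimal deformation") which kills the END DATA
   `∂α_0`, `∂α_{n+1}`, `p_0 = pIn 0`, `p_{n+1} = pOut n`, `cos (α_{n+1} - α_0)`, `sin (α_{n+1} - α_0)`.

DERIVED QUANTITIES.   `u i = "Dl d_i"`,  `A j = "Dl α_j"` (`A 0 = 0`),  `Ps i = "Dl ψ_i"`,
   `F i m = Dl (H i m) - H i (m+1) * Ps i = "(δh)^{(m)}(ψ_i)"`  (variation of the profile at fixed argument),  `act = ∑ 2 H i 0 * s i` (the action).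

All proofs: unfold, use `Dv.leibniz`, `map_add`, ..., the structure fields, then `linear_combination` / `ring` / `field_simp`; sums by induction
(telescoping: prove the statement for partial sums `∑ i ∈ range j` with the boundary term `A j * pOut (j-1)`; see `act_partial`).
Useful first: `Dl_s : Dl (s i) = c i * u i`, `Dl_c : Dl (c i) = -(s i * u i)` (from `unit`: `s Dl s + c Dl c = 0`).
PROVED (helper36), no `sorry` left.
-/
import Claimed.Agent.R269.Lib.Dv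

set_option autoImplicit false

namespace Claimed.Agent.R269

namespace VarAux

variable {S : Type*} [Field S]

theorem dv_two (δ : Dv S) : δ (2 : S) = 0 := by
  have := δ.map_natCast 2
  simpa using this

theorem dv_sq (δ : Dv S) (x : S) : δ (x ^ 2) = 2 * x * δ x := by
  rw [pow_two, δ.leibniz]
  ring

theorem dv_two_mul (δ : Dv S) (x : S) : δ (2 * x) = 2 * δ x := by
  rw [δ.leibniz, dv_two]
  ring

theorem dv_half [CharZero S] (δ : Dv S) (x : S) : δ (x / 2) = δ x / 2 := by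
  have h : δ (2 * (x / 2)) = 2 * δ (x / 2) + x / 2 * δ 2 := δ.leibniz 2 (x / 2)
  rw [dv_two, mul_zero, add_zero, mul_div_cancel₀ x (two_ne_zero)] at h
  rw [h]
  ring

theorem dv_unit [CharZero S] (δ : Dv S) {s c : S} (h : s ^ 2 + c ^ 2 = 1) : s * δ s + c * δ c = 0 := by
  have h1 : δ (s ^ 2 + c ^ 2) = 0 := by rw [h, δ.map_one]
  rw [map_add, dv_sq, dv_sq] at h1
  have h2 : (2 : S) ≠ 0 := two_ne_zero
  have : 2 * (s * δ s + c * δ c) = 0 := by linear_combination h1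
  rcases mul_eq_zero.mp this with h3 | h3
  · exact absurd h3 h2
  · exact h3

end VarAux

/-- `(cos, sin)` of `α_j - α_0 = ∑_{i<j} 2 d_i`, computed from `s i = sin d_i`, `c i = cos d_i`. -/
def rotCS {S : Type*} [Field S] (s c : ℕ → S) : ℕ → S × S
  | 0 => (1, 0)
  | j + 1 =>
    ((rotCS s c j).1 * (c j ^ 2 - s j ^ 2) - (rotCS s c j).2 * (2 * s j * c j),
     (rotCS s c j).2 * (c j ^ 2 - s j ^ 2) + (rotCS s c j).1 * (2 * s j * c j))

/-- the variational system. -/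
structure VarSys (S : Type*) [Field S] (n : ℕ) where
  d1 : Dv S
  d2 : Dv S
  Dl : Dv S
  comm1 : ∀ x, Dl (d1 x) = d1 (Dl x)
  comm2 : ∀ x, Dl (d2 x) = d2 (Dl x)
  s : ℕ → S
  c : ℕ → S
  H : ℕ → ℕ → S
  a1 : ℕ → S
  a2 : ℕ → S
  unit : ∀ i ≤ n, s i ^ 2 + c i ^ 2 = 1
  d1s : ∀ i ≤ n, d1 (s i) = c i * ((a1 (i + 1) - a1 i) / 2)
  d1c : ∀ i ≤ n, d1 (c i) = -(s i * ((a1 (i + 1) - a1 i) / 2))
  d2s : ∀ i ≤ n, d2 (s i) = c i * ((a2 (i + 1) - a2 i) / 2)
  d2c : ∀ i ≤ n, d2 (c i) = -(s i * ((a2 (i + 1) - a2 i) / 2))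
  d1H : ∀ i ≤ n, ∀ l, d1 (H i l) = H i (l + 1) * ((a1 i + a1 (i + 1)) / 2)
  d2H : ∀ i ≤ n, ∀ l, d2 (H i l) = H i (l + 1) * ((a2 i + a2 (i + 1)) / 2)
  stat : ∀ i < n, H i 0 * c i + H i 1 * s i = H (i + 1) 0 * c (i + 1) - H (i + 1) 1 * s (i + 1)
  end_a1 : Dl (a1 0) = 0
  end_a2 : Dl (a2 0) = 0
  end_b1 : Dl (a1 (n + 1)) = 0
  end_b2 : Dl (a2 (n + 1)) = 0
  end_p0 : Dl (H 0 0 * c 0 - H 0 1 * s 0) = 0
  end_pk : Dl (H n 0 * c n + H n 1 * s n) = 0
  end_rc : Dl (rotCS s c (n + 1)).1 = 0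
  end_rs : Dl (rotCS s c (n + 1)).2 = 0

namespace VarSys

variable {S : Type*} [Field S] [CharZero S] {n : ℕ} (V : VarSys S n)

/-- momentum of the line `α_i`, seen from the edge `i`. -/
def pIn (i : ℕ) : S := V.H i 0 * V.c i - V.H i 1 * V.s i

/-- momentum of the line `α_{i+1}`, seen from the edge `i`. -/
def pOut (i : ℕ) : S := V.H i 0 * V.c i + V.H i 1 * V.s i

/-- "`Dl d_i`". -/
def u (i : ℕ) : S := V.c i * V.Dl (V.s i) - V.s i * V.Dl (V.c i)

/-- "`Dl α_j`". -/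
def A : ℕ → S
  | 0 => 0
  | j + 1 => A j + 2 * V.u j

/-- "`Dl ψ_i`". -/
def Ps (i : ℕ) : S := (V.A i + V.A (i + 1)) / 2

/-- the first variation of the profile: "`(δh)^{(m)}(ψ_i)`". -/
def F (i m : ℕ) : S := V.Dl (V.H i m) - V.H i (m + 1) * V.Ps i

/-- the action. -/
def act : S := ∑ i ∈ Finset.range (n + 1), 2 * V.H i 0 * V.s i

/-- the gradient of the first variation of the action at the interior vertex `j + 1`. -/
def v (j : ℕ) : S :=
  (V.F j 1 * V.s j + V.F j 0 * V.c j) + (V.F (j + 1) 1 * V.s (j + 1) - V.F (j + 1) 0 * V.c (j + 1))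

/-- off-diagonal entry of the Hessian of the action: coupling of the vertices `j`, `j + 1` through the edge `j`. -/
def hl (j : ℕ) : S := (V.H j 0 + V.H j 2) * V.s j / 2

/-- diagonal entry of the Hessian at the interior vertex `j + 1`. -/
def hd (j : ℕ) : S :=
  (V.H j 1 * V.c j + (V.H j 2 - V.H j 0) * V.s j / 2)
    + (-(V.H (j + 1) 1 * V.c (j + 1)) + (V.H (j + 1) 2 - V.H (j + 1) 0) * V.s (j + 1) / 2)

theorem Dl_s (i : ℕ) (hi : i ≤ n) : V.Dl (V.s i) = V.c i * V.u i := by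
  have hD := VarAux.dv_unit V.Dl (V.unit i hi)
  have hu := V.unit i hi
  unfold u
  linear_combination (-(V.Dl (V.s i))) * hu + V.s i * hD

theorem Dl_c (i : ℕ) (hi : i ≤ n) : V.Dl (V.c i) = -(V.s i * V.u i) := by
  have hD := VarAux.dv_unit V.Dl (V.unit i hi)
  have hu := V.unit i hi
  unfold u
  linear_combination (-(V.Dl (V.c i))) * hu + V.c i * hD

theorem d1_u (i : ℕ) (hi : i ≤ n) : V.d1 (V.u i) = V.Dl ((V.a1 (i + 1) - V.a1 i) / 2) := by
  have hu := V.unit i hi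
  unfold u
  rw [map_sub, Dv.leibniz, Dv.leibniz, ← V.comm1, ← V.comm1, V.d1s i hi, V.d1c i hi, map_neg, Dv.leibniz,
    Dv.leibniz]
  linear_combination (V.Dl ((V.a1 (i + 1) - V.a1 i) / 2)) * hu

theorem d2_u (i : ℕ) (hi : i ≤ n) : V.d2 (V.u i) = V.Dl ((V.a2 (i + 1) - V.a2 i) / 2) := by
  have hu := V.unit i hi
  unfold u
  rw [map_sub, Dv.leibniz, Dv.leibniz, ← V.comm2, ← V.comm2, V.d2s i hi, V.d2c i hi, map_neg, Dv.leibniz,
    Dv.leibniz]
  linear_combination (V.Dl ((V.a2 (i + 1) - V.a2 i) / 2)) * hu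

theorem d1_A (j : ℕ) (hj : j ≤ n + 1) : V.d1 (V.A j) = V.Dl (V.a1 j) := by
  induction j with
  | zero => rw [V.end_a1]; exact map_zero _
  | succ j ih =>
    have ih' := ih (by omega)
    show V.d1 (V.A j + 2 * V.u j) = _
    rw [map_add, VarAux.dv_two_mul, ih', V.d1_u j (by omega), VarAux.dv_half, map_sub]
    ring

theorem d2_A (j : ℕ) (hj : j ≤ n + 1) : V.d2 (V.A j) = V.Dl (V.a2 j) := by
  induction j with
  | zero => rw [V.end_a2]; exact map_zero _
  | succ j ih =>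
    have ih' := ih (by omega)
    show V.d2 (V.A j + 2 * V.u j) = _
    rw [map_add, VarAux.dv_two_mul, ih', V.d2_u j (by omega), VarAux.dv_half, map_sub]
    ring

/-- the towers of the first variation. -/
theorem d1_F (i : ℕ) (hi : i ≤ n) (m : ℕ) : V.d1 (V.F i m) = V.F i (m + 1) * ((V.a1 i + V.a1 (i + 1)) / 2) := by
  unfold F Ps
  rw [map_sub, Dv.leibniz, ← V.comm1, V.d1H i hi m, V.d1H i hi (m + 1), Dv.leibniz, VarAux.dv_half, VarAux.dv_half,
    map_add, map_add, V.d1_A i (by omega), V.d1_A (i + 1) (by omega)]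
  ring

theorem d2_F (i : ℕ) (hi : i ≤ n) (m : ℕ) : V.d2 (V.F i m) = V.F i (m + 1) * ((V.a2 i + V.a2 (i + 1)) / 2) := by
  unfold F Ps
  rw [map_sub, Dv.leibniz, ← V.comm2, V.d2H i hi m, V.d2H i hi (m + 1), Dv.leibniz, VarAux.dv_half, VarAux.dv_half,
    map_add, map_add, V.d2_A i (by omega), V.d2_A (i + 1) (by omega)]
  ring

/-- `|e^{i(α_j - α_0)}| = 1`. -/
theorem rot_unit (j : ℕ) (hj : j ≤ n + 1) : (rotCS V.s V.c j).1 ^ 2 + (rotCS V.s V.c j).2 ^ 2 = 1 := by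
  induction j with
  | zero => simp [rotCS]
  | succ j ih =>
    have ih' := ih (by omega)
    have hu := V.unit j (by omega)
    simp only [rotCS]
    have h2 : (V.c j ^ 2 - V.s j ^ 2) ^ 2 + (2 * V.s j * V.c j) ^ 2 = 1 := by
      linear_combination (V.s j ^ 2 + V.c j ^ 2 + 1) * hu
    linear_combination ((V.c j ^ 2 - V.s j ^ 2) ^ 2 + (2 * V.s j * V.c j) ^ 2) * ih' + h2

/-- `Dl (cos, sin)(α_j - α_0) = A j (-sin, cos)`. -/
theorem rot_Dl (j : ℕ) (hj : j ≤ n + 1) :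
    V.Dl (rotCS V.s V.c j).1 = -(V.A j * (rotCS V.s V.c j).2) ∧
      V.Dl (rotCS V.s V.c j).2 = V.A j * (rotCS V.s V.c j).1 := by
  induction j with
  | zero =>
    constructor
    · show V.Dl 1 = -(0 * 0)
      rw [Dv.map_one]; ring
    · show V.Dl 0 = 0 * 1
      rw [map_zero]; ring
  | succ j ih =>
    obtain ⟨ih1, ih2⟩ := ih (by omega)
    have hs := V.Dl_s j (by omega)
    have hc := V.Dl_c j (by omega)
    have hA : V.A (j + 1) = V.A j + 2 * V.u j := rfl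
    simp only [rotCS]
    constructor
    · rw [map_sub, Dv.leibniz, Dv.leibniz, map_sub, VarAux.dv_sq, VarAux.dv_sq, Dv.leibniz, VarAux.dv_two_mul, ih1, ih2,
        hs, hc, hA]
      ring
    · rw [map_add, Dv.leibniz, Dv.leibniz, map_sub, VarAux.dv_sq, VarAux.dv_sq, Dv.leibniz, VarAux.dv_two_mul, ih1, ih2,
        hs, hc, hA]
      ring

/-- "`Dl (α_j - α_0) = A j`". -/
theorem rot_A (j : ℕ) (hj : j ≤ n + 1) :
    (rotCS V.s V.c j).1 * V.Dl (rotCS V.s V.c j).2 - (rotCS V.s V.c j).2 * V.Dl (rotCS V.s V.c j).1 = V.A j := by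
  obtain ⟨h1, h2⟩ := V.rot_Dl j hj
  have hu := V.rot_unit j hj
  rw [h1, h2]
  linear_combination (V.A j) * hu

theorem A_last : V.A (n + 1) = 0 := by
  have h := V.rot_A (n + 1) le_rfl
  rw [V.end_rc, V.end_rs] at h
  rw [← h]
  ring

/-- telescoping by stationarity. -/
theorem telescope (X : ℕ → S) :
    ∑ i ∈ Finset.range (n + 1), (V.pOut i * X (i + 1) - V.pIn i * X i) = V.pOut n * X (n + 1) - V.pIn 0 * X 0 := by
  have key : ∀ m, m ≤ n →
      ∑ i ∈ Finset.range (m + 1), (V.pOut i * X (i + 1) - V.pIn i * X i) = V.pOut m * X (m + 1) - V.pIn 0 * X 0 := by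
    intro m
    induction m with
    | zero => intro _; simp
    | succ m ih =>
      intro hm
      rw [Finset.sum_range_succ, ih (by omega)]
      have hst : V.pOut m = V.pIn (m + 1) := V.stat m (by omega)
      rw [hst]
      ring
  exact key n le_rfl

theorem d1_edge (i : ℕ) (hi : i ≤ n) :
    V.d1 (2 * V.H i 0 * V.s i) = V.pOut i * V.a1 (i + 1) - V.pIn i * V.a1 i := by
  rw [Dv.leibniz, VarAux.dv_two_mul, V.d1H i hi 0, V.d1s i hi]
  unfold pOut pIn
  ring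

theorem d2_edge (i : ℕ) (hi : i ≤ n) :
    V.d2 (2 * V.H i 0 * V.s i) = V.pOut i * V.a2 (i + 1) - V.pIn i * V.a2 i := by
  rw [Dv.leibniz, VarAux.dv_two_mul, V.d2H i hi 0, V.d2s i hi]
  unfold pOut pIn
  ring

theorem u_eq (i : ℕ) : V.u i = (V.A (i + 1) - V.A i) / 2 := by
  show V.u i = (V.A i + 2 * V.u i - V.A i) / 2
  ring

theorem Dl_H (i m : ℕ) : V.Dl (V.H i m) = V.F i m + V.H i (m + 1) * V.Ps i := by
  unfold F
  ring

theorem Dl_edge (i : ℕ) (hi : i ≤ n) :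
    V.Dl (2 * V.H i 0 * V.s i) = 2 * V.s i * V.F i 0 + (V.pOut i * V.A (i + 1) - V.pIn i * V.A i) := by
  rw [Dv.leibniz, VarAux.dv_two_mul, V.Dl_H, V.Dl_s i hi, V.u_eq]
  unfold pOut pIn Ps
  ring

/-- `∂ act = p_{n+1} ∂α_{n+1} - p_0 ∂α_0` (telescoping by stationarity). -/
theorem d1_act : V.d1 V.act = V.pOut n * V.a1 (n + 1) - V.pIn 0 * V.a1 0 := by
  unfold act
  rw [Dv.map_sum, ← V.telescope V.a1]
  exact Finset.sum_congr rfl fun i hi => V.d1_edge i (by have := Finset.mem_range.mp hi; omega)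

theorem d2_act : V.d2 V.act = V.pOut n * V.a2 (n + 1) - V.pIn 0 * V.a2 0 := by
  unfold act
  rw [Dv.map_sum, ← V.telescope V.a2]
  exact Finset.sum_congr rfl fun i hi => V.d2_edge i (by have := Finset.mem_range.mp hi; omega)

theorem d1_Dl_act : V.d1 (V.Dl V.act) = 0 := by
  have hp0 : V.Dl (V.pIn 0) = 0 := V.end_p0
  have hpk : V.Dl (V.pOut n) = 0 := V.end_pk
  rw [← V.comm1, V.d1_act, map_sub, Dv.leibniz, Dv.leibniz, hp0, hpk, V.end_a1, V.end_b1]
  ring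

theorem d2_Dl_act : V.d2 (V.Dl V.act) = 0 := by
  have hp0 : V.Dl (V.pIn 0) = 0 := V.end_p0
  have hpk : V.Dl (V.pOut n) = 0 := V.end_pk
  rw [← V.comm2, V.d2_act, map_sub, Dv.leibniz, Dv.leibniz, hp0, hpk, V.end_a2, V.end_b2]
  ring

theorem d1_Dl_Dl_act : V.d1 (V.Dl (V.Dl V.act)) = 0 := by
  rw [← V.comm1, V.d1_Dl_act, map_zero]

theorem d2_Dl_Dl_act : V.d2 (V.Dl (V.Dl V.act)) = 0 := by
  rw [← V.comm2, V.d2_Dl_act, map_zero]

/-- FIRST VARIATION FORMULA (the web relation of first order). -/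
theorem Dl_act : V.Dl V.act = ∑ i ∈ Finset.range (n + 1), 2 * V.s i * V.F i 0 := by
  have h0 : V.A 0 = 0 := rfl
  have hT := V.telescope V.A
  rw [V.A_last, h0] at hT
  unfold act
  rw [Dv.map_sum]
  have : ∑ i ∈ Finset.range (n + 1), V.Dl (2 * V.H i 0 * V.s i)
      = ∑ i ∈ Finset.range (n + 1), (2 * V.s i * V.F i 0 + (V.pOut i * V.A (i + 1) - V.pIn i * V.A i)) :=
    Finset.sum_congr rfl fun i hi => V.Dl_edge i (by have := Finset.mem_range.mp hi; omega)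
  rw [this, Finset.sum_add_distrib, hT]
  ring

/-- LINEARISED STATIONARITY at the interior vertex `j + 1`. -/
theorem lin_stat (j : ℕ) (hj : j < n) :
    V.v j + V.hl j * V.A j + V.hd j * V.A (j + 1) + V.hl (j + 1) * V.A (j + 2) = 0 := by
  have h := congrArg V.Dl (V.stat j hj)
  rw [map_add, map_sub, Dv.leibniz, Dv.leibniz, Dv.leibniz, Dv.leibniz, V.Dl_H, V.Dl_H, V.Dl_H, V.Dl_H,
    V.Dl_s j (by omega), V.Dl_c j (by omega), V.Dl_s (j + 1) (by omega), V.Dl_c (j + 1) (by omega),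
    V.u_eq, V.u_eq] at h
  unfold v hl hd
  unfold Ps at h
  linear_combination h

/-- if the profile variation and the angle variations vanish, `Dl` kills the whole core. -/
theorem core_killed (hF : ∀ i ≤ n, ∀ m, V.F i m = 0) (hA : ∀ j ≤ n + 1, V.A j = 0) (i : ℕ) (hi : i ≤ n) :
    V.Dl (V.s i) = 0 ∧ V.Dl (V.c i) = 0 ∧ ∀ m, V.Dl (V.H i m) = 0 := by
  have hu : V.u i = 0 := by rw [V.u_eq, hA (i + 1) (by omega), hA i (by omega)]; ring
  have hP : V.Ps i = 0 := by unfold Ps; rw [hA (i + 1) (by omega), hA i (by omega)]; ring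
  refine ⟨by rw [V.Dl_s i hi, hu, mul_zero], by rw [V.Dl_c i hi, hu, mul_zero, neg_zero], fun m => ?_⟩
  rw [V.Dl_H, hF i hi m, hP]
  ring

end VarSys

end Claimed.Agent.R269
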