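/-
Row 269, P1 Section 4, unit 4F (Theorem 4.3): the variational system, SECOND ORDER.   Statements: helper36.
HOST-FREE (Mathlib + Lib/Dv + VarA): pure differential algebra.

`D2 x = Dl (Dl x) / 2` is the second coefficient of the formal flow `exp (ε Dl)`:   `D2 (x y) = x D2 y + Dl x Dl y + y D2 x`  (`Dv.leibniz_two`).
   `b i = "second variation of d_i"`:   `D2 (s i) = c i * b i - s i * u i ^ 2 / 2`,   `D2 (c i) = -(s i * b i) - c i * u i ^ 2 / 2`
   `Bq j = "second variation of α_j"`,  `Qs i = "second variation of ψ_i"`,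
   `Gt i m = "(second variation of the profile)^{(m)}(ψ_i)" = D2 (H i m) - F i (m+1) * Ps i - H i (m+1) * Qs i - H i (m+2) * Ps i ^ 2 / 2`.

SECOND VARIATION FORMULA `D2_act`.   Expand `D2 (2 H i 0 * s i) = 2 (D2 H * s + Dl H * Dl s + H * D2 s)` and substitute:
   = `2 s Gt`  +  `[2 H1 Qs s + 2 H0 c b]`  +  `[2 F1 Ps s + 2 F0 c u]`  +  `[H2 Ps² s + 2 H1 Ps c u - H0 s u²]`.
 * second bracket `= Bq (i+1) * pOut i - Bq i * pIn i`, telescopes to `Bq (n+1) * pOut n - Bq 0 * pIn 0 = 0`;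
 * third bracket `= A (i+1) * (F1 s + F0 c) + A i * (F1 s - F0 c)`, sums to `∑_{j<n} A (j+1) * v j` (as `A 0 = A (n+1) = 0`);
 * fourth bracket is the quadratic form `½ Aᵀ Hess A`:  it sums to `½ ∑_{j<n} A (j+1) * (hl j * A j + hd j * A (j+1) + hl (j+1) * A (j+2))`
   `= -½ ∑ A (j+1) * v j` by `lin_stat`.
PROVED (helper36), nothing left open.
-/
import Claimed.Agent.R269.S4.VarA

set_option autoImplicit false

namespace Claimed.Agent.R269

namespace VarSys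

variable {S : Type*} [Field S] [CharZero S] {n : ℕ} (V : VarSys S n)

/-- the second coefficient of `exp (ε Dl)`. -/
def D2 (x : S) : S := V.Dl (V.Dl x) / 2

/-- "second variation of `d_i`". -/
def b (i : ℕ) : S := V.c i * V.D2 (V.s i) - V.s i * V.D2 (V.c i)

/-- "second variation of `α_j`". -/
def Bq : ℕ → S
  | 0 => 0
  | j + 1 => Bq j + 2 * V.b j

/-- "second variation of `ψ_i`". -/
def Qs (i : ℕ) : S := (V.Bq i + V.Bq (i + 1)) / 2

/-- the second variation of the profile. -/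
def Gt (i m : ℕ) : S :=
  V.D2 (V.H i m) - V.F i (m + 1) * V.Ps i - V.H i (m + 1) * V.Qs i - V.H i (m + 2) * V.Ps i ^ 2 / 2

theorem D2_mul (x y : S) : V.D2 (x * y) = x * V.D2 y + V.Dl x * V.Dl y + y * V.D2 x := by
  unfold D2
  rw [Dv.leibniz_two]
  ring

theorem D2_add (x y : S) : V.D2 (x + y) = V.D2 x + V.D2 y := by
  unfold D2
  rw [map_add, map_add]
  ring

theorem D2_sub (x y : S) : V.D2 (x - y) = V.D2 x - V.D2 y := by
  unfold D2
  rw [map_sub, map_sub]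
  ring

theorem D2_neg (x : S) : V.D2 (-x) = -V.D2 x := by
  unfold D2
  rw [map_neg, map_neg]
  ring

theorem D2_zero : V.D2 0 = 0 := by
  unfold D2
  rw [map_zero, map_zero]
  ring

theorem D2_one : V.D2 1 = 0 := by
  unfold D2
  rw [Dv.map_one, map_zero]
  ring

theorem D2_half (x : S) : V.D2 (x / 2) = V.D2 x / 2 := by
  unfold D2
  rw [VarAux.dv_half, VarAux.dv_half]

theorem D2_two_mul (x : S) : V.D2 (2 * x) = 2 * V.D2 x := by
  unfold D2
  rw [VarAux.dv_two_mul, VarAux.dv_two_mul]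
  ring

theorem D2_sq (x : S) : V.D2 (x ^ 2) = 2 * x * V.D2 x + V.Dl x ^ 2 := by
  rw [pow_two, D2_mul]
  ring

theorem D2_sum {ι : Type*} (t : Finset ι) (f : ι → S) : V.D2 (∑ i ∈ t, f i) = ∑ i ∈ t, V.D2 (f i) := by
  unfold D2
  rw [Dv.map_sum, Dv.map_sum, Finset.sum_div]

theorem d1_D2 (x : S) : V.d1 (V.D2 x) = V.D2 (V.d1 x) := by
  unfold D2
  rw [VarAux.dv_half, ← V.comm1, ← V.comm1]

theorem d2_D2 (x : S) : V.d2 (V.D2 x) = V.D2 (V.d2 x) := by
  unfold D2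
  rw [VarAux.dv_half, ← V.comm2, ← V.comm2]

/-- `s D2 s + c D2 c = - u² / 2`. -/
theorem D2_unit (i : ℕ) (hi : i ≤ n) : V.s i * V.D2 (V.s i) + V.c i * V.D2 (V.c i) = -(V.u i ^ 2 / 2) := by
  have hu := V.unit i hi
  have h := congrArg V.D2 hu
  rw [D2_add, D2_sq, D2_sq, D2_one, V.Dl_s i hi, V.Dl_c i hi] at h
  linear_combination h / 2 - (V.u i ^ 2 / 2) * hu

theorem D2_s (i : ℕ) (hi : i ≤ n) : V.D2 (V.s i) = V.c i * V.b i - V.s i * V.u i ^ 2 / 2 := by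
  have hu := V.unit i hi
  have h := V.D2_unit i hi
  unfold b
  linear_combination (-(V.D2 (V.s i))) * hu + V.s i * h

theorem D2_c (i : ℕ) (hi : i ≤ n) : V.D2 (V.c i) = -(V.s i * V.b i) - V.c i * V.u i ^ 2 / 2 := by
  have hu := V.unit i hi
  have h := V.D2_unit i hi
  unfold b
  linear_combination (-(V.D2 (V.c i))) * hu + V.c i * h

theorem d1_b (i : ℕ) (hi : i ≤ n) : V.d1 (V.b i) = V.D2 ((V.a1 (i + 1) - V.a1 i) / 2) := by
  have hu := V.unit i hi
  have hD := VarAux.dv_unit V.Dl hu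
  unfold b
  rw [map_sub, Dv.leibniz, Dv.leibniz, d1_D2, d1_D2, V.d1s i hi, V.d1c i hi, D2_neg, D2_mul, D2_mul]
  linear_combination (V.D2 ((V.a1 (i + 1) - V.a1 i) / 2)) * hu + (V.Dl ((V.a1 (i + 1) - V.a1 i) / 2)) * hD

theorem d2_b (i : ℕ) (hi : i ≤ n) : V.d2 (V.b i) = V.D2 ((V.a2 (i + 1) - V.a2 i) / 2) := by
  have hu := V.unit i hi
  have hD := VarAux.dv_unit V.Dl hu
  unfold b
  rw [map_sub, Dv.leibniz, Dv.leibniz, d2_D2, d2_D2, V.d2s i hi, V.d2c i hi, D2_neg, D2_mul, D2_mul]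
  linear_combination (V.D2 ((V.a2 (i + 1) - V.a2 i) / 2)) * hu + (V.Dl ((V.a2 (i + 1) - V.a2 i) / 2)) * hD

theorem d1_Bq (j : ℕ) (hj : j ≤ n + 1) : V.d1 (V.Bq j) = V.D2 (V.a1 j) := by
  induction j with
  | zero =>
    have : V.D2 (V.a1 0) = 0 := by unfold D2; rw [V.end_a1, map_zero]; ring
    rw [this]; exact map_zero _
  | succ j ih =>
    have ih' := ih (by omega)
    show V.d1 (V.Bq j + 2 * V.b j) = _
    rw [map_add, VarAux.dv_two_mul, ih', V.d1_b j (by omega), D2_half, D2_sub]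
    ring

theorem d2_Bq (j : ℕ) (hj : j ≤ n + 1) : V.d2 (V.Bq j) = V.D2 (V.a2 j) := by
  induction j with
  | zero =>
    have : V.D2 (V.a2 0) = 0 := by unfold D2; rw [V.end_a2, map_zero]; ring
    rw [this]; exact map_zero _
  | succ j ih =>
    have ih' := ih (by omega)
    show V.d2 (V.Bq j + 2 * V.b j) = _
    rw [map_add, VarAux.dv_two_mul, ih', V.d2_b j (by omega), D2_half, D2_sub]
    ring

/-- the towers of the second variation. -/
theorem d1_Gt (i : ℕ) (hi : i ≤ n) (m : ℕ) : V.d1 (V.Gt i m) = V.Gt i (m + 1) * ((V.a1 i + V.a1 (i + 1)) / 2) := by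
  have hPs : V.d1 (V.Ps i) = V.Dl ((V.a1 i + V.a1 (i + 1)) / 2) := by
    unfold Ps
    rw [VarAux.dv_half, VarAux.dv_half, map_add, map_add, V.d1_A i (by omega), V.d1_A (i + 1) (by omega)]
  have hQs : V.d1 (V.Qs i) = V.D2 ((V.a1 i + V.a1 (i + 1)) / 2) := by
    unfold Qs
    rw [VarAux.dv_half, D2_half, map_add, D2_add, V.d1_Bq i (by omega), V.d1_Bq (i + 1) (by omega)]
  unfold Gt
  rw [map_sub, map_sub, map_sub, VarAux.dv_half, Dv.leibniz, Dv.leibniz, Dv.leibniz, VarAux.dv_sq, d1_D2,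
    V.d1H i hi m, V.d1H i hi (m + 1), V.d1H i hi (m + 2), V.d1_F i hi (m + 1), D2_mul, hPs, hQs, V.Dl_H i (m + 1)]
  ring

theorem d2_Gt (i : ℕ) (hi : i ≤ n) (m : ℕ) : V.d2 (V.Gt i m) = V.Gt i (m + 1) * ((V.a2 i + V.a2 (i + 1)) / 2) := by
  have hPs : V.d2 (V.Ps i) = V.Dl ((V.a2 i + V.a2 (i + 1)) / 2) := by
    unfold Ps
    rw [VarAux.dv_half, VarAux.dv_half, map_add, map_add, V.d2_A i (by omega), V.d2_A (i + 1) (by omega)]
  have hQs : V.d2 (V.Qs i) = V.D2 ((V.a2 i + V.a2 (i + 1)) / 2) := by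
    unfold Qs
    rw [VarAux.dv_half, D2_half, map_add, D2_add, V.d2_Bq i (by omega), V.d2_Bq (i + 1) (by omega)]
  unfold Gt
  rw [map_sub, map_sub, map_sub, VarAux.dv_half, Dv.leibniz, Dv.leibniz, Dv.leibniz, VarAux.dv_sq, d2_D2,
    V.d2H i hi m, V.d2H i hi (m + 1), V.d2H i hi (m + 2), V.d2_F i hi (m + 1), D2_mul, hPs, hQs, V.Dl_H i (m + 1)]
  ring

/-- `D2 (cos, sin)(α_j - α_0)`. -/
theorem rot_D2 (j : ℕ) (hj : j ≤ n + 1) :
    V.D2 (rotCS V.s V.c j).1 = -(V.Bq j * (rotCS V.s V.c j).2) - V.A j ^ 2 / 2 * (rotCS V.s V.c j).1 ∧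
      V.D2 (rotCS V.s V.c j).2 = V.Bq j * (rotCS V.s V.c j).1 - V.A j ^ 2 / 2 * (rotCS V.s V.c j).2 := by
  induction j with
  | zero =>
    constructor
    · show V.D2 1 = -(0 * 0) - 0 ^ 2 / 2 * 1
      rw [D2_one]; ring
    · show V.D2 0 = 0 * 1 - 0 ^ 2 / 2 * 0
      rw [D2_zero]; ring
  | succ j ih =>
    obtain ⟨ih1, ih2⟩ := ih (by omega)
    obtain ⟨r1, r2⟩ := V.rot_Dl j (by omega)
    have hs := V.Dl_s j (by omega)
    have hc := V.Dl_c j (by omega)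
    have hs2 := V.D2_s j (by omega)
    have hc2 := V.D2_c j (by omega)
    have hA : V.A (j + 1) = V.A j + 2 * V.u j := rfl
    have hB : V.Bq (j + 1) = V.Bq j + 2 * V.b j := rfl
    have hu := V.unit j (by omega)
    have e1 : V.Dl (V.c j ^ 2 - V.s j ^ 2) = -(2 * V.u j * (2 * V.s j * V.c j)) := by
      rw [map_sub, VarAux.dv_sq, VarAux.dv_sq, hs, hc]; ring
    have e2 : V.Dl (2 * V.s j * V.c j) = 2 * V.u j * (V.c j ^ 2 - V.s j ^ 2) := by
      rw [mul_assoc, VarAux.dv_two_mul, Dv.leibniz, hs, hc]; ring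
    have f1 : V.D2 (V.c j ^ 2 - V.s j ^ 2)
        = -(2 * V.b j * (2 * V.s j * V.c j)) - (2 * V.u j) ^ 2 / 2 * (V.c j ^ 2 - V.s j ^ 2) := by
      rw [D2_sub, D2_sq, D2_sq, hs, hc, hs2, hc2]
      ring
    have f2 : V.D2 (2 * V.s j * V.c j)
        = 2 * V.b j * (V.c j ^ 2 - V.s j ^ 2) - (2 * V.u j) ^ 2 / 2 * (2 * V.s j * V.c j) := by
      rw [mul_assoc, D2_two_mul, D2_mul, hs, hc, hs2, hc2]
      ring
    simp only [rotCS]
    constructor
    · rw [D2_sub, D2_mul, D2_mul, e1, e2, f1, f2, ih1, ih2, r1, r2, hA, hB]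
      ring
    · rw [D2_add, D2_mul, D2_mul, e1, e2, f1, f2, ih1, ih2, r1, r2, hA, hB]
      ring

/-- "second variation of `α_j - α_0`" (with `e = C + i S`: `Dl e = i A e`, `D2 e = (i Bq - A²/2) e`). -/
theorem rot_Bq (j : ℕ) (hj : j ≤ n + 1) :
    (rotCS V.s V.c j).1 * V.D2 (rotCS V.s V.c j).2 - (rotCS V.s V.c j).2 * V.D2 (rotCS V.s V.c j).1 = V.Bq j := by
  obtain ⟨h1, h2⟩ := V.rot_D2 j hj
  have hu := V.rot_unit j hj
  rw [h1, h2]
  linear_combination (V.Bq j) * hu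

theorem Bq_last : V.Bq (n + 1) = 0 := by
  have h := V.rot_Bq (n + 1) le_rfl
  have h1 : V.D2 (rotCS V.s V.c (n + 1)).1 = 0 := by unfold D2; rw [V.end_rc, map_zero]; ring
  have h2 : V.D2 (rotCS V.s V.c (n + 1)).2 = 0 := by unfold D2; rw [V.end_rs, map_zero]; ring
  rw [h1, h2] at h
  rw [← h]
  ring

/-- resummation from edges to interior vertices. -/
theorem resum (m : ℕ) (X P M : ℕ → S) (h0 : X 0 = 0) (h1 : X (m + 1) = 0) :
    ∑ i ∈ Finset.range (m + 1), (X (i + 1) * P i + X i * M i) = ∑ j ∈ Finset.range m, X (j + 1) * (P j + M (j + 1)) := by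
  rw [Finset.sum_add_distrib, Finset.sum_range_succ, Finset.sum_range_succ' (fun i => X i * M i), h0, h1]
  simp only [zero_mul, add_zero, mul_add, Finset.sum_add_distrib]

/-- the coefficient of `A (i+1)` in the second variation of the edge `i`. -/
def eP (i : ℕ) : S :=
  (V.F i 1 * V.s i + V.F i 0 * V.c i)
    + (V.A (i + 1) * (V.H i 1 * V.c i + (V.H i 2 - V.H i 0) * V.s i / 2) + V.A i * V.hl i) / 2

/-- the coefficient of `A i` in the second variation of the edge `i`. -/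
def eM (i : ℕ) : S :=
  (V.F i 1 * V.s i - V.F i 0 * V.c i)
    + (V.A i * (-(V.H i 1 * V.c i) + (V.H i 2 - V.H i 0) * V.s i / 2) + V.A (i + 1) * V.hl i) / 2

theorem D2_H (i m : ℕ) :
    V.D2 (V.H i m) = V.Gt i m + V.F i (m + 1) * V.Ps i + V.H i (m + 1) * V.Qs i + V.H i (m + 2) * V.Ps i ^ 2 / 2 := by
  unfold Gt
  ring

theorem b_eq (i : ℕ) : V.b i = (V.Bq (i + 1) - V.Bq i) / 2 := by
  show V.b i = (V.Bq i + 2 * V.b i - V.Bq i) / 2
  ring

theorem D2_edge (i : ℕ) (hi : i ≤ n) :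
    V.D2 (2 * V.H i 0 * V.s i) = 2 * V.s i * V.Gt i 0 + (V.pOut i * V.Bq (i + 1) - V.pIn i * V.Bq i)
      + (V.A (i + 1) * V.eP i + V.A i * V.eM i) := by
  rw [D2_mul, D2_two_mul, VarAux.dv_two_mul, V.D2_H, V.Dl_H, V.Dl_s i hi, V.D2_s i hi, V.u_eq, V.b_eq]
  unfold pOut pIn Ps Qs eP eM hl
  ring

theorem eP_add_eM (j : ℕ) (hj : j < n) : V.eP j + V.eM (j + 1) = V.v j / 2 := by
  have h := V.lin_stat j hj
  unfold eP eM
  unfold v hd at h
  unfold v
  linear_combination h / 2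

/-- SECOND VARIATION FORMULA (the web relation of second order). -/
theorem D2_act :
    V.D2 V.act = ∑ i ∈ Finset.range (n + 1), 2 * V.s i * V.Gt i 0 + (∑ j ∈ Finset.range n, V.A (j + 1) * V.v j) / 2 := by
  have h0 : V.A 0 = 0 := rfl
  have hB0 : V.Bq 0 = 0 := rfl
  have hT := V.telescope V.Bq
  rw [V.Bq_last, hB0] at hT
  have hR := resum n V.A V.eP V.eM h0 V.A_last
  unfold act
  rw [D2_sum]
  have : ∑ i ∈ Finset.range (n + 1), V.D2 (2 * V.H i 0 * V.s i)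
      = ∑ i ∈ Finset.range (n + 1), (2 * V.s i * V.Gt i 0 + (V.pOut i * V.Bq (i + 1) - V.pIn i * V.Bq i)
        + (V.A (i + 1) * V.eP i + V.A i * V.eM i)) :=
    Finset.sum_congr rfl fun i hi => V.D2_edge i (by have := Finset.mem_range.mp hi; omega)
  rw [this, Finset.sum_add_distrib, Finset.sum_add_distrib, hT, hR]
  have h2 : ∑ j ∈ Finset.range n, V.A (j + 1) * (V.eP j + V.eM (j + 1))
      = ∑ j ∈ Finset.range n, V.A (j + 1) * V.v j / 2 :=
    Finset.sum_congr rfl fun j hj => by rw [V.eP_add_eM j (Finset.mem_range.mp hj)]; ring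
  rw [h2, Finset.sum_div]
  ring

end VarSys

end Claimed.Agent.R269
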