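/-
Row 269, P1 Section 4, unit 4E (ALG2, formal part).  Owner of the STATEMENTS: helper36 (sub-captain sec 4).

`FGl k` = a FORMAL GLANCING DATUM over a differential field `k` of characteristic zero: the line field
`L_0 = (E0, P0) ∈ k[[t²]]²` (chart `(exp 2iΘ, p exp iΘ)`, line `Zc + E W = 2 P` in the isotropic coordinates
`Zc = x₁ + i x₂`, `W = x₁ - i x₂`), with everything the proof of ALG2 uses of the billiard:

  * `L_j = S_j L_0`, `S_j = exp(j t ∂_y)` (`Lau.shear`);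
  * nondegeneracy `(E⁰)' ≠ 0`, `(W_Γ)' ≠ 0`, `W_Γ = 2 (P⁰)'/(E⁰)'` (the envelope = the boundary curve);
  * the impact `X_+ = L_0 ∩ L_1` has rank one and `L_1` is the reflection of `L_0` in its tangent;
  * the lens theorem (P1 Theorem 4.3).

This file: definitions and elementary facts.  HOST-FREE (formal algebra).
The `sorry`s are replaced IN PLACE by the owner of the package (table subtask, target row269, LF-S4-Fgl).
-/
import Claimed.Agent.R269.Lib.Puiseux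

set_option autoImplicit false

namespace Claimed.Agent.R269

open HahnSeries Lau

instance instCharZeroLaurentSeries {k : Type*} [Field k] [CharZero k] : CharZero (LaurentSeries k) :=
  charZero_of_injective_ringHom (f := (HahnSeries.C : k →+* LaurentSeries k)) HahnSeries.C_injective

/-- pre-datum: the derivation and the line field. -/
structure FGl0 (k : Type*) [Field k] [CharZero k] where
  d : Dv k
  E0 : LaurentSeries k
  P0 : LaurentSeries k
  /-- the admissible constants (for a `Glance`: the complex numbers); they belong to all the fields `KL F`. -/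
  K0 : Set k

namespace FGl0

variable {k : Type*} [Field k] [CharZero k] (Φ : FGl0 k)

/-- `∂_y`. -/
noncomputable def Dy : Dv (LaurentSeries k) := dy Φ.d

/-- `E_j = E(y + j t, t)`. -/
noncomputable def E (j : ℤ) : LaurentSeries k := shear Φ.d j Φ.E0

/-- `P_j`. -/
noncomputable def P (j : ℤ) : LaurentSeries k := shear Φ.d j Φ.P0

/-- the generators of the differential field of `L_j`: the jets of `L_0` at the shifted point, and the admissible constants. -/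
def gens (F : Set ℤ) : Set (LaurentSeries k) :=
  {x | ∃ j ∈ F, ∃ a b : ℕ, x = shear Φ.d j ((Φ.Dy^[a]) ((dt^[b]) Φ.E0)) ∨
    x = shear Φ.d j ((Φ.Dy^[a]) ((dt^[b]) Φ.P0))} ∪ {x | ∃ c ∈ Φ.K0, x = HahnSeries.C c}

/-- `KL F` = the differential field generated by the `L_j`, `j ∈ F`. -/
noncomputable def KL (F : Set ℤ) : Subfield (LaurentSeries k) := Subfield.closure (Φ.gens F)

/-- the `W`-coordinate of `L_0 ∩ L_1`. -/
noncomputable def Wp : LaurentSeries k := 2 * (Φ.P0 - Φ.P 1) / (Φ.E0 - Φ.E 1)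

/-- the `W`-coordinate of `L_0 ∩ L_{-1}`. -/
noncomputable def Wm : LaurentSeries k := 2 * (Φ.P0 - Φ.P (-1)) / (Φ.E0 - Φ.E (-1))

/-- the `Zc`-coordinate of `L_0 ∩ L_1`. -/
noncomputable def Zp : LaurentSeries k := 2 * Φ.P0 - Φ.E0 * Φ.Wp

/-- the `Zc`-coordinate of `L_0 ∩ L_{-1}`. -/
noncomputable def Zm : LaurentSeries k := 2 * Φ.P0 - Φ.E0 * Φ.Wm

/-- the `W`-coordinate of the envelope `Γ(y)` of the lines `L(y,0)`. -/
noncomputable def WΓ : k := 2 * Φ.d (Φ.P0.coeff 0) / Φ.d (Φ.E0.coeff 0)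

end FGl0

/-- a formal glancing datum. -/
structure FGl (k : Type*) [Field k] [CharZero k] extends FGl0 k where
  E0_nonneg : 0 ≤ E0.orderTop
  P0_nonneg : 0 ≤ P0.orderTop
  E0_even : rot (-1 : kˣ) E0 = E0
  P0_even : rot (-1 : kˣ) P0 = P0
  /-- the admissible constants are constants -/
  K0_const : ∀ c ∈ K0, d c = 0
  hE : d (E0.coeff 0) ≠ 0
  hW : d toFGl0.WΓ ≠ 0
  /-- `X_+ = L_0 ∩ L_1` has rank one -/
  rank : toFGl0.Dy toFGl0.Zp * dt toFGl0.Wp - dt toFGl0.Zp * toFGl0.Dy toFGl0.Wp = 0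
  /-- reflection law at `X_+` -/
  refl : (toFGl0.Dy toFGl0.Zp) ^ 2 = E0 * toFGl0.E 1 * (toFGl0.Dy toFGl0.Wp) ^ 2
  /-- the lens theorem -/
  lens : ∀ a i b : ℤ, a < i → i < b →
    IsAlgebraic (toFGl0.KL {a, b}) (toFGl0.E i) ∧ IsAlgebraic (toFGl0.KL {a, b}) (toFGl0.P i)

namespace FGl

variable {k : Type*} [Field k] [CharZero k] (Φ : FGl k)

/-! ### constants -/

omit [CharZero k] in
theorem fgl_C_coeff (c : k) (n : ℤ) :
    (HahnSeries.C c : LaurentSeries k).coeff n = if n = 0 then c else 0 := by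
  rw [HahnSeries.C_apply]
  by_cases h : n = 0
  · rw [h, HahnSeries.coeff_single_same, if_pos rfl]
  · rw [HahnSeries.coeff_single_of_ne h, if_neg h]

omit [CharZero k] in
theorem fgl_dy_C (d : Dv k) (c : k) (hc : d c = 0) : dy d (HahnSeries.C c : LaurentSeries k) = 0 := by
  ext n
  rw [dy_coeff, fgl_C_coeff, HahnSeries.coeff_zero]
  split_ifs
  · exact hc
  · exact map_zero d

omit [CharZero k] in
theorem fgl_dt_C (c : k) : dt (HahnSeries.C c : LaurentSeries k) = 0 := by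
  ext n
  rw [dt_coeff, fgl_C_coeff, HahnSeries.coeff_zero]
  split_ifs with h
  · have : ((n + 1 : ℤ) : k) = 0 := by rw [h, Int.cast_zero]
    push_cast at this
    rw [this, zero_mul]
  · rw [mul_zero]

omit [CharZero k] in
theorem fgl_rot_C (ζ : kˣ) (c : k) : rot ζ (HahnSeries.C c : LaurentSeries k) = HahnSeries.C c := by
  ext n
  rw [rot_coeff, fgl_C_coeff]
  split_ifs with h
  · rw [h, zpow_zero, Units.val_one, one_mul]
  · rw [mul_zero]

/-- a series killed by `∂_t` is constant in `t`. -/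
theorem fgl_eq_C_of_dt (X : LaurentSeries k) (h : dt X = 0) : X = HahnSeries.C (X.coeff 0) := by
  ext n
  rw [fgl_C_coeff]
  split_ifs with hn
  · rw [hn]
  · have h1 := congrArg (fun G : LaurentSeries k => G.coeff (n - 1)) h
    simp only [dt_coeff, HahnSeries.coeff_zero, sub_add_cancel] at h1
    have h2 : ((n - 1 : ℤ) : k) + 1 ≠ 0 := by
      have : ((n - 1 : ℤ) : k) + 1 = (n : k) := by push_cast; ring
      rw [this]
      exact_mod_cast hn
    exact (mul_eq_zero.1 h1).resolve_left h2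

theorem fgl_shear_C (d : Dv k) (q : ℤ) (c : k) (hc : d c = 0) :
    shear d q (HahnSeries.C c : LaurentSeries k) = HahnSeries.C c := by
  have h0 : 0 ≤ (HahnSeries.C c : LaurentSeries k).orderTop := by
    rw [HahnSeries.le_orderTop_iff_forall]
    intro j hj
    have hj' : j < 0 := by exact_mod_cast hj
    rw [fgl_C_coeff, if_neg hj'.ne]
  have h1 : dt (shear d q (HahnSeries.C c : LaurentSeries k)) = 0 := by
    rw [dt_shear, fgl_dt_C, fgl_dy_C d c hc, mul_zero, add_zero, map_zero]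
  rw [fgl_eq_C_of_dt _ h1, shear_coeff_zero d q _ h0, fgl_C_coeff, if_pos rfl]

/-! ### the fields `KL F` -/

theorem C_mem_KL (F : Set ℤ) {c : k} (hc : c ∈ Φ.K0) : (HahnSeries.C c : LaurentSeries k) ∈ Φ.KL F :=
  Subfield.subset_closure (Or.inr ⟨c, hc, rfl⟩)

theorem KL_mono {F F' : Set ℤ} (h : F ⊆ F') : Φ.KL F ≤ Φ.KL F' := by
  refine Subfield.closure_mono ?_
  rintro x (⟨j, hj, a, b, hx⟩ | hx)
  · exact Or.inl ⟨j, h hj, a, b, hx⟩
  · exact Or.inr hx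

theorem E_mem_KL {F : Set ℤ} {j : ℤ} (hj : j ∈ F) : Φ.E j ∈ Φ.KL F := by
  exact Subfield.subset_closure (Or.inl ⟨j, hj, 0, 0, Or.inl rfl⟩)

theorem P_mem_KL {F : Set ℤ} {j : ℤ} (hj : j ∈ F) : Φ.P j ∈ Φ.KL F := by
  exact Subfield.subset_closure (Or.inl ⟨j, hj, 0, 0, Or.inr rfl⟩)

theorem KL_stable_dy (F : Set ℤ) : Φ.Dy.Stable (Φ.KL F) := by
  refine Φ.Dy.closure_stable _ ?_
  rintro x (⟨j, hj, a, b, rfl | rfl⟩ | ⟨c, hc, rfl⟩)
  · refine Subfield.subset_closure (Or.inl ⟨j, hj, a + 1, b, Or.inl ?_⟩)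
    rw [Function.iterate_succ_apply']
    exact dy_shear Φ.d j _
  · refine Subfield.subset_closure (Or.inl ⟨j, hj, a + 1, b, Or.inr ?_⟩)
    rw [Function.iterate_succ_apply']
    exact dy_shear Φ.d j _
  · rw [show Φ.Dy (HahnSeries.C c) = 0 from fgl_dy_C Φ.d c (Φ.K0_const c hc)]
    exact zero_mem _

/-- `∂_t` commutes with the iterates of `∂_y`. -/
theorem fgl_dt_iter_dy (a : ℕ) (G : LaurentSeries k) :
    dt ((Φ.Dy^[a]) G) = (Φ.Dy^[a]) (dt G) := by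
  induction a with
  | zero => rfl
  | succ a ih =>
    rw [Function.iterate_succ_apply', Function.iterate_succ_apply', ← ih]
    exact (dy_dt_comm Φ.d _).symm

theorem KL_stable_dt (F : Set ℤ) : (dt : Dv (LaurentSeries k)).Stable (Φ.KL F) := by
  refine (dt : Dv (LaurentSeries k)).closure_stable _ ?_
  have key : ∀ (j : ℤ) (_ : j ∈ F) (a b : ℕ) (G : LaurentSeries k),
      shear Φ.d j ((Φ.Dy^[a]) ((dt^[b + 1]) G)) ∈ Subfield.closure (Φ.gens F) →
      shear Φ.d j ((Φ.Dy^[a + 1]) ((dt^[b]) G)) ∈ Subfield.closure (Φ.gens F) →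
      dt (shear Φ.d j ((Φ.Dy^[a]) ((dt^[b]) G))) ∈ Subfield.closure (Φ.gens F) := by
    intro j _ a b G h1 h2
    rw [dt_shear, map_add, map_mul, map_intCast, fgl_dt_iter_dy, ← Function.iterate_succ_apply' (f := ⇑dt)]
    refine add_mem h1 (mul_mem (intCast_mem _ j) ?_)
    rw [Function.iterate_succ_apply'] at h2
    exact h2
  rintro x (⟨j, hj, a, b, rfl | rfl⟩ | ⟨c, _, rfl⟩)
  · exact key j hj a b _ (Subfield.subset_closure (Or.inl ⟨j, hj, a, b + 1, Or.inl rfl⟩))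
      (Subfield.subset_closure (Or.inl ⟨j, hj, a + 1, b, Or.inl rfl⟩))
  · exact key j hj a b _ (Subfield.subset_closure (Or.inl ⟨j, hj, a, b + 1, Or.inr rfl⟩))
      (Subfield.subset_closure (Or.inl ⟨j, hj, a + 1, b, Or.inr rfl⟩))
  · rw [fgl_dt_C]
    exact zero_mem _

/-- the shear `S_q` maps `KL F` into `KL (q + F)`. -/
theorem shear_mem_KL (F : Set ℤ) (q : ℤ) {x : LaurentSeries k} (hx : x ∈ Φ.KL F) :
    shear Φ.d q x ∈ Φ.KL ((fun j => q + j) '' F) := by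
  have h1 : (Φ.KL F).map (shear Φ.d q) ≤ Φ.KL ((fun j => q + j) '' F) := by
    rw [FGl0.KL, RingHom.map_field_closure]
    refine Subfield.closure_le.2 ?_
    rintro _ ⟨x, ⟨j, hj, a, b, rfl | rfl⟩ | ⟨c, hc, rfl⟩, rfl⟩
    · exact Subfield.subset_closure
        (Or.inl ⟨q + j, ⟨j, hj, rfl⟩, a, b, Or.inl (shear_shear Φ.d q j _)⟩)
    · exact Subfield.subset_closure
        (Or.inl ⟨q + j, ⟨j, hj, rfl⟩, a, b, Or.inr (shear_shear Φ.d q j _)⟩)
    · exact Subfield.subset_closure (Or.inr ⟨c, hc, fgl_shear_C Φ.d q c (Φ.K0_const c hc)⟩)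
  exact h1 (Subfield.mem_map.2 ⟨x, hx, rfl⟩)

theorem fgl_d_neg_one : Φ.d (((-1 : kˣ) : kˣ) : k) = 0 := by
  rw [Units.val_neg, Units.val_one, map_neg, Φ.d.map_one, neg_zero]

theorem fgl_rot_dt (G : LaurentSeries k) : rot (-1 : kˣ) (dt G) = -dt (rot (-1 : kˣ) G) := by
  rw [dt_rot, Units.val_neg, Units.val_one, map_neg, map_one]
  ring

theorem fgl_rot_Dy (G : LaurentSeries k) : rot (-1 : kˣ) (Φ.Dy G) = Φ.Dy (rot (-1 : kˣ) G) :=
  rot_dy Φ.d _ Φ.fgl_d_neg_one G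

theorem fgl_rot_iter_dt (b : ℕ) (G : LaurentSeries k) :
    rot (-1 : kˣ) ((dt^[b]) G) = (-1) ^ b * (dt^[b]) (rot (-1 : kˣ) G) := by
  induction b with
  | zero => simp
  | succ b ih =>
    rw [Function.iterate_succ_apply', Function.iterate_succ_apply', fgl_rot_dt, ih, dt.leibniz,
      dt.map_pow, map_neg, dt.map_one]
    ring

theorem fgl_rot_iter_Dy (a : ℕ) (G : LaurentSeries k) :
    rot (-1 : kˣ) ((Φ.Dy^[a]) G) = (Φ.Dy^[a]) (rot (-1 : kˣ) G) := by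
  induction a with
  | zero => rfl
  | succ a ih =>
    rw [Function.iterate_succ_apply', Function.iterate_succ_apply', fgl_rot_Dy, ih]

theorem fgl_iter_Dy_sign (a b : ℕ) (G : LaurentSeries k) :
    (Φ.Dy^[a]) ((-1) ^ b * G) = (-1) ^ b * (Φ.Dy^[a]) G := by
  induction a with
  | zero => rfl
  | succ a ih =>
    rw [Function.iterate_succ_apply', Function.iterate_succ_apply', ih, Φ.Dy.leibniz,
      Φ.Dy.map_pow, map_neg, Φ.Dy.map_one]
    ring

/-- `I : t ↦ -t` maps `KL F` into `KL (-F)`. -/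
theorem rot_mem_KL (F : Set ℤ) {x : LaurentSeries k} (hx : x ∈ Φ.KL F) :
    rot (-1 : kˣ) x ∈ Φ.KL ((fun j => -j) '' F) := by
  have key : ∀ (j : ℤ) (a b : ℕ) (G : LaurentSeries k), rot (-1 : kˣ) G = G →
      rot (-1 : kˣ) (shear Φ.d j ((Φ.Dy^[a]) ((dt^[b]) G))) =
        (-1) ^ b * shear Φ.d (-j) ((Φ.Dy^[a]) ((dt^[b]) G)) := by
    intro j a b G hG
    rw [rot_neg_one_shear, fgl_rot_iter_Dy, fgl_rot_iter_dt, hG, fgl_iter_Dy_sign, map_mul, map_pow,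
      map_neg, map_one]
  have h1 : (Φ.KL F).map (rot (-1 : kˣ)) ≤ Φ.KL ((fun j => -j) '' F) := by
    rw [FGl0.KL, RingHom.map_field_closure]
    refine Subfield.closure_le.2 ?_
    rintro _ ⟨x, ⟨j, hj, a, b, rfl | rfl⟩ | ⟨c, hc, rfl⟩, rfl⟩
    · rw [key j a b _ Φ.E0_even]
      exact mul_mem (pow_mem (neg_mem (one_mem _)) _)
        (Subfield.subset_closure (Or.inl ⟨-j, ⟨j, hj, rfl⟩, a, b, Or.inl rfl⟩))
    · rw [key j a b _ Φ.P0_even]
      exact mul_mem (pow_mem (neg_mem (one_mem _)) _)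
        (Subfield.subset_closure (Or.inl ⟨-j, ⟨j, hj, rfl⟩, a, b, Or.inr rfl⟩))
    · exact Subfield.subset_closure (Or.inr ⟨c, hc, fgl_rot_C _ c⟩)
  exact h1 (Subfield.mem_map.2 ⟨x, hx, rfl⟩)

theorem shear_E (q j : ℤ) : shear Φ.d q (Φ.E j) = Φ.E (q + j) := by
  exact shear_shear Φ.d q j Φ.E0

theorem shear_P (q j : ℤ) : shear Φ.d q (Φ.P j) = Φ.P (q + j) := by
  exact shear_shear Φ.d q j Φ.P0

theorem rot_E (j : ℤ) : rot (-1 : kˣ) (Φ.E j) = Φ.E (-j) := by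
  rw [FGl0.E, rot_neg_one_shear, Φ.E0_even]
  rfl

theorem rot_P (j : ℤ) : rot (-1 : kˣ) (Φ.P j) = Φ.P (-j) := by
  rw [FGl0.P, rot_neg_one_shear, Φ.P0_even]
  rfl

theorem E_zero : Φ.E 0 = Φ.E0 := by
  exact shear_zero Φ.d Φ.E0

theorem P_zero : Φ.P 0 = Φ.P0 := by
  exact shear_zero Φ.d Φ.P0

/-- the `E_j` are pairwise distinct (coefficient of `t`: `j (E⁰)'`). -/
theorem E_injective : Function.Injective Φ.E := by
  intro i j hij
  have h1 := congrArg (fun G : LaurentSeries k => G.coeff 1) hij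
  simp only [FGl0.E] at h1
  rw [shear_coeff_one Φ.d i Φ.E0 Φ.E0_nonneg, shear_coeff_one Φ.d j Φ.E0 Φ.E0_nonneg] at h1
  have h2 := mul_right_cancel₀ Φ.hE (add_left_cancel h1)
  exact_mod_cast h2

/-! ### expansions -/

theorem fgl_coeff_one_of_even (G : LaurentSeries k) (hG : rot (-1 : kˣ) G = G) : G.coeff 1 = 0 := by
  have h1 := congrArg (fun G : LaurentSeries k => G.coeff 1) hG
  simp only [rot_coeff, zpow_one, Units.val_neg, Units.val_one] at h1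
  have h2 : (2 : k) * G.coeff 1 = 0 := by linear_combination -h1
  exact (mul_eq_zero.1 h2).resolve_left two_ne_zero

omit [CharZero k] in
theorem fgl_one_le_orderTop_dt (G : LaurentSeries k) (h0 : 0 ≤ G.orderTop) (h1 : G.coeff 1 = 0) :
    1 ≤ (dt G).orderTop := by
  rw [HahnSeries.le_orderTop_iff_forall]
  intro j hj
  have hj' : j < 1 := by exact_mod_cast hj
  rw [dt_coeff]
  rcases lt_trichotomy j (-1) with h | h | h
  · rw [lau_coeff_of_orderTop_nonneg G h0 (j + 1) (by omega), mul_zero]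
  · subst h
    simp
  · have : j = 0 := by omega
    subst this
    rw [zero_add, h1, mul_zero]

theorem E0_coeff_one : Φ.E0.coeff 1 = 0 := by
  exact fgl_coeff_one_of_even Φ.E0 Φ.E0_even

theorem P0_coeff_one : Φ.P0.coeff 1 = 0 := by
  exact fgl_coeff_one_of_even Φ.P0 Φ.P0_even

/-- `ord ∂_t E0 ≥ 1`. -/
theorem one_le_orderTop_dt_E0 : 1 ≤ (dt Φ.E0).orderTop := by
  exact fgl_one_le_orderTop_dt Φ.E0 Φ.E0_nonneg Φ.E0_coeff_one

theorem one_le_orderTop_dt_P0 : 1 ≤ (dt Φ.P0).orderTop := by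
  exact fgl_one_le_orderTop_dt Φ.P0 Φ.P0_nonneg Φ.P0_coeff_one

omit [CharZero k] in
/-- quotient of two series of order `≥ 1`, the denominator of order exactly one. -/
theorem fgl_div_expansion (N D : LaurentSeries k) (hN : ∀ i < 1, N.coeff i = 0)
    (hD : ∀ i < 1, D.coeff i = 0) (hD1 : D.coeff 1 ≠ 0) :
    0 ≤ (N / D).orderTop ∧ (N / D).coeff 0 = N.coeff 1 / D.coeff 1 ∧
      (N / D).coeff 1 = (N.coeff 2 - N.coeff 1 / D.coeff 1 * D.coeff 2) / D.coeff 1 := by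
  have hD0 : D ≠ 0 := fun h => hD1 (by rw [h, HahnSeries.coeff_zero])
  obtain ⟨W, hW⟩ : ∃ W, W = N / D := ⟨_, rfl⟩
  rw [← hW]
  have hWD : W * D = N := by rw [hW, div_mul_cancel₀ _ hD0]
  have hDo : D.orderTop = 1 := by
    apply le_antisymm
    · exact HahnSeries.orderTop_le_of_coeff_ne_zero hD1
    · rw [HahnSeries.le_orderTop_iff_forall]
      intro j hj
      exact hD j (by exact_mod_cast hj)
  have hNo : 1 ≤ N.orderTop := by
    rw [HahnSeries.le_orderTop_iff_forall]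
    intro j hj
    exact hN j (by exact_mod_cast hj)
  have hWo : 0 ≤ W.orderTop := by
    rw [← hWD, HahnSeries.orderTop_mul, hDo] at hNo
    cases h : W.orderTop with
    | top => exact le_top
    | coe a =>
      rw [h] at hNo
      have h2 : ((1 : ℤ) : WithTop ℤ) ≤ ((a + 1 : ℤ) : WithTop ℤ) := by exact_mod_cast hNo
      have h3 : (1 : ℤ) ≤ a + 1 := WithTop.coe_le_coe.1 h2
      have h4 : (0 : ℤ) ≤ a := by omega
      exact_mod_cast h4
  have hW' := lau_coeff_of_orderTop_nonneg W hWo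
  have e1 : N.coeff 1 = W.coeff 0 * D.coeff 1 := by
    rw [← hWD, lau_coeff_mul W D 0 1 hW' hD]
    simp
  have e2 : N.coeff 2 = W.coeff 0 * D.coeff 2 + W.coeff 1 * D.coeff 1 := by
    rw [← hWD, lau_coeff_mul W D 0 1 hW' hD]
    have : Finset.Icc (0 : ℤ) (2 - 1) = {0, 1} := by decide
    rw [this, Finset.sum_pair (by norm_num)]
    norm_num
  have e3 : W.coeff 0 = N.coeff 1 / D.coeff 1 := by
    rw [e1]
    field_simp
  refine ⟨hWo, e3, ?_⟩
  rw [← e3, e2]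
  field_simp
  ring

/-- the expansion of `G - S_1 G` for an even power series `G`. -/
theorem fgl_sub_shear (d : Dv k) (G : LaurentSeries k) (h0 : 0 ≤ G.orderTop) (h1 : G.coeff 1 = 0) :
    (∀ i < 1, (G - shear d 1 G).coeff i = 0) ∧ (G - shear d 1 G).coeff 1 = -d (G.coeff 0) ∧
      (G - shear d 1 G).coeff 2 = -(d (d (G.coeff 0)) / 2) := by
  refine ⟨?_, ?_, ?_⟩
  · intro i hi
    rw [HahnSeries.coeff_sub]
    rcases lt_or_eq_of_le (show i ≤ 0 by omega) with h | h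
    · rw [lau_coeff_of_orderTop_nonneg G h0 i h,
        lau_coeff_of_orderTop_nonneg _ (by rw [shear_orderTop]; exact h0) i h, sub_zero]
    · rw [h, shear_coeff_zero d 1 G h0, sub_self]
  · rw [HahnSeries.coeff_sub, shear_coeff_one d 1 G h0, h1]
    simp
  · rw [HahnSeries.coeff_sub, shear_coeff_two d 1 G h0, h1]
    simp
    ring

/-- the three facts on `W_+` at once. -/
theorem fgl_Wp_expansion : 0 ≤ Φ.Wp.orderTop ∧ Φ.Wp.coeff 0 = Φ.WΓ ∧
    Φ.Wp.coeff 1 = Φ.d Φ.WΓ / 2 := by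
  obtain ⟨p1, p2, p3⟩ := fgl_sub_shear Φ.d Φ.P0 Φ.P0_nonneg Φ.P0_coeff_one
  obtain ⟨q1, q2, q3⟩ := fgl_sub_shear Φ.d Φ.E0 Φ.E0_nonneg Φ.E0_coeff_one
  have hc : ∀ (G : LaurentSeries k) (n : ℤ), (2 * G).coeff n = 2 * G.coeff n := by
    intro G n
    rw [two_mul, HahnSeries.coeff_add, two_mul]
  have hE := Φ.hE
  obtain ⟨r1, r2, r3⟩ := fgl_div_expansion (2 * (Φ.P0 - shear Φ.d 1 Φ.P0)) (Φ.E0 - shear Φ.d 1 Φ.E0)
    (fun i hi => by rw [hc, p1 i hi, mul_zero]) q1 (by rw [q2]; exact neg_ne_zero.2 hE)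
  rw [hc, hc, p2, p3, q2, q3] at r3
  rw [hc, p2, q2] at r2
  refine ⟨r1, ?_, ?_⟩
  · refine r2.trans ?_
    rw [FGl0.WΓ]
    field_simp
  · refine r3.trans ?_
    rw [FGl0.WΓ, Φ.d.map_div _ _ hE, Φ.d.leibniz]
    have h2 : Φ.d (2 : k) = 0 := by
      have := Φ.d.map_natCast 2
      exact_mod_cast this
    rw [h2]
    field_simp
    ring

theorem Wp_nonneg : 0 ≤ Φ.Wp.orderTop := by
  exact Φ.fgl_Wp_expansion.1

theorem Wp_coeff_zero : Φ.Wp.coeff 0 = Φ.WΓ := by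
  exact Φ.fgl_Wp_expansion.2.1

/-- `W_+ = W_Γ + (t/2) W_Γ' + O(t²)`. -/
theorem Wp_coeff_one : Φ.Wp.coeff 1 = Φ.d Φ.WΓ / 2 := by
  exact Φ.fgl_Wp_expansion.2.2

theorem rot_Wp : rot (-1 : kˣ) Φ.Wp = Φ.Wm := by
  rw [FGl0.Wp, FGl0.Wm, map_div₀, map_mul, map_sub, map_sub, Φ.rot_E, Φ.rot_P, Φ.E0_even, Φ.P0_even,
    map_ofNat]

theorem rot_Zp : rot (-1 : kˣ) Φ.Zp = Φ.Zm := by
  rw [FGl0.Zp, FGl0.Zm, map_sub, map_mul, map_mul, Φ.rot_Wp, Φ.E0_even, Φ.P0_even, map_ofNat]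

theorem Wm_nonneg : 0 ≤ Φ.Wm.orderTop := by
  rw [← Φ.rot_Wp, HahnSeries.le_orderTop_iff_forall]
  intro j hj
  rw [rot_coeff, HahnSeries.coeff_eq_zero_of_lt_orderTop (lt_of_lt_of_le hj Φ.Wp_nonneg), mul_zero]

theorem Wm_coeff_zero : Φ.Wm.coeff 0 = Φ.WΓ := by
  rw [← Φ.rot_Wp, rot_coeff, Φ.Wp_coeff_zero]
  simp

theorem Wm_coeff_one : Φ.Wm.coeff 1 = -(Φ.d Φ.WΓ / 2) := by
  rw [← Φ.rot_Wp, rot_coeff, Φ.Wp_coeff_one]
  simp

theorem Wp_ne_Wm : Φ.Wp ≠ Φ.Wm := by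
  intro h
  have h1 := congrArg (fun G : LaurentSeries k => G.coeff 1) h
  simp only [Φ.Wp_coeff_one, Φ.Wm_coeff_one] at h1
  apply Φ.hW
  linear_combination h1

theorem Dy_Wp_ne_zero : Φ.Dy Φ.Wp ≠ 0 := by
  intro h
  have h1 := congrArg (fun G : LaurentSeries k => G.coeff 0) h
  simp only [FGl0.Dy, dy_coeff, Φ.Wp_coeff_zero, HahnSeries.coeff_zero] at h1
  exact Φ.hW h1

theorem E0_ne_E_one : Φ.E0 ≠ Φ.E 1 := by
  intro h
  rw [← Φ.E_zero] at h
  exact zero_ne_one (Φ.E_injective h)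

theorem E0_ne_zero : Φ.E0 ≠ 0 := by
  intro h
  apply Φ.hE
  rw [h, HahnSeries.coeff_zero, map_zero]

/-- `X_+ ∈ L_1`. -/
theorem Zp_inc_one : Φ.Zp + Φ.E 1 * Φ.Wp = 2 * Φ.P 1 := by
  have h : Φ.E0 - Φ.E 1 ≠ 0 := sub_ne_zero.2 Φ.E0_ne_E_one
  rw [FGl0.Zp, FGl0.Wp]
  field_simp
  ring

/-- `W_-, Z_- ∈ KL F` as soon as `-1, 0 ∈ F`. -/
theorem Wm_mem_KL {F : Set ℤ} (h0 : (0 : ℤ) ∈ F) (h1 : (-1 : ℤ) ∈ F) : Φ.Wm ∈ Φ.KL F := by
  have hE0 : Φ.E0 ∈ Φ.KL F := by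
    rw [← Φ.E_zero]
    exact Φ.E_mem_KL h0
  have hP0 : Φ.P0 ∈ Φ.KL F := by
    rw [← Φ.P_zero]
    exact Φ.P_mem_KL h0
  exact div_mem (mul_mem (ofNat_mem _ 2) (sub_mem hP0 (Φ.P_mem_KL h1)))
    (sub_mem hE0 (Φ.E_mem_KL h1))

/-- rank one for `X_-`. -/
theorem rank_m : Φ.Dy Φ.Zm * dt Φ.Wm - dt Φ.Zm * Φ.Dy Φ.Wm = 0 := by
  have h := congrArg (rot (-1 : kˣ)) Φ.rank
  rw [map_zero, map_sub, map_mul, map_mul, fgl_rot_dt, fgl_rot_dt, Φ.fgl_rot_Dy, Φ.fgl_rot_Dy,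
    Φ.rot_Wp, Φ.rot_Zp] at h
  linear_combination -h

end FGl

end Claimed.Agent.R269
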