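/-
Row 269, P1 Section 4, unit 4F (lens theorems): the field of formal series in two variables.   Statements: helper36.
HOST-FREE (Mathlib + Lib/Dv + Lib/Lau).

  `SS`        `ℂ((y))((t))`
  `D1, D2`    `∂_y`, `∂_t`
  `DD δ`      a derivation `δ` of `ℂ` applied to every coefficient
  `cf x a b`  the coefficient of `y^a t^b`
  `IsPS x`    `x` is a power series;      `IsRe x`   all coefficients of `x` are real
  `Dv.cx δ`   the complexification of a derivation `δ` of `ℝ`

All proofs are coefficient computations (`HahnSeries.ext`, `Lau.dy_coeff`, `Lau.dt_coeff`, `HahnSeries.coeff_mul`).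
For products of power series use `cf_mul` below (first prove it; the sum over the antidiagonal comes from
`HahnSeries.coeff_mul` + vanishing of negative coefficients), or transport from `PowerSeries` with `HahnSeries.ofPowerSeries`.
The `sorry`s are replaced IN PLACE by the owner of the package (table subtask, target row269, LF-S4-ZT-a).
-/
import Claimed.Agent.R269.Lib.Lau

set_option autoImplicit false

namespace Claimed.Agent.R269

open HahnSeries

/-- formal Laurent series in `t` whose coefficients are formal Laurent series in `y`. -/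
abbrev SS := LaurentSeries (LaurentSeries ℂ)

/-- the complexification of a derivation of `ℝ`. -/
noncomputable def Dv.cx (δ : Dv ℝ) : Dv ℂ where
  toFun :=
    { toFun := fun z => ⟨δ z.re, δ z.im⟩
      map_zero' := by
        apply Complex.ext <;> simp
      map_add' := by
        intro a b
        apply Complex.ext <;> simp }
  leibniz' := by
    intro a b
    apply Complex.ext
    · show δ (a * b).re = (a * (⟨δ b.re, δ b.im⟩ : ℂ) + b * (⟨δ a.re, δ a.im⟩ : ℂ)).re
      simp only [Complex.mul_re, Complex.add_re, map_sub, Dv.leibniz]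
      ring
    · show δ (a * b).im = (a * (⟨δ b.re, δ b.im⟩ : ℂ) + b * (⟨δ a.re, δ a.im⟩ : ℂ)).im
      simp only [Complex.mul_im, Complex.add_im, map_add, Dv.leibniz]
      ring

theorem Dv.cx_re (δ : Dv ℝ) (z : ℂ) : (δ.cx z).re = δ z.re := rfl

theorem Dv.cx_im (δ : Dv ℝ) (z : ℂ) : (δ.cx z).im = δ z.im := rfl

theorem Dv.cx_ofReal (δ : Dv ℝ) (r : ℝ) : δ.cx (r : ℂ) = (δ r : ℝ) := by
  apply Complex.ext
  · rfl
  · show δ (0 : ℝ) = 0
    exact map_zero δ

theorem Dv.cx_conj (δ : Dv ℝ) (z : ℂ) : δ.cx ((starRingEnd ℂ) z) = (starRingEnd ℂ) (δ.cx z) := by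
  apply Complex.ext
  · rfl
  · show δ (-z.im) = -δ z.im
    exact map_neg δ _

/-- the real and imaginary parts of a derivation of `ℂ`, restricted to `ℝ`. -/
noncomputable def Dv.rePart (δ : Dv ℂ) : Dv ℝ where
  toFun :=
    { toFun := fun r => (δ (r : ℂ)).re
      map_zero' := by simp
      map_add' := by
        intro a b
        simp }
  leibniz' := by
    intro a b
    show (δ ((a * b : ℝ) : ℂ)).re = a * (δ (b : ℂ)).re + b * (δ (a : ℂ)).re
    rw [Complex.ofReal_mul, Dv.leibniz]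
    simp

noncomputable def Dv.imPart (δ : Dv ℂ) : Dv ℝ where
  toFun :=
    { toFun := fun r => (δ (r : ℂ)).im
      map_zero' := by simp
      map_add' := by
        intro a b
        simp }
  leibniz' := by
    intro a b
    show (δ ((a * b : ℝ) : ℂ)).im = a * (δ (b : ℂ)).im + b * (δ (a : ℂ)).im
    rw [Complex.ofReal_mul, Dv.leibniz]
    simp

/-- `δ = (Re δ)_ℂ + i (Im δ)_ℂ`  (uses `δ I = 0`, from `I * I = -1`). -/
theorem Dv.map_I (δ : Dv ℂ) : δ Complex.I = 0 := by
  have h1 : δ (Complex.I * Complex.I) = 0 := by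
    rw [Complex.I_mul_I, map_neg, δ.map_one, neg_zero]
  rw [δ.leibniz] at h1
  have h2 : (2 * Complex.I) * δ Complex.I = 0 := by linear_combination h1
  rcases mul_eq_zero.1 h2 with h | h
  · exact absurd h (mul_ne_zero two_ne_zero Complex.I_ne_zero)
  · exact h

theorem Dv.eq_cx_add (δ : Dv ℂ) (z : ℂ) : δ z = δ.rePart.cx z + Complex.I * δ.imPart.cx z := by
  have h1 : δ z = δ (z.re : ℂ) + Complex.I * δ (z.im : ℂ) := by
    conv_lhs => rw [← Complex.re_add_im z]
    rw [map_add, δ.leibniz, δ.map_I, mul_zero, zero_add]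
  rw [h1]
  apply Complex.ext
  · simp only [Complex.add_re, Complex.mul_re, Complex.I_re, Complex.I_im, zero_mul, one_mul,
      zero_sub, Dv.cx_re, Dv.cx_im]
    rfl
  · simp only [Complex.add_im, Complex.mul_im, Complex.I_re, Complex.I_im, zero_mul, one_mul,
      zero_add, Dv.cx_re, Dv.cx_im]
    show (δ (z.re : ℂ)).im + (δ (z.im : ℂ)).re = (δ (z.im : ℂ)).re + (δ (z.re : ℂ)).im
    ring

namespace ZT

/-- `∂_y`. -/
noncomputable def D1 : Dv SS := Lau.dy (Lau.dt (k := ℂ))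

/-- `∂_t`. -/
noncomputable def D2 : Dv SS := Lau.dt (k := LaurentSeries ℂ)

/-- `δ` applied to all coefficients. -/
noncomputable def DD (δ : Dv ℂ) : Dv SS := Lau.dy (Lau.dy δ)

/-- the coefficient of `y^a t^b`. -/
def cf (x : SS) (a b : ℤ) : ℂ := (x.coeff b).coeff a

/-- constants. -/
noncomputable def cst (c : ℂ) : SS := HahnSeries.C (HahnSeries.C c)

theorem ext_cf {x x' : SS} (h : ∀ a b, cf x a b = cf x' a b) : x = x' := by
  apply HahnSeries.ext
  funext b
  apply HahnSeries.ext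
  funext a
  exact h a b

theorem cf_add (x x' : SS) (a b : ℤ) : cf (x + x') a b = cf x a b + cf x' a b := by
  simp [cf]

theorem cf_neg (x : SS) (a b : ℤ) : cf (-x) a b = -cf x a b := by
  simp [cf]

theorem cf_sub (x x' : SS) (a b : ℤ) : cf (x - x') a b = cf x a b - cf x' a b := by
  simp [cf]

theorem cf_D1 (x : SS) (a b : ℤ) : cf (D1 x) a b = ((a : ℂ) + 1) * cf x (a + 1) b := by
  show ((Lau.dy (Lau.dt (k := ℂ)) x).coeff b).coeff a = _
  rw [Lau.dy_coeff, Lau.dt_coeff]
  rfl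

theorem cf_D2 (x : SS) (a b : ℤ) : cf (D2 x) a b = ((b : ℂ) + 1) * cf x a (b + 1) := by
  show ((Lau.dt (k := LaurentSeries ℂ) x).coeff b).coeff a = _
  rw [Lau.dt_coeff]
  have h1 : ((b : LaurentSeries ℂ) + 1) = ((b + 1 : ℤ) : LaurentSeries ℂ) := by push_cast; rfl
  rw [h1, Lau.lau_intCast_mul_coeff]
  push_cast
  rfl

theorem cf_DD (δ : Dv ℂ) (x : SS) (a b : ℤ) : cf (DD δ x) a b = δ (cf x a b) := rfl

theorem cf_cst (c : ℂ) (a b : ℤ) : cf (cst c) a b = if a = 0 ∧ b = 0 then c else 0 := by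
  show ((HahnSeries.C (HahnSeries.C c) : SS).coeff b).coeff a = _
  rw [HahnSeries.C_apply, HahnSeries.coeff_single]
  by_cases hb : b = 0
  · rw [if_pos hb, HahnSeries.C_apply, HahnSeries.coeff_single]
    by_cases ha : a = 0
    · rw [if_pos ha, if_pos ⟨ha, hb⟩]
    · rw [if_neg ha, if_neg (fun h => ha h.1)]
  · rw [if_neg hb, if_neg (fun h => hb h.2)]
    rfl

theorem cst_add (c c' : ℂ) : cst (c + c') = cst c + cst c' := by
  simp [cst]

theorem cst_mul (c c' : ℂ) : cst (c * c') = cst c * cst c' := by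
  simp [cst]

theorem cst_one : cst 1 = 1 := by
  simp [cst]

theorem cst_zero : cst 0 = 0 := by
  simp [cst]

theorem cst_natCast (n : ℕ) : cst (n : ℂ) = (n : SS) := by
  simp [cst]

theorem cf_cst_mul (c : ℂ) (x : SS) (a b : ℤ) : cf (cst c * x) a b = c * cf x a b := by
  show ((HahnSeries.C (HahnSeries.C c) * x : SS).coeff b).coeff a = _
  rw [HahnSeries.C_mul_eq_smul, HahnSeries.coeff_smul, smul_eq_mul, HahnSeries.C_mul_eq_smul,
    HahnSeries.coeff_smul, smul_eq_mul]
  rfl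

theorem D1_D2 (x : SS) : D1 (D2 x) = D2 (D1 x) :=
  Lau.dy_dt_comm _ x

theorem dv_intCast_add_one (δ : Dv ℂ) (a : ℤ) : δ ((a : ℂ) + 1) = 0 := by
  rw [map_add, δ.map_intCast, δ.map_one, add_zero]

theorem DD_D1 (δ : Dv ℂ) (x : SS) : DD δ (D1 x) = D1 (DD δ x) := by
  apply ext_cf
  intro a b
  rw [cf_DD, cf_D1, cf_D1, cf_DD, δ.leibniz, dv_intCast_add_one, mul_zero, add_zero]

theorem DD_D2 (δ : Dv ℂ) (x : SS) : DD δ (D2 x) = D2 (DD δ x) := by
  apply ext_cf
  intro a b
  rw [cf_DD, cf_D2, cf_D2, cf_DD, δ.leibniz, dv_intCast_add_one, mul_zero, add_zero]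

/-- the constants of `(D1, D2)`. -/
theorem eq_cst_of_D1_D2 (x : SS) (h1 : D1 x = 0) (h2 : D2 x = 0) : x = cst (cf x 0 0) := by
  have hz : ∀ a b : ℤ, cf (0 : SS) a b = 0 := fun a b => by simp [cf]
  have ha : ∀ a b : ℤ, a ≠ 0 → cf x a b = 0 := by
    intro a b ha
    have h3 := cf_D1 x (a - 1) b
    rw [h1, hz, sub_add_cancel] at h3
    have h4 : (((a - 1 : ℤ) : ℂ) + 1) ≠ 0 := by
      push_cast
      rw [sub_add_cancel]
      exact_mod_cast ha
    exact (mul_eq_zero.1 h3.symm).resolve_left h4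
  have hb : ∀ a b : ℤ, b ≠ 0 → cf x a b = 0 := by
    intro a b hb
    have h3 := cf_D2 x a (b - 1)
    rw [h2, hz, sub_add_cancel] at h3
    have h4 : (((b - 1 : ℤ) : ℂ) + 1) ≠ 0 := by
      push_cast
      rw [sub_add_cancel]
      exact_mod_cast hb
    exact (mul_eq_zero.1 h3.symm).resolve_left h4
  apply ext_cf
  intro a b
  rw [cf_cst]
  by_cases h : a = 0 ∧ b = 0
  · rw [if_pos h, h.1, h.2]
  · rw [if_neg h]
    by_cases ha0 : a = 0
    · exact hb a b fun hb0 => h ⟨ha0, hb0⟩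
    · exact ha a b ha0

/-! ### power series -/

/-- `x` is a power series in `(y,t)`. -/
def IsPS (x : SS) : Prop := ∀ a b : ℤ, (a < 0 ∨ b < 0) → cf x a b = 0

theorem IsPS.zero : IsPS 0 := by
  intro a b _
  simp [cf]

theorem IsPS.cst (c : ℂ) : IsPS (cst c) := by
  intro a b hab
  rw [cf_cst, if_neg]
  rintro ⟨rfl, rfl⟩
  rcases hab with h | h <;> exact lt_irrefl _ h

theorem IsPS.one : IsPS 1 := by
  rw [← cst_one]
  exact IsPS.cst 1

theorem IsPS.natCast (n : ℕ) : IsPS (n : SS) := by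
  rw [← cst_natCast]
  exact IsPS.cst _

theorem IsPS.add {x x' : SS} (h : IsPS x) (h' : IsPS x') : IsPS (x + x') := by
  intro a b hab
  rw [cf_add, h a b hab, h' a b hab, add_zero]

theorem IsPS.neg {x : SS} (h : IsPS x) : IsPS (-x) := by
  intro a b hab
  rw [cf_neg, h a b hab, neg_zero]

theorem IsPS.sub {x x' : SS} (h : IsPS x) (h' : IsPS x') : IsPS (x - x') := by
  intro a b hab
  rw [cf_sub, h a b hab, h' a b hab, sub_zero]

theorem IsPS.coeff_neg {x : SS} (h : IsPS x) : ∀ j < 0, x.coeff j = 0 := by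
  intro j hj
  apply HahnSeries.ext
  funext a
  exact h a j (Or.inr hj)

theorem IsPS.coeff_coeff_neg {x : SS} (h : IsPS x) (b : ℤ) : ∀ i < 0, (x.coeff b).coeff i = 0 :=
  fun i hi => h i b (Or.inl hi)

/-- Cauchy product of two series without negative exponents. -/
theorem lau_coeff_mul_nat {k : Type*} [Field k] (F G : LaurentSeries k)
    (hF : ∀ i < 0, F.coeff i = 0) (hG : ∀ i < 0, G.coeff i = 0) (n : ℕ) :
    (F * G).coeff (n : ℤ) = ∑ p ∈ Finset.HasAntidiagonal.antidiagonal n,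
      F.coeff (p.1 : ℤ) * G.coeff (p.2 : ℤ) := by
  rw [Lau.lau_coeff_mul F G 0 0 hF hG, Finset.Nat.sum_antidiagonal_eq_sum_range_succ_mk, sub_zero]
  refine Finset.sum_nbij' (fun i => i.toNat) (fun k => (k : ℤ)) ?_ ?_ ?_ ?_ ?_
  · intro i hi
    rw [Finset.mem_Icc] at hi
    rw [Finset.mem_range]
    omega
  · intro k hk
    rw [Finset.mem_range] at hk
    rw [Finset.mem_Icc]
    omega
  · intro i hi
    rw [Finset.mem_Icc] at hi
    exact Int.toNat_of_nonneg hi.1
  · intro k _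
    exact Int.toNat_natCast k
  · intro i hi
    rw [Finset.mem_Icc] at hi
    have h1 : ((i.toNat : ℕ) : ℤ) = i := Int.toNat_of_nonneg hi.1
    have h2 : ((n - i.toNat : ℕ) : ℤ) = (n : ℤ) - i := by omega
    simp only [h1, h2]

/-- Cauchy product. -/
theorem cf_mul {x x' : SS} (h : IsPS x) (h' : IsPS x') (a b : ℕ) :
    cf (x * x') a b = ∑ i ∈ Finset.HasAntidiagonal.antidiagonal a, ∑ j ∈ Finset.HasAntidiagonal.antidiagonal b,
      cf x (i.1 : ℤ) (j.1 : ℤ) * cf x' (i.2 : ℤ) (j.2 : ℤ) := by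
  show ((x * x').coeff (b : ℤ)).coeff (a : ℤ) = _
  rw [lau_coeff_mul_nat _ _ h.coeff_neg h'.coeff_neg, HahnSeries.coeff_sum, Finset.sum_comm]
  refine Finset.sum_congr rfl fun j _ => ?_
  rw [lau_coeff_mul_nat _ _ (h.coeff_coeff_neg _) (h'.coeff_coeff_neg _)]
  rfl

theorem IsPS.mul {x x' : SS} (h : IsPS x) (h' : IsPS x') : IsPS (x * x') := by
  intro a b hab
  show ((x * x').coeff b).coeff a = 0
  by_cases hb : b < 0
  · rw [Lau.lau_mul_nonneg _ _ h.coeff_neg h'.coeff_neg b hb]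
    rfl
  · have ha : a < 0 := hab.resolve_right hb
    rw [Lau.lau_coeff_mul _ _ 0 0 h.coeff_neg h'.coeff_neg, HahnSeries.coeff_sum]
    refine Finset.sum_eq_zero fun j _ => ?_
    exact Lau.lau_mul_nonneg _ _ (h.coeff_coeff_neg _) (h'.coeff_coeff_neg _) a ha

theorem IsPS.pow {x : SS} (h : IsPS x) (n : ℕ) : IsPS (x ^ n) := by
  induction n with
  | zero => rw [pow_zero]; exact IsPS.one
  | succ n ih => rw [pow_succ]; exact ih.mul h

theorem cf_sum {ι : Type*} (s : Finset ι) (f : ι → SS) (a b : ℤ) :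
    cf (∑ i ∈ s, f i) a b = ∑ i ∈ s, cf (f i) a b := by
  show ((∑ i ∈ s, f i).coeff b).coeff a = _
  rw [HahnSeries.coeff_sum, HahnSeries.coeff_sum]
  rfl

theorem IsPS.sum {ι : Type*} (s : Finset ι) (f : ι → SS) (h : ∀ i ∈ s, IsPS (f i)) : IsPS (∑ i ∈ s, f i) := by
  intro a b hab
  rw [cf_sum]
  exact Finset.sum_eq_zero fun i hi => h i hi a b hab

theorem cst_inv (c : ℂ) : cst c⁻¹ = (cst c)⁻¹ := by
  simp [cst]

theorem div_natCast_eq (x : SS) (n : ℕ) : x / (n : SS) = cst ((n : ℂ)⁻¹) * x := by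
  rw [cst_inv, cst_natCast, div_eq_mul_inv]
  exact mul_comm x ((n : SS)⁻¹)

/-- division by a nonzero natural number. -/
theorem IsPS.div_natCast {x : SS} (h : IsPS x) (n : ℕ) : IsPS (x / (n : SS)) := by
  rw [div_natCast_eq]
  exact (IsPS.cst _).mul h

theorem IsPS.D1 {x : SS} (h : IsPS x) : IsPS (D1 x) := by
  intro a b hab
  rw [cf_D1]
  by_cases ha : a = -1
  · subst ha
    simp
  · rw [h (a + 1) b (by omega), mul_zero]

theorem IsPS.D2 {x : SS} (h : IsPS x) : IsPS (D2 x) := by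
  intro a b hab
  rw [cf_D2]
  by_cases hb : b = -1
  · subst hb
    simp
  · rw [h a (b + 1) (by omega), mul_zero]

theorem IsPS.DD (δ : Dv ℂ) {x : SS} (h : IsPS x) : IsPS (DD δ x) := by
  intro a b hab
  rw [cf_DD, h a b hab, map_zero]

theorem cf_mul_zero {x x' : SS} (h : IsPS x) (h' : IsPS x') : cf (x * x') 0 0 = cf x 0 0 * cf x' 0 0 := by
  show ((x * x').coeff 0).coeff 0 = _
  rw [Lau.lau_mul_coeff_zero _ _ h.coeff_neg h'.coeff_neg,
    Lau.lau_mul_coeff_zero _ _ (h.coeff_coeff_neg _) (h'.coeff_coeff_neg _)]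
  rfl

/-- restriction to `t = 0`: `x.coeff 0`. -/
theorem coeff_zero_mul {x x' : SS} (h : IsPS x) (h' : IsPS x') :
    (x * x').coeff 0 = x.coeff 0 * x'.coeff 0 :=
  Lau.lau_mul_coeff_zero _ _ h.coeff_neg h'.coeff_neg

theorem coeff_zero_D1 (x : SS) : (D1 x).coeff 0 = Lau.dt (x.coeff 0) := rfl

theorem coeff_orderTop_nonneg {x : SS} (h : IsPS x) (b : ℤ) : 0 ≤ (x.coeff b).orderTop := by
  rw [HahnSeries.le_orderTop_iff_forall]
  intro j hj
  exact h.coeff_coeff_neg b j (by exact_mod_cast hj)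

/-- a power series with nonzero constant term is nonzero. -/
theorem ne_zero_of_cf {x : SS} (h : cf x 0 0 ≠ 0) : x ≠ 0 := by
  intro h0
  apply h
  rw [h0]
  simp [cf]

/-! ### real series -/

/-- all coefficients are real. -/
def IsRe (x : SS) : Prop := ∀ a b : ℤ, (cf x a b).im = 0

theorem IsRe.zero : IsRe 0 := by
  intro a b
  simp [cf]

theorem IsRe.cst {c : ℂ} (hc : c.im = 0) : IsRe (cst c) := by
  intro a b
  rw [cf_cst]
  split_ifs
  · exact hc
  · rfl

theorem IsRe.one : IsRe 1 := by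
  rw [← cst_one]
  exact IsRe.cst rfl

theorem IsRe.natCast (n : ℕ) : IsRe (n : SS) := by
  rw [← cst_natCast]
  exact IsRe.cst (Complex.natCast_im n)

theorem IsRe.add {x x' : SS} (h : IsRe x) (h' : IsRe x') : IsRe (x + x') := by
  intro a b
  rw [cf_add, Complex.add_im, h a b, h' a b, add_zero]

theorem IsRe.neg {x : SS} (h : IsRe x) : IsRe (-x) := by
  intro a b
  rw [cf_neg, Complex.neg_im, h a b, neg_zero]

theorem IsRe.sub {x x' : SS} (h : IsRe x) (h' : IsRe x') : IsRe (x - x') := by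
  intro a b
  rw [cf_sub, Complex.sub_im, h a b, h' a b, sub_zero]

/-- (only for power series, where `cf_mul` is available). -/
theorem IsRe.mul {x x' : SS} (hp : IsPS x) (hp' : IsPS x') (h : IsRe x) (h' : IsRe x') : IsRe (x * x') := by
  intro a b
  by_cases hab : a < 0 ∨ b < 0
  · rw [hp.mul hp' a b hab]
    rfl
  · rw [not_or, not_lt, not_lt] at hab
    obtain ⟨a', rfl⟩ := Int.eq_ofNat_of_zero_le hab.1
    obtain ⟨b', rfl⟩ := Int.eq_ofNat_of_zero_le hab.2
    rw [cf_mul hp hp', Complex.im_sum]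
    refine Finset.sum_eq_zero fun i _ => ?_
    rw [Complex.im_sum]
    refine Finset.sum_eq_zero fun j _ => ?_
    rw [Complex.mul_im, h, h', mul_zero, zero_mul, add_zero]

theorem IsRe.sum {ι : Type*} (s : Finset ι) (f : ι → SS) (h : ∀ i ∈ s, IsRe (f i)) : IsRe (∑ i ∈ s, f i) := by
  intro a b
  rw [cf_sum, Complex.im_sum]
  exact Finset.sum_eq_zero fun i hi => h i hi a b

theorem IsRe.div_natCast {x : SS} (h : IsRe x) (n : ℕ) : IsRe (x / (n : SS)) := by
  intro a b
  rw [div_natCast_eq, cf_cst_mul, Complex.mul_im, h a b, mul_zero, zero_add]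
  have : ((n : ℂ)⁻¹).im = 0 := by
    rw [Complex.inv_im, Complex.natCast_im, neg_zero, zero_div]
  rw [this, zero_mul]

theorem IsRe.D1 {x : SS} (h : IsRe x) : IsRe (D1 x) := by
  intro a b
  rw [cf_D1, Complex.mul_im, h, mul_zero, zero_add]
  simp

theorem IsRe.D2 {x : SS} (h : IsRe x) : IsRe (D2 x) := by
  intro a b
  rw [cf_D2, Complex.mul_im, h, mul_zero, zero_add]
  simp

theorem IsRe.DD (δ : Dv ℝ) {x : SS} (h : IsRe x) : IsRe (DD δ.cx x) := by
  intro a b
  rw [cf_DD, Dv.cx_im, h a b, map_zero]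

end ZT

end Claimed.Agent.R269
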