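/-
Row 269, P1 Section 4, unit 4F (lens theorems): Taylor expansion at an arbitrary point `z ∈ ℂ²`.   Statements: helper36; proofs: helper270.
This file contains the DEFINITIONS and ALL PROOFS of package LF-S4-ZT-b (`S4/ZTayB.lean` re-exports it), so that `S4/EmbedA.lean` can use them too.

  `ztay1 y₀ f`   Taylor series at `y₀` of a function of one variable, in `ℂ((y))`
  `ztay z u`     Taylor series at `z` of a function of two variables, in `SS = ℂ((y))((t))`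

`ztay z` is an injective differential ring homomorphism on germs of analytic functions at `z`.
METHOD for all algebraic identities (`ztay_add`, `ztay_mul`, reality, ...): a power series is determined by its constant term and its derivatives, so
an identity between Taylor series follows by induction on the total degree of the coefficient, simultaneously for all germs.
-/
import Claimed.Agent.R269.S4.ZTayA
import Claimed.Agent.R269.Lib.PdBasic

set_option autoImplicit false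

namespace Claimed.Agent.R269

open HahnSeries Filter Topology

namespace ZT

/-- Taylor series at `y₀` of a function of one variable. -/
noncomputable def ztay1 (y₀ : ℂ) (f : ℂ → ℂ) : LaurentSeries ℂ :=
  ((PowerSeries.mk fun m => iteratedDeriv m f y₀ / (m.factorial : ℂ) : PowerSeries ℂ) : LaurentSeries ℂ)

/-- Taylor series at `z`. -/
noncomputable def ztay (z : ℂ × ℂ) (u : ℂ × ℂ → ℂ) : SS :=
  HahnSeries.ofPowerSeries ℤ (LaurentSeries ℂ)
    (PowerSeries.mk fun n => ztay1 z.1 (fun y => pd 0 n u (y, z.2) / (n.factorial : ℂ)))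

/-! ### one variable -/

theorem coeff_ofPS {R : Type*} [Semiring R] (g : ℕ → R) (m : ℕ) :
    (HahnSeries.ofPowerSeries ℤ R (PowerSeries.mk g)).coeff (m : ℤ) = g m := by
  have h := HahnSeries.ofPowerSeries_apply_coeff (Γ := ℤ) (PowerSeries.mk g) m
  rw [PowerSeries.coeff_mk] at h
  exact_mod_cast h

theorem coeff_ofPS_neg {R : Type*} [Semiring R] (g : ℕ → R) (m : ℤ) (hm : m < 0) :
    (HahnSeries.ofPowerSeries ℤ R (PowerSeries.mk g)).coeff m = 0 := by
  have h := PowerSeries.coeff_coe (PowerSeries.mk g) m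
  rw [if_pos hm] at h
  exact h

theorem ztay1_coeff (y₀ : ℂ) (f : ℂ → ℂ) (m : ℕ) :
    (ztay1 y₀ f).coeff (m : ℤ) = iteratedDeriv m f y₀ / (m.factorial : ℂ) :=
  coeff_ofPS _ m

theorem ztay1_coeff_neg (y₀ : ℂ) (f : ℂ → ℂ) (m : ℤ) (hm : m < 0) : (ztay1 y₀ f).coeff m = 0 :=
  coeff_ofPS_neg _ m hm

theorem ztay1_nonneg (y₀ : ℂ) (f : ℂ → ℂ) : 0 ≤ (ztay1 y₀ f).orderTop := by
  rw [HahnSeries.le_orderTop_iff_forall]
  intro j hj
  exact ztay1_coeff_neg y₀ f j (by exact_mod_cast hj)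

/-- two series without negative exponents are equal if their coefficients with natural index agree. -/
theorem ext_nat {R : Type*} [Zero R] {F G : HahnSeries ℤ R} (hF : ∀ i < 0, F.coeff i = 0)
    (hG : ∀ i < 0, G.coeff i = 0) (h : ∀ m : ℕ, F.coeff (m : ℤ) = G.coeff (m : ℤ)) : F = G := by
  ext i
  rcases lt_or_ge i 0 with hi | hi
  · rw [hF i hi, hG i hi]
  · obtain ⟨m, rfl⟩ := Int.eq_ofNat_of_zero_le hi
    exact h m

theorem ztay1_ext {y₀ : ℂ} {f : ℂ → ℂ} {G : LaurentSeries ℂ} (hG : ∀ i < 0, G.coeff i = 0)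
    (h : ∀ m : ℕ, (ztay1 y₀ f).coeff (m : ℤ) = G.coeff (m : ℤ)) : ztay1 y₀ f = G :=
  ext_nat (ztay1_coeff_neg y₀ f) hG h

theorem ztay1_congr {y₀ : ℂ} {f g : ℂ → ℂ} (h : f =ᶠ[𝓝 y₀] g) : ztay1 y₀ f = ztay1 y₀ g := by
  refine ztay1_ext (ztay1_coeff_neg y₀ g) fun m => ?_
  rw [ztay1_coeff, ztay1_coeff, (h.iteratedDeriv m).self_of_nhds]

theorem ztay1_const (y₀ c : ℂ) : ztay1 y₀ (fun _ => c) = HahnSeries.C c := by
  refine ztay1_ext ?_ fun m => ?_
  · intro i hi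
    rw [HahnSeries.C_apply, HahnSeries.coeff_single_of_ne hi.ne]
  · rw [ztay1_coeff, iteratedDeriv_const, HahnSeries.C_apply, HahnSeries.coeff_single]
    by_cases hm : m = 0
    · subst hm
      simp
    · rw [if_neg hm, if_neg (by exact_mod_cast hm), zero_div]

theorem ztay1_add {y₀ : ℂ} {f g : ℂ → ℂ} (hf : AnalyticAt ℂ f y₀) (hg : AnalyticAt ℂ g y₀) :
    ztay1 y₀ (fun y => f y + g y) = ztay1 y₀ f + ztay1 y₀ g := by
  refine ztay1_ext ?_ fun m => ?_
  · intro i hi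
    rw [HahnSeries.coeff_add, ztay1_coeff_neg _ _ _ hi, ztay1_coeff_neg _ _ _ hi, add_zero]
  · rw [HahnSeries.coeff_add, ztay1_coeff, ztay1_coeff, ztay1_coeff,
      iteratedDeriv_fun_add hf.contDiffAt hg.contDiffAt, add_div]

theorem ztay1_deriv (y₀ : ℂ) (f : ℂ → ℂ) : ztay1 y₀ (deriv f) = Lau.dt (ztay1 y₀ f) := by
  refine ztay1_ext ?_ fun m => ?_
  · intro i hi
    rw [Lau.dt_coeff]
    by_cases h : i = -1
    · subst h
      simp
    · rw [ztay1_coeff_neg _ _ _ (by omega), mul_zero]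
  · rw [Lau.dt_coeff, ztay1_coeff]
    have h1 : ((m : ℤ) + 1) = ((m + 1 : ℕ) : ℤ) := by push_cast; rfl
    rw [h1, ztay1_coeff, iteratedDeriv_succ', Nat.factorial_succ]
    have h2 : (m.factorial : ℂ) ≠ 0 := by exact_mod_cast m.factorial_ne_zero
    have h3 : ((m : ℂ) + 1) ≠ 0 := by exact_mod_cast Nat.succ_ne_zero m
    push_cast
    field_simp

theorem ztay1_coeff_zero (y₀ : ℂ) (f : ℂ → ℂ) : (ztay1 y₀ f).coeff 0 = f y₀ := by
  have h := ztay1_coeff y₀ f 0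
  simpa using h

/-- coefficient recursion: `(m+1) F_{m+1} = (F')_m`. -/
theorem coeff_succ_eq {F G : LaurentSeries ℂ} {m : ℕ}
    (h : (Lau.dt F).coeff (m : ℤ) = (Lau.dt G).coeff (m : ℤ)) :
    F.coeff ((m + 1 : ℕ) : ℤ) = G.coeff ((m + 1 : ℕ) : ℤ) := by
  rw [Lau.dt_coeff, Lau.dt_coeff] at h
  have h3 : (((m : ℤ) : ℂ) + 1) ≠ 0 := by
    have : ((m : ℂ) + 1) ≠ 0 := by exact_mod_cast Nat.succ_ne_zero m
    simpa using this
  have h4 := mul_left_cancel₀ h3 h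
  have h1 : ((m : ℤ) + 1) = ((m + 1 : ℕ) : ℤ) := by push_cast; rfl
  rwa [h1] at h4

theorem ztay1_mul {y₀ : ℂ} {f g : ℂ → ℂ} (hf : AnalyticAt ℂ f y₀) (hg : AnalyticAt ℂ g y₀) :
    ztay1 y₀ (fun y => f y * g y) = ztay1 y₀ f * ztay1 y₀ g := by
  refine ztay1_ext (Lau.lau_mul_nonneg _ _ (ztay1_coeff_neg _ _) (ztay1_coeff_neg _ _)) fun m => ?_
  induction m generalizing f g with
  | zero =>
    simp only [Nat.cast_zero]
    rw [Lau.lau_mul_coeff_zero _ _ (ztay1_coeff_neg _ _) (ztay1_coeff_neg _ _), ztay1_coeff_zero,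
      ztay1_coeff_zero, ztay1_coeff_zero]
  | succ m ih =>
    apply coeff_succ_eq
    have h1 : deriv (fun y => f y * g y) =ᶠ[𝓝 y₀] fun y => deriv f y * g y + f y * deriv g y := by
      filter_upwards [hf.eventually_analyticAt, hg.eventually_analyticAt] with y h1 h2
      exact deriv_fun_mul h1.differentiableAt h2.differentiableAt
    rw [← ztay1_deriv, ztay1_congr h1, ztay1_add (f := fun y => deriv f y * g y)
      (g := fun y => f y * deriv g y) (hf.deriv.mul hg) (hf.mul hg.deriv),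
      HahnSeries.coeff_add, ih hf.deriv hg, ih hf hg.deriv, (Lau.dt (k := ℂ)).leibniz,
      HahnSeries.coeff_add, ztay1_deriv, ztay1_deriv, add_comm,
      mul_comm (ztay1 y₀ g) (Lau.dt (ztay1 y₀ f))]

theorem ztay1_sum {ι : Type*} (s : Finset ι) {y₀ : ℂ} {f : ι → ℂ → ℂ} (hf : ∀ i ∈ s, AnalyticAt ℂ (f i) y₀) :
    ztay1 y₀ (fun y => ∑ i ∈ s, f i y) = ∑ i ∈ s, ztay1 y₀ (f i) := by
  classical
  induction s using Finset.induction_on with
  | empty =>
    simp only [Finset.sum_empty]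
    rw [ztay1_const, map_zero]
  | insert i s hi ih =>
    simp only [Finset.sum_insert hi]
    rw [ztay1_add (hf i (Finset.mem_insert_self i s))
      (Finset.analyticAt_fun_sum _ fun j hj => hf j (Finset.mem_insert_of_mem hj)),
      ih fun j hj => hf j (Finset.mem_insert_of_mem hj)]

theorem ztay1_eq_zero_iff {y₀ : ℂ} {f : ℂ → ℂ} (hf : AnalyticAt ℂ f y₀) :
    ztay1 y₀ f = 0 ↔ ∀ᶠ y in 𝓝 y₀, f y = 0 := by
  constructor
  · intro h
    have h1 : ∀ m : ℕ, iteratedDeriv m f y₀ / (m.factorial : ℂ) = 0 := by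
      intro m
      rw [← ztay1_coeff, h]
      rfl
    have h2 := hf.hasFPowerSeriesAt
    have h3 : (fun n : ℕ => iteratedDeriv n f y₀ / (n.factorial : ℂ)) = 0 := funext h1
    rw [h3] at h2
    have h4 : FormalMultilinearSeries.ofScalars ℂ (0 : ℕ → ℂ) = 0 := by
      ext n
      simp [FormalMultilinearSeries.ofScalars]
    rw [h4] at h2
    exact h2.eventually_eq_zero
  · intro h
    have h1 : f =ᶠ[𝓝 y₀] fun _ => 0 := h
    rw [ztay1_congr h1, ztay1_const, map_zero]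

theorem ztay1_neg {y₀ : ℂ} {f : ℂ → ℂ} (hf : AnalyticAt ℂ f y₀) :
    ztay1 y₀ (fun y => -f y) = -ztay1 y₀ f := by
  have h1 := ztay1_add hf hf.neg
  have h2 : (fun y => f y + (-f) y) = fun _ => (0 : ℂ) := by
    funext y
    simp
  rw [h2, ztay1_const, map_zero] at h1
  exact (neg_eq_of_add_eq_zero_right h1.symm).symm

theorem ztay1_eq_iff {y₀ : ℂ} {f g : ℂ → ℂ} (hf : AnalyticAt ℂ f y₀) (hg : AnalyticAt ℂ g y₀) :
    ztay1 y₀ f = ztay1 y₀ g ↔ f =ᶠ[𝓝 y₀] g := by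
  constructor
  · intro h
    have h1 : ztay1 y₀ (fun y => f y + (-g y)) = 0 := by
      rw [ztay1_add (g := fun y => -g y) hf hg.neg, ztay1_neg hg, h, add_neg_cancel]
    filter_upwards [(ztay1_eq_zero_iff (hf.add hg.neg)).1 h1] with y hy
    exact add_neg_eq_zero.1 hy
  · exact ztay1_congr

/-! ### partial derivatives -/

theorem pdy_iterate_eq (v : ℂ × ℂ → ℂ) (a : ℕ) (y t : ℂ) :
    (pdy^[a]) v (y, t) = iteratedDeriv a (fun y' => v (y', t)) y := by
  induction a generalizing y with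
  | zero => rfl
  | succ a ih =>
    rw [Function.iterate_succ_apply', iteratedDeriv_succ]
    show deriv (fun y' => (pdy^[a]) v (y', t)) y = _
    congr 1
    funext y'
    exact ih y'

theorem pdt_iterate_eq (v : ℂ × ℂ → ℂ) (b : ℕ) (y t : ℂ) :
    (pdt^[b]) v (y, t) = iteratedDeriv b (fun t' => v (y, t')) t := by
  induction b generalizing t with
  | zero => rfl
  | succ b ih =>
    rw [Function.iterate_succ_apply', iteratedDeriv_succ]
    show deriv (fun t' => (pdt^[b]) v (y, t')) t = _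
    congr 1
    funext t'
    exact ih t'

theorem iteratedDeriv_div_const_fun (f : ℂ → ℂ) (c : ℂ) (a : ℕ) :
    iteratedDeriv a (fun y => f y / c) = fun y => iteratedDeriv a f y / c := by
  induction a with
  | zero => rfl
  | succ a ih =>
    rw [iteratedDeriv_succ, ih, iteratedDeriv_succ]
    funext y
    exact deriv_div_const _

theorem pd_succ_snd (a b : ℕ) (u : ℂ × ℂ → ℂ) : pd a b (pdt u) = pd a (b + 1) u := rfl

theorem fderiv_fderiv_apply {u : ℂ × ℂ → ℂ} {z : ℂ × ℂ} (hu : AnalyticAt ℂ u z) (v w : ℂ × ℂ) :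
    fderiv ℂ (fun x => fderiv ℂ u x v) z w = fderiv ℂ (fderiv ℂ u) z w v := by
  have h : HasFDerivAt (fderiv ℂ u) (fderiv ℂ (fderiv ℂ u) z) z :=
    hu.fderiv.differentiableAt.hasFDerivAt
  have h2 := (ContinuousLinearMap.apply ℂ ℂ v).hasFDerivAt.comp z h
  have h3 : fderiv ℂ (fun x => fderiv ℂ u x v) z
      = (ContinuousLinearMap.apply ℂ ℂ v).comp (fderiv ℂ (fderiv ℂ u) z) := h2.fderiv
  rw [h3]
  rfl

theorem pdt_pdy_comm_at {u : ℂ × ℂ → ℂ} {z : ℂ × ℂ} (hu : AnalyticAt ℂ u z) :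
    pdt (pdy u) z = pdy (pdt u) z := by
  have e1 : pdy u =ᶠ[𝓝 z] fun x => fderiv ℂ u x (1, 0) :=
    hu.eventually_analyticAt.mono fun _ hw => pdy_eq_fderiv hw.differentiableAt
  have e2 : pdt u =ᶠ[𝓝 z] fun x => fderiv ℂ u x (0, 1) :=
    hu.eventually_analyticAt.mono fun _ hw => pdt_eq_fderiv hw.differentiableAt
  rw [pdt_eq_fderiv (analyticAt_pdy hu).differentiableAt,
    pdy_eq_fderiv (analyticAt_pdt hu).differentiableAt, e1.fderiv_eq, e2.fderiv_eq,
    fderiv_fderiv_apply hu, fderiv_fderiv_apply hu]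
  exact (hu.contDiffAt.isSymmSndFDerivAt_of_omega).eq _ _

theorem pdt_pdy_comm {u : ℂ × ℂ → ℂ} {z : ℂ × ℂ} (hu : AnalyticAt ℂ u z) :
    pdt (pdy u) =ᶠ[𝓝 z] pdy (pdt u) :=
  hu.eventually_analyticAt.mono fun _ hw => pdt_pdy_comm_at hw

theorem pdt_iterate_pdy {u : ℂ × ℂ → ℂ} {z : ℂ × ℂ} (hu : AnalyticAt ℂ u z) (b : ℕ) :
    (pdt^[b]) (pdy u) =ᶠ[𝓝 z] pdy ((pdt^[b]) u) := by
  induction b generalizing u with
  | zero => exact EventuallyEq.rfl
  | succ b ih =>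
    rw [Function.iterate_succ_apply, Function.iterate_succ_apply]
    have h1 : (pdt^[b]) (pdt (pdy u)) =ᶠ[𝓝 z] (pdt^[b]) (pdy (pdt u)) :=
      pd_congr_nhds 0 b (pdt_pdy_comm hu)
    exact h1.trans (ih (analyticAt_pdt hu))

theorem pd_succ_fst {u : ℂ × ℂ → ℂ} {z : ℂ × ℂ} (hu : AnalyticAt ℂ u z) (a b : ℕ) :
    pd a b (pdy u) =ᶠ[𝓝 z] pd (a + 1) b u := by
  have h1 : (pdy^[a]) ((pdt^[b]) (pdy u)) =ᶠ[𝓝 z] (pdy^[a]) (pdy ((pdt^[b]) u)) :=
    pd_congr_nhds a 0 (pdt_iterate_pdy hu b)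
  exact h1

theorem pdy_add {u v : ℂ × ℂ → ℂ} {z : ℂ × ℂ} (hu : AnalyticAt ℂ u z) (hv : AnalyticAt ℂ v z) :
    pdy (fun w => u w + v w) =ᶠ[𝓝 z] fun w => pdy u w + pdy v w := by
  filter_upwards [hu.eventually_analyticAt, hv.eventually_analyticAt] with w h1 h2
  exact deriv_fun_add (differentiableAt_slice_fst h1.differentiableAt)
    (differentiableAt_slice_fst h2.differentiableAt)

theorem pdt_add {u v : ℂ × ℂ → ℂ} {z : ℂ × ℂ} (hu : AnalyticAt ℂ u z) (hv : AnalyticAt ℂ v z) :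
    pdt (fun w => u w + v w) =ᶠ[𝓝 z] fun w => pdt u w + pdt v w := by
  filter_upwards [hu.eventually_analyticAt, hv.eventually_analyticAt] with w h1 h2
  exact deriv_fun_add (differentiableAt_slice_snd h1.differentiableAt)
    (differentiableAt_slice_snd h2.differentiableAt)

theorem pdy_mul {u v : ℂ × ℂ → ℂ} {z : ℂ × ℂ} (hu : AnalyticAt ℂ u z) (hv : AnalyticAt ℂ v z) :
    pdy (fun w => u w * v w) =ᶠ[𝓝 z] fun w => pdy u w * v w + u w * pdy v w := by
  filter_upwards [hu.eventually_analyticAt, hv.eventually_analyticAt] with w h1 h2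
  exact deriv_fun_mul (differentiableAt_slice_fst h1.differentiableAt)
    (differentiableAt_slice_fst h2.differentiableAt)

theorem pdt_mul {u v : ℂ × ℂ → ℂ} {z : ℂ × ℂ} (hu : AnalyticAt ℂ u z) (hv : AnalyticAt ℂ v z) :
    pdt (fun w => u w * v w) =ᶠ[𝓝 z] fun w => pdt u w * v w + u w * pdt v w := by
  filter_upwards [hu.eventually_analyticAt, hv.eventually_analyticAt] with w h1 h2
  exact deriv_fun_mul (differentiableAt_slice_snd h1.differentiableAt)
    (differentiableAt_slice_snd h2.differentiableAt)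

/-! ### two variables -/

theorem cf_ztay (z : ℂ × ℂ) (u : ℂ × ℂ → ℂ) (a b : ℕ) :
    cf (ztay z u) (a : ℤ) (b : ℤ) = pd a b u z / ((a.factorial : ℂ) * (b.factorial : ℂ)) := by
  show ((ztay z u).coeff (b : ℤ)).coeff (a : ℤ) = _
  unfold ztay
  rw [coeff_ofPS, ztay1_coeff, iteratedDeriv_div_const_fun]
  have h1 : pd a b u z = iteratedDeriv a (fun y => pd 0 b u (y, z.2)) z.1 :=
    pdy_iterate_eq ((pdt^[b]) u) a z.1 z.2
  rw [h1, div_div, mul_comm]

theorem cf_ztay_zero (z : ℂ × ℂ) (u : ℂ × ℂ → ℂ) : cf (ztay z u) 0 0 = u z := by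
  have h := cf_ztay z u 0 0
  simp only [Nat.cast_zero, Nat.factorial_zero, Nat.cast_one, mul_one, div_one] at h
  exact h

theorem isPS_ztay (z : ℂ × ℂ) (u : ℂ × ℂ → ℂ) : IsPS (ztay z u) := by
  intro a b hab
  show ((ztay z u).coeff b).coeff a = 0
  unfold ztay
  by_cases hb : b < 0
  · rw [coeff_ofPS_neg _ _ hb]
    rfl
  · have ha : a < 0 := hab.resolve_right hb
    obtain ⟨b', rfl⟩ := Int.eq_ofNat_of_zero_le (not_lt.1 hb)
    rw [coeff_ofPS]
    exact ztay1_coeff_neg _ _ _ ha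

/-- power series with the same coefficients are equal. -/
theorem ext_ps {x x' : SS} (h : IsPS x) (h' : IsPS x')
    (H : ∀ a b : ℕ, cf x (a : ℤ) (b : ℤ) = cf x' (a : ℤ) (b : ℤ)) : x = x' := by
  apply ext_cf
  intro a b
  by_cases hab : a < 0 ∨ b < 0
  · rw [h a b hab, h' a b hab]
  · rw [not_or, not_lt, not_lt] at hab
    obtain ⟨a', rfl⟩ := Int.eq_ofNat_of_zero_le hab.1
    obtain ⟨b', rfl⟩ := Int.eq_ofNat_of_zero_le hab.2
    exact H a' b'

theorem natCast_add_one_ne_zero (m : ℕ) : (((m : ℤ) : ℂ) + 1) ≠ 0 := by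
  have : ((m : ℂ) + 1) ≠ 0 := by exact_mod_cast Nat.succ_ne_zero m
  simpa using this

theorem cf_succ_fst {x x' : SS} {a b : ℕ}
    (h : cf (D1 x) (a : ℤ) (b : ℤ) = cf (D1 x') (a : ℤ) (b : ℤ)) :
    cf x ((a + 1 : ℕ) : ℤ) (b : ℤ) = cf x' ((a + 1 : ℕ) : ℤ) (b : ℤ) := by
  rw [cf_D1, cf_D1] at h
  have h4 := mul_left_cancel₀ (natCast_add_one_ne_zero a) h
  have h1 : ((a : ℤ) + 1) = ((a + 1 : ℕ) : ℤ) := by push_cast; rfl
  rwa [h1] at h4

theorem cf_succ_snd {x x' : SS} {a b : ℕ}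
    (h : cf (D2 x) (a : ℤ) (b : ℤ) = cf (D2 x') (a : ℤ) (b : ℤ)) :
    cf x (a : ℤ) ((b + 1 : ℕ) : ℤ) = cf x' (a : ℤ) ((b + 1 : ℕ) : ℤ) := by
  rw [cf_D2, cf_D2] at h
  have h4 := mul_left_cancel₀ (natCast_add_one_ne_zero b) h
  have h1 : ((b : ℤ) + 1) = ((b + 1 : ℕ) : ℤ) := by push_cast; rfl
  rwa [h1] at h4

theorem ztay_congr {z : ℂ × ℂ} {u v : ℂ × ℂ → ℂ} (h : u =ᶠ[𝓝 z] v) : ztay z u = ztay z v := by
  refine ext_ps (isPS_ztay z u) (isPS_ztay z v) fun a b => ?_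
  rw [cf_ztay, cf_ztay, (pd_congr_nhds a b h).self_of_nhds]

theorem ztay_pdy {z : ℂ × ℂ} {u : ℂ × ℂ → ℂ} (hu : AnalyticAt ℂ u z) : ztay z (pdy u) = D1 (ztay z u) := by
  refine ext_ps (isPS_ztay z _) (isPS_ztay z u).D1 fun a b => ?_
  have h1 : ((a : ℤ) + 1) = ((a + 1 : ℕ) : ℤ) := by push_cast; rfl
  rw [cf_D1, h1, cf_ztay, cf_ztay, (pd_succ_fst hu a b).self_of_nhds, Nat.factorial_succ]
  have h2 : (a.factorial : ℂ) ≠ 0 := by exact_mod_cast a.factorial_ne_zero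
  have h2' : (b.factorial : ℂ) ≠ 0 := by exact_mod_cast b.factorial_ne_zero
  have h3 : ((a : ℂ) + 1) ≠ 0 := by exact_mod_cast Nat.succ_ne_zero a
  push_cast
  field_simp

theorem ztay_pdt' (z : ℂ × ℂ) (u : ℂ × ℂ → ℂ) : ztay z (pdt u) = D2 (ztay z u) := by
  refine ext_ps (isPS_ztay z _) (isPS_ztay z u).D2 fun a b => ?_
  have h1 : ((b : ℤ) + 1) = ((b + 1 : ℕ) : ℤ) := by push_cast; rfl
  rw [cf_D2, h1, cf_ztay, cf_ztay, pd_succ_snd, Nat.factorial_succ]
  have h2 : (a.factorial : ℂ) ≠ 0 := by exact_mod_cast a.factorial_ne_zero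
  have h2' : (b.factorial : ℂ) ≠ 0 := by exact_mod_cast b.factorial_ne_zero
  have h3 : ((b : ℂ) + 1) ≠ 0 := by exact_mod_cast Nat.succ_ne_zero b
  push_cast
  field_simp

theorem ztay_pdt {z : ℂ × ℂ} {u : ℂ × ℂ → ℂ} (hu : AnalyticAt ℂ u z) : ztay z (pdt u) = D2 (ztay z u) :=
  let _ := hu
  ztay_pdt' z u

theorem pdy_const (c : ℂ) : pdy (fun _ => c) = fun _ => 0 := by
  funext w
  exact deriv_const _ _

theorem pdt_const (c : ℂ) : pdt (fun _ => c) = fun _ => 0 := by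
  funext w
  exact deriv_const _ _

theorem ztay_zero (z : ℂ × ℂ) : ztay z (fun _ => 0) = 0 := by
  have h1 : ∀ b : ℕ, (pdt^[b]) (fun _ : ℂ × ℂ => (0 : ℂ)) = fun _ => 0 := by
    intro b
    induction b with
    | zero => rfl
    | succ b ih => rw [Function.iterate_succ_apply', ih, pdt_const]
  have h2 : ∀ a : ℕ, (pdy^[a]) (fun _ : ℂ × ℂ => (0 : ℂ)) = fun _ => 0 := by
    intro a
    induction a with
    | zero => rfl
    | succ a ih => rw [Function.iterate_succ_apply', ih, pdy_const]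
  refine ext_ps (isPS_ztay z _) IsPS.zero fun a b => ?_
  rw [cf_ztay]
  unfold pd
  rw [h1, h2, zero_div]
  simp [cf]

theorem ztay_const (z : ℂ × ℂ) (c : ℂ) : ztay z (fun _ => c) = cst c := by
  have h1 : D1 (ztay z (fun _ => c)) = 0 := by
    rw [← ztay_pdy analyticAt_const, pdy_const, ztay_zero]
  have h2 : D2 (ztay z (fun _ => c)) = 0 := by
    rw [← ztay_pdt', pdt_const, ztay_zero]
  rw [eq_cst_of_D1_D2 _ h1 h2, cf_ztay_zero]

theorem cf_ztay_add {z : ℂ × ℂ} (n : ℕ) : ∀ a b : ℕ, a + b = n → ∀ {u v : ℂ × ℂ → ℂ},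
    AnalyticAt ℂ u z → AnalyticAt ℂ v z →
    cf (ztay z (fun w => u w + v w)) (a : ℤ) (b : ℤ) = cf (ztay z u + ztay z v) (a : ℤ) (b : ℤ) := by
  induction n with
  | zero =>
    intro a b hab u v _ _
    obtain ⟨rfl, rfl⟩ : a = 0 ∧ b = 0 := by omega
    simp only [Nat.cast_zero]
    rw [cf_add, cf_ztay_zero, cf_ztay_zero, cf_ztay_zero]
  | succ n ih =>
    intro a b hab u v hu hv
    rcases a with _ | a
    · obtain ⟨b, rfl⟩ : ∃ b', b = b' + 1 := ⟨b - 1, by omega⟩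
      apply cf_succ_snd
      rw [← ztay_pdt', ztay_congr (pdt_add hu hv), ih 0 b (by omega) (analyticAt_pdt hu)
        (analyticAt_pdt hv), map_add, ztay_pdt', ztay_pdt']
    · apply cf_succ_fst
      rw [← ztay_pdy (u := fun w => u w + v w) (hu.add hv), ztay_congr (pdy_add hu hv), ih a b (by omega) (analyticAt_pdy hu)
        (analyticAt_pdy hv), map_add, ztay_pdy hu, ztay_pdy hv]

theorem ztay_add {z : ℂ × ℂ} {u v : ℂ × ℂ → ℂ} (hu : AnalyticAt ℂ u z) (hv : AnalyticAt ℂ v z) :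
    ztay z (fun w => u w + v w) = ztay z u + ztay z v :=
  ext_ps (isPS_ztay z _) ((isPS_ztay z u).add (isPS_ztay z v)) fun a b =>
    cf_ztay_add (a + b) a b rfl hu hv

theorem ztay_neg {z : ℂ × ℂ} {u : ℂ × ℂ → ℂ} (hu : AnalyticAt ℂ u z) :
    ztay z (fun w => -u w) = -ztay z u := by
  have h1 := ztay_add (v := fun w => -u w) hu hu.neg
  have h2 : (fun w => u w + -u w) = fun _ => (0 : ℂ) := by
    funext y
    simp
  rw [h2, ztay_zero] at h1
  exact eq_neg_of_add_eq_zero_right (a := ztay z u) (b := ztay z fun w => -u w) h1.symm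

theorem ztay_sub {z : ℂ × ℂ} {u v : ℂ × ℂ → ℂ} (hu : AnalyticAt ℂ u z) (hv : AnalyticAt ℂ v z) :
    ztay z (fun w => u w - v w) = ztay z u - ztay z v := by
  have h1 : (fun w => u w - v w) = fun w => u w + -v w := by
    funext w
    exact sub_eq_add_neg _ _
  rw [h1, ztay_add (v := fun w => -v w) hu hv.neg, ztay_neg hv]
  exact (sub_eq_add_neg (ztay z u) (ztay z v)).symm

theorem cf_ztay_mul {z : ℂ × ℂ} (n : ℕ) : ∀ a b : ℕ, a + b = n → ∀ {u v : ℂ × ℂ → ℂ},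
    AnalyticAt ℂ u z → AnalyticAt ℂ v z →
    cf (ztay z (fun w => u w * v w)) (a : ℤ) (b : ℤ) = cf (ztay z u * ztay z v) (a : ℤ) (b : ℤ) := by
  induction n with
  | zero =>
    intro a b hab u v _ _
    obtain ⟨rfl, rfl⟩ : a = 0 ∧ b = 0 := by omega
    simp only [Nat.cast_zero]
    rw [cf_mul_zero (isPS_ztay z u) (isPS_ztay z v), cf_ztay_zero, cf_ztay_zero, cf_ztay_zero]
  | succ n ih =>
    intro a b hab u v hu hv
    rcases a with _ | a
    · obtain ⟨b, rfl⟩ : ∃ b', b = b' + 1 := ⟨b - 1, by omega⟩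
      apply cf_succ_snd
      rw [← ztay_pdt', ztay_congr (pdt_mul hu hv),
        ztay_add (u := fun w => pdt u w * v w) (v := fun w => u w * pdt v w)
          ((analyticAt_pdt hu).mul hv) (hu.mul (analyticAt_pdt hv)), cf_add,
        ih 0 b (by omega) (analyticAt_pdt hu) hv, ih 0 b (by omega) hu (analyticAt_pdt hv),
        D2.leibniz, cf_add, ztay_pdt', ztay_pdt', add_comm,
        mul_comm (ztay z v) (D2 (ztay z u))]
    · apply cf_succ_fst
      rw [← ztay_pdy (u := fun w => u w * v w) (hu.mul hv), ztay_congr (pdy_mul hu hv),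
        ztay_add (u := fun w => pdy u w * v w) (v := fun w => u w * pdy v w)
          ((analyticAt_pdy hu).mul hv) (hu.mul (analyticAt_pdy hv)), cf_add,
        ih a b (by omega) (analyticAt_pdy hu) hv, ih a b (by omega) hu (analyticAt_pdy hv),
        D1.leibniz, cf_add, ztay_pdy hu, ztay_pdy hv, add_comm,
        mul_comm (ztay z v) (D1 (ztay z u))]

theorem ztay_mul {z : ℂ × ℂ} {u v : ℂ × ℂ → ℂ} (hu : AnalyticAt ℂ u z) (hv : AnalyticAt ℂ v z) :
    ztay z (fun w => u w * v w) = ztay z u * ztay z v :=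
  ext_ps (isPS_ztay z _) ((isPS_ztay z u).mul (isPS_ztay z v)) fun a b =>
    cf_ztay_mul (a + b) a b rfl hu hv

theorem ztay_pow {z : ℂ × ℂ} {u : ℂ × ℂ → ℂ} (hu : AnalyticAt ℂ u z) (n : ℕ) :
    ztay z (fun w => u w ^ n) = ztay z u ^ n := by
  induction n with
  | zero =>
    simp only [pow_zero]
    rw [ztay_const, cst_one]
  | succ n ih =>
    simp only [pow_succ]
    rw [ztay_mul (u := fun w => u w ^ n) (hu.pow n) hu, ih]

theorem ztay_sum {ι : Type*} (s : Finset ι) {z : ℂ × ℂ} {u : ι → ℂ × ℂ → ℂ} (hu : ∀ i ∈ s, AnalyticAt ℂ (u i) z) :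
    ztay z (fun w => ∑ i ∈ s, u i w) = ∑ i ∈ s, ztay z (u i) := by
  classical
  induction s using Finset.induction_on with
  | empty =>
    simp only [Finset.sum_empty]
    rw [ztay_zero]
  | insert i s hi ih =>
    simp only [Finset.sum_insert hi]
    rw [ztay_add (v := fun w => ∑ j ∈ s, u j w) (hu i (Finset.mem_insert_self i s))
      (Finset.analyticAt_fun_sum _ fun j hj => hu j (Finset.mem_insert_of_mem hj)),
      ih fun j hj => hu j (Finset.mem_insert_of_mem hj)]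

theorem ztay_inv {z : ℂ × ℂ} {u : ℂ × ℂ → ℂ} (hu : AnalyticAt ℂ u z) (h0 : u z ≠ 0) :
    ztay z (fun w => (u w)⁻¹) = (ztay z u)⁻¹ := by
  have h1 : (fun w => u w * (u w)⁻¹) =ᶠ[𝓝 z] fun _ => 1 := by
    filter_upwards [hu.continuousAt.eventually_ne h0] with w hw
    exact mul_inv_cancel₀ hw
  have h2 := ztay_mul (v := fun w => (u w)⁻¹) hu (hu.inv h0)
  rw [ztay_congr h1, ztay_const, cst_one] at h2
  exact eq_inv_of_mul_eq_one_right h2.symm

theorem ztay_div {z : ℂ × ℂ} {u v : ℂ × ℂ → ℂ} (hu : AnalyticAt ℂ u z) (hv : AnalyticAt ℂ v z) (h0 : v z ≠ 0) :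
    ztay z (fun w => u w / v w) = ztay z u / ztay z v := by
  simp only [div_eq_mul_inv]
  rw [ztay_mul (v := fun w => (v w)⁻¹) hu (hv.inv h0), ztay_inv hv h0]

theorem pd_eq_zero_of_ztay {z : ℂ × ℂ} {u : ℂ × ℂ → ℂ} (h : ztay z u = 0) (a b : ℕ) :
    pd a b u z = 0 := by
  have h1 := cf_ztay z u a b
  rw [h] at h1
  have h2 : (a.factorial : ℂ) * (b.factorial : ℂ) ≠ 0 :=
    mul_ne_zero (by exact_mod_cast a.factorial_ne_zero) (by exact_mod_cast b.factorial_ne_zero)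
  have h3 : cf (0 : SS) (a : ℤ) (b : ℤ) = 0 := by simp [cf]
  rw [h3] at h1
  rcases div_eq_zero_iff.1 h1.symm with h4 | h4
  · exact h4
  · exact absurd h4 h2

/-- an analytic function of one variable on a ball all of whose derivatives vanish at the centre. -/
theorem eq_zero_on_ball_of_iteratedDeriv {f : ℂ → ℂ} {c : ℂ} {r : ℝ}
    (hf : AnalyticOnNhd ℂ f (Metric.ball c r)) (hr : 0 < r) (h : ∀ m, iteratedDeriv m f c = 0) :
    ∀ y ∈ Metric.ball c r, f y = 0 := by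
  have hc : c ∈ Metric.ball c r := Metric.mem_ball_self hr
  have h1 : ztay1 c f = 0 := by
    refine ztay1_ext (fun _ _ => rfl) fun m => ?_
    rw [ztay1_coeff, h m, zero_div]
    rfl
  have h2 := (ztay1_eq_zero_iff (hf c hc)).1 h1
  intro y hy
  exact hf.eqOn_zero_of_preconnected_of_eventuallyEq_zero (isPreconnected_ballC c r) hc h2 hy

theorem ztay_eq_zero_iff {z : ℂ × ℂ} {u : ℂ × ℂ → ℂ} (hu : AnalyticAt ℂ u z) :
    ztay z u = 0 ↔ ∀ᶠ w in 𝓝 z, u w = 0 := by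
  constructor
  · intro h
    obtain ⟨r, hr, hball⟩ := Metric.eventually_nhds_iff_ball.1 hu.eventually_analyticAt
    have hbox : ∀ y ∈ Metric.ball z.1 r, ∀ t ∈ Metric.ball z.2 r, AnalyticAt ℂ u (y, t) := by
      intro y hy t ht
      apply hball
      rw [← Prod.mk.eta (p := z), ← ball_prod_same]
      exact ⟨hy, ht⟩
    have hz2 : z.2 ∈ Metric.ball z.2 r := Metric.mem_ball_self hr
    -- step 1
    have s1 : ∀ b : ℕ, ∀ y ∈ Metric.ball z.1 r, (pdt^[b]) u (y, z.2) = 0 := by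
      intro b
      refine eq_zero_on_ball_of_iteratedDeriv (f := fun y => (pdt^[b]) u (y, z.2)) ?_ hr ?_
      · intro y hy
        exact analyticAt_slice_fst (z := (y, z.2)) (analyticAt_pd 0 b (hbox y hy z.2 hz2))
      · intro a
        rw [← pdy_iterate_eq]
        exact pd_eq_zero_of_ztay h a b
    -- step 2
    have s2 : ∀ y ∈ Metric.ball z.1 r, ∀ t ∈ Metric.ball z.2 r, u (y, t) = 0 := by
      intro y hy
      refine eq_zero_on_ball_of_iteratedDeriv (f := fun t => u (y, t)) ?_ hr ?_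
      · intro t ht
        exact analyticAt_slice_snd (z := (y, t)) (hbox y hy t ht)
      · intro b
        rw [← pdt_iterate_eq]
        exact s1 b y hy
    have hnhds : Metric.ball z.1 r ×ˢ Metric.ball z.2 r ∈ 𝓝 z :=
      prod_mem_nhds (Metric.ball_mem_nhds _ hr) (Metric.ball_mem_nhds _ hr)
    filter_upwards [hnhds] with w hw
    exact s2 w.1 hw.1 w.2 hw.2
  · intro h
    have h1 : u =ᶠ[𝓝 z] fun _ => 0 := h
    rw [ztay_congr h1, ztay_zero]

theorem ztay_eq_iff {z : ℂ × ℂ} {u v : ℂ × ℂ → ℂ} (hu : AnalyticAt ℂ u z) (hv : AnalyticAt ℂ v z) :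
    ztay z u = ztay z v ↔ u =ᶠ[𝓝 z] v := by
  constructor
  · intro h
    have h1 : ztay z (fun w => u w - v w) = 0 := by
      rw [ztay_sub hu hv, h]
      exact sub_self (ztay z v)
    filter_upwards [(ztay_eq_zero_iff (hu.sub hv)).1 h1] with y hy
    exact sub_eq_zero.1 hy
  · exact ztay_congr

/-- restriction to the horizontal line through `z`. -/
theorem ztay_coeff_zero (z : ℂ × ℂ) (u : ℂ × ℂ → ℂ) :
    (ztay z u).coeff 0 = ztay1 z.1 (fun y => u (y, z.2)) := by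
  have h := coeff_ofPS (fun n => ztay1 z.1 (fun y => pd 0 n u (y, z.2) / (n.factorial : ℂ))) 0
  simp only [Nat.cast_zero, Nat.factorial_zero, Nat.cast_one, div_one] at h
  exact h

/-- `δ` kills the Taylor series iff it kills all partial derivatives at `z`. -/
theorem DD_ztay_eq_zero_iff (δ : Dv ℂ) (z : ℂ × ℂ) (u : ℂ × ℂ → ℂ) :
    DD δ (ztay z u) = 0 ↔ ∀ a b : ℕ, δ (pd a b u z) = 0 := by
  have key : ∀ a b : ℕ, δ (pd a b u z)
      = ((a.factorial * b.factorial : ℕ) : ℂ) * δ (cf (ztay z u) (a : ℤ) (b : ℤ)) := by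
    intro a b
    have h2 : ((a.factorial * b.factorial : ℕ) : ℂ) ≠ 0 := by
      exact_mod_cast Nat.mul_ne_zero a.factorial_ne_zero b.factorial_ne_zero
    have h3 : pd a b u z
        = ((a.factorial * b.factorial : ℕ) : ℂ) * cf (ztay z u) (a : ℤ) (b : ℤ) := by
      rw [cf_ztay]
      push_cast at h2 ⊢
      rw [mul_div_cancel₀ _ h2]
    conv_lhs => rw [h3]
    rw [δ.leibniz, δ.map_natCast, mul_zero, add_zero]
  constructor
  · intro h a b
    rw [key, ← cf_DD, h]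
    simp [cf]
  · intro h
    refine ext_ps ((isPS_ztay z u).DD δ) IsPS.zero fun a b => ?_
    have h2 : ((a.factorial * b.factorial : ℕ) : ℂ) ≠ 0 := by
      exact_mod_cast Nat.mul_ne_zero a.factorial_ne_zero b.factorial_ne_zero
    have h3 := h a b
    rw [key] at h3
    rw [cf_DD, (mul_eq_zero.1 h3).resolve_left h2]
    simp [cf]

/-! ### reality -/

theorem conjSymm_pdy {z : ℂ × ℂ} {u : ℂ × ℂ → ℂ}
    (hc : ∀ᶠ w in 𝓝 z, u ((starRingEnd ℂ) w.1, (starRingEnd ℂ) w.2) = (starRingEnd ℂ) (u w)) :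
    ∀ᶠ w in 𝓝 z, pdy u ((starRingEnd ℂ) w.1, (starRingEnd ℂ) w.2) = (starRingEnd ℂ) (pdy u w) := by
  filter_upwards [hc.eventually_nhds] with w hw
  have ht : Tendsto (fun y : ℂ => ((starRingEnd ℂ) y, w.2)) (𝓝 ((starRingEnd ℂ) w.1)) (𝓝 w) := by
    have hcont : Continuous (fun y : ℂ => ((starRingEnd ℂ) y, w.2)) :=
      Complex.continuous_conj.prodMk continuous_const
    have := hcont.tendsto ((starRingEnd ℂ) w.1)
    simpa using this
  have h1 : (fun y => u (y, (starRingEnd ℂ) w.2)) =ᶠ[𝓝 ((starRingEnd ℂ) w.1)]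
      (starRingEnd ℂ) ∘ (fun y => u (y, w.2)) ∘ (starRingEnd ℂ) := by
    filter_upwards [ht.eventually hw] with y hy
    simpa using hy
  show deriv (fun y => u (y, (starRingEnd ℂ) w.2)) ((starRingEnd ℂ) w.1) = _
  rw [h1.deriv_eq, deriv_conj_conj]
  simp [pdy]

theorem conjSymm_pdt {z : ℂ × ℂ} {u : ℂ × ℂ → ℂ}
    (hc : ∀ᶠ w in 𝓝 z, u ((starRingEnd ℂ) w.1, (starRingEnd ℂ) w.2) = (starRingEnd ℂ) (u w)) :
    ∀ᶠ w in 𝓝 z, pdt u ((starRingEnd ℂ) w.1, (starRingEnd ℂ) w.2) = (starRingEnd ℂ) (pdt u w) := by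
  filter_upwards [hc.eventually_nhds] with w hw
  have ht : Tendsto (fun t : ℂ => (w.1, (starRingEnd ℂ) t)) (𝓝 ((starRingEnd ℂ) w.2)) (𝓝 w) := by
    have hcont : Continuous (fun t : ℂ => (w.1, (starRingEnd ℂ) t)) :=
      continuous_const.prodMk Complex.continuous_conj
    have := hcont.tendsto ((starRingEnd ℂ) w.2)
    simpa using this
  have h1 : (fun t => u ((starRingEnd ℂ) w.1, t)) =ᶠ[𝓝 ((starRingEnd ℂ) w.2)]
      (starRingEnd ℂ) ∘ (fun t => u (w.1, t)) ∘ (starRingEnd ℂ) := by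
    filter_upwards [ht.eventually hw] with t ht'
    simpa using ht'
  show deriv (fun t => u ((starRingEnd ℂ) w.1, t)) ((starRingEnd ℂ) w.2) = _
  rw [h1.deriv_eq, deriv_conj_conj]
  simp [pdt]

theorem im_cf_ztay {z : ℂ × ℂ} (hz1 : z.1.im = 0) (hz2 : z.2.im = 0) (n : ℕ) :
    ∀ a b : ℕ, a + b = n → ∀ {u : ℂ × ℂ → ℂ}, AnalyticAt ℂ u z →
    (∀ᶠ w in 𝓝 z, u ((starRingEnd ℂ) w.1, (starRingEnd ℂ) w.2) = (starRingEnd ℂ) (u w)) →
    (cf (ztay z u) (a : ℤ) (b : ℤ)).im = 0 := by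
  have himul : ∀ (m : ℕ) (c : ℂ), ((((m : ℤ) : ℂ) + 1) * c).im = 0 → c.im = 0 := by
    intro m c h
    have e : ((((m : ℤ) : ℂ) + 1) * c).im = ((m : ℝ) + 1) * c.im := by
      simp [Complex.mul_im]
    rw [e] at h
    have h3 : ((m : ℝ) + 1) ≠ 0 := by positivity
    exact (mul_eq_zero.1 h).resolve_left h3
  induction n with
  | zero =>
    intro a b hab u _ hc
    obtain ⟨rfl, rfl⟩ : a = 0 ∧ b = 0 := by omega
    simp only [Nat.cast_zero]
    rw [cf_ztay_zero]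
    have h1 := hc.self_of_nhds
    rw [Complex.conj_eq_iff_im.2 hz1, Complex.conj_eq_iff_im.2 hz2] at h1
    exact Complex.conj_eq_iff_im.1 h1.symm
  | succ n ih =>
    intro a b hab u hu hc
    rcases a with _ | a
    · obtain ⟨b, rfl⟩ : ∃ b', b = b' + 1 := ⟨b - 1, by omega⟩
      have h1 := ih 0 b (by omega) (analyticAt_pdt hu) (conjSymm_pdt hc)
      rw [ztay_pdt', cf_D2] at h1
      have h2 := himul b _ h1
      have e : ((b : ℤ) + 1) = ((b + 1 : ℕ) : ℤ) := by push_cast; rfl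
      rwa [e] at h2
    · have h1 := ih a b (by omega) (analyticAt_pdy hu) (conjSymm_pdy hc)
      rw [ztay_pdy hu, cf_D1] at h1
      have h2 := himul a _ h1
      have e : ((a : ℤ) + 1) = ((a + 1 : ℕ) : ℤ) := by push_cast; rfl
      rwa [e] at h2

/-- a function which is real on real points has a real Taylor series at a real point. -/
theorem isRe_ztay {z : ℂ × ℂ} (hz1 : z.1.im = 0) (hz2 : z.2.im = 0) {u : ℂ × ℂ → ℂ} (hu : AnalyticAt ℂ u z)
    (hc : ∀ᶠ w in 𝓝 z, u ((starRingEnd ℂ) w.1, (starRingEnd ℂ) w.2) = (starRingEnd ℂ) (u w)) :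
    IsRe (ztay z u) := by
  intro a b
  by_cases hab : a < 0 ∨ b < 0
  · rw [isPS_ztay z u a b hab]
    rfl
  · rw [not_or, not_lt, not_lt] at hab
    obtain ⟨a', rfl⟩ := Int.eq_ofNat_of_zero_le hab.1
    obtain ⟨b', rfl⟩ := Int.eq_ofNat_of_zero_le hab.2
    exact im_cf_ztay hz1 hz2 (a' + b') a' b' rfl hu hc

/-! ### chain rule -/

theorem pdy_comp {z : ℂ × ℂ} {ψ : ℂ × ℂ → ℂ} {f : ℂ → ℂ} (hψ : AnalyticAt ℂ ψ z) (hf : AnalyticAt ℂ f (ψ z)) :
    pdy (fun w => f (ψ w)) =ᶠ[𝓝 z] fun w => deriv f (ψ w) * pdy ψ w := by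
  filter_upwards [hψ.eventually_analyticAt,
    hψ.continuousAt.eventually hf.eventually_analyticAt] with w h1 h2
  have h3 : HasDerivAt (fun y => ψ (y, w.2)) (pdy ψ w) w.1 :=
    (differentiableAt_slice_fst h1.differentiableAt).hasDerivAt
  have h4 : HasDerivAt f (deriv f (ψ w)) (ψ (w.1, w.2)) := h2.differentiableAt.hasDerivAt
  exact (h4.comp w.1 h3).deriv

theorem pdt_comp {z : ℂ × ℂ} {ψ : ℂ × ℂ → ℂ} {f : ℂ → ℂ} (hψ : AnalyticAt ℂ ψ z) (hf : AnalyticAt ℂ f (ψ z)) :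
    pdt (fun w => f (ψ w)) =ᶠ[𝓝 z] fun w => deriv f (ψ w) * pdt ψ w := by
  filter_upwards [hψ.eventually_analyticAt,
    hψ.continuousAt.eventually hf.eventually_analyticAt] with w h1 h2
  have h3 : HasDerivAt (fun t => ψ (w.1, t)) (pdt ψ w) w.2 :=
    (differentiableAt_slice_snd h1.differentiableAt).hasDerivAt
  have h4 : HasDerivAt f (deriv f (ψ w)) (ψ (w.1, w.2)) := h2.differentiableAt.hasDerivAt
  exact (h4.comp w.2 h3).deriv

theorem analyticAt_iteratedDeriv {f : ℂ → ℂ} {x : ℂ} (hf : AnalyticAt ℂ f x) (l : ℕ) :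
    AnalyticAt ℂ (iteratedDeriv l f) x := by
  rw [iteratedDeriv_eq_iterate]
  exact hf.iterated_deriv l

/-- the tower of a composite function. -/
theorem D1_ztay_comp {z : ℂ × ℂ} {ψ : ℂ × ℂ → ℂ} {f : ℂ → ℂ} (hψ : AnalyticAt ℂ ψ z) (hf : AnalyticAt ℂ f (ψ z)) (l : ℕ) :
    D1 (ztay z (fun w => iteratedDeriv l f (ψ w))) =
      ztay z (fun w => iteratedDeriv (l + 1) f (ψ w)) * ztay z (pdy ψ) := by
  have h1 : AnalyticAt ℂ (fun w => iteratedDeriv l f (ψ w)) z :=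
    AnalyticAt.comp (g := iteratedDeriv l f) (f := ψ) (analyticAt_iteratedDeriv hf l) hψ
  have h2 : AnalyticAt ℂ (fun w => iteratedDeriv (l + 1) f (ψ w)) z :=
    AnalyticAt.comp (g := iteratedDeriv (l + 1) f) (f := ψ) (analyticAt_iteratedDeriv hf (l + 1)) hψ
  rw [← ztay_pdy h1, ztay_congr (pdy_comp hψ (analyticAt_iteratedDeriv hf l)), ← iteratedDeriv_succ,
    ztay_mul h2 (analyticAt_pdy hψ)]

theorem D2_ztay_comp {z : ℂ × ℂ} {ψ : ℂ × ℂ → ℂ} {f : ℂ → ℂ} (hψ : AnalyticAt ℂ ψ z) (hf : AnalyticAt ℂ f (ψ z)) (l : ℕ) :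
    D2 (ztay z (fun w => iteratedDeriv l f (ψ w))) =
      ztay z (fun w => iteratedDeriv (l + 1) f (ψ w)) * ztay z (pdt ψ) := by
  have h2 : AnalyticAt ℂ (fun w => iteratedDeriv (l + 1) f (ψ w)) z :=
    AnalyticAt.comp (g := iteratedDeriv (l + 1) f) (f := ψ) (analyticAt_iteratedDeriv hf (l + 1)) hψ
  rw [← ztay_pdt', ztay_congr (pdt_comp hψ (analyticAt_iteratedDeriv hf l)), ← iteratedDeriv_succ,
    ztay_mul h2 (analyticAt_pdt hψ)]

/-! ### identity theorem along real points -/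

/-- the real point `(r₁, r₂)` of `ℂ²`. -/
def rp (r : ℝ × ℝ) : ℂ × ℂ := ((r.1 : ℂ), (r.2 : ℂ))

theorem continuous_rp : Continuous rp :=
  (Complex.continuous_ofReal.comp continuous_fst).prodMk (Complex.continuous_ofReal.comp continuous_snd)

theorem analyticAt_comp_rp {u : ℂ × ℂ → ℂ} {r : ℝ × ℝ} (hu : AnalyticAt ℂ u (rp r)) :
    AnalyticAt ℝ (fun r => u (rp r)) r := by
  have h1 : AnalyticAt ℝ u (rp r) := hu.restrictScalars
  have h2 : AnalyticAt ℝ (Complex.ofRealCLM.prodMap Complex.ofRealCLM : ℝ × ℝ →L[ℝ] ℂ × ℂ) r :=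
    ContinuousLinearMap.analyticAt _ r
  exact AnalyticAt.comp (g := u)
    (f := (Complex.ofRealCLM.prodMap Complex.ofRealCLM : ℝ × ℝ →L[ℝ] ℂ × ℂ)) h1 h2

/-- If `u` is analytic at all points of a connected set `Q` of real points and its Taylor series vanishes at one of them, then `u = 0` on `Q`.
(`fun r => u (rp r)` is real analytic: `AnalyticAt.restrictScalars`, composition with the continuous `ℝ`-linear map `rp`; then
`AnalyticOnNhd.eqOn_zero_of_preconnected_of_eventuallyEq_zero` over `ℝ`.) -/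
theorem eq_zero_of_ztay_real {Q : Set (ℝ × ℝ)} (hQ : IsPreconnected Q) {u : ℂ × ℂ → ℂ}
    (hu : ∀ r ∈ Q, AnalyticAt ℂ u (rp r)) {r₀ : ℝ × ℝ} (hr₀ : r₀ ∈ Q) (h0 : ztay (rp r₀) u = 0) :
    ∀ r ∈ Q, u (rp r) = 0 := by
  have h1 : AnalyticOnNhd ℝ (fun r => u (rp r)) Q := fun r hr => analyticAt_comp_rp (hu r hr)
  have h2 : (fun r => u (rp r)) =ᶠ[𝓝 r₀] 0 :=
    continuous_rp.continuousAt.eventually ((ztay_eq_zero_iff (hu r₀ hr₀)).1 h0)
  intro r hr
  exact h1.eqOn_zero_of_preconnected_of_eventuallyEq_zero hQ hr₀ h2 hr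

/-- an analytic function on a disc centred at a real point which vanishes on the real diameter vanishes. -/
theorem eq_zero_on_ball_of_real {f : ℂ → ℂ} {c r : ℝ} (hf : AnalyticOnNhd ℂ f (Metric.ball (c : ℂ) r))
    (hr : 0 < r) (h : ∀ s : ℝ, |s - c| < r → f s = 0) : ∀ y ∈ Metric.ball (c : ℂ) r, f y = 0 := by
  have hc : (c : ℂ) ∈ Metric.ball (c : ℂ) r := Metric.mem_ball_self hr
  have h1 : Tendsto (fun s : ℝ => (s : ℂ)) (𝓝[≠] c) (𝓝[≠] (c : ℂ)) := by
    refine tendsto_nhdsWithin_of_tendsto_nhds_of_eventually_within _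
      ((Complex.continuous_ofReal.tendsto c).mono_left nhdsWithin_le_nhds) ?_
    filter_upwards [self_mem_nhdsWithin] with s hs
    intro h
    exact hs (Complex.ofReal_injective h)
  have h2 : ∀ᶠ s : ℝ in 𝓝[≠] c, f s = 0 := by
    have h3 : ∀ᶠ s : ℝ in 𝓝 c, |s - c| < r := by
      have : Metric.ball c r ∈ 𝓝 c := Metric.ball_mem_nhds c hr
      filter_upwards [this] with s hs
      rwa [Metric.mem_ball, Real.dist_eq] at hs
    exact (h3.filter_mono nhdsWithin_le_nhds).mono fun s hs => h s hs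
  have h4 : ∃ᶠ y in 𝓝[≠] (c : ℂ), f y = 0 := h1.frequently h2.frequently
  intro y hy
  exact hf.eqOn_zero_of_preconnected_of_frequently_eq_zero (isPreconnected_ballC _ r) hc h4 hy

/-- real points are a uniqueness set: an analytic function on a connected open `W ⊆ ℂ²` which vanishes on a nonempty open set of
real points vanishes identically. -/
theorem eq_zero_of_real_open {W : Set (ℂ × ℂ)} (hW : IsOpen W) (hc : IsPreconnected W) {u : ℂ × ℂ → ℂ}
    (hu : AnalyticOnNhd ℂ u W) {R : Set (ℝ × ℝ)} (hR : IsOpen R) (hne : R.Nonempty) (hRW : ∀ r ∈ R, rp r ∈ W)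
    (h0 : ∀ r ∈ R, u (rp r) = 0) : ∀ w ∈ W, u w = 0 := by
  obtain ⟨r₀, hr₀⟩ := hne
  obtain ⟨ρ₁, hρ₁, hb₁⟩ := Metric.isOpen_iff.1 hW _ (hRW r₀ hr₀)
  obtain ⟨ρ₂, hρ₂, hb₂⟩ := Metric.isOpen_iff.1 hR _ hr₀
  set ρ := min ρ₁ ρ₂ with hρ
  have hρpos : 0 < ρ := lt_min hρ₁ hρ₂
  have hbox : ∀ y ∈ Metric.ball (r₀.1 : ℂ) ρ, ∀ t ∈ Metric.ball (r₀.2 : ℂ) ρ, (y, t) ∈ W := by
    intro y hy t ht
    apply hb₁
    have : (y, t) ∈ Metric.ball (r₀.1 : ℂ) ρ₁ ×ˢ Metric.ball (r₀.2 : ℂ) ρ₁ :=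
      ⟨Metric.ball_subset_ball (min_le_left _ _) hy, Metric.ball_subset_ball (min_le_left _ _) ht⟩
    rw [ball_prod_same] at this
    exact this
  have hreal : ∀ s t : ℝ, |s - r₀.1| < ρ → |t - r₀.2| < ρ → u ((s : ℂ), (t : ℂ)) = 0 := by
    intro s t hs ht
    apply h0 (s, t)
    apply hb₂
    rw [Metric.mem_ball, Prod.dist_eq, Real.dist_eq, Real.dist_eq]
    exact max_lt (lt_of_lt_of_le hs (min_le_right _ _)) (lt_of_lt_of_le ht (min_le_right _ _))
  have hmemR : ∀ (c t : ℝ), |t - c| < ρ → (t : ℂ) ∈ Metric.ball (c : ℂ) ρ := by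
    intro c t ht
    rw [Metric.mem_ball, Complex.dist_eq, ← Complex.ofReal_sub, Complex.norm_real, Real.norm_eq_abs]
    exact ht
  have s1 : ∀ t : ℝ, |t - r₀.2| < ρ → ∀ y ∈ Metric.ball (r₀.1 : ℂ) ρ, u (y, (t : ℂ)) = 0 := by
    intro t ht
    refine eq_zero_on_ball_of_real (f := fun y => u (y, (t : ℂ))) ?_ hρpos fun s hs => hreal s t hs ht
    intro y hy
    exact analyticAt_slice_fst (z := (y, (t : ℂ))) (hu _ (hbox y hy _ (hmemR _ _ ht)))
  have s2 : ∀ y ∈ Metric.ball (r₀.1 : ℂ) ρ, ∀ t ∈ Metric.ball (r₀.2 : ℂ) ρ, u (y, t) = 0 := by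
    intro y hy
    refine eq_zero_on_ball_of_real (f := fun t => u (y, t)) ?_ hρpos fun t ht => s1 t ht y hy
    intro t ht
    exact analyticAt_slice_snd (z := (y, t)) (hu _ (hbox y hy t ht))
  have hnhds : Metric.ball (r₀.1 : ℂ) ρ ×ˢ Metric.ball (r₀.2 : ℂ) ρ ∈ 𝓝 (rp r₀) :=
    prod_mem_nhds (Metric.ball_mem_nhds _ hρpos) (Metric.ball_mem_nhds _ hρpos)
  have hloc : u =ᶠ[𝓝 (rp r₀)] 0 := by
    filter_upwards [hnhds] with w hw
    exact s2 w.1 hw.1 w.2 hw.2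
  intro w hw
  exact hu.eqOn_zero_of_preconnected_of_eventuallyEq_zero hc (hRW r₀ hr₀) hloc hw

end ZT

end Claimed.Agent.R269
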