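/-
Row 269, P1 Section 4, unit 4F (lens theorems): Taylor expansion at an arbitrary point `z ∈ ℂ²`.   Statements: helper36.

  `ztay1 y₀ f`   Taylor series at `y₀` of a function of one variable, in `ℂ((y))`
  `ztay z u`     Taylor series at `z` of a function of two variables, in `SS = ℂ((y))((t))`

`ztay z` is an injective differential ring homomorphism on germs of analytic functions at `z`.

PACKAGE LF-S4-ZT-b IS PROVED (helper270).  The definitions and all statements of namespace `ZT` of this package, verbatim, with their proofs, live in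
`S4/ZTayCore.lean`.  This file re-exports them and proves `Emb.analyticAt_pdy/pdt/pd`.
-/
import Claimed.Agent.R269.S4.ZTayCore
import Claimed.Agent.R269.S4.Defs
import Claimed.Agent.R269.S4.Fgl

set_option autoImplicit false

namespace Claimed.Agent.R269

namespace Emb

theorem analyticAt_pdy {u : ℂ × ℂ → ℂ} {z : ℂ × ℂ} (hu : AnalyticAt ℂ u z) : AnalyticAt ℂ (pdy u) z :=
  Claimed.Agent.R269.analyticAt_pdy hu

theorem analyticAt_pdt {u : ℂ × ℂ → ℂ} {z : ℂ × ℂ} (hu : AnalyticAt ℂ u z) : AnalyticAt ℂ (pdt u) z :=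
  Claimed.Agent.R269.analyticAt_pdt hu

theorem analyticAt_pd {u : ℂ × ℂ → ℂ} {z : ℂ × ℂ} (hu : AnalyticAt ℂ u z) (a b : ℕ) :
    AnalyticAt ℂ (pd a b u) z :=
  Claimed.Agent.R269.analyticAt_pd a b hu

end Emb

end Claimed.Agent.R269
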