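/-
Row 269, P1 Section 4, unit 4F (Theorem 4.3, line-endpoint determination): CHAINS OF LINES NEAR A GLANCING POINT.  Definitions.   helper36.

`CChain n`: `n + 2` lines with angles `al 0, …, al (n+1)`, holomorphic functions of `(y,t)` near the real point `(y₀, 0)`, real on real points,
which coalesce at `t = 0`:  `al j (y,0) = φ(y)`, `∂_t al j (y,0) = (off + j) φ'(y)`, `φ' > 0`; consecutive lines are related by the reflection in the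
curve with support function `h` (`h + h'' > 0`):  stationarity `pOut (edge j) = pIn (edge j+1)`.

  edges `i ≤ n`:     `ps i = (al i + al (i+1))/2`,  `dd i = (al (i+1) - al i)/2`,  `sd i = sin (dd i)`,  `cd i = cos (dd i)`,  `Hh i l = h^{(l)} ∘ ps i`
  end data:          `∂ al 0`, `∂ al (n+1)`, `p0`, `pk`, `rc = cos (al (n+1) - al 0)`, `rs = sin (al (n+1) - al 0)`
  `hess w`           the Hessian of the action `∑ 2 h(ψ_i) sin d_i` in the interior angles (tridiagonal, `n × n`)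
  `vF f j`           the gradient, at the interior vertex `j + 1`, of `∑ 2 f_i(ψ_i) sin d_i`
  `At f`             `- hess⁻¹ vF f`
-/
import Claimed.Agent.R269.S4.ZTayB
import Claimed.Agent.R269.S4.VarB

set_option autoImplicit false

namespace Claimed.Agent.R269

open Filter Topology ZT

/-- a chain of `n + 2` lines near a glancing point. -/
structure CChain (n : ℕ) where
  h : ℂ → ℂ
  al : ℕ → ℂ × ℂ → ℂ
  y₀ : ℝ
  off : ℝ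
  al_an : ∀ j ≤ n + 1, AnalyticAt ℂ (al j) ((y₀ : ℂ), 0)
  h_an : AnalyticAt ℂ h (al 0 ((y₀ : ℂ), 0))
  al_conj : ∀ j ≤ n + 1, ∀ᶠ w in 𝓝 (((y₀ : ℂ), 0) : ℂ × ℂ),
    al j ((starRingEnd ℂ) w.1, (starRingEnd ℂ) w.2) = (starRingEnd ℂ) (al j w)
  h_conj : ∀ᶠ x in 𝓝 (al 0 ((y₀ : ℂ), 0)), h ((starRingEnd ℂ) x) = (starRingEnd ℂ) (h x)
  edge : ∀ j ≤ n + 1, ∀ᶠ y in 𝓝 (y₀ : ℂ), al j (y, 0) = al 0 (y, 0)
  slope : ∀ j ≤ n + 1, ∀ᶠ y in 𝓝 (y₀ : ℂ), pdt (al j) (y, 0) = ((off : ℂ) + j) * pdy (al 0) (y, 0)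
  φ'_pos : 0 < (pdy (al 0) ((y₀ : ℂ), 0)).re
  rad_pos : 0 < (h (al 0 ((y₀ : ℂ), 0)) + deriv (deriv h) (al 0 ((y₀ : ℂ), 0))).re
  stat : ∀ j < n, ∀ᶠ w in 𝓝 (((y₀ : ℂ), 0) : ℂ × ℂ),
    pOutC h (al j w) (al (j + 1) w) = pInC h (al (j + 1) w) (al (j + 2) w)

namespace CChain

variable {n : ℕ} (C : CChain n)

/-- the glancing angle `φ(y₀)`. -/
noncomputable def x₀ : ℂ := C.al 0 ((C.y₀ : ℂ), 0)

/-- the normal angle of the `i`-th impact. -/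
noncomputable def ps (i : ℕ) (w : ℂ × ℂ) : ℂ := (C.al i w + C.al (i + 1) w) / 2

/-- the half turning angle at the `i`-th impact. -/
noncomputable def dd (i : ℕ) (w : ℂ × ℂ) : ℂ := (C.al (i + 1) w - C.al i w) / 2

noncomputable def sd (i : ℕ) (w : ℂ × ℂ) : ℂ := Complex.sin (C.dd i w)

noncomputable def cd (i : ℕ) (w : ℂ × ℂ) : ℂ := Complex.cos (C.dd i w)

/-- `h^{(l)}(ψ_i)`. -/
noncomputable def Hh (i l : ℕ) (w : ℂ × ℂ) : ℂ := iteratedDeriv l C.h (C.ps i w)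

/-- the momentum of the first line. -/
noncomputable def p0 (w : ℂ × ℂ) : ℂ := C.Hh 0 0 w * C.cd 0 w - C.Hh 0 1 w * C.sd 0 w

/-- the momentum of the last line. -/
noncomputable def pk (w : ℂ × ℂ) : ℂ := C.Hh n 0 w * C.cd n w + C.Hh n 1 w * C.sd n w

noncomputable def rc (w : ℂ × ℂ) : ℂ := Complex.cos (C.al (n + 1) w - C.al 0 w)

noncomputable def rs (w : ℂ × ℂ) : ℂ := Complex.sin (C.al (n + 1) w - C.al 0 w)

/-- off-diagonal Hessian entry (edge `j`). -/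
noncomputable def hlF (j : ℕ) (w : ℂ × ℂ) : ℂ := (C.Hh j 0 w + C.Hh j 2 w) * C.sd j w / 2

/-- diagonal Hessian entry (interior vertex `j + 1`). -/
noncomputable def hdF (j : ℕ) (w : ℂ × ℂ) : ℂ :=
  (C.Hh j 1 w * C.cd j w + (C.Hh j 2 w - C.Hh j 0 w) * C.sd j w / 2)
    + (-(C.Hh (j + 1) 1 w * C.cd (j + 1) w) + (C.Hh (j + 1) 2 w - C.Hh (j + 1) 0 w) * C.sd (j + 1) w / 2)

/-- the Hessian of the action in the interior angles `al 1, …, al n`. -/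
noncomputable def hess (w : ℂ × ℂ) : Matrix (Fin n) (Fin n) ℂ :=
  Matrix.of fun a b : Fin n =>
    if a = b then C.hdF a w
    else if (a : ℕ) + 1 = b then C.hlF b w
    else if (b : ℕ) + 1 = a then C.hlF a w
    else 0

/-- the gradient of `∑ 2 f_i(ψ_i) sin d_i` at the interior vertex `j + 1`. -/
noncomputable def vF (f : ℕ → ℂ → ℂ) (j : ℕ) (w : ℂ × ℂ) : ℂ :=
  (deriv (f j) (C.ps j w) * C.sd j w + f j (C.ps j w) * C.cd j w)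
    + (deriv (f (j + 1)) (C.ps (j + 1) w) * C.sd (j + 1) w - f (j + 1) (C.ps (j + 1) w) * C.cd (j + 1) w)

/-- the first variation of the interior angles: `- hess⁻¹ vF`. -/
noncomputable def At (f : ℕ → ℂ → ℂ) (w : ℂ × ℂ) : Fin n → ℂ :=
  -((C.hess w)⁻¹.mulVec fun j : Fin n => C.vF f j w)

/-- the bidisc of radius `η₀` about `(y₀, 0)`. -/
def bd (η₀ : ℝ) : Set (ℂ × ℂ) := Metric.ball (C.y₀ : ℂ) η₀ ×ˢ Metric.ball (0 : ℂ) η₀

/-- basic properties on the bidisc `bd η₀`; `h` lives on the disc of radius `ρ` about `x₀`. -/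
structure Good1 (η₀ ρ : ℝ) : Prop where
  η₀_pos : 0 < η₀
  ρ_pos : 0 < ρ
  al_an : ∀ j ≤ n + 1, ∀ w ∈ C.bd η₀, AnalyticAt ℂ (C.al j) w
  h_an : ∀ x ∈ Metric.ball C.x₀ ρ, AnalyticAt ℂ C.h x
  ps_mem : ∀ i ≤ n, ∀ w ∈ C.bd η₀, C.ps i w ∈ Metric.ball C.x₀ ρ
  al_conj : ∀ j ≤ n + 1, ∀ w ∈ C.bd η₀,
    C.al j ((starRingEnd ℂ) w.1, (starRingEnd ℂ) w.2) = (starRingEnd ℂ) (C.al j w)
  h_conj : ∀ x ∈ Metric.ball C.x₀ ρ, C.h ((starRingEnd ℂ) x) = (starRingEnd ℂ) (C.h x)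
  x₀_real : C.x₀.im = 0
  edge : ∀ j ≤ n + 1, ∀ y ∈ Metric.ball (C.y₀ : ℂ) η₀, C.al j (y, 0) = C.al 0 (y, 0)
  slope : ∀ j ≤ n + 1, ∀ y ∈ Metric.ball (C.y₀ : ℂ) η₀,
    pdt (C.al j) (y, 0) = ((C.off : ℂ) + j) * pdy (C.al 0) (y, 0)
  stat : ∀ j < n, ∀ w ∈ C.bd η₀,
    C.Hh j 0 w * C.cd j w + C.Hh j 1 w * C.sd j w
      = C.Hh (j + 1) 0 w * C.cd (j + 1) w - C.Hh (j + 1) 1 w * C.sd (j + 1) w
  φ'_pos : ∀ y ∈ Metric.ball (C.y₀ : ℂ) η₀, 0 < (pdy (C.al 0) (y, 0)).re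
  re_pos : ∀ i ≤ n, ∀ w ∈ C.bd η₀, 0 < (pdy (C.ps i) w).re
  indep : ∀ i ≤ n, ∀ j ≤ n, i ≠ j → ∀ w ∈ C.bd η₀,
    pdy (C.ps i) w * pdt (C.ps j) w - pdy (C.ps j) w * pdt (C.ps i) w ≠ 0

/-- nondegeneracy of the weights and of the Hessian for `t ≠ 0`; coercivity at real points with `t > 0`. -/
structure Good2 (η₀ cc : ℝ) : Prop where
  cc_pos : 0 < cc
  sd_ne : ∀ i ≤ n, ∀ w ∈ C.bd η₀, w.2 ≠ 0 → C.sd i w ≠ 0
  det_ne : ∀ w ∈ C.bd η₀, w.2 ≠ 0 → (C.hess w).det ≠ 0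
  coer : ∀ r : ℝ × ℝ, rp r ∈ C.bd η₀ → 0 < r.2 → ∀ x : Fin n → ℝ,
    cc * ∑ a, (∑ b, (C.hess (rp r) a b).re * x b) ^ 2 ≤ r.2 * (-∑ a, x a * ∑ b, (C.hess (rp r) a b).re * x b)

/-- every value of `ps i` at a real point of the small square is taken on the slice `t = t₀` of the big bidisc. -/
structure Good3 (η₀ η : ℝ) : Prop where
  η_pos : 0 < η
  η_le : η ≤ η₀
  cover : ∀ t₀ : ℝ, 0 < t₀ → t₀ < η → ∀ r : ℝ × ℝ, |r.1 - C.y₀| < η → |r.2| < η → ∀ i ≤ n,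
    ∃ y' ∈ Metric.ball (C.y₀ : ℂ) η₀, C.ps i (y', (t₀ : ℂ)) = C.ps i (rp r)

/-- all together. -/
structure Good (η₀ η ρ cc : ℝ) : Prop where
  g1 : C.Good1 η₀ ρ
  g2 : C.Good2 η₀ cc
  g3 : C.Good3 η₀ η

/-- the derivation `δ` of `ℂ` kills the Taylor series at `z` of the end data. -/
structure EndKilled (z : ℂ × ℂ) (δ : Dv ℂ) : Prop where
  a1 : DD δ (ztay z (pdy (C.al 0))) = 0
  a2 : DD δ (ztay z (pdt (C.al 0))) = 0
  b1 : DD δ (ztay z (pdy (C.al (n + 1)))) = 0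
  b2 : DD δ (ztay z (pdt (C.al (n + 1)))) = 0
  p0 : DD δ (ztay z C.p0) = 0
  pk : DD δ (ztay z C.pk) = 0
  rc : DD δ (ztay z C.rc) = 0
  rs : DD δ (ztay z C.rs) = 0

/-- the image of the slice `t = t₀` under `ps i`. -/
def Jm (η₀ : ℝ) (t₀ : ℂ) (i : ℕ) : Set ℂ := (fun y => C.ps i (y, t₀)) '' Metric.ball (C.y₀ : ℂ) η₀

/-- a family of profiles: `f i` holomorphic on `Jm i`, real on the real axis. -/
structure Prof (η₀ : ℝ) (t₀ : ℂ) (f : ℕ → ℂ → ℂ) : Prop where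
  isOpen : ∀ i ≤ n, IsOpen (C.Jm η₀ t₀ i)
  diff : ∀ i ≤ n, DifferentiableOn ℂ (f i) (C.Jm η₀ t₀ i)
  conj : ∀ i ≤ n, ∀ x ∈ C.Jm η₀ t₀ i, f i ((starRingEnd ℂ) x) = (starRingEnd ℂ) (f i x)

end CChain

end Claimed.Agent.R269
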