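/-
Row 269, P1 Section 4, unit 4F: chains of lines, THE GOOD NEIGHBOURHOOD I (basic properties) and III (covering).   Statements: helper36.

`exists_good1`: every field of `Good1` holds on all sufficiently small bidiscs: intersect finitely many `∀ᶠ` (fields of `CChain`; `AnalyticAt.eventually_analyticAt`;
  `Metric.eventually_nhds_iff`, `nhds_prod_eq`; a neighbourhood of `(y₀,0)` contains a bidisc) and use continuity at `(y₀,0)` of the analytic functions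
  `ps i`, `pdy (ps i)`, `pdt (ps i)` (`Emb.analyticAt_pdy`, `Emb.analyticAt_pdt`).   Values at `(y₀,0)`, with `φ' := pdy (al 0) (y₀,0)`, `Re φ' > 0`:
     `ps i = x₀`  (by `edge`),   `pdy (al j) = φ'`  (differentiate `edge`),   `pdt (al j) = (off + j) φ'`  (`slope`),
     `pdy (ps i) = φ'`,  `pdt (ps i) = (off + i + 1/2) φ'`,   `pdy (ps i) pdt (ps j) - pdy (ps j) pdt (ps i) = (j - i) φ'^2 ≠ 0`.
  `stat`: unfold `pOutC`, `pInC`, `Hh`, `ps`, `dd`, `iteratedDeriv_zero`, `iteratedDeriv_one`.   `x₀_real`: `al_conj` at the real point `(y₀,0)`.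
`good3_of_good1`: for real `t`, `|t| < η₀`, the function `y ↦ ps i (y,t)` is real valued (`al_conj`) and strictly increasing (`re_pos`) on the real interval
  `(y₀ - η₀, y₀ + η₀)`.  With `y± = y₀ ± η₀/2`: `ps i (y₋,0) < x₀ < ps i (y₊,0)`; let `ξ` be half the smaller gap.  By continuity there is `η` with
  `ps i (y₋,t) < x₀ - ξ`, `x₀ + ξ < ps i (y₊,t)` for `|t| < η` and `|ps i (y,t) - x₀| < ξ` for `|y - y₀| < η`, `|t| < η`.  Intermediate value theorem on `[y₋, y₊]`.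
Proofs: helper151 (LF-S4-Chain-a); sorry-free.
-/
import Claimed.Agent.R269.S4.Chain

set_option autoImplicit false

namespace Claimed.Agent.R269

open Filter Topology ZT

namespace CChain

variable {n : ℕ} (C : CChain n)

theorem chA_ev_all {α : Type*} {l : Filter α} (N : ℕ) {p : ℕ → α → Prop}
    (h : ∀ j ≤ N, ∀ᶠ x in l, p j x) : ∀ᶠ x in l, ∀ j ≤ N, p j x := by
  have h1 := (Filter.eventually_all_finset (Finset.range (N + 1)) (l := l) (p := p)).2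
    (fun j hj => h j (Nat.lt_succ_iff.1 (Finset.mem_range.1 hj)))
  filter_upwards [h1] with x hx j hj
  exact hx j (Finset.mem_range.2 (Nat.lt_succ_iff.2 hj))

theorem chA_an_ps {w : ℂ × ℂ} {i : ℕ} (h1 : AnalyticAt ℂ (C.al i) w) (h2 : AnalyticAt ℂ (C.al (i + 1)) w) :
    AnalyticAt ℂ (C.ps i) w := by
  have h3 : AnalyticAt ℂ (fun w => (C.al i w + C.al (i + 1) w) / 2) w := (h1.add h2).div_const
  exact h3

theorem chA_pdy_ps {w : ℂ × ℂ} {i : ℕ} (h1 : AnalyticAt ℂ (C.al i) w) (h2 : AnalyticAt ℂ (C.al (i + 1)) w) :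
    pdy (C.ps i) w = (pdy (C.al i) w + pdy (C.al (i + 1)) w) / 2 := by
  unfold pdy ps
  rw [deriv_div_const, deriv_fun_add (differentiableAt_slice_fst h1.differentiableAt)
    (differentiableAt_slice_fst h2.differentiableAt)]

theorem chA_pdt_ps {w : ℂ × ℂ} {i : ℕ} (h1 : AnalyticAt ℂ (C.al i) w) (h2 : AnalyticAt ℂ (C.al (i + 1)) w) :
    pdt (C.ps i) w = (pdt (C.al i) w + pdt (C.al (i + 1)) w) / 2 := by
  unfold pdt ps
  rw [deriv_div_const, deriv_fun_add (differentiableAt_slice_snd h1.differentiableAt)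
    (differentiableAt_slice_snd h2.differentiableAt)]

theorem chA_al_z0 (j : ℕ) (hj : j ≤ n + 1) : C.al j ((C.y₀ : ℂ), 0) = C.x₀ := (C.edge j hj).self_of_nhds

theorem chA_pdy_al_z0 (j : ℕ) (hj : j ≤ n + 1) :
    pdy (C.al j) ((C.y₀ : ℂ), 0) = pdy (C.al 0) ((C.y₀ : ℂ), 0) :=
  Filter.EventuallyEq.deriv_eq (C.edge j hj)

theorem chA_pdt_al_z0 (j : ℕ) (hj : j ≤ n + 1) :
    pdt (C.al j) ((C.y₀ : ℂ), 0) = ((C.off : ℂ) + j) * pdy (C.al 0) ((C.y₀ : ℂ), 0) :=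
  (C.slope j hj).self_of_nhds

theorem chA_ps_z0 (i : ℕ) (hi : i ≤ n) : C.ps i ((C.y₀ : ℂ), 0) = C.x₀ := by
  unfold ps
  rw [C.chA_al_z0 i (by omega), C.chA_al_z0 (i + 1) (by omega)]
  ring

theorem chA_pdy_ps_z0 (i : ℕ) (hi : i ≤ n) :
    pdy (C.ps i) ((C.y₀ : ℂ), 0) = pdy (C.al 0) ((C.y₀ : ℂ), 0) := by
  rw [C.chA_pdy_ps (C.al_an i (by omega)) (C.al_an (i + 1) (by omega)),
    C.chA_pdy_al_z0 i (by omega), C.chA_pdy_al_z0 (i + 1) (by omega)]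
  ring

theorem chA_pdt_ps_z0 (i : ℕ) (hi : i ≤ n) :
    pdt (C.ps i) ((C.y₀ : ℂ), 0) = ((C.off : ℂ) + i + 1 / 2) * pdy (C.al 0) ((C.y₀ : ℂ), 0) := by
  rw [C.chA_pdt_ps (C.al_an i (by omega)) (C.al_an (i + 1) (by omega)),
    C.chA_pdt_al_z0 i (by omega), C.chA_pdt_al_z0 (i + 1) (by omega)]
  push_cast
  ring

theorem chA_x₀_real : C.x₀.im = 0 := by
  have h := (C.al_conj 0 (by omega)).self_of_nhds
  simp only [Complex.conj_ofReal, map_zero] at h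
  exact Complex.conj_eq_iff_im.1 h.symm

theorem exists_good1 : ∃ ρ : ℝ, ∃ ηs : ℝ, 0 < ηs ∧ ∀ η₀ : ℝ, 0 < η₀ → η₀ ≤ ηs → C.Good1 η₀ ρ := by
  have hh : ∀ᶠ x in 𝓝 C.x₀, AnalyticAt ℂ C.h x ∧ C.h ((starRingEnd ℂ) x) = (starRingEnd ℂ) (C.h x) :=
    C.h_an.eventually_analyticAt.and C.h_conj
  obtain ⟨ρ, hρ, hρ'⟩ := Metric.eventually_nhds_iff_ball.1 hh
  have hfst : Tendsto (fun w : ℂ × ℂ => w.1) (𝓝 (((C.y₀ : ℂ), 0) : ℂ × ℂ)) (𝓝 (C.y₀ : ℂ)) :=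
    continuous_fst.tendsto _
  have hφ : pdy (C.al 0) ((C.y₀ : ℂ), 0) ≠ 0 := by
    intro h0
    have := C.φ'_pos
    rw [h0] at this
    simp at this
  have e1 : ∀ᶠ w in 𝓝 (((C.y₀ : ℂ), 0) : ℂ × ℂ), ∀ j ≤ n + 1, AnalyticAt ℂ (C.al j) w :=
    chA_ev_all _ fun j hj => (C.al_an j hj).eventually_analyticAt
  have e2 : ∀ᶠ w in 𝓝 (((C.y₀ : ℂ), 0) : ℂ × ℂ), ∀ i ≤ n, C.ps i w ∈ Metric.ball C.x₀ ρ := by
    refine chA_ev_all _ fun i hi => ?_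
    have hc : ContinuousAt (C.ps i) ((C.y₀ : ℂ), 0) :=
      (C.chA_an_ps (C.al_an i (by omega)) (C.al_an (i + 1) (by omega))).continuousAt
    refine hc.eventually_mem ?_
    rw [C.chA_ps_z0 i hi]
    exact Metric.ball_mem_nhds _ hρ
  have e3 : ∀ᶠ w in 𝓝 (((C.y₀ : ℂ), 0) : ℂ × ℂ), ∀ j ≤ n + 1,
      C.al j ((starRingEnd ℂ) w.1, (starRingEnd ℂ) w.2) = (starRingEnd ℂ) (C.al j w) :=
    chA_ev_all _ fun j hj => C.al_conj j hj
  have e4 : ∀ᶠ w in 𝓝 (((C.y₀ : ℂ), 0) : ℂ × ℂ), ∀ j ≤ n + 1, C.al j (w.1, 0) = C.al 0 (w.1, 0) :=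
    chA_ev_all _ fun j hj => hfst.eventually (C.edge j hj)
  have e5 : ∀ᶠ w in 𝓝 (((C.y₀ : ℂ), 0) : ℂ × ℂ), ∀ j ≤ n + 1,
      pdt (C.al j) (w.1, 0) = ((C.off : ℂ) + j) * pdy (C.al 0) (w.1, 0) :=
    chA_ev_all _ fun j hj => hfst.eventually (C.slope j hj)
  have e6 : ∀ᶠ w in 𝓝 (((C.y₀ : ℂ), 0) : ℂ × ℂ), ∀ j ≤ n, j < n →
      pOutC C.h (C.al j w) (C.al (j + 1) w) = pInC C.h (C.al (j + 1) w) (C.al (j + 2) w) := by
    refine chA_ev_all _ fun j _ => ?_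
    by_cases hj : j < n
    · filter_upwards [C.stat j hj] with w hw _ using hw
    · exact Filter.Eventually.of_forall fun w h => absurd h hj
  have e7 : ∀ᶠ w in 𝓝 (((C.y₀ : ℂ), 0) : ℂ × ℂ), 0 < (pdy (C.al 0) (w.1, 0)).re := by
    have hc : ContinuousAt (fun w : ℂ × ℂ => (pdy (C.al 0) (w.1, 0)).re) ((C.y₀ : ℂ), 0) := by
      have h1 : ContinuousAt (pdy (C.al 0)) ((C.y₀ : ℂ), 0) := (analyticAt_pdy (C.al_an 0 (by omega))).continuousAt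
      have h2 : ContinuousAt (fun w : ℂ × ℂ => ((w.1, 0) : ℂ × ℂ)) ((C.y₀ : ℂ), 0) := by fun_prop
      have h3 : ContinuousAt (fun w : ℂ × ℂ => pdy (C.al 0) (w.1, 0)) ((C.y₀ : ℂ), 0) :=
        ContinuousAt.comp (g := pdy (C.al 0)) (f := fun w : ℂ × ℂ => ((w.1, 0) : ℂ × ℂ)) h1 h2
      exact Complex.continuous_re.continuousAt.comp h3
    exact hc.eventually (lt_mem_nhds C.φ'_pos)
  have e8 : ∀ᶠ w in 𝓝 (((C.y₀ : ℂ), 0) : ℂ × ℂ), ∀ i ≤ n, 0 < (pdy (C.ps i) w).re := by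
    refine chA_ev_all _ fun i hi => ?_
    have hc : ContinuousAt (fun w : ℂ × ℂ => (pdy (C.ps i) w).re) ((C.y₀ : ℂ), 0) :=
      Complex.continuous_re.continuousAt.comp
        (analyticAt_pdy (C.chA_an_ps (C.al_an i (by omega)) (C.al_an (i + 1) (by omega)))).continuousAt
    refine hc.eventually (lt_mem_nhds ?_)
    show 0 < (pdy (C.ps i) ((C.y₀ : ℂ), 0)).re
    rw [C.chA_pdy_ps_z0 i hi]
    exact C.φ'_pos
  have e9 : ∀ᶠ w in 𝓝 (((C.y₀ : ℂ), 0) : ℂ × ℂ), ∀ i ≤ n, ∀ j ≤ n, i ≠ j →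
      pdy (C.ps i) w * pdt (C.ps j) w - pdy (C.ps j) w * pdt (C.ps i) w ≠ 0 := by
    refine chA_ev_all _ fun i hi => chA_ev_all _ fun j hj => ?_
    by_cases hij : i = j
    · exact Filter.Eventually.of_forall fun w h => absurd hij h
    have ai := C.chA_an_ps (C.al_an i (by omega)) (C.al_an (i + 1) (by omega))
    have aj := C.chA_an_ps (C.al_an j (by omega)) (C.al_an (j + 1) (by omega))
    have hc : ContinuousAt (fun w : ℂ × ℂ =>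
        pdy (C.ps i) w * pdt (C.ps j) w - pdy (C.ps j) w * pdt (C.ps i) w) ((C.y₀ : ℂ), 0) :=
      (((analyticAt_pdy ai).mul (analyticAt_pdt aj)).sub ((analyticAt_pdy aj).mul (analyticAt_pdt ai))).continuousAt
    have hne : pdy (C.ps i) ((C.y₀ : ℂ), 0) * pdt (C.ps j) ((C.y₀ : ℂ), 0)
        - pdy (C.ps j) ((C.y₀ : ℂ), 0) * pdt (C.ps i) ((C.y₀ : ℂ), 0) ≠ 0 := by
      rw [C.chA_pdy_ps_z0 i hi, C.chA_pdy_ps_z0 j hj, C.chA_pdt_ps_z0 i hi, C.chA_pdt_ps_z0 j hj]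
      have h1 : ((j : ℂ) - i) ≠ 0 := by
        intro h0
        exact hij (by exact_mod_cast (sub_eq_zero.1 h0).symm)
      have h2 : pdy (C.al 0) ((C.y₀ : ℂ), 0) * (((C.off : ℂ) + j + 1 / 2) * pdy (C.al 0) ((C.y₀ : ℂ), 0))
          - pdy (C.al 0) ((C.y₀ : ℂ), 0) * (((C.off : ℂ) + i + 1 / 2) * pdy (C.al 0) ((C.y₀ : ℂ), 0))
          = ((j : ℂ) - i) * (pdy (C.al 0) ((C.y₀ : ℂ), 0) * pdy (C.al 0) ((C.y₀ : ℂ), 0)) := by ring
      rw [h2]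
      exact mul_ne_zero h1 (mul_ne_zero hφ hφ)
    filter_upwards [hc.eventually_ne hne] with w hw _ using hw
  have eall := e1.and (e2.and (e3.and (e4.and (e5.and (e6.and (e7.and (e8.and e9)))))))
  obtain ⟨ηs, hηs, hall⟩ := Metric.eventually_nhds_iff_ball.1 eall
  refine ⟨ρ, ηs, hηs, fun η₀ h0 hle => ?_⟩
  have hsub : ∀ w ∈ C.bd η₀, w ∈ Metric.ball (((C.y₀ : ℂ), 0) : ℂ × ℂ) ηs := by
    intro w hw
    rw [← ball_prod_same]
    exact ⟨Metric.ball_subset_ball hle hw.1, Metric.ball_subset_ball hle hw.2⟩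
  have hsub' : ∀ y ∈ Metric.ball (C.y₀ : ℂ) η₀, ((y, 0) : ℂ × ℂ) ∈ Metric.ball (((C.y₀ : ℂ), 0) : ℂ × ℂ) ηs := by
    intro y hy
    exact hsub _ ⟨hy, Metric.mem_ball_self h0⟩
  refine
    { η₀_pos := h0
      ρ_pos := hρ
      al_an := fun j hj w hw => (hall w (hsub w hw)).1 j hj
      h_an := fun x hx => (hρ' x hx).1
      ps_mem := fun i hi w hw => (hall w (hsub w hw)).2.1 i hi
      al_conj := fun j hj w hw => (hall w (hsub w hw)).2.2.1 j hj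
      h_conj := fun x hx => (hρ' x hx).2
      x₀_real := C.chA_x₀_real
      edge := fun j hj y hy => (hall _ (hsub' y hy)).2.2.2.1 j hj
      slope := fun j hj y hy => (hall _ (hsub' y hy)).2.2.2.2.1 j hj
      stat := fun j hj w hw => ?_
      φ'_pos := fun y hy => (hall _ (hsub' y hy)).2.2.2.2.2.2.1
      re_pos := fun i hi w hw => (hall w (hsub w hw)).2.2.2.2.2.2.2.1 i hi
      indep := fun i hi j hj hij w hw => (hall w (hsub w hw)).2.2.2.2.2.2.2.2 i hi j hj hij }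
  have h := (hall w (hsub w hw)).2.2.2.2.2.1 j hj.le hj
  simpa only [pOutC, pInC, Hh, ps, dd, sd, cd, iteratedDeriv_zero, iteratedDeriv_one] using h

theorem chA_real_mem_bd {η₀ : ℝ} {y t : ℝ} (hy : |y - C.y₀| < η₀) (ht : |t| < η₀) :
    (((y : ℂ), (t : ℂ)) : ℂ × ℂ) ∈ C.bd η₀ := by
  refine ⟨?_, ?_⟩
  · rw [Metric.mem_ball, Complex.dist_eq, ← Complex.ofReal_sub, Complex.norm_real]
    exact hy
  · rw [Metric.mem_ball, dist_zero_right, Complex.norm_real]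
    exact ht

theorem chA_ps_real {η₀ ρ : ℝ} (h : C.Good1 η₀ ρ) {y t : ℝ} (hw : (((y : ℂ), (t : ℂ)) : ℂ × ℂ) ∈ C.bd η₀)
    (i : ℕ) (hi : i ≤ n) : (C.ps i ((y : ℂ), (t : ℂ))).im = 0 := by
  have key : ∀ j ≤ n + 1, (C.al j ((y : ℂ), (t : ℂ))).im = 0 := by
    intro j hj
    have h1 := h.al_conj j hj _ hw
    simp only [Complex.conj_ofReal] at h1
    exact Complex.conj_eq_iff_im.1 h1.symm
  unfold ps
  have h2 : ((C.al i ((y : ℂ), (t : ℂ)) + C.al (i + 1) ((y : ℂ), (t : ℂ))) / 2).im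
      = ((C.al i ((y : ℂ), (t : ℂ))).im + (C.al (i + 1) ((y : ℂ), (t : ℂ))).im) / 2 := by
    rw [show (2 : ℂ) = ((2 : ℝ) : ℂ) by norm_num, Complex.div_ofReal_im, Complex.add_im]
  rw [h2, key i (by omega), key (i + 1) (by omega)]
  norm_num

theorem chA_g1_an_ps {η₀ ρ : ℝ} (h : C.Good1 η₀ ρ) {w : ℂ × ℂ} (hw : w ∈ C.bd η₀) (i : ℕ) (hi : i ≤ n) :
    AnalyticAt ℂ (C.ps i) w :=
  C.chA_an_ps (h.al_an i (by omega) w hw) (h.al_an (i + 1) (by omega) w hw)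

/-- strict monotonicity of `y ↦ ps i (y,0)` on the real interval. -/
theorem chA_ps_strictMono {η₀ ρ : ℝ} (h : C.Good1 η₀ ρ) (i : ℕ) (hi : i ≤ n) :
    StrictMonoOn (fun y : ℝ => (C.ps i ((y : ℂ), 0)).re) (Set.Icc (C.y₀ - η₀ / 2) (C.y₀ + η₀ / 2)) := by
  have h0 := h.η₀_pos
  have hmem : ∀ y ∈ Set.Icc (C.y₀ - η₀ / 2) (C.y₀ + η₀ / 2), (((y : ℂ), 0) : ℂ × ℂ) ∈ C.bd η₀ := by
    intro y hy
    have := C.chA_real_mem_bd (η₀ := η₀) (y := y) (t := 0)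
      (by rw [abs_lt]; constructor <;> linarith [hy.1, hy.2]) (by simpa using h0)
    simpa using this
  have hd : ∀ y ∈ Set.Icc (C.y₀ - η₀ / 2) (C.y₀ + η₀ / 2),
      HasDerivAt (fun y : ℝ => (C.ps i ((y : ℂ), 0)).re) ((pdy (C.ps i) ((y : ℂ), 0)).re) y := by
    intro y hy
    have h1 : HasDerivAt (fun y' : ℂ => C.ps i (y', 0)) (pdy (C.ps i) ((y : ℂ), 0)) (y : ℂ) :=
      (differentiableAt_slice_fst (z := (((y : ℂ), 0) : ℂ × ℂ))
        (C.chA_g1_an_ps h (hmem y hy) i hi).differentiableAt).hasDerivAt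
    exact h1.real_of_complex
  refine strictMonoOn_of_deriv_pos (convex_Icc _ _) (fun y hy => (hd y hy).continuousAt.continuousWithinAt) ?_
  intro y hy
  have hy' := interior_subset hy
  rw [(hd y hy').deriv]
  exact h.re_pos i hi _ (hmem y hy')

theorem good3_of_good1 {η₀ ρ : ℝ} (h : C.Good1 η₀ ρ) : ∃ η : ℝ, C.Good3 η₀ η := by
  have h0 := h.η₀_pos
  have hm : ((((C.y₀ - η₀ / 2 : ℝ) : ℂ), ((0 : ℝ) : ℂ)) : ℂ × ℂ) ∈ C.bd η₀ :=
    C.chA_real_mem_bd (by rw [abs_lt]; constructor <;> linarith) (by simpa using h0)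
  have hp : ((((C.y₀ + η₀ / 2 : ℝ) : ℂ), ((0 : ℝ) : ℂ)) : ℂ × ℂ) ∈ C.bd η₀ :=
    C.chA_real_mem_bd (by rw [abs_lt]; constructor <;> linarith) (by simpa using h0)
  have hz : ((((C.y₀ : ℝ) : ℂ), ((0 : ℝ) : ℂ)) : ℂ × ℂ) ∈ C.bd η₀ :=
    C.chA_real_mem_bd (by simpa using h0) (by simpa using h0)
  have ev : ∀ᶠ q : ℝ × (ℝ × ℝ) in 𝓝 ((0 : ℝ), (C.y₀, (0 : ℝ))), ∀ i ≤ n,
      (C.ps i (((C.y₀ - η₀ / 2 : ℝ) : ℂ), (q.1 : ℂ))).re < (C.ps i (rp q.2)).re ∧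
      (C.ps i (rp q.2)).re < (C.ps i (((C.y₀ + η₀ / 2 : ℝ) : ℂ), (q.1 : ℂ))).re := by
    refine chA_ev_all _ fun i hi => ?_
    have hmono := C.chA_ps_strictMono h i hi
    have c0 : ContinuousAt (fun q : ℝ × (ℝ × ℝ) => (C.ps i (rp q.2)).re) ((0 : ℝ), (C.y₀, (0 : ℝ))) := by
      have h1 : ContinuousAt (C.ps i) (rp (C.y₀, (0 : ℝ))) := (C.chA_g1_an_ps h hz i hi).continuousAt
      have h2 : ContinuousAt (fun q : ℝ × (ℝ × ℝ) => rp q.2) ((0 : ℝ), (C.y₀, (0 : ℝ))) :=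
        (continuous_rp.comp continuous_snd).continuousAt
      exact Complex.continuous_re.continuousAt.comp
        (ContinuousAt.comp (g := C.ps i) (f := fun q : ℝ × (ℝ × ℝ) => rp q.2) h1 h2)
    have cside : ∀ a : ℝ, (((a : ℂ), ((0 : ℝ) : ℂ)) : ℂ × ℂ) ∈ C.bd η₀ →
        ContinuousAt (fun q : ℝ × (ℝ × ℝ) => (C.ps i ((a : ℂ), (q.1 : ℂ))).re) ((0 : ℝ), (C.y₀, (0 : ℝ))) := by
      intro a ha
      have h1 : ContinuousAt (C.ps i) ((a : ℂ), ((0 : ℝ) : ℂ)) := (C.chA_g1_an_ps h ha i hi).continuousAt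
      have h2 : ContinuousAt (fun q : ℝ × (ℝ × ℝ) => (((a : ℂ), (q.1 : ℂ)) : ℂ × ℂ)) ((0 : ℝ), (C.y₀, (0 : ℝ))) := by
        have : Continuous (fun q : ℝ × (ℝ × ℝ) => (((a : ℂ), (q.1 : ℂ)) : ℂ × ℂ)) := by fun_prop
        exact this.continuousAt
      exact Complex.continuous_re.continuousAt.comp
        (ContinuousAt.comp (g := C.ps i) (f := fun q : ℝ × (ℝ × ℝ) => (((a : ℂ), (q.1 : ℂ)) : ℂ × ℂ)) h1 h2)
    have l1 : (C.ps i (((C.y₀ - η₀ / 2 : ℝ) : ℂ), ((0 : ℝ) : ℂ))).re < (C.ps i (rp (C.y₀, (0 : ℝ)))).re := by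
      have := hmono (a := C.y₀ - η₀ / 2) (b := C.y₀) ⟨le_refl _, by linarith⟩ ⟨by linarith, by linarith⟩ (by linarith)
      simpa [rp] using this
    have l2 : (C.ps i (rp (C.y₀, (0 : ℝ)))).re < (C.ps i (((C.y₀ + η₀ / 2 : ℝ) : ℂ), ((0 : ℝ) : ℂ))).re := by
      have := hmono (a := C.y₀) (b := C.y₀ + η₀ / 2) ⟨by linarith, by linarith⟩ ⟨by linarith, le_refl _⟩ (by linarith)
      simpa [rp] using this
    exact ((cside _ hm).eventually_lt c0 l1).and (c0.eventually_lt (cside _ hp) l2)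
  obtain ⟨η', hη', hall⟩ := Metric.eventually_nhds_iff_ball.1 ev
  refine ⟨min η' η₀, lt_min hη' h0, min_le_right _ _, ?_⟩
  intro t₀ ht0 ht1 r hr1 hr2 i hi
  have hq : ((t₀, r) : ℝ × (ℝ × ℝ)) ∈ Metric.ball ((0 : ℝ), (C.y₀, (0 : ℝ))) η' := by
    rw [← ball_prod_same, ← ball_prod_same]
    refine ⟨?_, ?_, ?_⟩
    · rw [Metric.mem_ball, Real.dist_eq, sub_zero, abs_of_pos ht0]
      exact lt_of_lt_of_le ht1 (min_le_left _ _)
    · rw [Metric.mem_ball, Real.dist_eq]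
      exact lt_of_lt_of_le hr1 (min_le_left _ _)
    · rw [Metric.mem_ball, Real.dist_eq, sub_zero]
      exact lt_of_lt_of_le hr2 (min_le_left _ _)
  obtain ⟨k1, k2⟩ := hall _ hq i hi
  have ht₀ : |t₀| < η₀ := by
    rw [abs_of_pos ht0]
    exact lt_of_lt_of_le ht1 (min_le_right _ _)
  have hmem : ∀ y ∈ Set.Icc (C.y₀ - η₀ / 2) (C.y₀ + η₀ / 2), (((y : ℂ), (t₀ : ℂ)) : ℂ × ℂ) ∈ C.bd η₀ := by
    intro y hy
    exact C.chA_real_mem_bd (by rw [abs_lt]; constructor <;> linarith [hy.1, hy.2]) ht₀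
  have hcont : ContinuousOn (fun y : ℝ => (C.ps i ((y : ℂ), (t₀ : ℂ))).re)
      (Set.Icc (C.y₀ - η₀ / 2) (C.y₀ + η₀ / 2)) := by
    intro y hy
    have h1 : ContinuousAt (C.ps i) ((y : ℂ), (t₀ : ℂ)) := (C.chA_g1_an_ps h (hmem y hy) i hi).continuousAt
    have h2 : ContinuousAt (fun y : ℝ => (((y : ℂ), (t₀ : ℂ)) : ℂ × ℂ)) y := by
      have : Continuous (fun y : ℝ => (((y : ℂ), (t₀ : ℂ)) : ℂ × ℂ)) := by fun_prop
      exact this.continuousAt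
    exact (Complex.continuous_re.continuousAt.comp
      (ContinuousAt.comp (g := C.ps i) (f := fun y : ℝ => (((y : ℂ), (t₀ : ℂ)) : ℂ × ℂ)) h1 h2)).continuousWithinAt
  obtain ⟨y', hy', hval⟩ := intermediate_value_Icc (by linarith) hcont ⟨k1.le, k2.le⟩
  refine ⟨(y' : ℂ), (hmem y' hy').1, ?_⟩
  have hr : rp r ∈ C.bd η₀ :=
    C.chA_real_mem_bd (lt_of_lt_of_le hr1 (min_le_right _ _)) (lt_of_lt_of_le hr2 (min_le_right _ _))
  refine Complex.ext hval ?_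
  rw [C.chA_ps_real h (hmem y' hy') i hi]
  exact (C.chA_ps_real h hr i hi).symm

end CChain

end Claimed.Agent.R269
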