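/-
Row 269, P1 Section 4, units 4F/4H: chains of lines, FACTS AT THE BASE POINT `(y₀, 0)` (directly from the fields of `CChain`; no good neighbourhood needed).   helper3.

  `b0_an_*`     analyticity at `(y₀,0)` of `ps`, `dd`, `sd`, `cd`, `Hh`, `hlF`, `hdF`
  `b0_edge_*`   values on `t = 0` (for `y` near `y₀`):  `dd = 0`, `ps = al 0`, `sd = 0`, `cd = 1`, `hlF = 0`, `hdF = 0`
  `b0_hd_*`     `t`-derivatives at `(y₀,0)`, as `HasDerivAt` of the slice `t ↦ u (y₀,t)` at `0`;   `b0_pdt_sd`, `b0_pdt_hlF`, `b0_pdt_hdF`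
  `b0_real_*`   `x₀`, `φ' = pdy (al 0) (y₀,0)`, `r = h x₀ + h'' x₀` are real
-/
import Claimed.Agent.R269.S4.Chain

set_option autoImplicit false

namespace Claimed.Agent.R269

open Filter Topology ZT

namespace CChain

variable {n : ℕ} (C : CChain n)

/-! ### values on the edge -/

theorem b0_edge_dd (i : ℕ) (hi : i ≤ n) : ∀ᶠ y in 𝓝 (C.y₀ : ℂ), C.dd i (y, 0) = 0 := by
  filter_upwards [C.edge i (by omega), C.edge (i + 1) (by omega)] with y h1 h2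
  simp only [dd, h1, h2, sub_self, zero_div]

theorem b0_edge_ps (i : ℕ) (hi : i ≤ n) : ∀ᶠ y in 𝓝 (C.y₀ : ℂ), C.ps i (y, 0) = C.al 0 (y, 0) := by
  filter_upwards [C.edge i (by omega), C.edge (i + 1) (by omega)] with y h1 h2
  simp only [ps, h1, h2]
  ring

theorem b0_edge_sd (i : ℕ) (hi : i ≤ n) : ∀ᶠ y in 𝓝 (C.y₀ : ℂ), C.sd i (y, 0) = 0 := by
  filter_upwards [C.b0_edge_dd i hi] with y h1
  simp only [sd, h1, Complex.sin_zero]

theorem b0_edge_cd (i : ℕ) (hi : i ≤ n) : ∀ᶠ y in 𝓝 (C.y₀ : ℂ), C.cd i (y, 0) = 1 := by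
  filter_upwards [C.b0_edge_dd i hi] with y h1
  simp only [cd, h1, Complex.cos_zero]

theorem b0_edge_Hh (i : ℕ) (hi : i ≤ n) (l : ℕ) :
    ∀ᶠ y in 𝓝 (C.y₀ : ℂ), C.Hh i l (y, 0) = iteratedDeriv l C.h (C.al 0 (y, 0)) := by
  filter_upwards [C.b0_edge_ps i hi] with y h1
  simp only [Hh, h1]

theorem b0_edge_hlF (j : ℕ) (hj : j ≤ n) : ∀ᶠ y in 𝓝 (C.y₀ : ℂ), C.hlF j (y, 0) = 0 := by
  filter_upwards [C.b0_edge_sd j hj] with y h1
  simp only [hlF, h1, mul_zero, zero_div]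

theorem b0_edge_hdF (j : ℕ) (hj : j < n) : ∀ᶠ y in 𝓝 (C.y₀ : ℂ), C.hdF j (y, 0) = 0 := by
  filter_upwards [C.b0_edge_sd j hj.le, C.b0_edge_sd (j + 1) hj, C.b0_edge_cd j hj.le,
    C.b0_edge_cd (j + 1) hj, C.b0_edge_Hh j hj.le 1, C.b0_edge_Hh (j + 1) hj 1] with y h1 h2 h3 h4 h5 h6
  simp only [hdF, h1, h2, h3, h4, h5, h6]
  ring

theorem b0_ps (i : ℕ) (hi : i ≤ n) : C.ps i ((C.y₀ : ℂ), 0) = C.x₀ := (C.b0_edge_ps i hi).self_of_nhds

theorem b0_dd (i : ℕ) (hi : i ≤ n) : C.dd i ((C.y₀ : ℂ), 0) = 0 := (C.b0_edge_dd i hi).self_of_nhds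

theorem b0_sd (i : ℕ) (hi : i ≤ n) : C.sd i ((C.y₀ : ℂ), 0) = 0 := (C.b0_edge_sd i hi).self_of_nhds

theorem b0_cd (i : ℕ) (hi : i ≤ n) : C.cd i ((C.y₀ : ℂ), 0) = 1 := (C.b0_edge_cd i hi).self_of_nhds

theorem b0_Hh (i : ℕ) (hi : i ≤ n) (l : ℕ) : C.Hh i l ((C.y₀ : ℂ), 0) = iteratedDeriv l C.h C.x₀ :=
  (C.b0_edge_Hh i hi l).self_of_nhds

/-! ### analyticity at the base point -/

theorem b0_an_ps (i : ℕ) (hi : i ≤ n) : AnalyticAt ℂ (C.ps i) ((C.y₀ : ℂ), 0) :=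
  ((C.al_an i (by omega)).add (C.al_an (i + 1) (by omega))).div analyticAt_const two_ne_zero

theorem b0_an_dd (i : ℕ) (hi : i ≤ n) : AnalyticAt ℂ (C.dd i) ((C.y₀ : ℂ), 0) :=
  ((C.al_an (i + 1) (by omega)).sub (C.al_an i (by omega))).div analyticAt_const two_ne_zero

theorem b0_an_sd (i : ℕ) (hi : i ≤ n) : AnalyticAt ℂ (C.sd i) ((C.y₀ : ℂ), 0) :=
  Complex.analyticAt_sin.comp (C.b0_an_dd i hi)

theorem b0_an_cd (i : ℕ) (hi : i ≤ n) : AnalyticAt ℂ (C.cd i) ((C.y₀ : ℂ), 0) :=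
  Complex.analyticAt_cos.comp (C.b0_an_dd i hi)

theorem b0_an_itd (l : ℕ) : AnalyticAt ℂ (iteratedDeriv l C.h) C.x₀ :=
  analyticAt_iteratedDeriv C.h_an l

theorem b0_an_Hh (i : ℕ) (hi : i ≤ n) (l : ℕ) : AnalyticAt ℂ (C.Hh i l) ((C.y₀ : ℂ), 0) := by
  have h1 : AnalyticAt ℂ (iteratedDeriv l C.h) (C.ps i ((C.y₀ : ℂ), 0)) := by
    rw [C.b0_ps i hi]; exact C.b0_an_itd l
  exact h1.comp (C.b0_an_ps i hi)

theorem b0_an_hlF (j : ℕ) (hj : j ≤ n) : AnalyticAt ℂ (C.hlF j) ((C.y₀ : ℂ), 0) :=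
  (((C.b0_an_Hh j hj 0).add (C.b0_an_Hh j hj 2)).mul (C.b0_an_sd j hj)).div analyticAt_const
    two_ne_zero

theorem b0_an_hdF (j : ℕ) (hj : j < n) : AnalyticAt ℂ (C.hdF j) ((C.y₀ : ℂ), 0) :=
  (((C.b0_an_Hh j hj.le 1).mul (C.b0_an_cd j hj.le)).add
    ((((C.b0_an_Hh j hj.le 2).sub (C.b0_an_Hh j hj.le 0)).mul (C.b0_an_sd j hj.le)).div
      analyticAt_const two_ne_zero)).add
  ((((C.b0_an_Hh (j + 1) hj 1).mul (C.b0_an_cd (j + 1) hj)).neg).add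
    ((((C.b0_an_Hh (j + 1) hj 2).sub (C.b0_an_Hh (j + 1) hj 0)).mul (C.b0_an_sd (j + 1) hj)).div
      analyticAt_const two_ne_zero))

/-! ### `t`-derivatives at the base point -/

theorem b0_hd_al (j : ℕ) (hj : j ≤ n + 1) :
    HasDerivAt (fun t => C.al j ((C.y₀ : ℂ), t))
      (((C.off : ℂ) + j) * pdy (C.al 0) ((C.y₀ : ℂ), 0)) 0 := by
  have h1 : DifferentiableAt ℂ (fun t => C.al j ((C.y₀ : ℂ), t)) 0 :=
    differentiableAt_slice_snd (z := ((C.y₀ : ℂ), 0)) (C.al_an j hj).differentiableAt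
  have h2 := (C.slope j hj).self_of_nhds
  rw [← h2]
  exact h1.hasDerivAt

theorem b0_hd_ps (i : ℕ) (hi : i ≤ n) :
    HasDerivAt (fun t => C.ps i ((C.y₀ : ℂ), t))
      (((C.off : ℂ) + i + 1 / 2) * pdy (C.al 0) ((C.y₀ : ℂ), 0)) 0 := by
  have := ((C.b0_hd_al i (by omega)).add (C.b0_hd_al (i + 1) (by omega))).div_const 2
  refine HasDerivAt.congr_deriv (f := fun t => C.ps i ((C.y₀ : ℂ), t)) this ?_
  push_cast
  ring

theorem b0_hd_dd (i : ℕ) (hi : i ≤ n) :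
    HasDerivAt (fun t => C.dd i ((C.y₀ : ℂ), t)) (pdy (C.al 0) ((C.y₀ : ℂ), 0) / 2) 0 := by
  have := ((C.b0_hd_al (i + 1) (by omega)).sub (C.b0_hd_al i (by omega))).div_const 2
  refine HasDerivAt.congr_deriv (f := fun t => C.dd i ((C.y₀ : ℂ), t)) this ?_
  push_cast
  ring

theorem b0_hd_sd (i : ℕ) (hi : i ≤ n) :
    HasDerivAt (fun t => C.sd i ((C.y₀ : ℂ), t)) (pdy (C.al 0) ((C.y₀ : ℂ), 0) / 2) 0 := by
  have := (C.b0_hd_dd i hi).csin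
  rw [C.b0_dd i hi, Complex.cos_zero, one_mul] at this
  exact this

theorem b0_hd_cd (i : ℕ) (hi : i ≤ n) : HasDerivAt (fun t => C.cd i ((C.y₀ : ℂ), t)) 0 0 := by
  have := (C.b0_hd_dd i hi).ccos
  rw [C.b0_dd i hi, Complex.sin_zero, neg_zero, zero_mul] at this
  exact this

theorem b0_hd_Hh (i : ℕ) (hi : i ≤ n) (l : ℕ) :
    HasDerivAt (fun t => C.Hh i l ((C.y₀ : ℂ), t))
      (iteratedDeriv (l + 1) C.h C.x₀ * (((C.off : ℂ) + i + 1 / 2) * pdy (C.al 0) ((C.y₀ : ℂ), 0))) 0 := by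
  have h1 : HasDerivAt (iteratedDeriv l C.h) (iteratedDeriv (l + 1) C.h C.x₀)
      (C.ps i ((C.y₀ : ℂ), 0)) := by
    rw [C.b0_ps i hi, iteratedDeriv_succ]
    exact (C.b0_an_itd l).differentiableAt.hasDerivAt
  exact h1.comp (0 : ℂ) (C.b0_hd_ps i hi)

theorem b0_hd_hlF (j : ℕ) (hj : j ≤ n) :
    HasDerivAt (fun t => C.hlF j ((C.y₀ : ℂ), t))
      ((C.h C.x₀ + deriv (deriv C.h) C.x₀) * pdy (C.al 0) ((C.y₀ : ℂ), 0) / 4) 0 := by
  have := ((((C.b0_hd_Hh j hj 0).add (C.b0_hd_Hh j hj 2)).mul (C.b0_hd_sd j hj))).div_const 2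
  refine HasDerivAt.congr_deriv (f := fun t => C.hlF j ((C.y₀ : ℂ), t)) this ?_
  simp only [Pi.add_apply, C.b0_sd j hj, C.b0_Hh j hj, iteratedDeriv_zero, iteratedDeriv_succ,
    mul_zero, zero_add]
  ring

theorem b0_hd_hdF (j : ℕ) (hj : j < n) :
    HasDerivAt (fun t => C.hdF j ((C.y₀ : ℂ), t))
      (-((C.h C.x₀ + deriv (deriv C.h) C.x₀) * pdy (C.al 0) ((C.y₀ : ℂ), 0) / 2)) 0 := by
  have := (((C.b0_hd_Hh j hj.le 1).mul (C.b0_hd_cd j hj.le)).add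
    ((((C.b0_hd_Hh j hj.le 2).sub (C.b0_hd_Hh j hj.le 0)).mul (C.b0_hd_sd j hj.le)).div_const 2)).add
    ((((C.b0_hd_Hh (j + 1) hj 1).mul (C.b0_hd_cd (j + 1) hj)).neg).add
    ((((C.b0_hd_Hh (j + 1) hj 2).sub (C.b0_hd_Hh (j + 1) hj 0)).mul
      (C.b0_hd_sd (j + 1) hj)).div_const 2))
  refine HasDerivAt.congr_deriv (f := fun t => C.hdF j ((C.y₀ : ℂ), t)) this ?_
  simp only [Pi.sub_apply, C.b0_sd j hj.le, C.b0_sd (j + 1) hj, C.b0_cd j hj.le, C.b0_cd (j + 1) hj,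
    C.b0_Hh j hj.le, C.b0_Hh (j + 1) hj, iteratedDeriv_zero, iteratedDeriv_succ, mul_zero, zero_add]
  push_cast
  ring

theorem b0_pdt_sd (i : ℕ) (hi : i ≤ n) :
    pdt (C.sd i) ((C.y₀ : ℂ), 0) = pdy (C.al 0) ((C.y₀ : ℂ), 0) / 2 := (C.b0_hd_sd i hi).deriv

theorem b0_pdt_hlF (j : ℕ) (hj : j ≤ n) :
    pdt (C.hlF j) ((C.y₀ : ℂ), 0)
      = (C.h C.x₀ + deriv (deriv C.h) C.x₀) * pdy (C.al 0) ((C.y₀ : ℂ), 0) / 4 :=
  (C.b0_hd_hlF j hj).deriv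

theorem b0_pdt_hdF (j : ℕ) (hj : j < n) :
    pdt (C.hdF j) ((C.y₀ : ℂ), 0)
      = -((C.h C.x₀ + deriv (deriv C.h) C.x₀) * pdy (C.al 0) ((C.y₀ : ℂ), 0) / 2) :=
  (C.b0_hd_hdF j hj).deriv

/-- the entries of the Hessian at the base point: analytic, vanishing on `t = 0`, `t`-derivative `λ tridiag (1,-2,1)`, `λ = r φ'/4`. -/
theorem b0_hess_entry (a b : Fin n) :
    AnalyticAt ℂ (fun w => C.hess w a b) ((C.y₀ : ℂ), 0) ∧
      (∀ᶠ y in 𝓝 (C.y₀ : ℂ), C.hess (y, 0) a b = 0) ∧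
      HasDerivAt (fun t => C.hess ((C.y₀ : ℂ), t) a b)
        ((C.h C.x₀ + deriv (deriv C.h) C.x₀) * pdy (C.al 0) ((C.y₀ : ℂ), 0) / 4 *
          ((if a = b then -2 else if (a : ℕ) + 1 = b then 1 else if (b : ℕ) + 1 = a then 1 else 0 : ℝ) : ℂ)) 0 := by
  by_cases h1 : a = b
  · subst h1
    have e : ∀ w, C.hess w a a = C.hdF a w := fun w => by simp [hess]
    simp only [e, if_true]
    refine ⟨C.b0_an_hdF a a.2, C.b0_edge_hdF a a.2, (C.b0_hd_hdF a a.2).congr_deriv ?_⟩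
    push_cast
    ring
  · by_cases h2 : (a : ℕ) + 1 = b
    · have e : ∀ w, C.hess w a b = C.hlF b w := fun w => by simp [hess, h1, h2]
      simp only [e, h1, h2, if_true, if_false]
      refine ⟨C.b0_an_hlF b b.2.le, C.b0_edge_hlF b b.2.le, (C.b0_hd_hlF b b.2.le).congr_deriv ?_⟩
      push_cast
      ring
    · by_cases h3 : (b : ℕ) + 1 = a
      · have e : ∀ w, C.hess w a b = C.hlF a w := fun w => by simp [hess, h1, h2, h3]
        simp only [e, h1, h2, h3, if_true, if_false]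
        refine ⟨C.b0_an_hlF a a.2.le, C.b0_edge_hlF a a.2.le, (C.b0_hd_hlF a a.2.le).congr_deriv ?_⟩
        push_cast
        ring
      · have e : ∀ w, C.hess w a b = 0 := fun w => by simp [hess, h1, h2, h3]
        simp only [e, h1, h2, h3, if_false]
        refine ⟨analyticAt_const, Eventually.of_forall fun _ => trivial, ?_⟩
        simpa using hasDerivAt_const (0 : ℂ) (0 : ℂ)

/-! ### realness at the base point -/

/-- a function commuting with the conjugation near a real point has a real derivative there. -/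
theorem _root_.Claimed.Agent.R269.b0_deriv_conj {f : ℂ → ℂ} {x : ℂ} (hx : (starRingEnd ℂ) x = x)
    (hf : ∀ᶠ y in 𝓝 x, f ((starRingEnd ℂ) y) = (starRingEnd ℂ) (f y)) :
    ∀ᶠ y in 𝓝 x, deriv f ((starRingEnd ℂ) y) = (starRingEnd ℂ) (deriv f y) := by
  have hc : Tendsto (fun y : ℂ => (starRingEnd ℂ) y) (𝓝 x) (𝓝 x) := by
    have := Complex.continuous_conj.tendsto x
    rwa [hx] at this
  filter_upwards [hc.eventually hf.eventually_nhds] with y hy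
  have hev : f =ᶠ[𝓝 ((starRingEnd ℂ) y)] ((starRingEnd ℂ) ∘ f ∘ (starRingEnd ℂ)) := by
    filter_upwards [hy] with z hz
    simp only [Function.comp_apply]
    rw [hz, Complex.conj_conj]
  rw [hev.deriv_eq, deriv_conj_conj]
  simp

theorem b0_real_x₀ : (starRingEnd ℂ) C.x₀ = C.x₀ := by
  have := (C.al_conj 0 (by omega)).self_of_nhds
  simp only [Complex.conj_ofReal, map_zero] at this
  exact this.symm

theorem b0_real_φ' : (pdy (C.al 0) ((C.y₀ : ℂ), 0)).im = 0 := by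
  have h1 : ∀ᶠ y in 𝓝 (C.y₀ : ℂ), (fun y => C.al 0 (y, 0)) ((starRingEnd ℂ) y)
      = (starRingEnd ℂ) ((fun y => C.al 0 (y, 0)) y) := by
    filter_upwards [(tendsto_mk_fst ((C.y₀ : ℂ), (0 : ℂ))).eventually (C.al_conj 0 (by omega))] with y hy
    simpa using hy
  have h2 := (b0_deriv_conj (f := fun y => C.al 0 (y, 0)) (Complex.conj_ofReal C.y₀) h1).self_of_nhds
  rw [Complex.conj_ofReal] at h2
  exact Complex.conj_eq_iff_im.1 h2.symm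

theorem b0_real_rad : (C.h C.x₀ + deriv (deriv C.h) C.x₀).im = 0 := by
  have hx := C.b0_real_x₀
  have h0 : ∀ᶠ x in 𝓝 C.x₀, C.h ((starRingEnd ℂ) x) = (starRingEnd ℂ) (C.h x) := C.h_conj
  have h2 := b0_deriv_conj hx (b0_deriv_conj hx h0)
  have e0 := h0.self_of_nhds
  have e2 := h2.self_of_nhds
  rw [hx] at e0 e2
  rw [Complex.add_im, Complex.conj_eq_iff_im.1 e0.symm, Complex.conj_eq_iff_im.1 e2.symm, add_zero]

/-- `λ = r φ'/4` is a positive real number. -/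
theorem b0_lam : ∃ lam : ℝ, 0 < lam ∧
    (lam : ℂ) = (C.h C.x₀ + deriv (deriv C.h) C.x₀) * pdy (C.al 0) ((C.y₀ : ℂ), 0) / 4 := by
  have h1 := C.b0_real_rad
  have h2 := C.b0_real_φ'
  have p1 : 0 < (C.h C.x₀ + deriv (deriv C.h) C.x₀).re := C.rad_pos
  have p2 := C.φ'_pos
  refine ⟨(C.h C.x₀ + deriv (deriv C.h) C.x₀).re * (pdy (C.al 0) ((C.y₀ : ℂ), 0)).re / 4,
    by positivity, ?_⟩
  have e1 : (C.h C.x₀ + deriv (deriv C.h) C.x₀)
      = (((C.h C.x₀ + deriv (deriv C.h) C.x₀).re : ℝ) : ℂ) := by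
    apply Complex.ext
    · simp
    · simpa using h1
  have e2 : pdy (C.al 0) ((C.y₀ : ℂ), 0) = (((pdy (C.al 0) ((C.y₀ : ℂ), 0)).re : ℝ) : ℂ) := by
    apply Complex.ext
    · simp
    · simpa using h2
  rw [e1, e2]
  push_cast
  simp

end CChain

end Claimed.Agent.R269
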