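/-
Row 269, P1 Section 4, units 4F/4H: PERTURBATION OF A COERCIVE MATRIX (host-free analysis + linear algebra).   helper3.

  `pert_first_order`   a function analytic at `(y₀,0)` which vanishes on `t = 0` is `t (∂_t u (y₀,0) + o(1))`   (= `first_order_vanishing` of ChainB)
  `pert_det_ne`        `‖M a b - t T a b‖ ≤ ε ‖t‖`, `-T` coercive with constant `c > ε n`, `t ≠ 0`   ⟹   `det M ≠ 0`
  `pert_coer`          the real version: coercivity of `-M` relative to `|M x|²`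
  `pert_good_core`     a matrix function vanishing on `t = 0` with coercive `t`-derivative   (= `pert_good` of ChainPB; gives `det_ne`, `coer` of `Good2` and `Good2P`)
-/
import Claimed.Agent.R269.S4.ZTayB

set_option autoImplicit false

namespace Claimed.Agent.R269

open Filter Topology ZT

/-- a function analytic at `(y₀,0)` which vanishes on `t = 0` is `t (∂_t u (y₀,0) + o(1))`. -/
theorem pert_first_order {u : ℂ × ℂ → ℂ} {y₀ : ℂ} (hu : AnalyticAt ℂ u (y₀, 0))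
    (h0 : ∀ᶠ y in 𝓝 y₀, u (y, 0) = 0) {ε : ℝ} (hε : 0 < ε) :
    ∃ η : ℝ, 0 < η ∧ ∀ y ∈ Metric.ball y₀ η, ∀ t ∈ Metric.ball (0 : ℂ) η,
      ‖u (y, t) - t * pdt u (y₀, 0)‖ ≤ ε * ‖t‖ := by
  have hc : ContinuousAt (pdt u) (y₀, 0) := (analyticAt_pdt hu).continuousAt
  have h1 : ∀ᶠ w in 𝓝 ((y₀, 0) : ℂ × ℂ), ‖pdt u w - pdt u (y₀, 0)‖ < ε := by
    have := Metric.continuousAt_iff'.1 hc ε hε
    simpa only [dist_eq_norm] using this
  have h2 : ∀ᶠ w in 𝓝 ((y₀, 0) : ℂ × ℂ), u (w.1, 0) = 0 :=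
    (continuous_fst.tendsto ((y₀, 0) : ℂ × ℂ)).eventually h0
  obtain ⟨η, hη, hball⟩ := Metric.eventually_nhds_iff_ball.1 (h1.and (h2.and hu.eventually_analyticAt))
  refine ⟨η, hη, fun y hy t ht => ?_⟩
  have hmem : ∀ s ∈ Metric.ball (0 : ℂ) η, ((y, s) : ℂ × ℂ) ∈ Metric.ball ((y₀, 0) : ℂ × ℂ) η := by
    intro s hs
    rw [← ball_prod_same]
    exact ⟨hy, hs⟩
  set D : ℂ := pdt u (y₀, 0) with hD
  have hd : ∀ s ∈ Metric.ball (0 : ℂ) η, HasDerivAt (fun s => u (y, s) - s * D) (pdt u (y, s) - D) s := by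
    intro s hs
    have a1 : DifferentiableAt ℂ (fun s => u (y, s)) s :=
      differentiableAt_slice_snd (z := (y, s)) (hball _ (hmem s hs)).2.2.differentiableAt
    have a2 : HasDerivAt (fun s : ℂ => s * D) D s := by
      simpa using (hasDerivAt_id s).mul_const D
    exact a1.hasDerivAt.sub a2
  have h00 : (0 : ℂ) ∈ Metric.ball (0 : ℂ) η := Metric.mem_ball_self hη
  have key := Convex.norm_image_sub_le_of_norm_deriv_le (f := fun s => u (y, s) - s * D) (C := ε)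
    (s := Metric.ball (0 : ℂ) η) (x := 0) (y := t) (fun s hs => (hd s hs).differentiableAt)
    (fun s hs => by rw [(hd s hs).deriv]; exact (hball _ (hmem s hs)).1.le) (convex_ball _ _) h00 ht
  have hy0 : u (y, 0) = 0 := (hball _ (hmem 0 h00)).2.1
  simpa [hy0] using key

theorem pert_sq_sum {n : ℕ} (y : Fin n → ℝ) : (∑ a, y a) ^ 2 ≤ n * ∑ a, y a ^ 2 := by
  have := sq_sum_le_card_mul_sum_sq (s := (Finset.univ : Finset (Fin n))) (f := y)
  simpa using this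

theorem pert_row_bound {𝕜 : Type*} [RCLike 𝕜] {n : ℕ} (m x : Fin n → 𝕜) {δ : ℝ}
    (hm : ∀ b, ‖m b‖ ≤ δ) : ‖∑ b, m b * x b‖ ≤ δ * ∑ b, ‖x b‖ := by
  calc ‖∑ b, m b * x b‖ ≤ ∑ b, ‖m b * x b‖ := norm_sum_le _ _
    _ ≤ ∑ b, δ * ‖x b‖ := by
        refine Finset.sum_le_sum fun b _ => ?_
        rw [norm_mul]
        exact mul_le_mul_of_nonneg_right (hm b) (norm_nonneg _)
    _ = δ * ∑ b, ‖x b‖ := by rw [Finset.mul_sum]

theorem pert_form_bound {𝕜 : Type*} [RCLike 𝕜] {n : ℕ} (E : Fin n → Fin n → 𝕜) (x : Fin n → 𝕜) {δ : ℝ}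
    (hδ : 0 ≤ δ) (hE : ∀ a b, ‖E a b‖ ≤ δ) :
    ‖∑ a, (starRingEnd 𝕜) (x a) * ∑ b, E a b * x b‖ ≤ δ * (n * ∑ a, ‖x a‖ ^ 2) := by
  calc ‖∑ a, (starRingEnd 𝕜) (x a) * ∑ b, E a b * x b‖
      ≤ ∑ a, ‖(starRingEnd 𝕜) (x a) * ∑ b, E a b * x b‖ := norm_sum_le _ _
    _ ≤ ∑ a, ‖x a‖ * (δ * ∑ b, ‖x b‖) := by
        refine Finset.sum_le_sum fun a _ => ?_
        rw [norm_mul, RCLike.norm_conj]
        exact mul_le_mul_of_nonneg_left (pert_row_bound _ _ (hE a)) (norm_nonneg _)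
    _ = δ * (∑ a, ‖x a‖) ^ 2 := by rw [← Finset.sum_mul]; ring
    _ ≤ δ * (n * ∑ a, ‖x a‖ ^ 2) := mul_le_mul_of_nonneg_left (pert_sq_sum _) hδ

theorem pert_re_form {n : ℕ} (T : Matrix (Fin n) (Fin n) ℝ) (x : Fin n → ℂ) :
    (∑ a, (starRingEnd ℂ) (x a) * ∑ b, (T a b : ℂ) * x b).re
      = (∑ a, (x a).re * ∑ b, T a b * (x b).re) + ∑ a, (x a).im * ∑ b, T a b * (x b).im := by
  rw [Complex.re_sum, ← Finset.sum_add_distrib]
  refine Finset.sum_congr rfl fun a _ => ?_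
  rw [Complex.mul_re, Complex.conj_re, Complex.conj_im, Complex.re_sum, Complex.im_sum]
  simp only [Complex.re_ofReal_mul, Complex.im_ofReal_mul]
  ring

theorem pert_det_ne {n : ℕ} (M : Matrix (Fin n) (Fin n) ℂ) (T : Matrix (Fin n) (Fin n) ℝ) {t : ℂ}
    (ht : t ≠ 0) {c ε : ℝ} (hε0 : 0 ≤ ε) (hεc : ε * n < c)
    (hcoer : ∀ x : Fin n → ℝ, c * ∑ a, x a ^ 2 ≤ -∑ a, x a * ∑ b, T a b * x b)
    (hM : ∀ a b, ‖M a b - t * T a b‖ ≤ ε * ‖t‖) : M.det ≠ 0 := by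
  intro hdet
  obtain ⟨x, hx, hMx⟩ := Matrix.exists_mulVec_eq_zero_iff.2 hdet
  have htn : 0 < ‖t‖ := norm_pos_iff.2 ht
  set Sg : ℝ := ∑ a, ‖x a‖ ^ 2 with hSg
  have hSgpos : 0 < Sg := by
    obtain ⟨a, ha⟩ := Function.ne_iff.1 hx
    have h1 : 0 < ‖x a‖ ^ 2 := by
      have : 0 < ‖x a‖ := norm_pos_iff.2 ha
      positivity
    exact lt_of_lt_of_le h1
      (Finset.single_le_sum (f := fun a => ‖x a‖ ^ 2) (fun i _ => by positivity) (Finset.mem_univ a))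
  set S : ℂ := ∑ a, (starRingEnd ℂ) (x a) * ∑ b, (T a b : ℂ) * x b with hS
  set R : ℂ := ∑ a, (starRingEnd ℂ) (x a) * ∑ b, (M a b - t * T a b) * x b with hR
  have hsum : t * S + R = 0 := by
    have h1 : t * S + R = ∑ a, (starRingEnd ℂ) (x a) * (M.mulVec x) a := by
      rw [hS, hR, Finset.mul_sum, ← Finset.sum_add_distrib]
      refine Finset.sum_congr rfl fun a _ => ?_
      have : (M.mulVec x) a = ∑ b, M a b * x b := rfl
      rw [this, mul_left_comm, ← mul_add, Finset.mul_sum, ← Finset.sum_add_distrib]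
      congr 1
      refine Finset.sum_congr rfl fun b _ => ?_
      ring
    rw [h1, hMx]
    simp
  have hRb : ‖R‖ ≤ ε * ‖t‖ * (n * Sg) :=
    pert_form_bound (fun a b => M a b - t * T a b) x (by positivity) hM
  have hSb : c * Sg ≤ ‖S‖ := by
    have h1 := pert_re_form T x
    have h2 := hcoer fun a => (x a).re
    have h3 := hcoer fun a => (x a).im
    have h4 : Sg = ∑ a, (x a).re ^ 2 + ∑ a, (x a).im ^ 2 := by
      rw [hSg, ← Finset.sum_add_distrib]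
      refine Finset.sum_congr rfl fun a _ => ?_
      rw [Complex.sq_norm, Complex.normSq_apply]
      ring
    have h5 : -S.re ≤ ‖S‖ := (neg_le_abs _).trans (Complex.abs_re_le_norm _)
    rw [h4, mul_add]
    rw [← hS] at h1
    linarith
  have hRS : ‖R‖ = ‖t‖ * ‖S‖ := by
    have : R = -(t * S) := by linear_combination hsum
    rw [this, norm_neg, norm_mul]
  have h6 : ‖t‖ * (c * Sg) ≤ ε * ‖t‖ * (n * Sg) := by
    calc ‖t‖ * (c * Sg) ≤ ‖t‖ * ‖S‖ := mul_le_mul_of_nonneg_left hSb htn.le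
      _ = ‖R‖ := hRS.symm
      _ ≤ _ := hRb
  have h7 : 0 < ‖t‖ * Sg * (c - ε * n) := by
    have : 0 < c - ε * n := by linarith
    positivity
  nlinarith

theorem pert_coer {n : ℕ} (M T : Matrix (Fin n) (Fin n) ℝ) {t c ε τ : ℝ} (ht : 0 < t) (hc : 0 < c)
    (hε0 : 0 ≤ ε) (hεc : ε * n ≤ c / 2)
    (hcoer : ∀ x : Fin n → ℝ, c * ∑ a, x a ^ 2 ≤ -∑ a, x a * ∑ b, T a b * x b)
    (hτ : ∀ a b, |T a b| ≤ τ) (hM : ∀ a b, |M a b - t * T a b| ≤ ε * t) (x : Fin n → ℝ) :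
    (c / 2) / ((n : ℝ) ^ 2 * (τ + ε) ^ 2 + 1) * ∑ a, (∑ b, M a b * x b) ^ 2
      ≤ t * (-∑ a, x a * ∑ b, M a b * x b) := by
  set Sg : ℝ := ∑ a, x a ^ 2 with hSg
  have hSg0 : 0 ≤ Sg := Finset.sum_nonneg fun a _ => by positivity
  have hSgn : ∑ a, ‖x a‖ ^ 2 = Sg := by
    simp only [Real.norm_eq_abs, sq_abs, hSg]
  -- lower bound of the form
  have h1 : t * (c / 2) * Sg ≤ -∑ a, x a * ∑ b, M a b * x b := by
    have e1 : ∑ a, x a * ∑ b, M a b * x b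
        = t * (∑ a, x a * ∑ b, T a b * x b) + ∑ a, x a * ∑ b, (M a b - t * T a b) * x b := by
      rw [Finset.mul_sum, ← Finset.sum_add_distrib]
      refine Finset.sum_congr rfl fun a _ => ?_
      rw [mul_left_comm, ← mul_add]
      congr 1
      rw [Finset.mul_sum, ← Finset.sum_add_distrib]
      refine Finset.sum_congr rfl fun b _ => ?_
      ring
    have e2 := pert_form_bound (𝕜 := ℝ) (fun a b => M a b - t * T a b) x (by positivity) hM
    rw [hSgn] at e2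
    simp only [conj_trivial, Real.norm_eq_abs] at e2
    have e3 := (abs_le.1 e2).2
    have e4 := mul_le_mul_of_nonneg_left (hcoer x) ht.le
    have e5 : ε * t * (n * Sg) ≤ t * (c / 2) * Sg := by
      have : ε * n * (t * Sg) ≤ c / 2 * (t * Sg) := mul_le_mul_of_nonneg_right hεc (by positivity)
      linarith
    rw [e1]
    nlinarith
  -- upper bound of the image
  have hτ0 : 0 ≤ τ + ε ∨ n = 0 := by
    rcases Nat.eq_zero_or_pos n with h0 | h0
    · exact Or.inr h0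
    · exact Or.inl (add_nonneg ((abs_nonneg _).trans (hτ ⟨0, h0⟩ ⟨0, h0⟩)) hε0)
  have h2 : ∑ a, (∑ b, M a b * x b) ^ 2 ≤ t ^ 2 * ((n : ℝ) ^ 2 * (τ + ε) ^ 2) * Sg := by
    have hrow : ∀ a, (∑ b, M a b * x b) ^ 2 ≤ (t * (τ + ε)) ^ 2 * (n * Sg) := by
      intro a
      have hMb : ∀ b, ‖M a b‖ ≤ t * (τ + ε) := by
        intro b
        have := hM a b
        have h3 : |M a b| ≤ |M a b - t * T a b| + |t * T a b| := by
          have := abs_add_le (M a b - t * T a b) (t * T a b)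
          simpa using this
        rw [abs_mul, abs_of_pos ht] at h3
        have h4 := mul_le_mul_of_nonneg_left (hτ a b) ht.le
        rw [Real.norm_eq_abs]
        linarith
      have h5 := pert_row_bound (𝕜 := ℝ) (M a) x hMb
      have h50 : 0 ≤ t * (τ + ε) := (norm_nonneg _).trans (hMb a)
      have h6 : (∑ b, M a b * x b) ^ 2 ≤ (t * (τ + ε) * ∑ b, ‖x b‖) ^ 2 := by
        rw [← sq_abs]
        exact pow_le_pow_left₀ (abs_nonneg _) h5 2
      have h7 := pert_sq_sum fun b => ‖x b‖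
      rw [hSgn] at h7
      calc (∑ b, M a b * x b) ^ 2 ≤ (t * (τ + ε) * ∑ b, ‖x b‖) ^ 2 := h6
        _ = (t * (τ + ε)) ^ 2 * (∑ b, ‖x b‖) ^ 2 := by ring
        _ ≤ _ := mul_le_mul_of_nonneg_left h7 (by positivity)
    calc ∑ a, (∑ b, M a b * x b) ^ 2 ≤ ∑ _a : Fin n, (t * (τ + ε)) ^ 2 * (n * Sg) :=
          Finset.sum_le_sum fun a _ => hrow a
      _ = t ^ 2 * ((n : ℝ) ^ 2 * (τ + ε) ^ 2) * Sg := by
          rw [Finset.sum_const, Finset.card_univ, Fintype.card_fin, nsmul_eq_mul]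
          ring
  set K : ℝ := (n : ℝ) ^ 2 * (τ + ε) ^ 2 with hK
  have hK0 : 0 ≤ K := by positivity
  have hcc : c / 2 / (K + 1) * K ≤ c / 2 := by
    rw [div_mul_eq_mul_div, div_le_iff₀ (by positivity)]
    nlinarith
  have hcc0 : 0 ≤ c / 2 / (K + 1) := by positivity
  calc c / 2 / (K + 1) * ∑ a, (∑ b, M a b * x b) ^ 2
      ≤ c / 2 / (K + 1) * (t ^ 2 * K * Sg) := mul_le_mul_of_nonneg_left h2 hcc0
    _ = (c / 2 / (K + 1) * K) * (t ^ 2 * Sg) := by ring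
    _ ≤ c / 2 * (t ^ 2 * Sg) := mul_le_mul_of_nonneg_right hcc (by positivity)
    _ = t * (t * (c / 2) * Sg) := by ring
    _ ≤ _ := mul_le_mul_of_nonneg_left h1 ht.le

/-- a matrix function vanishing on `t = 0` with coercive `t`-derivative is invertible for small `t ≠ 0` and coercive at small real points with `t > 0`. -/
theorem pert_good_core {n : ℕ} (N : ℂ × ℂ → Matrix (Fin n) (Fin n) ℂ) (y₀ : ℝ)
    (hN : ∀ a b, AnalyticAt ℂ (fun w => N w a b) ((y₀ : ℂ), 0))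
    (h0 : ∀ a b, ∀ᶠ y in 𝓝 (y₀ : ℂ), N (y, 0) a b = 0)
    (T : Matrix (Fin n) (Fin n) ℝ) (hT : ∀ a b, pdt (fun w => N w a b) ((y₀ : ℂ), 0) = (T a b : ℂ))
    {c : ℝ} (hc : 0 < c) (hcoer : ∀ x : Fin n → ℝ, c * ∑ a, x a ^ 2 ≤ -∑ a, x a * ∑ b, T a b * x b) :
    ∃ cc : ℝ, ∃ ηs : ℝ, 0 < cc ∧ 0 < ηs ∧
      (∀ w ∈ Metric.ball (y₀ : ℂ) ηs ×ˢ Metric.ball (0 : ℂ) ηs, w.2 ≠ 0 → (N w).det ≠ 0) ∧
      ∀ r : ℝ × ℝ, rp r ∈ Metric.ball (y₀ : ℂ) ηs ×ˢ Metric.ball (0 : ℂ) ηs → 0 < r.2 → ∀ x : Fin n → ℝ,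
        cc * ∑ a, (∑ b, (N (rp r) a b).re * x b) ^ 2 ≤ r.2 * (-∑ a, x a * ∑ b, (N (rp r) a b).re * x b) := by
  set ε : ℝ := c / (2 * (n + 1)) with hε
  have hε0 : 0 < ε := by positivity
  have hεn : ε * n ≤ c / 2 := by
    have h1 : ε * (n + 1) = c / 2 := by
      rw [hε]; field_simp
    nlinarith
  have hεn' : ε * n < c := by linarith
  choose η hη hb using fun a b => pert_first_order (hN a b) (h0 a b) hε0
  have hev : ∀ᶠ e in 𝓝[>] (0 : ℝ), ∀ a b, e < η a b := by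
    rw [eventually_all]; intro a; rw [eventually_all]; intro b
    exact (eventually_lt_nhds (hη a b)).filter_mono nhdsWithin_le_nhds
  obtain ⟨ηs, hηs, hpos⟩ := (hev.and self_mem_nhdsWithin).exists
  have hpos' : 0 < ηs := hpos
  set τ : ℝ := ∑ a, ∑ b, |T a b| with hτd
  have hτ : ∀ a b, |T a b| ≤ τ := by
    intro a b
    calc |T a b| ≤ ∑ b, |T a b| :=
          Finset.single_le_sum (f := fun b => |T a b|) (fun i _ => abs_nonneg _) (Finset.mem_univ b)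
      _ ≤ τ := Finset.single_le_sum (f := fun a => ∑ b, |T a b|)
          (fun i _ => Finset.sum_nonneg fun j _ => abs_nonneg _) (Finset.mem_univ a)
  have hbound : ∀ w ∈ Metric.ball (y₀ : ℂ) ηs ×ˢ Metric.ball (0 : ℂ) ηs, ∀ a b,
      ‖N w a b - w.2 * T a b‖ ≤ ε * ‖w.2‖ := by
    rintro ⟨y, t⟩ ⟨hy, ht⟩ a b
    have := hb a b y (Metric.ball_subset_ball (hηs a b).le hy) t
      (Metric.ball_subset_ball (hηs a b).le ht)
    rwa [hT a b] at this
  refine ⟨(c / 2) / ((n : ℝ) ^ 2 * (τ + ε) ^ 2 + 1), ηs, by positivity, hpos', ?_, ?_⟩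
  · intro w hw hw2
    exact pert_det_ne (N w) T hw2 hε0.le hεn' hcoer (hbound w hw)
  · intro r hr hr2 x
    refine pert_coer (Matrix.of fun a b => (N (rp r) a b).re) T hr2 hc hε0.le hεn hcoer hτ ?_ x
    intro a b
    have h1 := hbound (rp r) hr a b
    have h2 : (N (rp r) a b).re - r.2 * T a b = (N (rp r) a b - (rp r).2 * T a b).re := by
      simp [rp]
    have h3 : ‖(rp r).2‖ = r.2 := by
      simp [rp, abs_of_pos hr2]
    rw [h3] at h1
    show |(N (rp r) a b).re - r.2 * T a b| ≤ ε * r.2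
    rw [h2]
    exact (Complex.abs_re_le_norm _).trans h1

end Claimed.Agent.R269
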