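/-
Row 269, P1 Section 4, unit 4F: chains of lines, THE GOOD NEIGHBOURHOOD II (weights and Hessian).   Statements: helper36.

(1) `first_order_vanishing`: mean value inequality in `t` on the convex ball, applied to `t ↦ u (y,t) - t * pdt u (y₀,0)`, whose derivative
    `pdt u (y,t) - pdt u (y₀,0)` is small near `(y₀,0)` (`pdt u` is analytic, hence continuous: `Emb.analyticAt_pdt`).  `Convex.norm_image_sub_le_of_norm_deriv_le`.
(2) With `φ' = pdy (al 0) (y₀,0)` (real, `> 0`), `r = h x₀ + h'' x₀` (real, `> 0`), `λ = r φ' / 4`:   all of `sd i`, `hlF j`, `hdF j` vanish on `t = 0` and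
       `pdt (sd i) (y₀,0) = φ'/2`,     `pdt (hlF j) (y₀,0) = λ`,     `pdt (hdF j) (y₀,0) = -2 λ`.
    [`dd i (y,0) = 0`, `pdt (dd i) (y₀,0) = φ'/2`, `ps i (y,0) = φ(y)`, `pdt (ps j) - pdt (ps (j+1)) = -φ'`;
     `pdt (hdF j) = h''(x₀) (pdt ps j - pdt ps (j+1)) + (h'' - h)(x₀) φ'/2 = -(h + h'')(x₀) φ'/2`; the terms `pdt (cd) = -sd * pdt dd` vanish at `t = 0`.]
    Hence `|hess (y,t) a b - t λ T a b| ≤ ε |t|` on a small bidisc, `T = tridiag (1, -2, 1)`.
(3) `tridiag_coercive`: `∑_a x_a (-T x)_a = x_0² + ∑ (x_{a+1} - x_a)² + x_{n-1}² ≥ c_n ∑ x_a²` with `c_n = 1 / (n (n+1))` (or any positive constant; e.g. by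
    compactness of the unit sphere, or `|x_a| ≤ ∑ |increments|` and Cauchy-Schwarz).
(4) `det_ne`: `det (hess / t)` is close to `λ^n det T ≠ 0` (continuity of `det`; `det T ≠ 0` since `-T` is positive definite), or: for `t ≠ 0` the matrix
    `hess/(tλ) = T + E`, `|E a b| ≤ ε/λ`, is injective on `ℂ^n`:  for `x ≠ 0`, `Re ∑ conj x_a (-(T+E) x)_a ≥ (c_n - n ε/λ) |x|² > 0`.
(5) `coer`: at real points the entries are real up to taking `.re`;   `-xᵀ N x ≥ t (λ c_n - n ε) |x|²`,   `|N x|² ≤ t² (4 λ + n ε)² |x|²`  (crude bounds suffice).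
The `sorry`s are replaced IN PLACE by the owner of the package (table subtask, target row269, LF-S4-Chain-b).
-/
import Claimed.Agent.R269.S4.ChainA
import Claimed.Agent.R269.S4.ChainBase
import Claimed.Agent.R269.S4.Pert

set_option autoImplicit false

namespace Claimed.Agent.R269

open Filter Topology ZT

/-- a function analytic at `(y₀,0)` which vanishes on `t = 0` is `t (∂_t u (y₀,0) + o(1))`. -/
theorem first_order_vanishing {u : ℂ × ℂ → ℂ} {y₀ : ℂ} (hu : AnalyticAt ℂ u (y₀, 0))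
    (h0 : ∀ᶠ y in 𝓝 y₀, u (y, 0) = 0) {ε : ℝ} (hε : 0 < ε) :
    ∃ η : ℝ, 0 < η ∧ ∀ y ∈ Metric.ball y₀ η, ∀ t ∈ Metric.ball (0 : ℂ) η,
      ‖u (y, t) - t * pdt u (y₀, 0)‖ ≤ ε * ‖t‖ :=
  pert_first_order hu h0 hε

/-- the model matrix `tridiag (1,-2,1)`. -/
def triT (n : ℕ) : Matrix (Fin n) (Fin n) ℝ :=
  Matrix.of fun a b : Fin n =>
    if a = b then -2 else if (a : ℕ) + 1 = b then 1 else if (b : ℕ) + 1 = a then 1 else 0

/-- discrete Poincare inequality for the Dirichlet second difference, on sequences. -/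
theorem pert_tridiag_seq (n : ℕ) (Y : ℕ → ℝ) (hY : Y n = 0) :
    ∑ k ∈ Finset.range n, Y k ^ 2 ≤ (n : ℝ) ^ 2 * ∑ a ∈ Finset.range n,
      Y a * (2 * Y a - Y (a + 1) - (if a = 0 then 0 else Y (a - 1))) := by
  set Z : ℕ → ℝ := fun a => if a = 0 then 0 else Y (a - 1) with hZ
  have hZs : ∀ m, Z (m + 1) = Y m := fun m => by simp [hZ]
  have hZ0 : Z 0 = 0 := by simp [hZ]
  have hF : ∀ m, ∑ a ∈ Finset.range m, Y a * (2 * Y a - Y (a + 1) - Z a)
      = ∑ a ∈ Finset.range m, (Y a - Z a) ^ 2 + Z m ^ 2 - Z m * Y m := by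
    intro m
    induction m with
    | zero => simp [hZ0]
    | succ m ih =>
      rw [Finset.sum_range_succ, Finset.sum_range_succ, ih, hZs]
      ring
  have hT : ∀ k, ∑ a ∈ Finset.range (k + 1), (Y a - Z a) = Y k := by
    intro k
    induction k with
    | zero => simp [hZ0]
    | succ k ih =>
      rw [Finset.sum_range_succ, ih, hZs]
      ring
  set Gn : ℝ := ∑ a ∈ Finset.range n, (Y a - Z a) ^ 2 with hGn
  have hGn0 : 0 ≤ Gn := Finset.sum_nonneg fun a _ => by positivity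
  have hk : ∀ k ∈ Finset.range n, Y k ^ 2 ≤ n * Gn := by
    intro k hk
    have hkn : k + 1 ≤ n := Finset.mem_range.1 hk
    have h1 := sq_sum_le_card_mul_sum_sq (s := Finset.range (k + 1)) (f := fun a => Y a - Z a)
    rw [hT k, Finset.card_range] at h1
    have h2 : ∑ a ∈ Finset.range (k + 1), (Y a - Z a) ^ 2 ≤ Gn :=
      Finset.sum_le_sum_of_subset_of_nonneg (Finset.range_mono hkn) fun a _ _ => by positivity
    have h3 : ((k + 1 : ℕ) : ℝ) ≤ n := by exact_mod_cast hkn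
    calc Y k ^ 2 ≤ ((k + 1 : ℕ) : ℝ) * ∑ a ∈ Finset.range (k + 1), (Y a - Z a) ^ 2 := h1
      _ ≤ n * Gn := mul_le_mul h3 h2 (Finset.sum_nonneg fun a _ => by positivity) (by positivity)
  have h4 : ∑ k ∈ Finset.range n, Y k ^ 2 ≤ (n : ℝ) ^ 2 * Gn := by
    calc ∑ k ∈ Finset.range n, Y k ^ 2 ≤ ∑ _k ∈ Finset.range n, n * Gn := Finset.sum_le_sum hk
      _ = (n : ℝ) ^ 2 * Gn := by
        rw [Finset.sum_const, Finset.card_range, nsmul_eq_mul]; ring
  rw [hF n, hY, mul_zero, sub_zero]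
  calc ∑ k ∈ Finset.range n, Y k ^ 2 ≤ (n : ℝ) ^ 2 * Gn := h4
    _ ≤ (n : ℝ) ^ 2 * (Gn + Z n ^ 2) := by
      apply mul_le_mul_of_nonneg_left _ (by positivity)
      nlinarith [sq_nonneg (Z n)]

theorem tridiag_coercive (n : ℕ) : ∃ c : ℝ, 0 < c ∧ ∀ x : Fin n → ℝ,
    c * ∑ a, x a ^ 2 ≤ -∑ a, x a * ∑ b, triT n a b * x b := by
  refine ⟨1 / ((n : ℝ) ^ 2 + 1), by positivity, fun x => ?_⟩
  set Y : ℕ → ℝ := fun k => if h : k < n then x ⟨k, h⟩ else 0 with hYd
  have hYa : ∀ a : Fin n, Y a = x a := fun a => by simp [hYd]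
  have hYn : ∀ k, n ≤ k → Y k = 0 := fun k hk => by simp [hYd, Nat.not_lt.2 hk]
  have hrow : ∀ a : Fin n, ∑ b, triT n a b * x b
      = -(2 * Y a - Y (a + 1) - (if (a : ℕ) = 0 then 0 else Y (a - 1))) := by
    intro a
    have h1 : ∑ b, triT n a b * x b = ∑ b : Fin n,
        (fun k : ℕ => (if (a : ℕ) = k then -2 * Y k else 0) + (if (a : ℕ) + 1 = k then Y k else 0)
          + (if k + 1 = (a : ℕ) then Y k else 0)) b := by
      refine Finset.sum_congr rfl fun b _ => ?_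
      simp only [triT, Matrix.of_apply, hYa, Fin.ext_iff]
      split_ifs <;> first | omega | ring
    rw [h1, Fin.sum_univ_eq_sum_range (fun k : ℕ => (if (a : ℕ) = k then -2 * Y k else 0)
      + (if (a : ℕ) + 1 = k then Y k else 0) + (if k + 1 = (a : ℕ) then Y k else 0)) n,
      Finset.sum_add_distrib, Finset.sum_add_distrib, Finset.sum_ite_eq, Finset.sum_ite_eq]
    have h2 : (a : ℕ) ∈ Finset.range n := Finset.mem_range.2 a.2
    have h3 : (if (a : ℕ) + 1 ∈ Finset.range n then Y (a + 1) else 0) = Y (a + 1) := by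
      split_ifs with h
      · rfl
      · exact (hYn _ (by simpa using h)).symm
    have h4 : ∑ k ∈ Finset.range n, (if k + 1 = (a : ℕ) then Y k else 0)
        = if (a : ℕ) = 0 then 0 else Y (a - 1) := by
      split_ifs with h
      · refine Finset.sum_eq_zero fun k _ => ?_
        rw [if_neg (by omega)]
      · have : ∀ k, (k + 1 = (a : ℕ)) ↔ ((a : ℕ) - 1 = k) := fun k => by omega
        simp only [this]
        rw [Finset.sum_ite_eq, if_pos (Finset.mem_range.2 (by omega))]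
    rw [if_pos h2, h3, h4]
    ring
  have e1 : ∑ a, x a ^ 2 = ∑ k ∈ Finset.range n, Y k ^ 2 := by
    rw [← Fin.sum_univ_eq_sum_range (fun k => Y k ^ 2) n]
    simp only [hYa]
  have e2 : -∑ a, x a * ∑ b, triT n a b * x b = ∑ a ∈ Finset.range n,
      Y a * (2 * Y a - Y (a + 1) - (if a = 0 then 0 else Y (a - 1))) := by
    rw [← Fin.sum_univ_eq_sum_range
      (fun a => Y a * (2 * Y a - Y (a + 1) - (if a = 0 then 0 else Y (a - 1)))) n,
      ← Finset.sum_neg_distrib]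
    refine Finset.sum_congr rfl fun a _ => ?_
    rw [hrow a, hYa]
    ring
  have key := pert_tridiag_seq n Y (hYn n le_rfl)
  rw [e1, e2]
  set S : ℝ := ∑ k ∈ Finset.range n, Y k ^ 2
  set F : ℝ := ∑ a ∈ Finset.range n, Y a * (2 * Y a - Y (a + 1) - (if a = 0 then 0 else Y (a - 1)))
  have hS0 : 0 ≤ S := Finset.sum_nonneg fun a _ => by positivity
  have hF0 : 0 ≤ F := by
    rcases Nat.eq_zero_or_pos n with h0 | h0
    · subst h0; simp [F]
    · have hn : (0 : ℝ) < (n : ℝ) ^ 2 := by positivity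
      by_contra hneg
      have : (n : ℝ) ^ 2 * F < 0 := mul_neg_of_pos_of_neg hn (not_le.1 hneg)
      linarith
  rw [div_mul_eq_mul_div, one_mul, div_le_iff₀ (by positivity)]
  nlinarith

namespace CChain

variable {n : ℕ} (C : CChain n)

theorem pdt_sd (i : ℕ) (hi : i ≤ n) :
    pdt (C.sd i) ((C.y₀ : ℂ), 0) = pdy (C.al 0) ((C.y₀ : ℂ), 0) / 2 :=
  C.b0_pdt_sd i hi

theorem pdt_hlF (j : ℕ) (hj : j ≤ n) :
    pdt (C.hlF j) ((C.y₀ : ℂ), 0)
      = (C.h C.x₀ + deriv (deriv C.h) C.x₀) * pdy (C.al 0) ((C.y₀ : ℂ), 0) / 4 :=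
  C.b0_pdt_hlF j hj

theorem pdt_hdF (j : ℕ) (hj : j < n) :
    pdt (C.hdF j) ((C.y₀ : ℂ), 0)
      = -((C.h C.x₀ + deriv (deriv C.h) C.x₀) * pdy (C.al 0) ((C.y₀ : ℂ), 0) / 2) :=
  C.b0_pdt_hdF j hj

theorem exists_good2 : ∃ cc : ℝ, ∃ ηs : ℝ, 0 < ηs ∧ ∀ η₀ : ℝ, 0 < η₀ → η₀ ≤ ηs → C.Good2 η₀ cc := by
  obtain ⟨lam, hlam, hlamC⟩ := C.b0_lam
  obtain ⟨c, hc, hcoer⟩ := tridiag_coercive n
  have hT : ∀ a b, pdt (fun w => C.hess w a b) ((C.y₀ : ℂ), 0) = (((lam • triT n) a b : ℝ) : ℂ) := by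
    intro a b
    have := (C.b0_hess_entry a b).2.2.deriv
    rw [← hlamC] at this
    show deriv (fun t => C.hess ((C.y₀ : ℂ), t) a b) 0 = _
    rw [this]
    simp only [Matrix.smul_apply, smul_eq_mul, triT, Matrix.of_apply, Complex.ofReal_mul]
  have hco' : ∀ x : Fin n → ℝ,
      lam * c * ∑ a, x a ^ 2 ≤ -∑ a, x a * ∑ b, (lam • triT n) a b * x b := by
    intro x
    have h1 := mul_le_mul_of_nonneg_left (hcoer x) hlam.le
    have h2 : ∑ a, x a * ∑ b, (lam • triT n) a b * x b = lam * ∑ a, x a * ∑ b, triT n a b * x b := by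
      simp only [Matrix.smul_apply, smul_eq_mul, Finset.mul_sum]
      refine Finset.sum_congr rfl fun a _ => Finset.sum_congr rfl fun b _ => ?_
      ring
    rw [h2]
    linarith
  obtain ⟨cc, η1, hcc, hη1, hdet, hco⟩ := pert_good_core C.hess C.y₀
    (fun a b => (C.b0_hess_entry a b).1) (fun a b => (C.b0_hess_entry a b).2.1)
    (lam • triT n) hT (c := lam * c) (by positivity) hco'
  -- the weights
  have hφ : 0 < ‖pdy (C.al 0) ((C.y₀ : ℂ), 0)‖ := by
    refine norm_pos_iff.2 fun h => ?_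
    have := C.φ'_pos
    rw [h] at this
    simp at this
  choose η hη hb using fun i : Fin (n + 1) =>
    pert_first_order (C.b0_an_sd i (Nat.lt_succ_iff.1 i.2)) (C.b0_edge_sd i (Nat.lt_succ_iff.1 i.2))
      (ε := ‖pdy (C.al 0) ((C.y₀ : ℂ), 0)‖ / 4) (by positivity)
  have hev : ∀ᶠ e in 𝓝[>] (0 : ℝ), ∀ i, e < η i := by
    rw [eventually_all]; intro i
    exact (eventually_lt_nhds (hη i)).filter_mono nhdsWithin_le_nhds
  obtain ⟨η2, hη2, hpos⟩ := (hev.and self_mem_nhdsWithin).exists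
  have hpos' : 0 < η2 := hpos
  refine ⟨cc, min η1 η2, lt_min hη1 hpos', fun η₀ _ h2 => ⟨hcc, ?_, fun w hw => hdet w ?_,
    fun r hr => hco r ?_⟩⟩
  · intro i hi w hw hw2 hsd
    have hle : η₀ ≤ η ⟨i, Nat.lt_succ_iff.2 hi⟩ :=
      (h2.trans (min_le_right _ _)).trans (hη2 _).le
    have h3 := hb ⟨i, Nat.lt_succ_iff.2 hi⟩ w.1 (Metric.ball_subset_ball hle hw.1) w.2
      (Metric.ball_subset_ball hle hw.2)
    have h4 : C.sd i (w.1, w.2) = 0 := hsd
    simp only [h4, C.b0_pdt_sd i hi, zero_sub, norm_neg, norm_mul, norm_div] at h3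
    have h5 : 0 < ‖w.2‖ := norm_pos_iff.2 hw2
    have h6 : ‖(2 : ℂ)‖ = 2 := by simp
    rw [h6] at h3
    have h7 : 0 < ‖w.2‖ * ‖pdy (C.al 0) ((C.y₀ : ℂ), 0)‖ := mul_pos h5 hφ
    nlinarith
  · exact ⟨Metric.ball_subset_ball (h2.trans (min_le_left _ _)) hw.1,
      Metric.ball_subset_ball (h2.trans (min_le_left _ _)) hw.2⟩
  · exact ⟨Metric.ball_subset_ball (h2.trans (min_le_left _ _)) hr.1,
      Metric.ball_subset_ball (h2.trans (min_le_left _ _)) hr.2⟩

/-- the good neighbourhood. -/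
theorem exists_good : ∃ η₀ η ρ cc : ℝ, C.Good η₀ η ρ cc := by
  obtain ⟨ρ, η1, hη1, h1⟩ := C.exists_good1
  obtain ⟨cc, η2, hη2, h2⟩ := C.exists_good2
  have hpos : 0 < min η1 η2 := lt_min hη1 hη2
  have g1 := h1 (min η1 η2) hpos (min_le_left _ _)
  have g2 := h2 (min η1 η2) hpos (min_le_right _ _)
  obtain ⟨η, g3⟩ := C.good3_of_good1 g1
  exact ⟨min η1 η2, η, ρ, cc, g1, g2, g3⟩

end CChain

end Claimed.Agent.R269
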