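/-
Row 269, P1 Section 4, unit 4H (Theorem 4.4, point-endpoint determination): the variational system WITHOUT END CONDITIONS.   helper183.
HOST-FREE (Mathlib + Lib/Dv + VarA for `VarAux`, `rotCS`): pure differential algebra in a field `S` of characteristic zero.

MODEL (as in VarA).  Lines with angles `α_0, …, α_{n+1}`, impacts `i ≤ n`: `ψ_i = (α_i + α_{i+1})/2`, `d_i = (α_{i+1} - α_i)/2`,
   `s i = sin d_i`,  `c i = cos d_i`,  `H i l = h^{(l)}(ψ_i)`,  `a1 j = ∂_y α_j`,  `a2 j = ∂_t α_j`;   `d1 = ∂_y`, `d2 = ∂_t`, `Dl` = infinitesimal deformation.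
`VarBase`  = these data (the fields of `VarSys` up to `stat`).
`VarCore`  = `VarBase` + the first and second variation `A0`, `B0` of the angle `α_0`  (`VarSys`: `A0 = B0 = 0`;  points: `A0 = -u 0`, `B0 = -b 0`, see VarP).

   `pIn i`, `pOut i`   momenta of the lines `α_i`, `α_{i+1}` seen from the impact `i`
   `qIn i`, `qOut i`   tangential coordinates `⟨γ(ψ_i), e(α_i)⟩`, `⟨γ(ψ_i), e(α_{i+1})⟩` of the impact `i` on these lines
   `rr i`              radius of curvature `h + h''` at the impact `i`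
   `p1 i, p2 i`        `∂ψ_i`
All end-condition-free identities of VarA/VarB are proved here in this generality, the global ones with their boundary terms.
-/
import Claimed.Agent.R269.S4.VarA

set_option autoImplicit false
set_option linter.unusedSectionVars false

namespace Claimed.Agent.R269

/-- the data of a chain of reflections in a differential field, with an infinitesimal deformation `Dl`; no end conditions. -/
structure VarBase (S : Type*) [Field S] (n : ℕ) where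
  d1 : Dv S
  d2 : Dv S
  Dl : Dv S
  comm1 : ∀ x, Dl (d1 x) = d1 (Dl x)
  comm2 : ∀ x, Dl (d2 x) = d2 (Dl x)
  s : ℕ → S
  c : ℕ → S
  H : ℕ → ℕ → S
  a1 : ℕ → S
  a2 : ℕ → S
  unit : ∀ i ≤ n, s i ^ 2 + c i ^ 2 = 1
  d1s : ∀ i ≤ n, d1 (s i) = c i * ((a1 (i + 1) - a1 i) / 2)
  d1c : ∀ i ≤ n, d1 (c i) = -(s i * ((a1 (i + 1) - a1 i) / 2))
  d2s : ∀ i ≤ n, d2 (s i) = c i * ((a2 (i + 1) - a2 i) / 2)
  d2c : ∀ i ≤ n, d2 (c i) = -(s i * ((a2 (i + 1) - a2 i) / 2))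
  d1H : ∀ i ≤ n, ∀ l, d1 (H i l) = H i (l + 1) * ((a1 i + a1 (i + 1)) / 2)
  d2H : ∀ i ≤ n, ∀ l, d2 (H i l) = H i (l + 1) * ((a2 i + a2 (i + 1)) / 2)
  stat : ∀ i < n, H i 0 * c i + H i 1 * s i = H (i + 1) 0 * c (i + 1) - H (i + 1) 1 * s (i + 1)

/-- `VarBase` together with the first and second variation of the angle `α_0`. -/
structure VarCore (S : Type*) [Field S] (n : ℕ) extends VarBase S n where
  A0 : S
  B0 : S
  d1A0 : d1 A0 = Dl (a1 0)
  d2A0 : d2 A0 = Dl (a2 0)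
  d1B0 : d1 B0 = Dl (Dl (a1 0)) / 2
  d2B0 : d2 B0 = Dl (Dl (a2 0)) / 2

namespace VarCore

variable {S : Type*} [Field S] [CharZero S] {n : ℕ} (V : VarCore S n)

/-- momentum of the line `α_i`, seen from the impact `i`. -/
def pIn (i : ℕ) : S := V.H i 0 * V.c i - V.H i 1 * V.s i

/-- momentum of the line `α_{i+1}`, seen from the impact `i`. -/
def pOut (i : ℕ) : S := V.H i 0 * V.c i + V.H i 1 * V.s i

/-- tangential coordinate of the impact `i` on the line `α_i`. -/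
def qIn (i : ℕ) : S := V.H i 0 * V.s i + V.H i 1 * V.c i

/-- tangential coordinate of the impact `i` on the line `α_{i+1}`. -/
def qOut (i : ℕ) : S := -(V.H i 0 * V.s i) + V.H i 1 * V.c i

/-- the radius of curvature at the impact `i`. -/
def rr (i : ℕ) : S := V.H i 0 + V.H i 2

/-- `∂_y ψ_i`. -/
def p1 (i : ℕ) : S := (V.a1 i + V.a1 (i + 1)) / 2

/-- `∂_t ψ_i`. -/
def p2 (i : ℕ) : S := (V.a2 i + V.a2 (i + 1)) / 2

/-- "`Dl d_i`". -/
def u (i : ℕ) : S := V.c i * V.Dl (V.s i) - V.s i * V.Dl (V.c i)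

/-- "`Dl α_j`". -/
def A : ℕ → S
  | 0 => V.A0
  | j + 1 => A j + 2 * V.u j

/-- "`Dl ψ_i`". -/
def Ps (i : ℕ) : S := (V.A i + V.A (i + 1)) / 2

/-- the first variation of the profile: "`(δh)^{(m)}(ψ_i)`". -/
def F (i m : ℕ) : S := V.Dl (V.H i m) - V.H i (m + 1) * V.Ps i

/-- the action. -/
def act : S := ∑ i ∈ Finset.range (n + 1), 2 * V.H i 0 * V.s i

/-- the gradient of the first variation of the action at the interior vertex `j + 1`. -/
def v (j : ℕ) : S :=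
  (V.F j 1 * V.s j + V.F j 0 * V.c j) + (V.F (j + 1) 1 * V.s (j + 1) - V.F (j + 1) 0 * V.c (j + 1))

/-- off-diagonal entry of the Hessian of the action: coupling of the vertices `j`, `j + 1` through the impact `j`. -/
def hl (j : ℕ) : S := (V.H j 0 + V.H j 2) * V.s j / 2

/-- contribution of the impact `j` to the diagonal Hessian entry at the vertex `j + 1`. -/
def hdL (j : ℕ) : S := V.H j 1 * V.c j + (V.H j 2 - V.H j 0) * V.s j / 2

/-- contribution of the impact `j` to the diagonal Hessian entry at the vertex `j`. -/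
def hdR (j : ℕ) : S := -(V.H j 1 * V.c j) + (V.H j 2 - V.H j 0) * V.s j / 2

/-- diagonal entry of the Hessian at the interior vertex `j + 1`. -/
def hd (j : ℕ) : S := V.hdL j + V.hdR (j + 1)

/-! ### first order -/

theorem Dl_s (i : ℕ) (hi : i ≤ n) : V.Dl (V.s i) = V.c i * V.u i := by
  have hD := VarAux.dv_unit V.Dl (V.unit i hi)
  have hu := V.unit i hi
  unfold u
  linear_combination (-(V.Dl (V.s i))) * hu + V.s i * hD

theorem Dl_c (i : ℕ) (hi : i ≤ n) : V.Dl (V.c i) = -(V.s i * V.u i) := by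
  have hD := VarAux.dv_unit V.Dl (V.unit i hi)
  have hu := V.unit i hi
  unfold u
  linear_combination (-(V.Dl (V.c i))) * hu + V.c i * hD

theorem d1_u (i : ℕ) (hi : i ≤ n) : V.d1 (V.u i) = V.Dl ((V.a1 (i + 1) - V.a1 i) / 2) := by
  have hu := V.unit i hi
  unfold u
  rw [map_sub, Dv.leibniz, Dv.leibniz, ← V.comm1, ← V.comm1, V.d1s i hi, V.d1c i hi, map_neg, Dv.leibniz,
    Dv.leibniz]
  linear_combination (V.Dl ((V.a1 (i + 1) - V.a1 i) / 2)) * hu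

theorem d2_u (i : ℕ) (hi : i ≤ n) : V.d2 (V.u i) = V.Dl ((V.a2 (i + 1) - V.a2 i) / 2) := by
  have hu := V.unit i hi
  unfold u
  rw [map_sub, Dv.leibniz, Dv.leibniz, ← V.comm2, ← V.comm2, V.d2s i hi, V.d2c i hi, map_neg, Dv.leibniz,
    Dv.leibniz]
  linear_combination (V.Dl ((V.a2 (i + 1) - V.a2 i) / 2)) * hu

theorem A_zero : V.A 0 = V.A0 := rfl

theorem A_succ (j : ℕ) : V.A (j + 1) = V.A j + 2 * V.u j := rfl

theorem d1_A (j : ℕ) (hj : j ≤ n + 1) : V.d1 (V.A j) = V.Dl (V.a1 j) := by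
  induction j with
  | zero => exact V.d1A0
  | succ j ih =>
    have ih' := ih (by omega)
    rw [A_succ, map_add, VarAux.dv_two_mul, ih', V.d1_u j (by omega), VarAux.dv_half, map_sub]
    ring

theorem d2_A (j : ℕ) (hj : j ≤ n + 1) : V.d2 (V.A j) = V.Dl (V.a2 j) := by
  induction j with
  | zero => exact V.d2A0
  | succ j ih =>
    have ih' := ih (by omega)
    rw [A_succ, map_add, VarAux.dv_two_mul, ih', V.d2_u j (by omega), VarAux.dv_half, map_sub]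
    ring

theorem d1_Ps (i : ℕ) (hi : i ≤ n) : V.d1 (V.Ps i) = V.Dl (V.p1 i) := by
  unfold Ps p1
  rw [VarAux.dv_half, VarAux.dv_half, map_add, map_add, V.d1_A i (by omega), V.d1_A (i + 1) (by omega)]

theorem d2_Ps (i : ℕ) (hi : i ≤ n) : V.d2 (V.Ps i) = V.Dl (V.p2 i) := by
  unfold Ps p2
  rw [VarAux.dv_half, VarAux.dv_half, map_add, map_add, V.d2_A i (by omega), V.d2_A (i + 1) (by omega)]

theorem d1H' (i : ℕ) (hi : i ≤ n) (l : ℕ) : V.d1 (V.H i l) = V.H i (l + 1) * V.p1 i := V.d1H i hi l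

theorem d2H' (i : ℕ) (hi : i ≤ n) (l : ℕ) : V.d2 (V.H i l) = V.H i (l + 1) * V.p2 i := V.d2H i hi l

/-- the towers of the first variation. -/
theorem d1_F (i : ℕ) (hi : i ≤ n) (m : ℕ) : V.d1 (V.F i m) = V.F i (m + 1) * V.p1 i := by
  unfold F
  rw [map_sub, Dv.leibniz, ← V.comm1, V.d1H' i hi m, V.d1H' i hi (m + 1), Dv.leibniz, V.d1_Ps i hi]
  ring

theorem d2_F (i : ℕ) (hi : i ≤ n) (m : ℕ) : V.d2 (V.F i m) = V.F i (m + 1) * V.p2 i := by
  unfold F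
  rw [map_sub, Dv.leibniz, ← V.comm2, V.d2H' i hi m, V.d2H' i hi (m + 1), Dv.leibniz, V.d2_Ps i hi]
  ring

/-- `|e^{i(α_j - α_0)}| = 1`. -/
theorem rot_unit (j : ℕ) (hj : j ≤ n + 1) : (rotCS V.s V.c j).1 ^ 2 + (rotCS V.s V.c j).2 ^ 2 = 1 := by
  induction j with
  | zero => simp [rotCS]
  | succ j ih =>
    have ih' := ih (by omega)
    have hu := V.unit j (by omega)
    simp only [rotCS]
    have h2 : (V.c j ^ 2 - V.s j ^ 2) ^ 2 + (2 * V.s j * V.c j) ^ 2 = 1 := by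
      linear_combination (V.s j ^ 2 + V.c j ^ 2 + 1) * hu
    linear_combination ((V.c j ^ 2 - V.s j ^ 2) ^ 2 + (2 * V.s j * V.c j) ^ 2) * ih' + h2

/-- `Dl (cos, sin)(α_j - α_0) = (A j - A0) (-sin, cos)`. -/
theorem rot_Dl (j : ℕ) (hj : j ≤ n + 1) :
    V.Dl (rotCS V.s V.c j).1 = -((V.A j - V.A0) * (rotCS V.s V.c j).2) ∧
      V.Dl (rotCS V.s V.c j).2 = (V.A j - V.A0) * (rotCS V.s V.c j).1 := by
  induction j with
  | zero =>
    constructor
    · show V.Dl 1 = -((V.A0 - V.A0) * 0)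
      rw [Dv.map_one]; ring
    · show V.Dl 0 = (V.A0 - V.A0) * 1
      rw [map_zero]; ring
  | succ j ih =>
    obtain ⟨ih1, ih2⟩ := ih (by omega)
    have hs := V.Dl_s j (by omega)
    have hc := V.Dl_c j (by omega)
    have hA : V.A (j + 1) = V.A j + 2 * V.u j := rfl
    simp only [rotCS]
    constructor
    · rw [map_sub, Dv.leibniz, Dv.leibniz, map_sub, VarAux.dv_sq, VarAux.dv_sq, Dv.leibniz, VarAux.dv_two_mul, ih1, ih2,
        hs, hc, hA]
      ring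
    · rw [map_add, Dv.leibniz, Dv.leibniz, map_sub, VarAux.dv_sq, VarAux.dv_sq, Dv.leibniz, VarAux.dv_two_mul, ih1, ih2,
        hs, hc, hA]
      ring

/-- telescoping by stationarity. -/
theorem telescope (X : ℕ → S) :
    ∑ i ∈ Finset.range (n + 1), (V.pOut i * X (i + 1) - V.pIn i * X i) = V.pOut n * X (n + 1) - V.pIn 0 * X 0 := by
  have key : ∀ m, m ≤ n →
      ∑ i ∈ Finset.range (m + 1), (V.pOut i * X (i + 1) - V.pIn i * X i) = V.pOut m * X (m + 1) - V.pIn 0 * X 0 := by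
    intro m
    induction m with
    | zero => intro _; simp
    | succ m ih =>
      intro hm
      rw [Finset.sum_range_succ, ih (by omega)]
      have hst : V.pOut m = V.pIn (m + 1) := V.stat m (by omega)
      rw [hst]
      ring
  exact key n le_rfl

theorem d1_edge (i : ℕ) (hi : i ≤ n) :
    V.d1 (2 * V.H i 0 * V.s i) = V.pOut i * V.a1 (i + 1) - V.pIn i * V.a1 i := by
  rw [Dv.leibniz, VarAux.dv_two_mul, V.d1H i hi 0, V.d1s i hi]
  unfold pOut pIn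
  ring

theorem d2_edge (i : ℕ) (hi : i ≤ n) :
    V.d2 (2 * V.H i 0 * V.s i) = V.pOut i * V.a2 (i + 1) - V.pIn i * V.a2 i := by
  rw [Dv.leibniz, VarAux.dv_two_mul, V.d2H i hi 0, V.d2s i hi]
  unfold pOut pIn
  ring

theorem u_eq (i : ℕ) : V.u i = (V.A (i + 1) - V.A i) / 2 := by
  rw [A_succ]
  ring

theorem Ps_eq (i : ℕ) : V.Ps i = V.A i + V.u i := by
  unfold Ps
  rw [A_succ]
  ring

theorem Dl_H (i m : ℕ) : V.Dl (V.H i m) = V.F i m + V.H i (m + 1) * V.Ps i := by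
  unfold F
  ring

theorem Dl_edge (i : ℕ) (hi : i ≤ n) :
    V.Dl (2 * V.H i 0 * V.s i) = 2 * V.s i * V.F i 0 + (V.pOut i * V.A (i + 1) - V.pIn i * V.A i) := by
  rw [Dv.leibniz, VarAux.dv_two_mul, V.Dl_H, V.Dl_s i hi, V.u_eq]
  unfold pOut pIn Ps
  ring

/-- `∂ act = p_{n+1} ∂α_{n+1} - p_0 ∂α_0` (telescoping by stationarity). -/
theorem d1_act : V.d1 V.act = V.pOut n * V.a1 (n + 1) - V.pIn 0 * V.a1 0 := by
  unfold act
  rw [Dv.map_sum, ← V.telescope V.a1]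
  exact Finset.sum_congr rfl fun i hi => V.d1_edge i (by have := Finset.mem_range.mp hi; omega)

theorem d2_act : V.d2 V.act = V.pOut n * V.a2 (n + 1) - V.pIn 0 * V.a2 0 := by
  unfold act
  rw [Dv.map_sum, ← V.telescope V.a2]
  exact Finset.sum_congr rfl fun i hi => V.d2_edge i (by have := Finset.mem_range.mp hi; omega)

/-- FIRST VARIATION FORMULA with boundary terms. -/
theorem Dl_act : V.Dl V.act
    = ∑ i ∈ Finset.range (n + 1), 2 * V.s i * V.F i 0 + (V.pOut n * V.A (n + 1) - V.pIn 0 * V.A 0) := by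
  have hT := V.telescope V.A
  unfold act
  rw [Dv.map_sum]
  have : ∑ i ∈ Finset.range (n + 1), V.Dl (2 * V.H i 0 * V.s i)
      = ∑ i ∈ Finset.range (n + 1), (2 * V.s i * V.F i 0 + (V.pOut i * V.A (i + 1) - V.pIn i * V.A i)) :=
    Finset.sum_congr rfl fun i hi => V.Dl_edge i (by have := Finset.mem_range.mp hi; omega)
  rw [this, Finset.sum_add_distrib, hT]

/-- LINEARISED STATIONARITY at the interior vertex `j + 1`. -/
theorem lin_stat (j : ℕ) (hj : j < n) :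
    V.v j + V.hl j * V.A j + V.hd j * V.A (j + 1) + V.hl (j + 1) * V.A (j + 2) = 0 := by
  have h := congrArg V.Dl (V.stat j hj)
  rw [map_add, map_sub, Dv.leibniz, Dv.leibniz, Dv.leibniz, Dv.leibniz, V.Dl_H, V.Dl_H, V.Dl_H, V.Dl_H,
    V.Dl_s j (by omega), V.Dl_c j (by omega), V.Dl_s (j + 1) (by omega), V.Dl_c (j + 1) (by omega),
    V.u_eq, V.u_eq] at h
  unfold v hl hd hdL hdR
  unfold Ps at h
  linear_combination h

/-- if the profile variation and the angle variations vanish, `Dl` kills the whole core. -/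
theorem core_killed (hF : ∀ i ≤ n, ∀ m, V.F i m = 0) (hA : ∀ j ≤ n + 1, V.A j = 0) (i : ℕ) (hi : i ≤ n) :
    V.Dl (V.s i) = 0 ∧ V.Dl (V.c i) = 0 ∧ ∀ m, V.Dl (V.H i m) = 0 := by
  have hu : V.u i = 0 := by rw [V.u_eq, hA (i + 1) (by omega), hA i (by omega)]; ring
  have hP : V.Ps i = 0 := by unfold Ps; rw [hA (i + 1) (by omega), hA i (by omega)]; ring
  refine ⟨by rw [V.Dl_s i hi, hu, mul_zero], by rw [V.Dl_c i hi, hu, mul_zero, neg_zero], fun m => ?_⟩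
  rw [V.Dl_H, hF i hi m, hP]
  ring

/-! ### differentials of the tangential coordinates and of the momenta -/

theorem a1_succ (i : ℕ) : V.a1 (i + 1) = V.p1 i + (V.a1 (i + 1) - V.a1 i) / 2 := by
  unfold p1; ring

theorem d1_qOut (i : ℕ) (hi : i ≤ n) :
    V.d1 (V.qOut i) = V.rr i * V.c i * V.p1 i - V.pOut i * V.a1 (i + 1) := by
  unfold qOut
  rw [map_add, map_neg, Dv.leibniz, Dv.leibniz, V.d1H i hi 0, V.d1H i hi 1, V.d1s i hi, V.d1c i hi]
  unfold rr p1 pOut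
  ring

theorem d2_qOut (i : ℕ) (hi : i ≤ n) :
    V.d2 (V.qOut i) = V.rr i * V.c i * V.p2 i - V.pOut i * V.a2 (i + 1) := by
  unfold qOut
  rw [map_add, map_neg, Dv.leibniz, Dv.leibniz, V.d2H i hi 0, V.d2H i hi 1, V.d2s i hi, V.d2c i hi]
  unfold rr p2 pOut
  ring

theorem d1_qIn (i : ℕ) (hi : i ≤ n) :
    V.d1 (V.qIn i) = V.rr i * V.c i * V.p1 i - V.pIn i * V.a1 i := by
  unfold qIn
  rw [map_add, Dv.leibniz, Dv.leibniz, V.d1H i hi 0, V.d1H i hi 1, V.d1s i hi, V.d1c i hi]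
  unfold rr p1 pIn
  ring

theorem d2_qIn (i : ℕ) (hi : i ≤ n) :
    V.d2 (V.qIn i) = V.rr i * V.c i * V.p2 i - V.pIn i * V.a2 i := by
  unfold qIn
  rw [map_add, Dv.leibniz, Dv.leibniz, V.d2H i hi 0, V.d2H i hi 1, V.d2s i hi, V.d2c i hi]
  unfold rr p2 pIn
  ring

theorem d1_pOut (i : ℕ) (hi : i ≤ n) :
    V.d1 (V.pOut i) = V.rr i * V.s i * V.p1 i + V.qOut i * V.a1 (i + 1) := by
  unfold pOut
  rw [map_add, Dv.leibniz, Dv.leibniz, V.d1H i hi 0, V.d1H i hi 1, V.d1s i hi, V.d1c i hi]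
  unfold rr p1 qOut
  ring

theorem d2_pOut (i : ℕ) (hi : i ≤ n) :
    V.d2 (V.pOut i) = V.rr i * V.s i * V.p2 i + V.qOut i * V.a2 (i + 1) := by
  unfold pOut
  rw [map_add, Dv.leibniz, Dv.leibniz, V.d2H i hi 0, V.d2H i hi 1, V.d2s i hi, V.d2c i hi]
  unfold rr p2 qOut
  ring

theorem d1_pIn (i : ℕ) (hi : i ≤ n) :
    V.d1 (V.pIn i) = -(V.rr i * V.s i * V.p1 i) + V.qIn i * V.a1 i := by
  unfold pIn
  rw [map_sub, Dv.leibniz, Dv.leibniz, V.d1H i hi 0, V.d1H i hi 1, V.d1s i hi, V.d1c i hi]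
  unfold rr p1 qIn
  ring

theorem d2_pIn (i : ℕ) (hi : i ≤ n) :
    V.d2 (V.pIn i) = -(V.rr i * V.s i * V.p2 i) + V.qIn i * V.a2 i := by
  unfold pIn
  rw [map_sub, Dv.leibniz, Dv.leibniz, V.d2H i hi 0, V.d2H i hi 1, V.d2s i hi, V.d2c i hi]
  unfold rr p2 qIn
  ring

theorem d1_rr (i : ℕ) (hi : i ≤ n) : V.d1 (V.rr i) = (V.H i 1 + V.H i 3) * V.p1 i := by
  unfold rr
  rw [map_add, V.d1H' i hi 0, V.d1H' i hi 2]
  ring

theorem d2_rr (i : ℕ) (hi : i ≤ n) : V.d2 (V.rr i) = (V.H i 1 + V.H i 3) * V.p2 i := by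
  unfold rr
  rw [map_add, V.d2H' i hi 0, V.d2H' i hi 2]
  ring

/-- the area coefficient of the line `α_{i+1}`:  `dp ∧ dα = - r dψ_i ∧ dc_i`. -/
theorem area_out (i : ℕ) (hi : i ≤ n) :
    V.d1 (V.pOut i) * V.a2 (i + 1) - V.d2 (V.pOut i) * V.a1 (i + 1)
      = -(V.rr i * (V.p1 i * V.d2 (V.c i) - V.p2 i * V.d1 (V.c i))) := by
  rw [V.d1_pOut i hi, V.d2_pOut i hi, V.d1c i hi, V.d2c i hi]
  unfold p1 p2
  ring

/-- the area coefficient of the line `α_i`:  `dp ∧ dα = - r dψ_i ∧ dc_i`. -/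
theorem area_in (i : ℕ) (hi : i ≤ n) :
    V.d1 (V.pIn i) * V.a2 i - V.d2 (V.pIn i) * V.a1 i
      = -(V.rr i * (V.p1 i * V.d2 (V.c i) - V.p2 i * V.d1 (V.c i))) := by
  rw [V.d1_pIn i hi, V.d2_pIn i hi, V.d1c i hi, V.d2c i hi]
  unfold p1 p2
  ring

/-! ### second order -/

/-- the second coefficient of `exp (ε Dl)`. -/
def D2 (x : S) : S := V.Dl (V.Dl x) / 2

/-- "second variation of `d_i`". -/
def b (i : ℕ) : S := V.c i * V.D2 (V.s i) - V.s i * V.D2 (V.c i)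

/-- "second variation of `α_j`". -/
def Bq : ℕ → S
  | 0 => V.B0
  | j + 1 => Bq j + 2 * V.b j

/-- "second variation of `ψ_i`". -/
def Qs (i : ℕ) : S := (V.Bq i + V.Bq (i + 1)) / 2

/-- the second variation of the profile. -/
def Gt (i m : ℕ) : S :=
  V.D2 (V.H i m) - V.F i (m + 1) * V.Ps i - V.H i (m + 1) * V.Qs i - V.H i (m + 2) * V.Ps i ^ 2 / 2

theorem D2_add (x y : S) : V.D2 (x + y) = V.D2 x + V.D2 y := by
  unfold D2
  rw [map_add, map_add]
  ring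

theorem D2_sub (x y : S) : V.D2 (x - y) = V.D2 x - V.D2 y := by
  unfold D2
  rw [map_sub, map_sub]
  ring

theorem D2_neg (x : S) : V.D2 (-x) = -V.D2 x := by
  unfold D2
  rw [map_neg, map_neg]
  ring

theorem D2_zero : V.D2 0 = 0 := by
  unfold D2
  rw [map_zero, map_zero]
  ring

theorem D2_sum {ι : Type*} (t : Finset ι) (f : ι → S) : V.D2 (∑ i ∈ t, f i) = ∑ i ∈ t, V.D2 (f i) := by
  unfold D2
  rw [Dv.map_sum, Dv.map_sum, Finset.sum_div]

theorem D2_mul (x y : S) : V.D2 (x * y) = x * V.D2 y + V.Dl x * V.Dl y + y * V.D2 x := by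
  unfold D2
  rw [Dv.leibniz_two]
  ring

theorem D2_two_mul (x : S) : V.D2 (2 * x) = 2 * V.D2 x := by
  unfold D2
  rw [VarAux.dv_two_mul, VarAux.dv_two_mul]
  ring

theorem D2_half (x : S) : V.D2 (x / 2) = V.D2 x / 2 := by
  unfold D2
  rw [VarAux.dv_half, VarAux.dv_half]

theorem D2_of_Dl_eq_zero {x : S} (h : V.Dl x = 0) : V.D2 x = 0 := by
  unfold D2
  rw [h, map_zero]
  ring

theorem d1_D2 (x : S) : V.d1 (V.D2 x) = V.D2 (V.d1 x) := by
  unfold D2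
  rw [VarAux.dv_half, V.comm1, V.comm1]

theorem d2_D2 (x : S) : V.d2 (V.D2 x) = V.D2 (V.d2 x) := by
  unfold D2
  rw [VarAux.dv_half, V.comm2, V.comm2]

/-- `s D2 s + c D2 c = - u² / 2`. -/
theorem D2_unit (i : ℕ) (hi : i ≤ n) : V.s i * V.D2 (V.s i) + V.c i * V.D2 (V.c i) = -(V.u i ^ 2 / 2) := by
  have hu := V.unit i hi
  have h : V.D2 (V.s i ^ 2 + V.c i ^ 2) = 0 := by
    rw [hu]
    exact V.D2_of_Dl_eq_zero (Dv.map_one _)
  rw [D2_add, pow_two, pow_two, D2_mul, D2_mul, V.Dl_s i hi, V.Dl_c i hi] at h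
  have h2 : (2 : S) ≠ 0 := two_ne_zero
  have h3 : 2 * (V.s i * V.D2 (V.s i) + V.c i * V.D2 (V.c i) + V.u i ^ 2 / 2) = 0 := by
    linear_combination h - (V.u i ^ 2) * hu
  rcases mul_eq_zero.mp h3 with h4 | h4
  · exact absurd h4 h2
  · linear_combination h4

theorem D2_s (i : ℕ) (hi : i ≤ n) : V.D2 (V.s i) = V.c i * V.b i - V.s i * V.u i ^ 2 / 2 := by
  have hu := V.unit i hi
  have h := V.D2_unit i hi
  unfold b
  linear_combination (-(V.D2 (V.s i))) * hu + V.s i * h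

theorem D2_c (i : ℕ) (hi : i ≤ n) : V.D2 (V.c i) = -(V.s i * V.b i) - V.c i * V.u i ^ 2 / 2 := by
  have hu := V.unit i hi
  have h := V.D2_unit i hi
  unfold b
  linear_combination (-(V.D2 (V.c i))) * hu + V.c i * h

theorem Bq_zero : V.Bq 0 = V.B0 := rfl

theorem Bq_succ (j : ℕ) : V.Bq (j + 1) = V.Bq j + 2 * V.b j := rfl

theorem b_eq (i : ℕ) : V.b i = (V.Bq (i + 1) - V.Bq i) / 2 := by
  rw [Bq_succ]
  ring

theorem Qs_eq (i : ℕ) : V.Qs i = V.Bq i + V.b i := by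
  unfold Qs
  rw [Bq_succ]
  ring

theorem d1_b (i : ℕ) (hi : i ≤ n) : V.d1 (V.b i) = V.D2 ((V.a1 (i + 1) - V.a1 i) / 2) := by
  have hu := V.unit i hi
  have hD := VarAux.dv_unit V.Dl (V.unit i hi)
  unfold b
  rw [map_sub, Dv.leibniz, Dv.leibniz, d1_D2, d1_D2, V.d1s i hi, V.d1c i hi, D2_neg, D2_mul, D2_mul]
  linear_combination (V.D2 ((V.a1 (i + 1) - V.a1 i) / 2)) * hu + (V.Dl ((V.a1 (i + 1) - V.a1 i) / 2)) * hD

theorem d2_b (i : ℕ) (hi : i ≤ n) : V.d2 (V.b i) = V.D2 ((V.a2 (i + 1) - V.a2 i) / 2) := by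
  have hu := V.unit i hi
  have hD := VarAux.dv_unit V.Dl (V.unit i hi)
  unfold b
  rw [map_sub, Dv.leibniz, Dv.leibniz, d2_D2, d2_D2, V.d2s i hi, V.d2c i hi, D2_neg, D2_mul, D2_mul]
  linear_combination (V.D2 ((V.a2 (i + 1) - V.a2 i) / 2)) * hu + (V.Dl ((V.a2 (i + 1) - V.a2 i) / 2)) * hD

theorem d1_Bq (j : ℕ) (hj : j ≤ n + 1) : V.d1 (V.Bq j) = V.D2 (V.a1 j) := by
  induction j with
  | zero => exact V.d1B0
  | succ j ih =>
    have ih' := ih (by omega)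
    rw [Bq_succ, map_add, VarAux.dv_two_mul, ih', V.d1_b j (by omega), D2_half, D2_sub]
    ring

theorem d2_Bq (j : ℕ) (hj : j ≤ n + 1) : V.d2 (V.Bq j) = V.D2 (V.a2 j) := by
  induction j with
  | zero => exact V.d2B0
  | succ j ih =>
    have ih' := ih (by omega)
    rw [Bq_succ, map_add, VarAux.dv_two_mul, ih', V.d2_b j (by omega), D2_half, D2_sub]
    ring

theorem d1_Qs (i : ℕ) (hi : i ≤ n) : V.d1 (V.Qs i) = V.D2 (V.p1 i) := by
  unfold Qs p1
  rw [VarAux.dv_half, D2_half, map_add, D2_add, V.d1_Bq i (by omega), V.d1_Bq (i + 1) (by omega)]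

theorem d2_Qs (i : ℕ) (hi : i ≤ n) : V.d2 (V.Qs i) = V.D2 (V.p2 i) := by
  unfold Qs p2
  rw [VarAux.dv_half, D2_half, map_add, D2_add, V.d2_Bq i (by omega), V.d2_Bq (i + 1) (by omega)]

/-- the towers of the second variation. -/
theorem d1_Gt (i : ℕ) (hi : i ≤ n) (m : ℕ) : V.d1 (V.Gt i m) = V.Gt i (m + 1) * V.p1 i := by
  unfold Gt
  rw [map_sub, map_sub, map_sub, d1_D2, V.d1H' i hi m, D2_mul, Dv.leibniz, V.d1_F i hi (m + 1), V.d1_Ps i hi,
    Dv.leibniz, V.d1H' i hi (m + 1), V.d1_Qs i hi, VarAux.dv_half, Dv.leibniz, V.d1H' i hi (m + 2), VarAux.dv_sq,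
    V.d1_Ps i hi, V.Dl_H i (m + 1)]
  ring

theorem d2_Gt (i : ℕ) (hi : i ≤ n) (m : ℕ) : V.d2 (V.Gt i m) = V.Gt i (m + 1) * V.p2 i := by
  unfold Gt
  rw [map_sub, map_sub, map_sub, d2_D2, V.d2H' i hi m, D2_mul, Dv.leibniz, V.d2_F i hi (m + 1), V.d2_Ps i hi,
    Dv.leibniz, V.d2H' i hi (m + 1), V.d2_Qs i hi, VarAux.dv_half, Dv.leibniz, V.d2H' i hi (m + 2), VarAux.dv_sq,
    V.d2_Ps i hi, V.Dl_H i (m + 1)]
  ring

theorem D2_H (i m : ℕ) :
    V.D2 (V.H i m) = V.Gt i m + V.F i (m + 1) * V.Ps i + V.H i (m + 1) * V.Qs i + V.H i (m + 2) * V.Ps i ^ 2 / 2 := by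
  unfold Gt
  ring

/-- a general rule: if `(C, Sn)` rotates with first variation `a` and second variation `β`, and `(c', s')` with `a'`, `β'`, then the
composed rotation has variations `a + a'`, `β + β'`. -/
theorem rot_comp {C Sn a β c' s' a' β' : S}
    (h1 : V.Dl C = -(a * Sn)) (h2 : V.Dl Sn = a * C)
    (h3 : V.D2 C = -(β * Sn) - a ^ 2 * C / 2) (h4 : V.D2 Sn = β * C - a ^ 2 * Sn / 2)
    (k1 : V.Dl c' = -(a' * s')) (k2 : V.Dl s' = a' * c')
    (k3 : V.D2 c' = -(β' * s') - a' ^ 2 * c' / 2) (k4 : V.D2 s' = β' * c' - a' ^ 2 * s' / 2) :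
    V.Dl (C * c' - Sn * s') = -((a + a') * (Sn * c' + C * s')) ∧
    V.Dl (Sn * c' + C * s') = (a + a') * (C * c' - Sn * s') ∧
    V.D2 (C * c' - Sn * s') = -((β + β') * (Sn * c' + C * s')) - (a + a') ^ 2 * (C * c' - Sn * s') / 2 ∧
    V.D2 (Sn * c' + C * s') = (β + β') * (C * c' - Sn * s') - (a + a') ^ 2 * (Sn * c' + C * s') / 2 := by
  refine ⟨?_, ?_, ?_, ?_⟩
  · rw [map_sub, Dv.leibniz, Dv.leibniz, h1, h2, k1, k2]; ring
  · rw [map_add, Dv.leibniz, Dv.leibniz, h1, h2, k1, k2]; ring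
  · rw [D2_sub, D2_mul, D2_mul, h1, h2, h3, h4, k1, k2, k3, k4]; ring
  · rw [D2_add, D2_mul, D2_mul, h1, h2, h3, h4, k1, k2, k3, k4]; ring

/-- the rotation by `d_i`. -/
theorem rot_d (i : ℕ) (hi : i ≤ n) :
    V.Dl (V.c i) = -(V.u i * V.s i) ∧ V.Dl (V.s i) = V.u i * V.c i ∧
    V.D2 (V.c i) = -(V.b i * V.s i) - V.u i ^ 2 * V.c i / 2 ∧ V.D2 (V.s i) = V.b i * V.c i - V.u i ^ 2 * V.s i / 2 := by
  refine ⟨?_, ?_, ?_, ?_⟩
  · rw [V.Dl_c i hi]; ring
  · rw [V.Dl_s i hi]; ring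
  · rw [V.D2_c i hi]; ring
  · rw [V.D2_s i hi]; ring

/-- first and second variation of `(cos, sin)(α_j - α_0)`. -/
theorem rot_var (j : ℕ) (hj : j ≤ n + 1) :
    V.Dl (rotCS V.s V.c j).1 = -((V.A j - V.A0) * (rotCS V.s V.c j).2) ∧
    V.Dl (rotCS V.s V.c j).2 = (V.A j - V.A0) * (rotCS V.s V.c j).1 ∧
    V.D2 (rotCS V.s V.c j).1
      = -((V.Bq j - V.B0) * (rotCS V.s V.c j).2) - (V.A j - V.A0) ^ 2 * (rotCS V.s V.c j).1 / 2 ∧
    V.D2 (rotCS V.s V.c j).2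
      = (V.Bq j - V.B0) * (rotCS V.s V.c j).1 - (V.A j - V.A0) ^ 2 * (rotCS V.s V.c j).2 / 2 := by
  induction j with
  | zero =>
    refine ⟨?_, ?_, ?_, ?_⟩
    · show V.Dl 1 = -((V.A0 - V.A0) * 0)
      rw [Dv.map_one]; ring
    · show V.Dl 0 = (V.A0 - V.A0) * 1
      rw [map_zero]; ring
    · show V.D2 1 = -((V.B0 - V.B0) * 0) - (V.A0 - V.A0) ^ 2 * 1 / 2
      rw [V.D2_of_Dl_eq_zero (Dv.map_one _)]; ring
    · show V.D2 0 = (V.B0 - V.B0) * 1 - (V.A0 - V.A0) ^ 2 * 0 / 2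
      rw [D2_zero]; ring
  | succ j ih =>
    obtain ⟨i1, i2, i3, i4⟩ := ih (by omega)
    obtain ⟨k1, k2, k3, k4⟩ := V.rot_d j (by omega)
    obtain ⟨m1, m2, m3, m4⟩ := V.rot_comp k1 k2 k3 k4 k1 k2 k3 k4
    obtain ⟨r1, r2, r3, r4⟩ := V.rot_comp i1 i2 i3 i4 m1 m2 m3 m4
    have e1 : (rotCS V.s V.c (j + 1)).1
        = (rotCS V.s V.c j).1 * (V.c j * V.c j - V.s j * V.s j) - (rotCS V.s V.c j).2 * (V.s j * V.c j + V.c j * V.s j) := by
      simp only [rotCS]; ring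
    have e2 : (rotCS V.s V.c (j + 1)).2
        = (rotCS V.s V.c j).2 * (V.c j * V.c j - V.s j * V.s j) + (rotCS V.s V.c j).1 * (V.s j * V.c j + V.c j * V.s j) := by
      simp only [rotCS]; ring
    rw [e1, e2, A_succ, Bq_succ]
    refine ⟨?_, ?_, ?_, ?_⟩
    · rw [r1]; ring
    · rw [r2]; ring
    · rw [r3]; ring
    · rw [r4]; ring

/-- left part (attached to the vertex `i + 1`) of the first order gradient at the impact `i`. -/
def gL (i : ℕ) : S := V.F i 1 * V.s i + V.F i 0 * V.c i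

/-- right part (attached to the vertex `i`). -/
def gR (i : ℕ) : S := V.F i 1 * V.s i - V.F i 0 * V.c i

theorem v_eq (j : ℕ) : V.v j = V.gL j + V.gR (j + 1) := rfl

/-- the second variation of one summand of the action. -/
theorem D2_edge (i : ℕ) (hi : i ≤ n) :
    V.D2 (2 * V.H i 0 * V.s i) = 2 * V.s i * V.Gt i 0 + (V.pOut i * V.Bq (i + 1) - V.pIn i * V.Bq i)
      + (V.A (i + 1) * (V.gL i + (V.hdL i * V.A (i + 1) + V.hl i * V.A i) / 2)
        + V.A i * (V.gR i + (V.hdR i * V.A i + V.hl i * V.A (i + 1)) / 2)) := by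
  rw [D2_mul, D2_two_mul, VarAux.dv_two_mul, V.D2_H, V.Dl_H, V.D2_s i hi, V.Dl_s i hi, V.u_eq, V.b_eq]
  unfold pOut pIn Ps Qs gL gR hdL hdR hl
  ring

/-- reindexing from impacts to vertices. -/
theorem sum_reindex (X Y : ℕ → S) (m : ℕ) :
    ∑ i ∈ Finset.range (m + 1), (X i + Y i) = ∑ j ∈ Finset.range m, (X j + Y (j + 1)) + X m + Y 0 := by
  rw [Finset.sum_add_distrib, Finset.sum_add_distrib, Finset.sum_range_succ X, Finset.sum_range_succ' Y]
  ring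

/-- SECOND VARIATION FORMULA with boundary terms. -/
theorem D2_act :
    V.D2 V.act = ∑ i ∈ Finset.range (n + 1), 2 * V.s i * V.Gt i 0 + (∑ j ∈ Finset.range n, V.A (j + 1) * V.v j) / 2
      + (V.pOut n * V.Bq (n + 1) - V.pIn 0 * V.Bq 0)
      + V.A (n + 1) * (V.gL n + (V.hdL n * V.A (n + 1) + V.hl n * V.A n) / 2)
      + V.A 0 * (V.gR 0 + (V.hdR 0 * V.A 0 + V.hl 0 * V.A 1) / 2) := by
  have hT := V.telescope V.Bq
  unfold act
  rw [D2_sum]
  have h1 : ∑ i ∈ Finset.range (n + 1), V.D2 (2 * V.H i 0 * V.s i)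
      = ∑ i ∈ Finset.range (n + 1), (2 * V.s i * V.Gt i 0 + (V.pOut i * V.Bq (i + 1) - V.pIn i * V.Bq i)
      + (V.A (i + 1) * (V.gL i + (V.hdL i * V.A (i + 1) + V.hl i * V.A i) / 2)
        + V.A i * (V.gR i + (V.hdR i * V.A i + V.hl i * V.A (i + 1)) / 2))) :=
    Finset.sum_congr rfl fun i hi => V.D2_edge i (by have := Finset.mem_range.mp hi; omega)
  rw [h1, Finset.sum_add_distrib, Finset.sum_add_distrib, hT,
    sum_reindex (fun i => V.A (i + 1) * (V.gL i + (V.hdL i * V.A (i + 1) + V.hl i * V.A i) / 2))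
      (fun i => V.A i * (V.gR i + (V.hdR i * V.A i + V.hl i * V.A (i + 1)) / 2)) n]
  have h2 : ∑ j ∈ Finset.range n, (V.A (j + 1) * (V.gL j + (V.hdL j * V.A (j + 1) + V.hl j * V.A j) / 2)
        + V.A (j + 1) * (V.gR (j + 1) + (V.hdR (j + 1) * V.A (j + 1) + V.hl (j + 1) * V.A (j + 1 + 1)) / 2))
      = (∑ j ∈ Finset.range n, V.A (j + 1) * V.v j) / 2 := by
    rw [Finset.sum_div]
    refine Finset.sum_congr rfl fun j hj => ?_
    have hl := V.lin_stat j (Finset.mem_range.mp hj)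
    rw [v_eq] at hl ⊢
    unfold hd at hl
    linear_combination (V.A (j + 1) / 2) * hl
  rw [h2]
  ring

end VarCore

end Claimed.Agent.R269
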