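/-
Row 269, P1 Section 4, unit 4H (Theorem 4.4, point-endpoint determination): the variational system with POINT END CONDITIONS.   helper183.
HOST-FREE (Mathlib + Lib/Dv + VarC): pure differential algebra.

MODEL.  The chain of VarC; the END DATA are now the two extreme IMPACTS `i = 0` and `i = n` (`n ≥ 1`), the free variables are the angles `α_1, …, α_n` of the lines between them.
`Dl` kills:  all `H 0 l`, `H n l`  (the boundary curve near the two end impacts is not deformed),  `∂ψ_0`, `∂ψ_n`,  `(cos, sin)(ψ_n - ψ_0)`, and the area coefficients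
`dp ∧ dα` of the first line `α_1` and of the last line `α_n`.
Then "`Dl ψ_0 = 0`": we put `A0 = -u 0`, `B0 = -b 0` (`core`), so that `Ps 0 = Qs 0 = 0`.

   `len = act + qOut n - qIn 0`      the length of the chain from the impact `0` to the impact `n`;        `d len = r_n c_n dψ_n - r_0 c_0 dψ_0`.

RESULTS.  `Ps n = Qs n = 0`;  `F e m = Gt e m = 0` for `e = 0, n`;  `A 0 = -A 1`, `A (n+1) = -A n`;
   `d (Dl len) = r_n Dl c_n dψ_n - r_0 Dl c_0 dψ_0`,  both terms closed (`closed_*`): this is where the area coefficient enters;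
   `Dl len = ∑ 2 s_i F_{i,0}`,     `D2 len = ∑ 2 s_i Gt_{i,0} + ½ ∑_{j<n} A (j+1) v j`.
-/
import Claimed.Agent.R269.S4.VarC

set_option autoImplicit false
set_option linter.unusedSectionVars false

namespace Claimed.Agent.R269

/-- `cos (ψ_n - ψ_0)` computed from `s i = sin d_i`, `c i = cos d_i`:  `ψ_n - ψ_0 = (α_n - α_0) + d_n - d_0`. -/
def rotEC {S : Type*} [Field S] (s c : ℕ → S) (n : ℕ) : S :=
  (rotCS s c n).1 * (c n * c 0 + s n * s 0) - (rotCS s c n).2 * (s n * c 0 - c n * s 0)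

/-- `sin (ψ_n - ψ_0)`. -/
def rotES {S : Type*} [Field S] (s c : ℕ → S) (n : ℕ) : S :=
  (rotCS s c n).2 * (c n * c 0 + s n * s 0) + (rotCS s c n).1 * (s n * c 0 - c n * s 0)

/-- the variational system with point end conditions. -/
structure VarSysP (S : Type*) [Field S] (n : ℕ) extends VarBase S n where
  n_pos : 1 ≤ n
  end_H0 : ∀ l, Dl (H 0 l) = 0
  end_Hn : ∀ l, Dl (H n l) = 0
  end_01 : Dl ((a1 0 + a1 1) / 2) = 0
  end_02 : Dl ((a2 0 + a2 1) / 2) = 0
  end_n1 : Dl ((a1 n + a1 (n + 1)) / 2) = 0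
  end_n2 : Dl ((a2 n + a2 (n + 1)) / 2) = 0
  end_ec : Dl (rotEC s c n) = 0
  end_es : Dl (rotES s c n) = 0
  end_ar0 : Dl (d1 (H 0 0 * c 0 + H 0 1 * s 0) * a2 1 - d2 (H 0 0 * c 0 + H 0 1 * s 0) * a1 1) = 0
  end_arn : Dl (d1 (H n 0 * c n - H n 1 * s n) * a2 n - d2 (H n 0 * c n - H n 1 * s n) * a1 n) = 0

namespace VarSysP

variable {S : Type*} [Field S] [CharZero S] {n : ℕ} (V : VarSysP S n)

/-- auxiliary core with `A0 = B0 = 0`-free data: only used to have `u`, `b` before `core`. -/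
def u0 : S := V.c 0 * V.Dl (V.s 0) - V.s 0 * V.Dl (V.c 0)

def b0 : S := V.c 0 * (V.Dl (V.Dl (V.s 0)) / 2) - V.s 0 * (V.Dl (V.Dl (V.c 0)) / 2)

theorem d1_u0 : V.d1 V.u0 = V.Dl ((V.a1 1 - V.a1 0) / 2) := by
  have hu := V.unit 0 (Nat.zero_le n)
  unfold u0
  rw [map_sub, Dv.leibniz, Dv.leibniz, ← V.comm1, ← V.comm1, V.d1s 0 (Nat.zero_le n), V.d1c 0 (Nat.zero_le n), map_neg,
    Dv.leibniz, Dv.leibniz]
  linear_combination (V.Dl ((V.a1 (0 + 1) - V.a1 0) / 2)) * hu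

theorem d2_u0 : V.d2 V.u0 = V.Dl ((V.a2 1 - V.a2 0) / 2) := by
  have hu := V.unit 0 (Nat.zero_le n)
  unfold u0
  rw [map_sub, Dv.leibniz, Dv.leibniz, ← V.comm2, ← V.comm2, V.d2s 0 (Nat.zero_le n), V.d2c 0 (Nat.zero_le n), map_neg,
    Dv.leibniz, Dv.leibniz]
  linear_combination (V.Dl ((V.a2 (0 + 1) - V.a2 0) / 2)) * hu

theorem d1_b0 : V.d1 V.b0 = V.Dl (V.Dl ((V.a1 1 - V.a1 0) / 2)) / 2 := by
  have hu := V.unit 0 (Nat.zero_le n)
  have hD := VarAux.dv_unit V.Dl (V.unit 0 (Nat.zero_le n))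
  unfold b0
  rw [map_sub, Dv.leibniz, Dv.leibniz, VarAux.dv_half, VarAux.dv_half, ← V.comm1, ← V.comm1, ← V.comm1, ← V.comm1,
    V.d1s 0 (Nat.zero_le n), V.d1c 0 (Nat.zero_le n), map_neg, map_neg, Dv.leibniz_two, Dv.leibniz_two]
  linear_combination (V.Dl (V.Dl ((V.a1 (0 + 1) - V.a1 0) / 2)) / 2) * hu + (V.Dl ((V.a1 (0 + 1) - V.a1 0) / 2)) * hD

theorem d2_b0 : V.d2 V.b0 = V.Dl (V.Dl ((V.a2 1 - V.a2 0) / 2)) / 2 := by
  have hu := V.unit 0 (Nat.zero_le n)
  have hD := VarAux.dv_unit V.Dl (V.unit 0 (Nat.zero_le n))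
  unfold b0
  rw [map_sub, Dv.leibniz, Dv.leibniz, VarAux.dv_half, VarAux.dv_half, ← V.comm2, ← V.comm2, ← V.comm2, ← V.comm2,
    V.d2s 0 (Nat.zero_le n), V.d2c 0 (Nat.zero_le n), map_neg, map_neg, Dv.leibniz_two, Dv.leibniz_two]
  linear_combination (V.Dl (V.Dl ((V.a2 (0 + 1) - V.a2 0) / 2)) / 2) * hu + (V.Dl ((V.a2 (0 + 1) - V.a2 0) / 2)) * hD

/-- the core: `A0 = -u 0`, `B0 = -b 0`  ("`ψ_0` is not moved"). -/
def core : VarCore S n :=
  { V.toVarBase with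
    A0 := -V.u0
    B0 := -V.b0
    d1A0 := by
      have h := V.end_01
      rw [VarAux.dv_half, map_add] at h
      rw [map_neg, V.d1_u0, VarAux.dv_half, map_sub]
      linear_combination (-1 : S) * h
    d2A0 := by
      have h := V.end_02
      rw [VarAux.dv_half, map_add] at h
      rw [map_neg, V.d2_u0, VarAux.dv_half, map_sub]
      linear_combination (-1 : S) * h
    d1B0 := by
      have h := congrArg V.Dl V.end_01
      rw [VarAux.dv_half, map_add, VarAux.dv_half, map_add, map_zero] at h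
      rw [map_neg, V.d1_b0, VarAux.dv_half, map_sub, VarAux.dv_half, map_sub]
      linear_combination (-1 / 2 : S) * h
    d2B0 := by
      have h := congrArg V.Dl V.end_02
      rw [VarAux.dv_half, map_add, VarAux.dv_half, map_add, map_zero] at h
      rw [map_neg, V.d2_b0, VarAux.dv_half, map_sub, VarAux.dv_half, map_sub]
      linear_combination (-1 / 2 : S) * h }

theorem core_u0 : V.core.u 0 = V.u0 := rfl

theorem core_b0 : V.core.b 0 = V.b0 := rfl

theorem core_A0 : V.core.A 0 = -V.core.u 0 := rfl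

theorem core_B0 : V.core.Bq 0 = -V.core.b 0 := rfl

theorem Ps_zero : V.core.Ps 0 = 0 := by
  rw [VarCore.Ps_eq, core_A0]
  ring

theorem Qs_zero : V.core.Qs 0 = 0 := by
  rw [VarCore.Qs_eq, core_B0]
  ring

theorem A_zero : V.core.A 0 = -V.core.A 1 := by
  have h := V.Ps_zero
  unfold VarCore.Ps at h
  have h2 : (2 : S) ≠ 0 := two_ne_zero
  field_simp at h
  linear_combination h

theorem Bq_zero : V.core.Bq 0 = -V.core.Bq 1 := by
  have h := V.Qs_zero
  unfold VarCore.Qs at h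
  have h2 : (2 : S) ≠ 0 := two_ne_zero
  field_simp at h
  linear_combination h

/-- first and second variation of the rotation by `ψ_n - ψ_0`. -/
theorem rotE_var :
    V.core.Dl (rotEC V.s V.c n) = -((V.core.Ps n - V.core.Ps 0) * rotES V.s V.c n) ∧
    V.core.Dl (rotES V.s V.c n) = (V.core.Ps n - V.core.Ps 0) * rotEC V.s V.c n ∧
    V.core.D2 (rotEC V.s V.c n)
      = -((V.core.Qs n - V.core.Qs 0) * rotES V.s V.c n) - (V.core.Ps n - V.core.Ps 0) ^ 2 * rotEC V.s V.c n / 2 ∧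
    V.core.D2 (rotES V.s V.c n)
      = (V.core.Qs n - V.core.Qs 0) * rotEC V.s V.c n - (V.core.Ps n - V.core.Ps 0) ^ 2 * rotES V.s V.c n / 2 := by
  obtain ⟨i1, i2, i3, i4⟩ := V.core.rot_var n (by omega)
  obtain ⟨k1, k2, k3, k4⟩ := V.core.rot_d n le_rfl
  obtain ⟨l1, l2, l3, l4⟩ := V.core.rot_d 0 (Nat.zero_le n)
  have l1' : V.core.Dl (V.core.c 0) = -(-V.core.u 0 * -V.core.s 0) := by rw [l1]; ring
  have l2' : V.core.Dl (-V.core.s 0) = -V.core.u 0 * V.core.c 0 := by rw [map_neg, l2]; ring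
  have l3' : V.core.D2 (V.core.c 0) = -(-V.core.b 0 * -V.core.s 0) - (-V.core.u 0) ^ 2 * V.core.c 0 / 2 := by
    rw [l3]; ring
  have l4' : V.core.D2 (-V.core.s 0) = -V.core.b 0 * V.core.c 0 - (-V.core.u 0) ^ 2 * (-V.core.s 0) / 2 := by
    rw [VarCore.D2_neg, l4]; ring
  obtain ⟨m1, m2, m3, m4⟩ := V.core.rot_comp k1 k2 k3 k4 l1' l2' l3' l4'
  obtain ⟨r1, r2, r3, r4⟩ := V.core.rot_comp i1 i2 i3 i4 m1 m2 m3 m4
  have e1 : rotEC V.s V.c n = (rotCS V.core.s V.core.c n).1 * (V.core.c n * V.core.c 0 - V.core.s n * -V.core.s 0)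
      - (rotCS V.core.s V.core.c n).2 * (V.core.s n * V.core.c 0 + V.core.c n * -V.core.s 0) := by
    show rotEC V.s V.c n = (rotCS V.s V.c n).1 * (V.c n * V.c 0 - V.s n * -V.s 0)
      - (rotCS V.s V.c n).2 * (V.s n * V.c 0 + V.c n * -V.s 0)
    unfold rotEC; ring
  have e2 : rotES V.s V.c n = (rotCS V.core.s V.core.c n).2 * (V.core.c n * V.core.c 0 - V.core.s n * -V.core.s 0)
      + (rotCS V.core.s V.core.c n).1 * (V.core.s n * V.core.c 0 + V.core.c n * -V.core.s 0) := by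
    show rotES V.s V.c n = (rotCS V.s V.c n).2 * (V.c n * V.c 0 - V.s n * -V.s 0)
      + (rotCS V.s V.c n).1 * (V.s n * V.c 0 + V.c n * -V.s 0)
    unfold rotES; ring
  have hA : V.core.A n - V.core.A0 + (V.core.u n + -V.core.u 0) = V.core.Ps n - V.core.Ps 0 := by
    rw [VarCore.Ps_eq, VarCore.Ps_eq, VarCore.A_zero]; ring
  have hB : V.core.Bq n - V.core.B0 + (V.core.b n + -V.core.b 0) = V.core.Qs n - V.core.Qs 0 := by
    rw [VarCore.Qs_eq, VarCore.Qs_eq, VarCore.Bq_zero]; ring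
  rw [hA] at r1 r2 r3 r4
  rw [hB] at r3 r4
  rw [e1, e2]
  exact ⟨r1, r2, r3, r4⟩

theorem rotE_unit : rotEC V.s V.c n ^ 2 + rotES V.s V.c n ^ 2 = 1 := by
  have h1 : (rotCS V.s V.c n).1 ^ 2 + (rotCS V.s V.c n).2 ^ 2 = 1 := V.core.rot_unit n (by omega)
  have h2 := V.unit n le_rfl
  have h3 := V.unit 0 (Nat.zero_le n)
  unfold rotEC rotES
  have h4 : (V.c n * V.c 0 + V.s n * V.s 0) ^ 2 + (V.s n * V.c 0 - V.c n * V.s 0) ^ 2 = 1 := by
    linear_combination (V.s 0 ^ 2 + V.c 0 ^ 2) * h2 + h3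
  linear_combination ((V.c n * V.c 0 + V.s n * V.s 0) ^ 2 + (V.s n * V.c 0 - V.c n * V.s 0) ^ 2) * h1 + h4

theorem Ps_last : V.core.Ps n = 0 := by
  obtain ⟨r1, r2, -, -⟩ := V.rotE_var
  have hu := V.rotE_unit
  have e1 : V.core.Dl (rotEC V.s V.c n) = 0 := V.end_ec
  have e2 : V.core.Dl (rotES V.s V.c n) = 0 := V.end_es
  rw [e1] at r1
  rw [e2] at r2
  rw [V.Ps_zero] at r1 r2
  linear_combination (-(V.core.Ps n)) * hu + (rotES V.s V.c n) * r1 + (-rotEC V.s V.c n) * r2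

theorem Qs_last : V.core.Qs n = 0 := by
  obtain ⟨-, -, r3, r4⟩ := V.rotE_var
  have hu := V.rotE_unit
  have e1 : V.core.D2 (rotEC V.s V.c n) = 0 := V.core.D2_of_Dl_eq_zero V.end_ec
  have e2 : V.core.D2 (rotES V.s V.c n) = 0 := V.core.D2_of_Dl_eq_zero V.end_es
  rw [e1] at r3
  rw [e2] at r4
  rw [V.Ps_zero, V.Ps_last, V.Qs_zero] at r3 r4
  linear_combination (-(V.core.Qs n)) * hu + (rotES V.s V.c n) * r3 + (-rotEC V.s V.c n) * r4

theorem A_last : V.core.A (n + 1) = -V.core.A n := by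
  have h := V.Ps_last
  unfold VarCore.Ps at h
  have h2 : (2 : S) ≠ 0 := two_ne_zero
  field_simp at h
  linear_combination h

theorem Bq_last : V.core.Bq (n + 1) = -V.core.Bq n := by
  have h := V.Qs_last
  unfold VarCore.Qs at h
  have h2 : (2 : S) ≠ 0 := two_ne_zero
  field_simp at h
  linear_combination h

theorem F_zero (m : ℕ) : V.core.F 0 m = 0 := by
  have h : V.core.Dl (V.core.H 0 m) = 0 := V.end_H0 m
  unfold VarCore.F
  rw [h, V.Ps_zero]
  ring

theorem F_last (m : ℕ) : V.core.F n m = 0 := by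
  have h : V.core.Dl (V.core.H n m) = 0 := V.end_Hn m
  unfold VarCore.F
  rw [h, V.Ps_last]
  ring

theorem Gt_zero (m : ℕ) : V.core.Gt 0 m = 0 := by
  have h : V.core.Dl (V.core.H 0 m) = 0 := V.end_H0 m
  unfold VarCore.Gt
  rw [V.core.D2_of_Dl_eq_zero h, V.Ps_zero, V.Qs_zero]
  ring

theorem Gt_last (m : ℕ) : V.core.Gt n m = 0 := by
  have h : V.core.Dl (V.core.H n m) = 0 := V.end_Hn m
  unfold VarCore.Gt
  rw [V.core.D2_of_Dl_eq_zero h, V.Ps_last, V.Qs_last]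
  ring

/-- the length of the chain between the two end impacts. -/
def len : S := V.core.act + V.core.qOut n - V.core.qIn 0

theorem d1_len : V.core.d1 V.len = V.core.rr n * V.core.c n * V.core.p1 n - V.core.rr 0 * V.core.c 0 * V.core.p1 0 := by
  unfold len
  rw [map_sub, map_add, V.core.d1_act, V.core.d1_qOut n le_rfl, V.core.d1_qIn 0 (Nat.zero_le n)]
  ring

theorem d2_len : V.core.d2 V.len = V.core.rr n * V.core.c n * V.core.p2 n - V.core.rr 0 * V.core.c 0 * V.core.p2 0 := by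
  unfold len
  rw [map_sub, map_add, V.core.d2_act, V.core.d2_qOut n le_rfl, V.core.d2_qIn 0 (Nat.zero_le n)]
  ring

theorem Dl_rr0 : V.core.Dl (V.core.rr 0) = 0 := by
  have h0 : V.core.Dl (V.core.H 0 0) = 0 := V.end_H0 0
  have h2 : V.core.Dl (V.core.H 0 2) = 0 := V.end_H0 2
  unfold VarCore.rr
  rw [map_add, h0, h2, add_zero]

theorem Dl_rrn : V.core.Dl (V.core.rr n) = 0 := by
  have h0 : V.core.Dl (V.core.H n 0) = 0 := V.end_Hn 0
  have h2 : V.core.Dl (V.core.H n 2) = 0 := V.end_Hn 2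
  unfold VarCore.rr
  rw [map_add, h0, h2, add_zero]

theorem Dl_p10 : V.core.Dl (V.core.p1 0) = 0 := V.end_01

theorem Dl_p20 : V.core.Dl (V.core.p2 0) = 0 := V.end_02

theorem Dl_p1n : V.core.Dl (V.core.p1 n) = 0 := V.end_n1

theorem Dl_p2n : V.core.Dl (V.core.p2 n) = 0 := V.end_n2

/-- `Dl (r x p) = r Dl x p` if `Dl` kills `r` and `p`. -/
theorem Dl_sandwich {r p : S} (hr : V.core.Dl r = 0) (hp : V.core.Dl p = 0) (x : S) :
    V.core.Dl (r * x * p) = r * V.core.Dl x * p := by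
  rw [Dv.leibniz, Dv.leibniz, hr, hp]
  ring

theorem D2_sandwich {r p : S} (hr : V.core.Dl r = 0) (hp : V.core.Dl p = 0) (x : S) :
    V.core.D2 (r * x * p) = r * V.core.D2 x * p := by
  rw [VarCore.D2_mul, VarCore.D2_mul, V.core.D2_of_Dl_eq_zero hr, V.core.D2_of_Dl_eq_zero hp, hr, hp]
  ring

theorem d1_Dl_len : V.core.d1 (V.core.Dl V.len)
    = V.core.rr n * V.core.Dl (V.core.c n) * V.core.p1 n - V.core.rr 0 * V.core.Dl (V.core.c 0) * V.core.p1 0 := by
  rw [← V.core.comm1, V.d1_len, map_sub, V.Dl_sandwich V.Dl_rrn V.Dl_p1n, V.Dl_sandwich V.Dl_rr0 V.Dl_p10]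

theorem d2_Dl_len : V.core.d2 (V.core.Dl V.len)
    = V.core.rr n * V.core.Dl (V.core.c n) * V.core.p2 n - V.core.rr 0 * V.core.Dl (V.core.c 0) * V.core.p2 0 := by
  rw [← V.core.comm2, V.d2_len, map_sub, V.Dl_sandwich V.Dl_rrn V.Dl_p2n, V.Dl_sandwich V.Dl_rr0 V.Dl_p20]

theorem d1_D2_len : V.core.d1 (V.core.D2 V.len)
    = V.core.rr n * V.core.D2 (V.core.c n) * V.core.p1 n - V.core.rr 0 * V.core.D2 (V.core.c 0) * V.core.p1 0 := by
  rw [VarCore.d1_D2, V.d1_len, VarCore.D2_sub, V.D2_sandwich V.Dl_rrn V.Dl_p1n, V.D2_sandwich V.Dl_rr0 V.Dl_p10]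

theorem d2_D2_len : V.core.d2 (V.core.D2 V.len)
    = V.core.rr n * V.core.D2 (V.core.c n) * V.core.p2 n - V.core.rr 0 * V.core.D2 (V.core.c 0) * V.core.p2 0 := by
  rw [VarCore.d2_D2, V.d2_len, VarCore.D2_sub, V.D2_sandwich V.Dl_rrn V.Dl_p2n, V.D2_sandwich V.Dl_rr0 V.Dl_p20]

/-- the area form `r (dψ ∧ dx)` at the impact `i`. -/
def wedge (i : ℕ) (x : S) : S := V.core.rr i * (V.core.p1 i * V.core.d2 x - V.core.p2 i * V.core.d1 x)

theorem Dl_wedge {i : ℕ} (hr : V.core.Dl (V.core.rr i) = 0) (h1 : V.core.Dl (V.core.p1 i) = 0)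
    (h2 : V.core.Dl (V.core.p2 i) = 0) (x : S) : V.core.Dl (V.wedge i x) = V.wedge i (V.core.Dl x) := by
  unfold wedge
  rw [Dv.leibniz, map_sub, Dv.leibniz, Dv.leibniz, hr, h1, h2, V.core.comm1, V.core.comm2]
  ring

theorem wedge_c0 : V.core.Dl (V.wedge 0 (V.core.c 0)) = 0 := by
  have h := V.core.area_out 0 (Nat.zero_le n)
  have h' : V.core.Dl (V.core.d1 (V.core.pOut 0) * V.core.a2 (0 + 1) - V.core.d2 (V.core.pOut 0) * V.core.a1 (0 + 1)) = 0 :=
    V.end_ar0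
  rw [h, map_neg] at h'
  exact neg_eq_zero.mp h'

theorem wedge_cn : V.core.Dl (V.wedge n (V.core.c n)) = 0 := by
  have h := V.core.area_in n le_rfl
  have h' : V.core.Dl (V.core.d1 (V.core.pIn n) * V.core.a2 n - V.core.d2 (V.core.pIn n) * V.core.a1 n) = 0 :=
    V.end_arn
  rw [h, map_neg] at h'
  exact neg_eq_zero.mp h'

/-- if `r (dψ_i ∧ dx) = 0` then the form `r x dψ_i` is closed. -/
theorem closed_of_wedge {i : ℕ} (hi : i ≤ n) {x : S} (h : V.wedge i x = 0) :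
    V.core.p1 i * V.core.d2 (V.core.rr i * x) = V.core.p2 i * V.core.d1 (V.core.rr i * x) := by
  unfold wedge at h
  rw [Dv.leibniz, Dv.leibniz, V.core.d1_rr i hi, V.core.d2_rr i hi]
  linear_combination h

/-- CLOSEDNESS (first order, impact `0`): this is where the area coefficient enters. -/
theorem closed_Dl0 : V.core.p1 0 * V.core.d2 (V.core.rr 0 * V.core.Dl (V.core.c 0))
    = V.core.p2 0 * V.core.d1 (V.core.rr 0 * V.core.Dl (V.core.c 0)) := by
  apply V.closed_of_wedge (Nat.zero_le n)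
  rw [← V.Dl_wedge V.Dl_rr0 V.Dl_p10 V.Dl_p20]
  exact V.wedge_c0

theorem closed_Dln : V.core.p1 n * V.core.d2 (V.core.rr n * V.core.Dl (V.core.c n))
    = V.core.p2 n * V.core.d1 (V.core.rr n * V.core.Dl (V.core.c n)) := by
  apply V.closed_of_wedge le_rfl
  rw [← V.Dl_wedge V.Dl_rrn V.Dl_p1n V.Dl_p2n]
  exact V.wedge_cn

theorem wedge_half (i : ℕ) (x : S) : V.wedge i (x / 2) = V.wedge i x / 2 := by
  unfold wedge
  rw [VarAux.dv_half, VarAux.dv_half]
  ring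

/-- CLOSEDNESS (second order). -/
theorem closed_D20 : V.core.p1 0 * V.core.d2 (V.core.rr 0 * V.core.D2 (V.core.c 0))
    = V.core.p2 0 * V.core.d1 (V.core.rr 0 * V.core.D2 (V.core.c 0)) := by
  apply V.closed_of_wedge (Nat.zero_le n)
  unfold VarCore.D2
  rw [wedge_half, ← V.Dl_wedge V.Dl_rr0 V.Dl_p10 V.Dl_p20, ← V.Dl_wedge V.Dl_rr0 V.Dl_p10 V.Dl_p20, V.wedge_c0, map_zero]
  ring

theorem closed_D2n : V.core.p1 n * V.core.d2 (V.core.rr n * V.core.D2 (V.core.c n))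
    = V.core.p2 n * V.core.d1 (V.core.rr n * V.core.D2 (V.core.c n)) := by
  apply V.closed_of_wedge le_rfl
  unfold VarCore.D2
  rw [wedge_half, ← V.Dl_wedge V.Dl_rrn V.Dl_p1n V.Dl_p2n, ← V.Dl_wedge V.Dl_rrn V.Dl_p1n V.Dl_p2n, V.wedge_cn, map_zero]
  ring

theorem u_zero : V.core.u 0 = V.core.A 1 := by
  rw [VarCore.A_succ, core_A0]
  ring

theorem u_last : V.core.u n = -V.core.A n := by
  have h := V.Ps_last
  rw [VarCore.Ps_eq] at h
  linear_combination h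

theorem b_zero : V.core.b 0 = V.core.Bq 1 := by
  rw [VarCore.Bq_succ, core_B0]
  ring

theorem b_last : V.core.b n = -V.core.Bq n := by
  have h := V.Qs_last
  rw [VarCore.Qs_eq] at h
  linear_combination h

/-- FIRST VARIATION FORMULA for the length. -/
theorem Dl_len : V.core.Dl V.len = ∑ i ∈ Finset.range (n + 1), 2 * V.core.s i * V.core.F i 0 := by
  have h00 : V.core.Dl (V.core.H 0 0) = 0 := V.end_H0 0
  have h01 : V.core.Dl (V.core.H 0 1) = 0 := V.end_H0 1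
  have hn0 : V.core.Dl (V.core.H n 0) = 0 := V.end_Hn 0
  have hn1 : V.core.Dl (V.core.H n 1) = 0 := V.end_Hn 1
  unfold len VarCore.qOut VarCore.qIn
  rw [map_sub, map_add, V.core.Dl_act, map_add, map_add, map_neg, Dv.leibniz, Dv.leibniz, Dv.leibniz, Dv.leibniz,
    h00, h01, hn0, hn1, V.core.Dl_s n le_rfl, V.core.Dl_c n le_rfl, V.core.Dl_s 0 (Nat.zero_le n),
    V.core.Dl_c 0 (Nat.zero_le n), V.u_zero, V.u_last, V.A_zero, V.A_last]
  unfold VarCore.pOut VarCore.pIn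
  ring

/-- SECOND VARIATION FORMULA for the length. -/
theorem D2_len : V.core.D2 V.len = ∑ i ∈ Finset.range (n + 1), 2 * V.core.s i * V.core.Gt i 0
    + (∑ j ∈ Finset.range n, V.core.A (j + 1) * V.core.v j) / 2 := by
  have h00 : V.core.Dl (V.core.H 0 0) = 0 := V.end_H0 0
  have h01 : V.core.Dl (V.core.H 0 1) = 0 := V.end_H0 1
  have hn0 : V.core.Dl (V.core.H n 0) = 0 := V.end_Hn 0
  have hn1 : V.core.Dl (V.core.H n 1) = 0 := V.end_Hn 1
  unfold len VarCore.qOut VarCore.qIn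
  rw [VarCore.D2_sub, VarCore.D2_add, V.core.D2_act, VarCore.D2_add, VarCore.D2_add, VarCore.D2_neg, VarCore.D2_mul,
    VarCore.D2_mul, VarCore.D2_mul, VarCore.D2_mul, V.core.D2_of_Dl_eq_zero h00, V.core.D2_of_Dl_eq_zero h01,
    V.core.D2_of_Dl_eq_zero hn0, V.core.D2_of_Dl_eq_zero hn1,
    h00, h01, hn0, hn1, V.core.D2_s n le_rfl, V.core.D2_c n le_rfl, V.core.D2_s 0 (Nat.zero_le n),
    V.core.D2_c 0 (Nat.zero_le n), V.u_zero, V.u_last, V.b_zero, V.b_last, V.A_zero, V.A_last, V.Bq_zero, V.Bq_last]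
  unfold VarCore.pOut VarCore.pIn VarCore.gL VarCore.gR VarCore.hdL VarCore.hdR VarCore.hl
  rw [V.F_zero, V.F_zero, V.F_last, V.F_last]
  ring

/-- if the profile variation and the variations of the free angles vanish, `Dl` kills the whole core. -/
theorem core_killed (hF : ∀ i ≤ n, ∀ m, V.core.F i m = 0) (hA : ∀ j < n, V.core.A (j + 1) = 0) (i : ℕ) (hi : i ≤ n) :
    V.Dl (V.s i) = 0 ∧ V.Dl (V.c i) = 0 ∧ ∀ m, V.Dl (V.H i m) = 0 := by
  have hn := V.n_pos
  refine V.core.core_killed hF ?_ i hi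
  intro j hj
  rcases Nat.eq_zero_or_pos j with rfl | hpos
  · rw [V.A_zero, hA 0 (by omega), neg_zero]
  · rcases Nat.lt_or_ge j (n + 1) with hlt | hge
    · obtain ⟨k, rfl⟩ : ∃ k, j = k + 1 := ⟨j - 1, by omega⟩
      exact hA k (by omega)
    · have : j = n + 1 := by omega
      subst this
      obtain ⟨k, hk⟩ : ∃ k, n = k + 1 := ⟨n - 1, by omega⟩
      rw [V.A_last]
      have := hA k (by omega)
      rw [← hk] at this
      rw [this, neg_zero]

end VarSysP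

end Claimed.Agent.R269
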