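/-
Row 269, P1 Section 4, unit 4H (Theorem 4.4, point-endpoint determination): CHAINS OF LINES BETWEEN TWO END IMPACTS.  Definitions.   helper183.

We use the SAME chains `C : CChain n` as in unit 4F (`n + 2` lines `al 0 … al (n+1)`, impacts `ps 0 … ps n`), `n ≥ 1`, but now the END DATA are the two extreme impacts `ps 0`, `ps n` and the free variables
are (again) the interior angles `al 1 … al n`.   The length of the chain between the end impacts, as a function of the free angles with the end POINTS fixed, is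
      `⟨P_n, e(α_n)⟩ - ⟨P_0, e(α_1)⟩ + ∑_{0<i<n} 2 h(ψ_i) sin d_i`,          `e(α) = (-sin α, cos α)`.
  `hessP w`      its Hessian  `= hess w - hlF 0 w E_{00} - hlF n w E_{n-1,n-1}`   (`≈ t λ tridiag (1; -3,-2,…,-2,-3; 1)`, `λ = r φ'/4`;  `-4 t λ` if `n = 1`)
  `AtP f`        `- hessP⁻¹ vF f`
  `wtP i`        the weights of the web relation:  `1` (`i = 0`), `-1` (`i = n`), `2 sin d_i` (`0 < i < n`)
  `ar0`, `arn`   the area coefficients `∂_y p ∂_t α - ∂_t p ∂_y α` of the first line `al 1` and of the last line `al n`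
  `EndKilledP`   the derivation `δ` kills the Taylor series of the end data
-/
import Claimed.Agent.R269.S4.Chain
import Claimed.Agent.R269.S4.VarP

set_option autoImplicit false

namespace Claimed.Agent.R269

open Filter Topology ZT

namespace CChain

variable {n : ℕ} (C : CChain n)

/-- the momentum of the line `al (i+1)`, seen from the impact `i`. -/
noncomputable def pOF (i : ℕ) (w : ℂ × ℂ) : ℂ := C.Hh i 0 w * C.cd i w + C.Hh i 1 w * C.sd i w

/-- the momentum of the line `al i`, seen from the impact `i`. -/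
noncomputable def pIF (i : ℕ) (w : ℂ × ℂ) : ℂ := C.Hh i 0 w * C.cd i w - C.Hh i 1 w * C.sd i w

/-- the area coefficient of the first free line `al 1`. -/
noncomputable def ar0 (w : ℂ × ℂ) : ℂ := pdy (C.pOF 0) w * pdt (C.al 1) w - pdt (C.pOF 0) w * pdy (C.al 1) w

/-- the area coefficient of the last free line `al n`. -/
noncomputable def arn (w : ℂ × ℂ) : ℂ := pdy (C.pIF n) w * pdt (C.al n) w - pdt (C.pIF n) w * pdy (C.al n) w

/-- the corner corrections of the Hessian. -/
noncomputable def cornP (w : ℂ × ℂ) (a : Fin n) : ℂ :=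
  (if (a : ℕ) = 0 then C.hlF 0 w else 0) + (if (a : ℕ) + 1 = n then C.hlF n w else 0)

/-- the Hessian of the length in the free angles `al 1, …, al n`, the end points being fixed. -/
noncomputable def hessP (w : ℂ × ℂ) : Matrix (Fin n) (Fin n) ℂ := C.hess w - Matrix.diagonal (C.cornP w)

/-- the first variation of the free angles: `- hessP⁻¹ vF`. -/
noncomputable def AtP (f : ℕ → ℂ → ℂ) (w : ℂ × ℂ) : Fin n → ℂ :=
  -((C.hessP w)⁻¹.mulVec fun j : Fin n => C.vF f j w)

/-- the weights of the web relation. -/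
noncomputable def wtP (i : ℕ) (w : ℂ × ℂ) : ℂ := if i = 0 then 1 else if i = n then -1 else 2 * C.sd i w

/-- nondegeneracy of `hessP` for `t ≠ 0`; coercivity at real points with `t > 0`. -/
structure Good2P (η₀ cc : ℝ) : Prop where
  cc_pos : 0 < cc
  det_ne : ∀ w ∈ C.bd η₀, w.2 ≠ 0 → (C.hessP w).det ≠ 0
  coer : ∀ r : ℝ × ℝ, rp r ∈ C.bd η₀ → 0 < r.2 → ∀ x : Fin n → ℝ,
    cc * ∑ a, (∑ b, (C.hessP (rp r) a b).re * x b) ^ 2 ≤ r.2 * (-∑ a, x a * ∑ b, (C.hessP (rp r) a b).re * x b)

/-- the derivation `δ` of `ℂ` kills the Taylor series at `z` of the end data (two end impacts, area coefficient). -/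
structure EndKilledP (z : ℂ × ℂ) (δ : Dv ℂ) : Prop where
  H0 : ∀ l, DD δ (ztay z (C.Hh 0 l)) = 0
  Hn : ∀ l, DD δ (ztay z (C.Hh n l)) = 0
  p01 : DD δ (ztay z (pdy (C.ps 0))) = 0
  p02 : DD δ (ztay z (pdt (C.ps 0))) = 0
  pn1 : DD δ (ztay z (pdy (C.ps n))) = 0
  pn2 : DD δ (ztay z (pdt (C.ps n))) = 0
  ec : DD δ (ztay z (fun w => Complex.cos (C.ps n w - C.ps 0 w))) = 0
  es : DD δ (ztay z (fun w => Complex.sin (C.ps n w - C.ps 0 w))) = 0
  ar0 : DD δ (ztay z C.ar0) = 0
  arn : DD δ (ztay z C.arn) = 0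

end CChain

end Claimed.Agent.R269
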