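/-
Row 269, P1 Section 4, unit 4H (Theorem 4.4): chains between two end impacts, THE GOOD NEIGHBOURHOOD (Hessian `hessP`).   Statements: helper183.

(1) `pert_good` (HOST-FREE analysis + linear algebra; it also gives `det_ne`, `coer` of `CChain.exists_good2`, ChainB).   `N w` a matrix of functions analytic at `(y₀,0)`, vanishing on `t = 0`, with
    `∂_t N (y₀,0) = T` real, `-T` coercive with constant `c`.   Let `ε := c / (2 (n+1))`; `first_order_vanishing` (ChainB) for every entry gives `η` with `‖N (y,t) a b - t T a b‖ ≤ ε ‖t‖` on the bidisc of radius `η`.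
    * `det_ne`: for `t ≠ 0` put `M := t⁻¹ • N w = T + E`, `‖E a b‖ ≤ ε`.  For `x : Fin n → ℂ`, `x = u + i v`:  `Re ∑_a conj x_a (-(T x)_a) = -uᵀTu - vᵀTv ≥ c ∑ ‖x_a‖²`  and
      `|∑_{a,b} conj x_a E a b x_b| ≤ ε (∑ ‖x_a‖)² ≤ ε n ∑ ‖x_a‖²`,  so `M *ᵥ x = 0` forces `x = 0`:  `Matrix.exists_mulVec_eq_zero_iff` gives `det M ≠ 0`, and `det (N w) = t^n det M` (`Matrix.det_smul`).
    * `coer`: at `w = rp r`, `t = r.2 > 0`, `Nre a b := (N w a b).re = t (T a b + e a b)`, `|e a b| ≤ ε`:   `-xᵀ Nre x ≥ t (c - n ε) |x|² ≥ t (c/2) |x|²`;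
      `∑_a (Nre x)_a² ≤ t² n (τ + ε)² n |x|²`-type crude bound with `τ := max |T a b|` (Cauchy-Schwarz: `(∑_b m_b x_b)² ≤ n μ² ∑ x_b²` if `|m_b| ≤ μ`).   Take `cc := (c/2) / (n² (τ + ε)² + 1)`.
(2) `triP_coercive`: `-xᵀ triP x = -xᵀ triT x + [corner terms x_a² ≥ 0]`, then `tridiag_coercive` (ChainB).
(3) `exists_good2P`: apply (1) to `N = C.hessP`, `T = λ • triP n`, `λ := (r φ'/4).re > 0` with `r = h x₀ + h'' x₀`, `φ' = pdy (al 0) (y₀,0)` (both real: `al_conj`, `h_conj`; positive: `rad_pos`, `φ'_pos`).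
    Entries of `hessP`: `hdF a`, `hlF a` (analytic at `(y₀,0)`, vanish on `t = 0` by `edge`: `dd i (y,0) = 0`, `ps j (y,0) = ps (j+1) (y,0)`), `t`-derivatives at `(y₀,0)`: `pdt_hlF`, `pdt_hdF` (ChainB), linearity of `pdt`.
The `sorry`s are replaced IN PLACE by the owner of the package (table subtask, target row269, LF-S4-ChainP-b).
-/
import Claimed.Agent.R269.S4.ChainP
import Claimed.Agent.R269.S4.ChainB
import Claimed.Agent.R269.S4.ChainBase
import Claimed.Agent.R269.S4.Pert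

set_option autoImplicit false

namespace Claimed.Agent.R269

open Filter Topology ZT

/-- a matrix function vanishing on `t = 0` with coercive `t`-derivative is invertible for small `t ≠ 0` and coercive at small real points with `t > 0`. -/
theorem pert_good {n : ℕ} (N : ℂ × ℂ → Matrix (Fin n) (Fin n) ℂ) (y₀ : ℝ)
    (hN : ∀ a b, AnalyticAt ℂ (fun w => N w a b) ((y₀ : ℂ), 0))
    (h0 : ∀ a b, ∀ᶠ y in 𝓝 (y₀ : ℂ), N (y, 0) a b = 0)
    (T : Matrix (Fin n) (Fin n) ℝ) (hT : ∀ a b, pdt (fun w => N w a b) ((y₀ : ℂ), 0) = (T a b : ℂ))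
    {c : ℝ} (hc : 0 < c) (hcoer : ∀ x : Fin n → ℝ, c * ∑ a, x a ^ 2 ≤ -∑ a, x a * ∑ b, T a b * x b) :
    ∃ cc : ℝ, ∃ ηs : ℝ, 0 < cc ∧ 0 < ηs ∧
      (∀ w ∈ Metric.ball (y₀ : ℂ) ηs ×ˢ Metric.ball (0 : ℂ) ηs, w.2 ≠ 0 → (N w).det ≠ 0) ∧
      ∀ r : ℝ × ℝ, rp r ∈ Metric.ball (y₀ : ℂ) ηs ×ˢ Metric.ball (0 : ℂ) ηs → 0 < r.2 → ∀ x : Fin n → ℝ,
        cc * ∑ a, (∑ b, (N (rp r) a b).re * x b) ^ 2 ≤ r.2 * (-∑ a, x a * ∑ b, (N (rp r) a b).re * x b) :=
  pert_good_core N y₀ hN h0 T hT hc hcoer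

/-- the model matrix `tridiag (1; -3,-2,…,-2,-3; 1)`  (`(-4)` if `n = 1`). -/
def triP (n : ℕ) : Matrix (Fin n) (Fin n) ℝ :=
  triT n - Matrix.diagonal fun a : Fin n => (if (a : ℕ) = 0 then 1 else 0) + (if (a : ℕ) + 1 = n then 1 else 0)

theorem triP_coercive (n : ℕ) : ∃ c : ℝ, 0 < c ∧ ∀ x : Fin n → ℝ,
    c * ∑ a, x a ^ 2 ≤ -∑ a, x a * ∑ b, triP n a b * x b := by
  obtain ⟨c, hc, h⟩ := tridiag_coercive n
  refine ⟨c, hc, fun x => (h x).trans ?_⟩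
  rw [neg_le_neg_iff]
  refine Finset.sum_le_sum fun a _ => ?_
  have h1 : ∑ b, triP n a b * x b = ∑ b, triT n a b * x b
      - ((if (a : ℕ) = 0 then 1 else 0) + (if (a : ℕ) + 1 = n then 1 else 0)) * x a := by
    simp only [triP, Matrix.sub_apply, sub_mul, Finset.sum_sub_distrib, Matrix.diagonal_apply,
      ite_mul, zero_mul, Finset.sum_ite_eq, Finset.mem_univ, if_true]
  have h2 : (0 : ℝ) ≤ (if (a : ℕ) = 0 then 1 else 0) + (if (a : ℕ) + 1 = n then 1 else 0) := by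
    split_ifs <;> norm_num
  rw [h1, mul_sub]
  have h3 : 0 ≤ ((if (a : ℕ) = 0 then (1 : ℝ) else 0) + (if (a : ℕ) + 1 = n then 1 else 0)) * (x a * x a) :=
    mul_nonneg h2 (mul_self_nonneg _)
  linarith

namespace CChain

variable {n : ℕ} (C : CChain n)

/-- a switched-on edge entry. -/
theorem b0_ite_hlF (p : Prop) [Decidable p] (j : ℕ) (hj : j ≤ n) :
    AnalyticAt ℂ (fun w => if p then C.hlF j w else 0) ((C.y₀ : ℂ), 0) ∧
      (∀ᶠ y in 𝓝 (C.y₀ : ℂ), (if p then C.hlF j (y, 0) else 0) = 0) ∧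
      HasDerivAt (fun t => if p then C.hlF j ((C.y₀ : ℂ), t) else 0)
        ((C.h C.x₀ + deriv (deriv C.h) C.x₀) * pdy (C.al 0) ((C.y₀ : ℂ), 0) / 4 *
          ((if p then 1 else 0 : ℝ) : ℂ)) 0 := by
  by_cases hp : p
  · simp only [hp, if_true]
    refine ⟨C.b0_an_hlF j hj, C.b0_edge_hlF j hj, (C.b0_hd_hlF j hj).congr_deriv ?_⟩
    push_cast
    ring
  · simp only [hp, if_false]
    refine ⟨analyticAt_const, Eventually.of_forall fun _ => trivial, ?_⟩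
    simpa using hasDerivAt_const (0 : ℂ) (0 : ℂ)

/-- the entries of `hessP` at the base point. -/
theorem b0_hessP_entry (a b : Fin n) :
    AnalyticAt ℂ (fun w => C.hessP w a b) ((C.y₀ : ℂ), 0) ∧
      (∀ᶠ y in 𝓝 (C.y₀ : ℂ), C.hessP (y, 0) a b = 0) ∧
      HasDerivAt (fun t => C.hessP ((C.y₀ : ℂ), t) a b)
        ((C.h C.x₀ + deriv (deriv C.h) C.x₀) * pdy (C.al 0) ((C.y₀ : ℂ), 0) / 4 * (triP n a b : ℂ)) 0 := by
  obtain ⟨a1, a2, a3⟩ := C.b0_hess_entry a b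
  by_cases h1 : a = b
  · subst h1
    obtain ⟨b1, b2, b3⟩ := C.b0_ite_hlF ((a : ℕ) = 0) 0 (Nat.zero_le n)
    obtain ⟨c1, c2, c3⟩ := C.b0_ite_hlF ((a : ℕ) + 1 = n) n le_rfl
    have e : ∀ w, C.hessP w a a = C.hess w a a - ((if (a : ℕ) = 0 then C.hlF 0 w else 0)
        + (if (a : ℕ) + 1 = n then C.hlF n w else 0)) := fun w => by
      simp [hessP, cornP]
    simp only [e]
    refine ⟨a1.sub (b1.add c1), ?_, (a3.sub (b3.add c3)).congr_deriv ?_⟩
    · filter_upwards [a2, b2, c2] with y h1 h2 h3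
      rw [h1, h2, h3]; ring
    · simp only [triP, triT, Matrix.sub_apply, Matrix.of_apply, Matrix.diagonal_apply_eq, if_true]
      push_cast
      ring
  · have e : ∀ w, C.hessP w a b = C.hess w a b := fun w => by
      simp [hessP, Matrix.diagonal_apply_ne _ h1]
    simp only [e]
    refine ⟨a1, a2, a3.congr_deriv ?_⟩
    simp only [triP, triT, Matrix.sub_apply, Matrix.of_apply, Matrix.diagonal_apply_ne _ h1, sub_zero]

theorem exists_good2P : ∃ cc : ℝ, ∃ ηs : ℝ, 0 < ηs ∧ ∀ η₀ : ℝ, 0 < η₀ → η₀ ≤ ηs → C.Good2P η₀ cc := by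
  obtain ⟨lam, hlam, hlamC⟩ := C.b0_lam
  obtain ⟨c, hc, hcoer⟩ := triP_coercive n
  have hT : ∀ a b, pdt (fun w => C.hessP w a b) ((C.y₀ : ℂ), 0) = (((lam • triP n) a b : ℝ) : ℂ) := by
    intro a b
    have := (C.b0_hessP_entry a b).2.2.deriv
    rw [← hlamC] at this
    show deriv (fun t => C.hessP ((C.y₀ : ℂ), t) a b) 0 = _
    rw [this]
    simp [Matrix.smul_apply]
  have hco' : ∀ x : Fin n → ℝ,
      lam * c * ∑ a, x a ^ 2 ≤ -∑ a, x a * ∑ b, (lam • triP n) a b * x b := by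
    intro x
    have h1 := mul_le_mul_of_nonneg_left (hcoer x) hlam.le
    have h2 : ∑ a, x a * ∑ b, (lam • triP n) a b * x b = lam * ∑ a, x a * ∑ b, triP n a b * x b := by
      simp only [Matrix.smul_apply, smul_eq_mul, Finset.mul_sum]
      refine Finset.sum_congr rfl fun a _ => Finset.sum_congr rfl fun b _ => ?_
      ring
    rw [h2]
    linarith
  obtain ⟨cc, ηs, hcc, hηs, hdet, hco⟩ := pert_good C.hessP C.y₀
    (fun a b => (C.b0_hessP_entry a b).1) (fun a b => (C.b0_hessP_entry a b).2.1)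
    (lam • triP n) hT (c := lam * c) (by positivity) hco'
  refine ⟨cc, ηs, hηs, fun η₀ _ h2 => ⟨hcc, fun w hw => hdet w ?_, fun r hr => hco r ?_⟩⟩
  · exact ⟨Metric.ball_subset_ball h2 hw.1, Metric.ball_subset_ball h2 hw.2⟩
  · exact ⟨Metric.ball_subset_ball h2 hr.1, Metric.ball_subset_ball h2 hr.2⟩

/-- the good neighbourhood for the point-endpoint problem. -/
theorem exists_goodP : ∃ η₀ η ρ cc ccP : ℝ, C.Good η₀ η ρ cc ∧ C.Good2P η₀ ccP := by
  obtain ⟨ρ, η1, hη1, h1⟩ := C.exists_good1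
  obtain ⟨cc, η2, hη2, h2⟩ := C.exists_good2
  obtain ⟨ccP, η3, hη3, h3⟩ := C.exists_good2P
  have hpos : 0 < min (min η1 η2) η3 := lt_min (lt_min hη1 hη2) hη3
  have g1 := h1 _ hpos ((min_le_left _ _).trans (min_le_left _ _))
  have g2 := h2 _ hpos ((min_le_left _ _).trans (min_le_right _ _))
  have g2P := h3 _ hpos (min_le_right _ _)
  obtain ⟨η, g3⟩ := C.good3_of_good1 g1
  exact ⟨_, η, ρ, cc, ccP, ⟨g1, g2, g3⟩, g2P⟩

end CChain

end Claimed.Agent.R269
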