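/-
Row 269, P1 Section 4, unit 4F: chains of lines, THE VARIATIONAL SYSTEM AT A POINT `z`.   Statements: helper36.
PROVED (helper36) from the statements of ZTayA/B, VarA/B: this file has nothing left open.

Everything is obtained by applying `ztay z` to identities between analytic functions near `z`:
   `pdy (sd i) = cd i * pdy (dd i)`, `pdy (cd i) = - sd i * pdy (dd i)`, `pdy (dd i) = (pdy (al (i+1)) - pdy (al i)) / 2`, `pdy (Hh i l) = Hh i (l+1) * pdy (ps i)`, …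
`end_rc`, `end_rs`: by induction on `j ≤ n + 1`,  `rotCS s c j = (ztay z (cos (al j - al 0)), ztay z (sin (al j - al 0)))`  (`ztay_rot`).
`IsPS`, `IsRe`: `VarSys.Closed` (a predicate stable under the ring operations, halving and `Dl` holds for all derived quantities `A, Ps, F, Bq, Qs, Gt`).
REUSABLE: `ZT.dvS_add/sub/half`, `ZT.negS_mul`, `ZT.cst_two`, `ZT.ztay_half`, `ZT.ztay_pdy_half_add`, …, `VarSys.Closed.*`, `tridiag_sum_aux`, `cs_*` (conjugation symmetry), `D1_sd`, …, `ztay_rot`, `ztay_hlF`, `ztay_hdF`.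
-/
import Claimed.Agent.R269.S4.Chain

set_option autoImplicit false
set_option linter.unusedSectionVars false

namespace Claimed.Agent.R269

open Filter Topology ZT

/-! ### small tools in `SS` -/

namespace ZT

theorem dvS_add (δ : Dv SS) (a b : SS) : δ (a + b) = δ a + δ b := map_add δ a b

theorem dvS_sub (δ : Dv SS) (a b : SS) : δ (a - b) = δ a - δ b := map_sub δ a b

theorem dvS_half (δ : Dv SS) (a : SS) : δ (a / 2) = δ a / 2 := VarAux.dv_half (S := SS) δ a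

theorem negS_mul (a b : SS) : -a * b = -(a * b) := by ring

theorem cst_two : cst 2 = 2 := by
  have := cst_natCast 2
  simpa using this

theorem ztay_half {z : ℂ × ℂ} {u : ℂ × ℂ → ℂ} (hu : AnalyticAt ℂ u z) :
    ztay z (fun w => u w / 2) = ztay z u / 2 := by
  rw [ztay_div (v := fun _ => (2 : ℂ)) hu analyticAt_const two_ne_zero, ztay_const, cst_two]

theorem ztay_pdy_half_add {z : ℂ × ℂ} {u v : ℂ × ℂ → ℂ} (hu : AnalyticAt ℂ u z) (hv : AnalyticAt ℂ v z) :
    ztay z (pdy (fun w => (u w + v w) / 2)) = (ztay z (pdy u) + ztay z (pdy v)) / 2 := by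
  have h1 : AnalyticAt ℂ (fun w => u w + v w) z := hu.add hv
  have h2 : AnalyticAt ℂ (fun w => (u w + v w) / 2) z := h1.div analyticAt_const two_ne_zero
  rw [ztay_pdy h2, ztay_half h1, ztay_add hu hv, dvS_half, dvS_add, ztay_pdy hu, ztay_pdy hv]

theorem ztay_pdt_half_add {z : ℂ × ℂ} {u v : ℂ × ℂ → ℂ} (hu : AnalyticAt ℂ u z) (hv : AnalyticAt ℂ v z) :
    ztay z (pdt (fun w => (u w + v w) / 2)) = (ztay z (pdt u) + ztay z (pdt v)) / 2 := by
  have h1 : AnalyticAt ℂ (fun w => u w + v w) z := hu.add hv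
  have h2 : AnalyticAt ℂ (fun w => (u w + v w) / 2) z := h1.div analyticAt_const two_ne_zero
  rw [ztay_pdt h2, ztay_half h1, ztay_add hu hv, dvS_half, dvS_add, ztay_pdt hu, ztay_pdt hv]

theorem ztay_pdy_half_sub {z : ℂ × ℂ} {u v : ℂ × ℂ → ℂ} (hu : AnalyticAt ℂ u z) (hv : AnalyticAt ℂ v z) :
    ztay z (pdy (fun w => (u w - v w) / 2)) = (ztay z (pdy u) - ztay z (pdy v)) / 2 := by
  have h1 : AnalyticAt ℂ (fun w => u w - v w) z := hu.sub hv
  have h2 : AnalyticAt ℂ (fun w => (u w - v w) / 2) z := h1.div analyticAt_const two_ne_zero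
  rw [ztay_pdy h2, ztay_half h1, ztay_sub hu hv, dvS_half, dvS_sub, ztay_pdy hu, ztay_pdy hv]

theorem ztay_pdt_half_sub {z : ℂ × ℂ} {u v : ℂ × ℂ → ℂ} (hu : AnalyticAt ℂ u z) (hv : AnalyticAt ℂ v z) :
    ztay z (pdt (fun w => (u w - v w) / 2)) = (ztay z (pdt u) - ztay z (pdt v)) / 2 := by
  have h1 : AnalyticAt ℂ (fun w => u w - v w) z := hu.sub hv
  have h2 : AnalyticAt ℂ (fun w => (u w - v w) / 2) z := h1.div analyticAt_const two_ne_zero
  rw [ztay_pdt h2, ztay_half h1, ztay_sub hu hv, dvS_half, dvS_sub, ztay_pdt hu, ztay_pdt hv]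

end ZT

theorem lin_stat_aux {R : Type*} [CommRing R] (v x y z : R) (h : v + x + y + z = 0) : x + y + z = -v := by
  linear_combination h

/-- evaluation of a tridiagonal matrix-vector product. -/
theorem tridiag_sum_aux {R : Type*} [CommRing R] (n : ℕ) (a : Fin n) (hd hl X : ℕ → R) (h0 : X 0 = 0)
    (hlast : X (n + 1) = 0) :
    ∑ b : Fin n, (if a = b then hd a else if (a : ℕ) + 1 = b then hl b else if (b : ℕ) + 1 = a then hl a else 0)
        * X (b + 1)
      = hl a * X a + hd a * X (a + 1) + hl (a + 1) * X (a + 2) := by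
  set g : ℕ → R := fun i => (if i = a then hd a * X (a + 1) else 0)
    + (if i = (a : ℕ) + 1 then hl (a + 1) * X (a + 2) else 0) + (if i + 1 = a then hl a * X a else 0) with hg
  have key : ∀ b : Fin n,
      (if a = b then hd a else if (a : ℕ) + 1 = b then hl b else if (b : ℕ) + 1 = a then hl a else 0) * X (b + 1)
        = g b := by
    intro b
    simp only [hg]
    have hab : a = b ↔ (b : ℕ) = a := ⟨fun h => by rw [h], fun h => Fin.ext h.symm⟩
    have h2' : ((a : ℕ) + 1 = b) ↔ ((b : ℕ) = a + 1) := eq_comm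
    simp only [hab, h2']
    by_cases c1 : (b : ℕ) = a
    · rw [if_pos c1, if_pos c1, if_neg (by omega), if_neg (by omega), c1]
      ring
    · by_cases c2 : (b : ℕ) = a + 1
      · rw [if_neg c1, if_pos c2, if_neg c1, if_pos c2, if_neg (by omega), c2]
        ring
      · by_cases c3 : (b : ℕ) + 1 = a
        · rw [if_neg c1, if_neg c2, if_pos c3, if_neg c1, if_neg c2, if_pos c3, c3]
          ring
        · rw [if_neg c1, if_neg c2, if_neg c3, if_neg c1, if_neg c2, if_neg c3]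
          ring
  rw [Finset.sum_congr rfl fun b _ => key b, Fin.sum_univ_eq_sum_range g n]
  simp only [hg]
  rw [Finset.sum_add_distrib, Finset.sum_add_distrib, Finset.sum_ite_eq', Finset.sum_ite_eq',
    if_pos (Finset.mem_range.mpr a.2)]
  have e2 : (if (a : ℕ) + 1 ∈ Finset.range n then hl (a + 1) * X (a + 2) else 0) = hl (a + 1) * X (a + 2) := by
    split_ifs with h
    · rfl
    · have : (a : ℕ) + 2 = n + 1 := by
        have := a.2
        rw [Finset.mem_range] at h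
        omega
      rw [this, hlast, mul_zero]
  have e3 : ∑ i ∈ Finset.range n, (if i + 1 = (a : ℕ) then hl a * X a else 0) = hl a * X a := by
    rcases Nat.eq_zero_or_pos (a : ℕ) with h | h
    · rw [h, h0, mul_zero]
      simp
    · obtain ⟨k, hk⟩ : ∃ k, (a : ℕ) = k + 1 := ⟨a - 1, by omega⟩
      have : ∀ i, (i + 1 = (a : ℕ)) ↔ i = k := fun i => by omega
      simp only [this]
      rw [Finset.sum_ite_eq', if_pos (Finset.mem_range.mpr (by have := a.2; omega))]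
  rw [e2, e3]
  ring

/-! ### closure of the derived quantities of a variational system under a ring-like predicate -/

namespace VarSys

variable {S : Type*} [Field S] [CharZero S] {n : ℕ} (V : VarSys S n)

/-- a predicate on `S` stable under the ring operations, halving and `Dl`. -/
structure Closed (P : S → Prop) : Prop where
  zero : P 0
  two : P 2
  add : ∀ x y, P x → P y → P (x + y)
  sub : ∀ x y, P x → P y → P (x - y)
  mul : ∀ x y, P x → P y → P (x * y)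
  half : ∀ x, P x → P (x / 2)
  Dl : ∀ x, P x → P (V.Dl x)

variable {V} {P : S → Prop} (hP : V.Closed P) {k : ℕ} (hs : ∀ i ≤ k, P (V.s i)) (hc : ∀ i ≤ k, P (V.c i))
  (hH : ∀ i ≤ k, ∀ l, P (V.H i l))
include hP

theorem Closed.D2 {x : S} (hx : P x) : P (V.D2 x) := hP.half _ (hP.Dl _ (hP.Dl _ hx))

include hs hc

theorem Closed.u (i : ℕ) (hi : i ≤ k) : P (V.u i) :=
  hP.sub _ _ (hP.mul _ _ (hc i hi) (hP.Dl _ (hs i hi))) (hP.mul _ _ (hs i hi) (hP.Dl _ (hc i hi)))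

theorem Closed.A (j : ℕ) (hj : j ≤ k + 1) : P (V.A j) := by
  induction j with
  | zero => exact hP.zero
  | succ j ih => exact hP.add _ _ (ih (by omega)) (hP.mul _ _ hP.two (hP.u hs hc j (by omega)))

theorem Closed.Ps (i : ℕ) (hi : i ≤ k) : P (V.Ps i) :=
  hP.half _ (hP.add _ _ (hP.A hs hc i (by omega)) (hP.A hs hc (i + 1) (by omega)))

theorem Closed.b (i : ℕ) (hi : i ≤ k) : P (V.b i) :=
  hP.sub _ _ (hP.mul _ _ (hc i hi) (hP.D2 (hs i hi))) (hP.mul _ _ (hs i hi) (hP.D2 (hc i hi)))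

theorem Closed.Bq (j : ℕ) (hj : j ≤ k + 1) : P (V.Bq j) := by
  induction j with
  | zero => exact hP.zero
  | succ j ih => exact hP.add _ _ (ih (by omega)) (hP.mul _ _ hP.two (hP.b hs hc j (by omega)))

theorem Closed.Qs (i : ℕ) (hi : i ≤ k) : P (V.Qs i) :=
  hP.half _ (hP.add _ _ (hP.Bq hs hc i (by omega)) (hP.Bq hs hc (i + 1) (by omega)))

include hH

theorem Closed.F (i : ℕ) (hi : i ≤ k) (m : ℕ) : P (V.F i m) :=
  hP.sub _ _ (hP.Dl _ (hH i hi m)) (hP.mul _ _ (hH i hi (m + 1)) (hP.Ps hs hc i hi))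

theorem Closed.Gt (i : ℕ) (hi : i ≤ k) (m : ℕ) : P (V.Gt i m) := by
  have hPs := hP.Ps hs hc i hi
  refine hP.sub _ _ (hP.sub _ _ (hP.sub _ _ (hP.D2 (hH i hi m)) (hP.mul _ _ (hP.F hs hc hH i hi (m + 1)) hPs))
    (hP.mul _ _ (hH i hi (m + 1)) (hP.Qs hs hc i hi))) (hP.half _ (hP.mul _ _ (hH i hi (m + 2)) ?_))
  rw [pow_two]
  exact hP.mul _ _ hPs hPs

end VarSys

namespace CChain

variable {n : ℕ} (C : CChain n)

section analytic

variable {C} {η₀ ρ : ℝ} (hG : C.Good1 η₀ ρ) {w : ℂ × ℂ} (hw : w ∈ C.bd η₀)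
include hG hw

theorem an_ps (i : ℕ) (hi : i ≤ n) : AnalyticAt ℂ (C.ps i) w :=
  ((hG.al_an i (by omega) w hw).add (hG.al_an (i + 1) (by omega) w hw)).div analyticAt_const two_ne_zero

theorem an_dd (i : ℕ) (hi : i ≤ n) : AnalyticAt ℂ (C.dd i) w :=
  ((hG.al_an (i + 1) (by omega) w hw).sub (hG.al_an i (by omega) w hw)).div analyticAt_const two_ne_zero

theorem an_sd (i : ℕ) (hi : i ≤ n) : AnalyticAt ℂ (C.sd i) w :=
  AnalyticAt.comp (g := Complex.sin) (f := C.dd i) Complex.analyticAt_sin (an_dd hG hw i hi)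

theorem an_cd (i : ℕ) (hi : i ≤ n) : AnalyticAt ℂ (C.cd i) w :=
  AnalyticAt.comp (g := Complex.cos) (f := C.dd i) Complex.analyticAt_cos (an_dd hG hw i hi)

theorem an_h_ps (i : ℕ) (hi : i ≤ n) : AnalyticAt ℂ C.h (C.ps i w) := hG.h_an _ (hG.ps_mem i hi w hw)

theorem an_Hh (i : ℕ) (hi : i ≤ n) (l : ℕ) : AnalyticAt ℂ (C.Hh i l) w :=
  AnalyticAt.comp (g := iteratedDeriv l C.h) (f := C.ps i) (analyticAt_iteratedDeriv (an_h_ps hG hw i hi) l)
    (an_ps hG hw i hi)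

theorem an_hlF (j : ℕ) (hj : j ≤ n) : AnalyticAt ℂ (C.hlF j) w :=
  (((an_Hh hG hw j hj 0).add (an_Hh hG hw j hj 2)).mul (an_sd hG hw j hj)).div analyticAt_const two_ne_zero

theorem an_hdF (j : ℕ) (hj : j < n) : AnalyticAt ℂ (C.hdF j) w :=
  (((an_Hh hG hw j (by omega) 1).mul (an_cd hG hw j (by omega))).add
    ((((an_Hh hG hw j (by omega) 2).sub (an_Hh hG hw j (by omega) 0)).mul (an_sd hG hw j (by omega))).div
      analyticAt_const two_ne_zero)).add
  ((((an_Hh hG hw (j + 1) (by omega) 1).mul (an_cd hG hw (j + 1) (by omega))).neg).add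
    ((((an_Hh hG hw (j + 1) (by omega) 2).sub (an_Hh hG hw (j + 1) (by omega) 0)).mul
      (an_sd hG hw (j + 1) (by omega))).div analyticAt_const two_ne_zero))

theorem an_hess (a b : Fin n) : AnalyticAt ℂ (fun x => C.hess x a b) w := by
  unfold hess
  simp only [Matrix.of_apply]
  split_ifs with h1 h2 h3
  · exact an_hdF hG hw a a.2
  · exact an_hlF hG hw b (by have := b.2; omega)
  · exact an_hlF hG hw a (by have := a.2; omega)
  · exact analyticAt_const

theorem ztay_pdy_ps (i : ℕ) (hi : i ≤ n) :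
    ztay w (pdy (C.ps i)) = (ztay w (pdy (C.al i)) + ztay w (pdy (C.al (i + 1)))) / 2 :=
  ztay_pdy_half_add (hG.al_an i (by omega) w hw) (hG.al_an (i + 1) (by omega) w hw)

theorem ztay_pdt_ps (i : ℕ) (hi : i ≤ n) :
    ztay w (pdt (C.ps i)) = (ztay w (pdt (C.al i)) + ztay w (pdt (C.al (i + 1)))) / 2 :=
  ztay_pdt_half_add (hG.al_an i (by omega) w hw) (hG.al_an (i + 1) (by omega) w hw)

theorem ztay_pdy_dd (i : ℕ) (hi : i ≤ n) :
    ztay w (pdy (C.dd i)) = (ztay w (pdy (C.al (i + 1))) - ztay w (pdy (C.al i))) / 2 :=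
  ztay_pdy_half_sub (hG.al_an (i + 1) (by omega) w hw) (hG.al_an i (by omega) w hw)

theorem ztay_pdt_dd (i : ℕ) (hi : i ≤ n) :
    ztay w (pdt (C.dd i)) = (ztay w (pdt (C.al (i + 1))) - ztay w (pdt (C.al i))) / 2 :=
  ztay_pdt_half_sub (hG.al_an (i + 1) (by omega) w hw) (hG.al_an i (by omega) w hw)

theorem D1_sd (i : ℕ) (hi : i ≤ n) :
    D1 (ztay w (C.sd i)) = ztay w (C.cd i) * ((ztay w (pdy (C.al (i + 1))) - ztay w (pdy (C.al i))) / 2) := by
  have h := D1_ztay_comp (f := Complex.sin) (an_dd hG hw i hi) Complex.analyticAt_sin 0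
  rw [ztay_pdy_dd hG hw i hi] at h
  simp only [iteratedDeriv_zero, zero_add, iteratedDeriv_one, Complex.deriv_sin] at h
  exact h

theorem D2_sd (i : ℕ) (hi : i ≤ n) :
    D2 (ztay w (C.sd i)) = ztay w (C.cd i) * ((ztay w (pdt (C.al (i + 1))) - ztay w (pdt (C.al i))) / 2) := by
  have h := D2_ztay_comp (f := Complex.sin) (an_dd hG hw i hi) Complex.analyticAt_sin 0
  rw [ztay_pdt_dd hG hw i hi] at h
  simp only [iteratedDeriv_zero, zero_add, iteratedDeriv_one, Complex.deriv_sin] at h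
  exact h

theorem D1_cd (i : ℕ) (hi : i ≤ n) :
    D1 (ztay w (C.cd i)) = -(ztay w (C.sd i) * ((ztay w (pdy (C.al (i + 1))) - ztay w (pdy (C.al i))) / 2)) := by
  have h := D1_ztay_comp (f := Complex.cos) (an_dd hG hw i hi) Complex.analyticAt_cos 0
  rw [ztay_pdy_dd hG hw i hi] at h
  simp only [iteratedDeriv_zero, zero_add, iteratedDeriv_one, Complex.deriv_cos'] at h
  have e : ztay w (fun x => -Complex.sin (C.dd i x)) = -ztay w (C.sd i) := ztay_neg (an_sd hG hw i hi)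
  rw [e, negS_mul] at h
  exact h

theorem D2_cd (i : ℕ) (hi : i ≤ n) :
    D2 (ztay w (C.cd i)) = -(ztay w (C.sd i) * ((ztay w (pdt (C.al (i + 1))) - ztay w (pdt (C.al i))) / 2)) := by
  have h := D2_ztay_comp (f := Complex.cos) (an_dd hG hw i hi) Complex.analyticAt_cos 0
  rw [ztay_pdt_dd hG hw i hi] at h
  simp only [iteratedDeriv_zero, zero_add, iteratedDeriv_one, Complex.deriv_cos'] at h
  have e : ztay w (fun x => -Complex.sin (C.dd i x)) = -ztay w (C.sd i) := ztay_neg (an_sd hG hw i hi)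
  rw [e, negS_mul] at h
  exact h

theorem D1_Hh (i : ℕ) (hi : i ≤ n) (l : ℕ) :
    D1 (ztay w (C.Hh i l)) = ztay w (C.Hh i (l + 1)) * ((ztay w (pdy (C.al i)) + ztay w (pdy (C.al (i + 1)))) / 2) := by
  have h := D1_ztay_comp (an_ps hG hw i hi) (an_h_ps hG hw i hi) l
  rw [ztay_pdy_ps hG hw i hi] at h
  exact h

theorem D2_Hh (i : ℕ) (hi : i ≤ n) (l : ℕ) :
    D2 (ztay w (C.Hh i l)) = ztay w (C.Hh i (l + 1)) * ((ztay w (pdt (C.al i)) + ztay w (pdt (C.al (i + 1)))) / 2) := by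
  have h := D2_ztay_comp (an_ps hG hw i hi) (an_h_ps hG hw i hi) l
  rw [ztay_pdt_ps hG hw i hi] at h
  exact h

theorem ztay_unit (i : ℕ) (hi : i ≤ n) : ztay w (C.sd i) ^ 2 + ztay w (C.cd i) ^ 2 = 1 := by
  have hs := an_sd hG hw i hi
  have hc := an_cd hG hw i hi
  have hs2 : AnalyticAt ℂ (fun x => C.sd i x ^ 2) w := hs.pow 2
  have hc2 : AnalyticAt ℂ (fun x => C.cd i x ^ 2) w := hc.pow 2
  rw [← ztay_pow hs, ← ztay_pow hc, ← ztay_add hs2 hc2, ← cst_one, ← ztay_const w]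
  congr 1
  funext x
  exact Complex.sin_sq_add_cos_sq _

/-- `ztay` of `Hh i 0 * cd i + Hh i 1 * sd i`. -/
theorem ztay_pOut (i : ℕ) (hi : i ≤ n) :
    ztay w (fun x => C.Hh i 0 x * C.cd i x + C.Hh i 1 x * C.sd i x)
      = ztay w (C.Hh i 0) * ztay w (C.cd i) + ztay w (C.Hh i 1) * ztay w (C.sd i) := by
  have a1 : AnalyticAt ℂ (fun x => C.Hh i 0 x * C.cd i x) w := (an_Hh hG hw i hi 0).mul (an_cd hG hw i hi)
  have a2 : AnalyticAt ℂ (fun x => C.Hh i 1 x * C.sd i x) w := (an_Hh hG hw i hi 1).mul (an_sd hG hw i hi)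
  rw [ztay_add a1 a2, ztay_mul (an_Hh hG hw i hi 0) (an_cd hG hw i hi), ztay_mul (an_Hh hG hw i hi 1) (an_sd hG hw i hi)]

theorem ztay_pIn (i : ℕ) (hi : i ≤ n) :
    ztay w (fun x => C.Hh i 0 x * C.cd i x - C.Hh i 1 x * C.sd i x)
      = ztay w (C.Hh i 0) * ztay w (C.cd i) - ztay w (C.Hh i 1) * ztay w (C.sd i) := by
  have a1 : AnalyticAt ℂ (fun x => C.Hh i 0 x * C.cd i x) w := (an_Hh hG hw i hi 0).mul (an_cd hG hw i hi)
  have a2 : AnalyticAt ℂ (fun x => C.Hh i 1 x * C.sd i x) w := (an_Hh hG hw i hi 1).mul (an_sd hG hw i hi)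
  rw [ztay_sub a1 a2, ztay_mul (an_Hh hG hw i hi 0) (an_cd hG hw i hi), ztay_mul (an_Hh hG hw i hi 1) (an_sd hG hw i hi)]

theorem ztay_stat (j : ℕ) (hj : j < n) :
    ztay w (C.Hh j 0) * ztay w (C.cd j) + ztay w (C.Hh j 1) * ztay w (C.sd j)
      = ztay w (C.Hh (j + 1) 0) * ztay w (C.cd (j + 1)) - ztay w (C.Hh (j + 1) 1) * ztay w (C.sd (j + 1)) := by
  rw [← ztay_pOut hG hw j (by omega), ← ztay_pIn hG hw (j + 1) (by omega)]
  apply ztay_congr
  filter_upwards [(Metric.isOpen_ball.prod Metric.isOpen_ball).mem_nhds hw] with x hx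
  exact hG.stat j hj x hx

/-- the rotation from the first line to the `j`-th line. -/
theorem ztay_rot (j : ℕ) (hj : j ≤ n + 1) :
    rotCS (fun i => ztay w (C.sd i)) (fun i => ztay w (C.cd i)) j
      = (ztay w (fun x => Complex.cos (C.al j x - C.al 0 x)), ztay w (fun x => Complex.sin (C.al j x - C.al 0 x))) := by
  induction j with
  | zero =>
    simp only [rotCS, sub_self, Complex.cos_zero, Complex.sin_zero, ztay_const, cst_one, cst_zero]
  | succ j ih =>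
    have hs := an_sd hG hw j (by omega)
    have hc := an_cd hG hw j (by omega)
    have hd : AnalyticAt ℂ (fun x => C.al j x - C.al 0 x) w :=
      (hG.al_an j (by omega) w hw).sub (hG.al_an 0 (by omega) w hw)
    have hC : AnalyticAt ℂ (fun x => Complex.cos (C.al j x - C.al 0 x)) w :=
      AnalyticAt.comp (g := Complex.cos) (f := fun x => C.al j x - C.al 0 x) Complex.analyticAt_cos hd
    have hS : AnalyticAt ℂ (fun x => Complex.sin (C.al j x - C.al 0 x)) w :=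
      AnalyticAt.comp (g := Complex.sin) (f := fun x => C.al j x - C.al 0 x) Complex.analyticAt_sin hd
    have hc2 : AnalyticAt ℂ (fun x => C.cd j x ^ 2) w := hc.pow 2
    have hs2 : AnalyticAt ℂ (fun x => C.sd j x ^ 2) w := hs.pow 2
    have hP : AnalyticAt ℂ (fun x => C.cd j x ^ 2 - C.sd j x ^ 2) w := hc2.sub hs2
    have h2s : AnalyticAt ℂ (fun x => 2 * C.sd j x) w := analyticAt_const.mul hs
    have hQ : AnalyticAt ℂ (fun x => 2 * C.sd j x * C.cd j x) w := h2s.mul hc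
    have eP : ztay w (fun x => C.cd j x ^ 2 - C.sd j x ^ 2) = ztay w (C.cd j) ^ 2 - ztay w (C.sd j) ^ 2 := by
      rw [ztay_sub hc2 hs2, ztay_pow hc, ztay_pow hs]
    have eQ : ztay w (fun x => 2 * C.sd j x * C.cd j x) = 2 * ztay w (C.sd j) * ztay w (C.cd j) := by
      rw [ztay_mul h2s hc, ztay_mul (u := fun _ => (2 : ℂ)) analyticAt_const hs, ztay_const, cst_two]
    have hang : ∀ x, C.al (j + 1) x - C.al 0 x = (C.al j x - C.al 0 x) + 2 * C.dd j x := by
      intro x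
      unfold dd
      ring
    have e1 : (fun x => Complex.cos (C.al (j + 1) x - C.al 0 x))
        = fun x => Complex.cos (C.al j x - C.al 0 x) * (C.cd j x ^ 2 - C.sd j x ^ 2)
          - Complex.sin (C.al j x - C.al 0 x) * (2 * C.sd j x * C.cd j x) := by
      funext x
      rw [hang, Complex.cos_add, Complex.cos_two_mul', Complex.sin_two_mul]
      rfl
    have e2 : (fun x => Complex.sin (C.al (j + 1) x - C.al 0 x))
        = fun x => Complex.sin (C.al j x - C.al 0 x) * (C.cd j x ^ 2 - C.sd j x ^ 2)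
          + Complex.cos (C.al j x - C.al 0 x) * (2 * C.sd j x * C.cd j x) := by
      funext x
      rw [hang, Complex.sin_add, Complex.cos_two_mul', Complex.sin_two_mul]
      rfl
    have m1 : AnalyticAt ℂ (fun x => Complex.cos (C.al j x - C.al 0 x) * (C.cd j x ^ 2 - C.sd j x ^ 2)) w := hC.mul hP
    have m2 : AnalyticAt ℂ (fun x => Complex.sin (C.al j x - C.al 0 x) * (2 * C.sd j x * C.cd j x)) w := hS.mul hQ
    have m3 : AnalyticAt ℂ (fun x => Complex.sin (C.al j x - C.al 0 x) * (C.cd j x ^ 2 - C.sd j x ^ 2)) w := hS.mul hP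
    have m4 : AnalyticAt ℂ (fun x => Complex.cos (C.al j x - C.al 0 x) * (2 * C.sd j x * C.cd j x)) w := hC.mul hQ
    rw [e1, e2, ztay_sub m1 m2, ztay_add m3 m4, ztay_mul hC hP, ztay_mul hS hQ, ztay_mul hS hP, ztay_mul hC hQ, eP, eQ]
    simp only [rotCS]
    rw [ih (by omega)]

/-! conjugation symmetry -/

theorem cs_ps (i : ℕ) (hi : i ≤ n) :
    C.ps i ((starRingEnd ℂ) w.1, (starRingEnd ℂ) w.2) = (starRingEnd ℂ) (C.ps i w) := by
  unfold ps
  rw [hG.al_conj i (by omega) w hw, hG.al_conj (i + 1) (by omega) w hw, map_div₀, map_add, map_ofNat]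

theorem cs_dd (i : ℕ) (hi : i ≤ n) :
    C.dd i ((starRingEnd ℂ) w.1, (starRingEnd ℂ) w.2) = (starRingEnd ℂ) (C.dd i w) := by
  unfold dd
  rw [hG.al_conj i (by omega) w hw, hG.al_conj (i + 1) (by omega) w hw, map_div₀, map_sub, map_ofNat]

theorem cs_sd (i : ℕ) (hi : i ≤ n) :
    C.sd i ((starRingEnd ℂ) w.1, (starRingEnd ℂ) w.2) = (starRingEnd ℂ) (C.sd i w) := by
  unfold sd
  rw [cs_dd hG hw i hi, Complex.sin_conj]

theorem cs_cd (i : ℕ) (hi : i ≤ n) :
    C.cd i ((starRingEnd ℂ) w.1, (starRingEnd ℂ) w.2) = (starRingEnd ℂ) (C.cd i w) := by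
  unfold cd
  rw [cs_dd hG hw i hi, Complex.cos_conj]

omit hw in
theorem cs_iter (l : ℕ) : ∀ x ∈ Metric.ball C.x₀ ρ,
    iteratedDeriv l C.h ((starRingEnd ℂ) x) = (starRingEnd ℂ) (iteratedDeriv l C.h x) := by
  induction l with
  | zero =>
    intro x hx
    simp only [iteratedDeriv_zero]
    exact hG.h_conj x hx
  | succ l ih =>
    intro x hx
    rw [iteratedDeriv_succ]
    have h1 : ((starRingEnd ℂ) ∘ iteratedDeriv l C.h ∘ (starRingEnd ℂ)) =ᶠ[𝓝 x] iteratedDeriv l C.h := by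
      filter_upwards [Metric.isOpen_ball.mem_nhds hx] with y hy
      simp only [Function.comp_apply]
      rw [ih y hy, Complex.conj_conj]
    have h2 := h1.deriv_eq
    rw [deriv_conj_conj] at h2
    simp only [Function.comp_apply] at h2
    rw [← h2, Complex.conj_conj]

theorem cs_Hh (i : ℕ) (hi : i ≤ n) (l : ℕ) :
    C.Hh i l ((starRingEnd ℂ) w.1, (starRingEnd ℂ) w.2) = (starRingEnd ℂ) (C.Hh i l w) := by
  unfold Hh
  rw [cs_ps hG hw i hi, cs_iter hG l _ (hG.ps_mem i hi w hw)]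

theorem cs_hlF (j : ℕ) (hj : j ≤ n) :
    C.hlF j ((starRingEnd ℂ) w.1, (starRingEnd ℂ) w.2) = (starRingEnd ℂ) (C.hlF j w) := by
  unfold hlF
  rw [cs_Hh hG hw j hj, cs_Hh hG hw j hj, cs_sd hG hw j hj, map_div₀, map_mul, map_add, map_ofNat]

theorem cs_hdF (j : ℕ) (hj : j < n) :
    C.hdF j ((starRingEnd ℂ) w.1, (starRingEnd ℂ) w.2) = (starRingEnd ℂ) (C.hdF j w) := by
  unfold hdF
  rw [cs_Hh hG hw j (by omega), cs_Hh hG hw j (by omega), cs_Hh hG hw j (by omega), cs_sd hG hw j (by omega),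
    cs_cd hG hw j (by omega), cs_Hh hG hw (j + 1) (by omega), cs_Hh hG hw (j + 1) (by omega),
    cs_Hh hG hw (j + 1) (by omega), cs_sd hG hw (j + 1) (by omega), cs_cd hG hw (j + 1) (by omega)]
  simp only [map_add, map_mul, map_div₀, map_sub, map_neg, map_ofNat]

end analytic

theorem bd_isOpen (η₀ : ℝ) : IsOpen (C.bd η₀) := Metric.isOpen_ball.prod Metric.isOpen_ball

/-- real points of the small square lie in the bidisc. -/
theorem rp_mem_bd {η₀ η : ℝ} (hη : η ≤ η₀) {r : ℝ × ℝ} (h1 : |r.1 - C.y₀| < η) (h2 : |r.2| < η) : rp r ∈ C.bd η₀ := by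
  constructor
  · show ((r.1 : ℝ) : ℂ) ∈ Metric.ball (C.y₀ : ℂ) η₀
    rw [Metric.mem_ball, dist_eq_norm, ← Complex.ofReal_sub, Complex.norm_real]
    exact lt_of_lt_of_le h1 hη
  · show ((r.2 : ℝ) : ℂ) ∈ Metric.ball (0 : ℂ) η₀
    rw [Metric.mem_ball, dist_zero_right, Complex.norm_real]
    exact lt_of_lt_of_le h2 hη

theorem im_zero_of_cs {u : ℂ × ℂ → ℂ} {r : ℝ × ℝ}
    (h : u ((starRingEnd ℂ) (rp r).1, (starRingEnd ℂ) (rp r).2) = (starRingEnd ℂ) (u (rp r))) : (u (rp r)).im = 0 := by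
  have e1 : (starRingEnd ℂ) (rp r).1 = (rp r).1 := Complex.conj_ofReal _
  have e2 : (starRingEnd ℂ) (rp r).2 = (rp r).2 := Complex.conj_ofReal _
  rw [e1, e2] at h
  exact Complex.conj_eq_iff_im.mp h.symm

/-- at real points of the bidisc everything is real. -/
theorem real_vals {η₀ ρ : ℝ} (hG : C.Good1 η₀ ρ) {r : ℝ × ℝ} (hr : rp r ∈ C.bd η₀) (i : ℕ) (hi : i ≤ n) :
    (C.ps i (rp r)).im = 0 ∧ (C.sd i (rp r)).im = 0 ∧ (C.cd i (rp r)).im = 0 ∧ ∀ l, (C.Hh i l (rp r)).im = 0 :=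
  ⟨im_zero_of_cs (cs_ps hG hr i hi), im_zero_of_cs (cs_sd hG hr i hi), im_zero_of_cs (cs_cd hG hr i hi),
    fun l => im_zero_of_cs (cs_Hh hG hr i hi l)⟩

theorem real_hess {η₀ ρ : ℝ} (hG : C.Good1 η₀ ρ) {r : ℝ × ℝ} (hr : rp r ∈ C.bd η₀) (a b : Fin n) :
    (C.hess (rp r) a b).im = 0 := by
  unfold hess
  simp only [Matrix.of_apply]
  split_ifs with h1 h2 h3
  · exact im_zero_of_cs (cs_hdF hG hr a a.2)
  · exact im_zero_of_cs (cs_hlF hG hr b (by have := b.2; omega))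
  · exact im_zero_of_cs (cs_hlF hG hr a (by have := a.2; omega))
  · rfl

/-- the variational system of the chain at the point `z`, for a derivation `δ` killing the end data. -/
noncomputable def varSys {η₀ ρ : ℝ} (hG : C.Good1 η₀ ρ) {z : ℂ × ℂ} (hz : z ∈ C.bd η₀) {δ : Dv ℂ}
    (hE : C.EndKilled z δ) : VarSys SS n where
  d1 := D1
  d2 := D2
  Dl := DD δ
  comm1 := DD_D1 δ
  comm2 := DD_D2 δ
  s := fun i => ztay z (C.sd i)
  c := fun i => ztay z (C.cd i)
  H := fun i l => ztay z (C.Hh i l)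
  a1 := fun j => ztay z (pdy (C.al j))
  a2 := fun j => ztay z (pdt (C.al j))
  unit := fun i hi => ztay_unit hG hz i hi
  d1s := fun i hi => D1_sd hG hz i hi
  d1c := fun i hi => D1_cd hG hz i hi
  d2s := fun i hi => D2_sd hG hz i hi
  d2c := fun i hi => D2_cd hG hz i hi
  d1H := fun i hi l => D1_Hh hG hz i hi l
  d2H := fun i hi l => D2_Hh hG hz i hi l
  stat := fun j hj => ztay_stat hG hz j hj
  end_a1 := hE.a1
  end_a2 := hE.a2
  end_b1 := hE.b1
  end_b2 := hE.b2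
  end_p0 := by
    show DD δ (ztay z (C.Hh 0 0) * ztay z (C.cd 0) - ztay z (C.Hh 0 1) * ztay z (C.sd 0)) = 0
    rw [← ztay_pIn hG hz 0 (Nat.zero_le n)]
    exact hE.p0
  end_pk := by
    show DD δ (ztay z (C.Hh n 0) * ztay z (C.cd n) + ztay z (C.Hh n 1) * ztay z (C.sd n)) = 0
    rw [← ztay_pOut hG hz n le_rfl]
    exact hE.pk
  end_rc := by
    rw [ztay_rot hG hz (n + 1) le_rfl]
    exact hE.rc
  end_rs := by
    rw [ztay_rot hG hz (n + 1) le_rfl]
    exact hE.rs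

section props

variable {C} {η₀ ρ : ℝ} (hG : C.Good1 η₀ ρ)

theorem isPS_two : IsPS (2 : SS) := by
  have := IsPS.natCast 2
  simpa using this

theorem isRe_two : IsRe (2 : SS) := by
  have := IsRe.natCast 2
  simpa using this

theorem isPS_half {x : SS} (h : IsPS x) : IsPS (x / 2) := by
  have := h.div_natCast 2
  simpa using this

theorem isRe_half {x : SS} (h : IsRe x) : IsRe (x / 2) := by
  have := h.div_natCast 2
  simpa using this

theorem closed_isPS {z : ℂ × ℂ} (hz : z ∈ C.bd η₀) {δ : Dv ℂ} (hE : C.EndKilled z δ) :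
    (C.varSys hG hz hE).Closed IsPS where
  zero := IsPS.zero
  two := isPS_two
  add := fun _ _ h h' => h.add h'
  sub := fun _ _ h h' => h.sub h'
  mul := fun _ _ h h' => h.mul h'
  half := fun _ h => isPS_half h
  Dl := fun _ h => IsPS.DD δ h

theorem closed_isRe {z : ℂ × ℂ} (hz : z ∈ C.bd η₀) {δ : Dv ℝ} (hE : C.EndKilled z δ.cx) :
    (C.varSys hG hz hE).Closed (fun x => IsPS x ∧ IsRe x) where
  zero := ⟨IsPS.zero, IsRe.zero⟩
  two := ⟨isPS_two, isRe_two⟩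
  add := fun _ _ h h' => ⟨h.1.add h'.1, h.2.add h'.2⟩
  sub := fun _ _ h h' => ⟨h.1.sub h'.1, h.2.sub h'.2⟩
  mul := fun _ _ h h' => ⟨h.1.mul h'.1, IsRe.mul h.1 h'.1 h.2 h'.2⟩
  half := fun _ h => ⟨isPS_half h.1, isRe_half h.2⟩
  Dl := fun _ h => ⟨IsPS.DD δ.cx h.1, IsRe.DD δ h.2⟩

theorem isPS_A {z : ℂ × ℂ} (hz : z ∈ C.bd η₀) {δ : Dv ℂ} (hE : C.EndKilled z δ) (j : ℕ) :
    IsPS ((C.varSys hG hz hE).A j) :=
  (closed_isPS hG hz hE).A (k := j) (fun _ _ => isPS_ztay _ _) (fun _ _ => isPS_ztay _ _) j (by omega)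

theorem isPS_F {z : ℂ × ℂ} (hz : z ∈ C.bd η₀) {δ : Dv ℂ} (hE : C.EndKilled z δ) (i m : ℕ) :
    IsPS ((C.varSys hG hz hE).F i m) :=
  (closed_isPS hG hz hE).F (k := i) (fun _ _ => isPS_ztay _ _) (fun _ _ => isPS_ztay _ _)
    (fun _ _ _ => isPS_ztay _ _) i le_rfl m

theorem isPS_Gt {z : ℂ × ℂ} (hz : z ∈ C.bd η₀) {δ : Dv ℂ} (hE : C.EndKilled z δ) (i m : ℕ) :
    IsPS ((C.varSys hG hz hE).Gt i m) :=
  (closed_isPS hG hz hE).Gt (k := i) (fun _ _ => isPS_ztay _ _) (fun _ _ => isPS_ztay _ _)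
    (fun _ _ _ => isPS_ztay _ _) i le_rfl m

theorem isRe_of_cs {r : ℝ × ℝ} (hz : rp r ∈ C.bd η₀) {u : ℂ × ℂ → ℂ} (hu : AnalyticAt ℂ u (rp r))
    (h : ∀ w ∈ C.bd η₀, u ((starRingEnd ℂ) w.1, (starRingEnd ℂ) w.2) = (starRingEnd ℂ) (u w)) :
    IsRe (ztay (rp r) u) := by
  apply isRe_ztay (by simp [rp]) (by simp [rp]) hu
  filter_upwards [(C.bd_isOpen η₀).mem_nhds hz] with w hw
  exact h w hw

theorem isRe_F {r : ℝ × ℝ} (hz : rp r ∈ C.bd η₀) {δ : Dv ℝ} (hE : C.EndKilled (rp r) δ.cx) (i : ℕ) (hi : i ≤ n) (m : ℕ) :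
    IsRe ((C.varSys hG hz hE).F i m) :=
  ((closed_isRe hG hz hE).F (k := n)
    (fun j hj => ⟨isPS_ztay _ _, isRe_of_cs hz (an_sd hG hz j hj) fun _ hw => cs_sd hG hw j hj⟩)
    (fun j hj => ⟨isPS_ztay _ _, isRe_of_cs hz (an_cd hG hz j hj) fun _ hw => cs_cd hG hw j hj⟩)
    (fun j hj l => ⟨isPS_ztay _ _, isRe_of_cs hz (an_Hh hG hz j hj l) fun _ hw => cs_Hh hG hw j hj l⟩) i hi m).2

theorem isRe_Gt {r : ℝ × ℝ} (hz : rp r ∈ C.bd η₀) {δ : Dv ℝ} (hE : C.EndKilled (rp r) δ.cx) (i : ℕ) (hi : i ≤ n) (m : ℕ) :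
    IsRe ((C.varSys hG hz hE).Gt i m) :=
  ((closed_isRe hG hz hE).Gt (k := n)
    (fun j hj => ⟨isPS_ztay _ _, isRe_of_cs hz (an_sd hG hz j hj) fun _ hw => cs_sd hG hw j hj⟩)
    (fun j hj => ⟨isPS_ztay _ _, isRe_of_cs hz (an_cd hG hz j hj) fun _ hw => cs_cd hG hw j hj⟩)
    (fun j hj l => ⟨isPS_ztay _ _, isRe_of_cs hz (an_Hh hG hz j hj l) fun _ hw => cs_Hh hG hw j hj l⟩) i hi m).2

theorem ztay_hlF {z : ℂ × ℂ} (hz : z ∈ C.bd η₀) {δ : Dv ℂ} (hE : C.EndKilled z δ) (j : ℕ) (hj : j ≤ n) :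
    ztay z (C.hlF j) = (C.varSys hG hz hE).hl j := by
  have a0 := an_Hh hG hz j hj 0
  have a2 := an_Hh hG hz j hj 2
  have as := an_sd hG hz j hj
  have a02 : AnalyticAt ℂ (fun x => C.Hh j 0 x + C.Hh j 2 x) z := a0.add a2
  have am : AnalyticAt ℂ (fun x => (C.Hh j 0 x + C.Hh j 2 x) * C.sd j x) z := a02.mul as
  show ztay z (fun x => (C.Hh j 0 x + C.Hh j 2 x) * C.sd j x / 2) = _
  rw [ztay_half am, ztay_mul a02 as, ztay_add a0 a2]
  rfl

theorem ztay_hdF {z : ℂ × ℂ} (hz : z ∈ C.bd η₀) {δ : Dv ℂ} (hE : C.EndKilled z δ) (j : ℕ) (hj : j < n) :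
    ztay z (C.hdF j) = (C.varSys hG hz hE).hd j := by
  have part : ∀ i ≤ n, AnalyticAt ℂ (fun x => (C.Hh i 2 x - C.Hh i 0 x) * C.sd i x / 2) z ∧
      ztay z (fun x => (C.Hh i 2 x - C.Hh i 0 x) * C.sd i x / 2)
        = (ztay z (C.Hh i 2) - ztay z (C.Hh i 0)) * ztay z (C.sd i) / 2 := by
    intro i hi
    have a0 := an_Hh hG hz i hi 0
    have a2 := an_Hh hG hz i hi 2
    have as := an_sd hG hz i hi
    have a02 : AnalyticAt ℂ (fun x => C.Hh i 2 x - C.Hh i 0 x) z := a2.sub a0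
    have am : AnalyticAt ℂ (fun x => (C.Hh i 2 x - C.Hh i 0 x) * C.sd i x) z := a02.mul as
    exact ⟨am.div analyticAt_const two_ne_zero, by rw [ztay_half am, ztay_mul a02 as, ztay_sub a2 a0]⟩
  obtain ⟨p1, q1⟩ := part j (by omega)
  obtain ⟨p2, q2⟩ := part (j + 1) (by omega)
  have b1 := an_Hh hG hz j (by omega) 1
  have c1 := an_cd hG hz j (by omega)
  have b2 := an_Hh hG hz (j + 1) (by omega) 1
  have c2 := an_cd hG hz (j + 1) (by omega)
  have m1 : AnalyticAt ℂ (fun x => C.Hh j 1 x * C.cd j x) z := b1.mul c1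
  have m2 : AnalyticAt ℂ (fun x => C.Hh (j + 1) 1 x * C.cd (j + 1) x) z := b2.mul c2
  have m2' : AnalyticAt ℂ (fun x => -(C.Hh (j + 1) 1 x * C.cd (j + 1) x)) z := m2.neg
  have s1 : AnalyticAt ℂ (fun x => C.Hh j 1 x * C.cd j x + (C.Hh j 2 x - C.Hh j 0 x) * C.sd j x / 2) z := m1.add p1
  have s2 : AnalyticAt ℂ (fun x => -(C.Hh (j + 1) 1 x * C.cd (j + 1) x)
      + (C.Hh (j + 1) 2 x - C.Hh (j + 1) 0 x) * C.sd (j + 1) x / 2) z := m2'.add p2
  show ztay z (fun x => (C.Hh j 1 x * C.cd j x + (C.Hh j 2 x - C.Hh j 0 x) * C.sd j x / 2)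
    + (-(C.Hh (j + 1) 1 x * C.cd (j + 1) x) + (C.Hh (j + 1) 2 x - C.Hh (j + 1) 0 x) * C.sd (j + 1) x / 2)) = _
  rw [ztay_add s1 s2, ztay_add m1 p1, ztay_add m2' p2, ztay_neg m2, ztay_mul b1 c1, ztay_mul b2 c2, q1, q2]
  rfl

/-- the formal Hessian entries are the Taylor series of the analytic ones: linearised stationarity in matrix form. -/
theorem lin_stat_matrix {z : ℂ × ℂ} (hz : z ∈ C.bd η₀) {δ : Dv ℂ} (hE : C.EndKilled z δ) (a : Fin n) :
    ∑ b : Fin n, ztay z (fun w => C.hess w a b) * (C.varSys hG hz hE).A (b + 1) = -(C.varSys hG hz hE).v a := by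
  have hent : ∀ b : Fin n, ztay z (fun w => C.hess w a b)
      = if a = b then (C.varSys hG hz hE).hd a else if (a : ℕ) + 1 = b then (C.varSys hG hz hE).hl b
        else if (b : ℕ) + 1 = a then (C.varSys hG hz hE).hl a else 0 := by
    intro b
    unfold hess
    simp only [Matrix.of_apply]
    split_ifs with h1 h2 h3
    · exact ztay_hdF hG hz hE a a.2
    · exact ztay_hlF hG hz hE b (by have := b.2; omega)
    · exact ztay_hlF hG hz hE a (by have := a.2; omega)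
    · rw [ztay_const, cst_zero]
  rw [Finset.sum_congr rfl fun b _ => by rw [hent b]]
  rw [tridiag_sum_aux (R := SS) n a (C.varSys hG hz hE).hd (C.varSys hG hz hE).hl (C.varSys hG hz hE).A rfl
    (C.varSys hG hz hE).A_last]
  exact lin_stat_aux (R := SS) _ _ _ _ ((C.varSys hG hz hE).lin_stat a a.2)

end props

end CChain

end Claimed.Agent.R269
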