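/-
Row 269, P1 Section 4, unit 4H (Theorem 4.4): chains between two end impacts, THE VARIATIONAL SYSTEM AT A POINT `z`.   Statements: helper183.

`varBase`: the end-condition-free fields do not involve the derivation; they are taken from `C.varSys` (ChainV) for the ZERO derivation (no new proof).
`varSysP`: the end fields:
   `end_01 …`  `ztay_pdy_ps`, `ztay_pdt_ps` (ChainV) + `EndKilledP.p01 …`
   `end_ec/es` `rotEC_ztay`, `rotES_ztay` below;  first `rotCS_ztay`: by induction on `j ≤ n + 1`, `rotCS s c j = (ztay z (cos (al j - al 0)), ztay z (sin (al j - al 0)))` (addition theorems, `al (j+1) - al j = 2 dd j`,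
               `cos (2 d) = cos² d - sin² d`, `sin (2 d) = 2 sin d cos d`; `ztay_mul`, `ztay_sub`, `ztay_add`, `ztay_pow`, `ztay_const`, `ztay_congr`),  then `ps n - ps 0 = (al n - al 0) + dd n - dd 0`.
   `end_ar0/n` `ztay z C.ar0 = D1 (H00 c0 + H01 s0) * a2 1 - D2 (…) * a1 1` by `ztay_sub`, `ztay_mul`, `ztay_pdy`, `ztay_pdt`, `ztay_add` (analyticity: `an_Hh`, `an_cd`, `an_sd`, `Good1.al_an`, `Emb.analyticAt_pdy/pdt`).
`IsPS`, `IsRe`: closure properties of ZTayA as in ChainV (`isPS_ztay`, `IsPS.DD`, `IsPS.mul`, `IsPS.div_natCast` with `(2 : SS) = ((2 : ℕ) : SS)`; `A`, `Bq` by induction on `j`);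
   reality of `ztay (rp r) (sd i)`, `(cd i)`, `(Hh i l)`: `isRe_ztay` as in ChainV.
`lin_stat_matrixP`: `VarCore.lin_stat` at `j = a`, with `A 0 = -A 1` (`VarSysP.A_zero`) if `a = 0` and `A (n+1) = -A n` (`VarSysP.A_last`) if `a + 1 = n`;  the entries: `core.hl j = ztay z (hlF j)`, `core.hd j = ztay z (hdF j)`
   (`ztay_mul`, `ztay_add`, `ztay_div`/`ztay_const`); the sum over `b : Fin n` has at most three nonzero terms (`Finset.sum_eq_…`, or split `hessP = hess - diagonal` and reuse the argument for `lin_stat_matrix` of ChainV).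
The `sorry`s are replaced IN PLACE by the owner of the package (table subtask, target row269, LF-S4-ChainP-v).
-/
import Claimed.Agent.R269.S4.ChainP
import Claimed.Agent.R269.S4.ChainV

set_option autoImplicit false

namespace Claimed.Agent.R269

open Filter Topology ZT

/-- the zero derivation. -/
def Dv.zeroDv (A : Type*) [CommRing A] : Dv A where
  toFun := 0
  leibniz' := by
    intro a b
    simp

theorem ZT.DD_zeroDv (x : SS) : DD (Dv.zeroDv ℂ) x = 0 := by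
  apply ext_cf
  intro a b
  rw [cf_DD]
  simp [cf, Dv.zeroDv]
  rfl

namespace CChain

variable {n : ℕ} (C : CChain n)

theorem endKilled_zeroDv (z : ℂ × ℂ) : C.EndKilled z (Dv.zeroDv ℂ) :=
  ⟨DD_zeroDv _, DD_zeroDv _, DD_zeroDv _, DD_zeroDv _, DD_zeroDv _, DD_zeroDv _, DD_zeroDv _, DD_zeroDv _⟩

/-- the data of the chain at the point `z`, with the deformation `DD δ`; no end conditions. -/
noncomputable def varBase {η₀ ρ : ℝ} (hG : C.Good1 η₀ ρ) {z : ℂ × ℂ} (hz : z ∈ C.bd η₀) (δ : Dv ℂ) : VarBase SS n where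
  d1 := D1
  d2 := D2
  Dl := DD δ
  comm1 := DD_D1 δ
  comm2 := DD_D2 δ
  s := fun i => ztay z (C.sd i)
  c := fun i => ztay z (C.cd i)
  H := fun i l => ztay z (C.Hh i l)
  a1 := fun j => ztay z (pdy (C.al j))
  a2 := fun j => ztay z (pdt (C.al j))
  unit := (C.varSys hG hz (C.endKilled_zeroDv z)).unit
  d1s := (C.varSys hG hz (C.endKilled_zeroDv z)).d1s
  d1c := (C.varSys hG hz (C.endKilled_zeroDv z)).d1c
  d2s := (C.varSys hG hz (C.endKilled_zeroDv z)).d2s
  d2c := (C.varSys hG hz (C.endKilled_zeroDv z)).d2c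
  d1H := (C.varSys hG hz (C.endKilled_zeroDv z)).d1H
  d2H := (C.varSys hG hz (C.endKilled_zeroDv z)).d2H
  stat := (C.varSys hG hz (C.endKilled_zeroDv z)).stat

/-! ### `ztay` on the pointwise algebra of functions -/

theorem cpv_add {z : ℂ × ℂ} {u v : ℂ × ℂ → ℂ} (hu : AnalyticAt ℂ u z) (hv : AnalyticAt ℂ v z) :
    ztay z (u + v) = ztay z u + ztay z v := ztay_add hu hv

theorem cpv_sub {z : ℂ × ℂ} {u v : ℂ × ℂ → ℂ} (hu : AnalyticAt ℂ u z) (hv : AnalyticAt ℂ v z) :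
    ztay z (u - v) = ztay z u - ztay z v := ztay_sub hu hv

theorem cpv_mul {z : ℂ × ℂ} {u v : ℂ × ℂ → ℂ} (hu : AnalyticAt ℂ u z) (hv : AnalyticAt ℂ v z) :
    ztay z (u * v) = ztay z u * ztay z v := ztay_mul hu hv

theorem cpv_neg {z : ℂ × ℂ} {u : ℂ × ℂ → ℂ} (hu : AnalyticAt ℂ u z) :
    ztay z (-u) = -ztay z u := ztay_neg hu

theorem cpv_pow {z : ℂ × ℂ} {u : ℂ × ℂ → ℂ} (hu : AnalyticAt ℂ u z) (m : ℕ) :
    ztay z (u ^ m) = ztay z u ^ m := ztay_pow hu m

theorem cpv_cst_two : cst 2 = 2 := by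
  have := cst_natCast 2
  simpa using this

theorem cpv_two (z : ℂ × ℂ) : ztay z (2 : ℂ × ℂ → ℂ) = 2 := by
  have : (2 : ℂ × ℂ → ℂ) = fun _ => (2 : ℂ) := rfl
  rw [this, ztay_const, cpv_cst_two]

theorem cpv_an_two (z : ℂ × ℂ) : AnalyticAt ℂ (2 : ℂ × ℂ → ℂ) z := analyticAt_const

theorem cpv_half {z : ℂ × ℂ} {u : ℂ × ℂ → ℂ} (hu : AnalyticAt ℂ u z) :
    ztay z (u / 2) = ztay z u / 2 := by
  have h := ztay_div hu (cpv_an_two z) (by simp)
  rw [cpv_two] at h
  exact h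

theorem cpv_an_half {z : ℂ × ℂ} {u : ℂ × ℂ → ℂ} (hu : AnalyticAt ℂ u z) :
    AnalyticAt ℂ (u / 2) z := hu.div (cpv_an_two z) (by simp)

section rot

variable {C} {η₀ ρ : ℝ} (hG : C.Good1 η₀ ρ) {z : ℂ × ℂ} (hz : z ∈ C.bd η₀)
include hG hz

theorem cpv_an_cos_sub (j : ℕ) (hj : j ≤ n + 1) :
    AnalyticAt ℂ (fun w => Complex.cos (C.al j w - C.al 0 w)) z :=
  AnalyticAt.comp (g := Complex.cos) (f := fun w => C.al j w - C.al 0 w) Complex.analyticAt_cos
    ((hG.al_an j hj z hz).sub (hG.al_an 0 (Nat.zero_le _) z hz))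

theorem cpv_an_sin_sub (j : ℕ) (hj : j ≤ n + 1) :
    AnalyticAt ℂ (fun w => Complex.sin (C.al j w - C.al 0 w)) z :=
  AnalyticAt.comp (g := Complex.sin) (f := fun w => C.al j w - C.al 0 w) Complex.analyticAt_sin
    ((hG.al_an j hj z hz).sub (hG.al_an 0 (Nat.zero_le _) z hz))

theorem rotCS_ztay (j : ℕ) (hj : j ≤ n + 1) :
    rotCS (fun i => ztay z (C.sd i)) (fun i => ztay z (C.cd i)) j
      = (ztay z (fun w => Complex.cos (C.al j w - C.al 0 w)), ztay z (fun w => Complex.sin (C.al j w - C.al 0 w))) := by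
  induction j with
  | zero =>
    have h1 : (fun w => Complex.cos (C.al 0 w - C.al 0 w)) = fun _ => (1 : ℂ) := by
      funext w; simp
    have h2 : (fun w => Complex.sin (C.al 0 w - C.al 0 w)) = fun _ => (0 : ℂ) := by
      funext w; simp
    rw [h1, h2, ztay_const, ztay_const, cst_one, cst_zero]
    rfl
  | succ j ih =>
    have ih' := ih (by omega)
    have hjn : j ≤ n := by omega
    have hc := cpv_an_cos_sub hG hz j (by omega)
    have hs := cpv_an_sin_sub hG hz j (by omega)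
    have hsd := an_sd hG hz j hjn
    have hcd := an_cd hG hz j hjn
    have e : ∀ w, C.al (j + 1) w - C.al 0 w = (C.al j w - C.al 0 w) + 2 * C.dd j w := by
      intro w; unfold dd; ring
    have h1 : (fun w => Complex.cos (C.al (j + 1) w - C.al 0 w))
        = (fun w => Complex.cos (C.al j w - C.al 0 w)) * (C.cd j ^ 2 - C.sd j ^ 2)
          - (fun w => Complex.sin (C.al j w - C.al 0 w)) * (2 * C.sd j * C.cd j) := by
      funext w
      simp only [e w, Complex.cos_add, Complex.cos_two_mul', Complex.sin_two_mul, cd, sd,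
        Pi.sub_apply, Pi.mul_apply, Pi.pow_apply, Pi.ofNat_apply]
    have h2 : (fun w => Complex.sin (C.al (j + 1) w - C.al 0 w))
        = (fun w => Complex.sin (C.al j w - C.al 0 w)) * (C.cd j ^ 2 - C.sd j ^ 2)
          + (fun w => Complex.cos (C.al j w - C.al 0 w)) * (2 * C.sd j * C.cd j) := by
      funext w
      simp only [e w, Complex.sin_add, Complex.cos_two_mul', Complex.sin_two_mul, cd, sd,
        Pi.sub_apply, Pi.add_apply, Pi.mul_apply, Pi.pow_apply, Pi.ofNat_apply]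
    have a1 := (hcd.pow 2).sub (hsd.pow 2)
    have a3 := ((cpv_an_two z).mul hsd).mul hcd
    rw [h1, h2, cpv_sub (hc.mul a1) (hs.mul a3), cpv_add (hs.mul a1) (hc.mul a3), cpv_mul hc a1,
      cpv_mul hs a3, cpv_mul hs a1, cpv_mul hc a3, cpv_sub (hcd.pow 2) (hsd.pow 2), cpv_pow hcd,
      cpv_pow hsd, cpv_mul ((cpv_an_two z).mul hsd) hcd, cpv_mul (cpv_an_two z) hsd, cpv_two]
    simp only [rotCS, ih']

omit hG hz in
theorem cpv_ps_sub (w : ℂ × ℂ) :
    C.ps n w - C.ps 0 w = (C.al n w - C.al 0 w) + (C.dd n w - C.dd 0 w) := by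
  unfold ps dd; ring

theorem rotEC_ztay :
    rotEC (fun i => ztay z (C.sd i)) (fun i => ztay z (C.cd i)) n
      = ztay z (fun w => Complex.cos (C.ps n w - C.ps 0 w)) := by
  have hc := cpv_an_cos_sub hG hz n (by omega)
  have hs := cpv_an_sin_sub hG hz n (by omega)
  have hsn := an_sd hG hz n le_rfl
  have hcn := an_cd hG hz n le_rfl
  have hs0 := an_sd hG hz 0 (Nat.zero_le n)
  have hc0 := an_cd hG hz 0 (Nat.zero_le n)
  have h1 : (fun w => Complex.cos (C.ps n w - C.ps 0 w))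
      = (fun w => Complex.cos (C.al n w - C.al 0 w)) * (C.cd n * C.cd 0 + C.sd n * C.sd 0)
        - (fun w => Complex.sin (C.al n w - C.al 0 w)) * (C.sd n * C.cd 0 - C.cd n * C.sd 0) := by
    funext w
    simp only [cpv_ps_sub w, Complex.cos_add, Complex.cos_sub, Complex.sin_sub, cd, sd,
      Pi.sub_apply, Pi.add_apply, Pi.mul_apply]
  have a1 := (hcn.mul hc0).add (hsn.mul hs0)
  have a2 := (hsn.mul hc0).sub (hcn.mul hs0)
  rw [h1, cpv_sub (hc.mul a1) (hs.mul a2), cpv_mul hc a1, cpv_mul hs a2,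
    cpv_add (hcn.mul hc0) (hsn.mul hs0), cpv_sub (hsn.mul hc0) (hcn.mul hs0), cpv_mul hcn hc0,
    cpv_mul hsn hs0, cpv_mul hsn hc0, cpv_mul hcn hs0]
  simp only [rotEC, rotCS_ztay hG hz n (by omega)]

theorem rotES_ztay :
    rotES (fun i => ztay z (C.sd i)) (fun i => ztay z (C.cd i)) n
      = ztay z (fun w => Complex.sin (C.ps n w - C.ps 0 w)) := by
  have hc := cpv_an_cos_sub hG hz n (by omega)
  have hs := cpv_an_sin_sub hG hz n (by omega)
  have hsn := an_sd hG hz n le_rfl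
  have hcn := an_cd hG hz n le_rfl
  have hs0 := an_sd hG hz 0 (Nat.zero_le n)
  have hc0 := an_cd hG hz 0 (Nat.zero_le n)
  have h1 : (fun w => Complex.sin (C.ps n w - C.ps 0 w))
      = (fun w => Complex.sin (C.al n w - C.al 0 w)) * (C.cd n * C.cd 0 + C.sd n * C.sd 0)
        + (fun w => Complex.cos (C.al n w - C.al 0 w)) * (C.sd n * C.cd 0 - C.cd n * C.sd 0) := by
    funext w
    simp only [cpv_ps_sub w, Complex.sin_add, Complex.cos_sub, Complex.sin_sub, cd, sd,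
      Pi.sub_apply, Pi.add_apply, Pi.mul_apply]
  have a1 := (hcn.mul hc0).add (hsn.mul hs0)
  have a2 := (hsn.mul hc0).sub (hcn.mul hs0)
  rw [h1, cpv_add (hs.mul a1) (hc.mul a2), cpv_mul hs a1, cpv_mul hc a2,
    cpv_add (hcn.mul hc0) (hsn.mul hs0), cpv_sub (hsn.mul hc0) (hcn.mul hs0), cpv_mul hcn hc0,
    cpv_mul hsn hs0, cpv_mul hsn hc0, cpv_mul hcn hs0]
  simp only [rotES, rotCS_ztay hG hz n (by omega)]

theorem cpv_an_pOF (i : ℕ) (hi : i ≤ n) : AnalyticAt ℂ (C.pOF i) z :=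
  ((an_Hh hG hz i hi 0).mul (an_cd hG hz i hi)).add ((an_Hh hG hz i hi 1).mul (an_sd hG hz i hi))

theorem cpv_an_pIF (i : ℕ) (hi : i ≤ n) : AnalyticAt ℂ (C.pIF i) z :=
  ((an_Hh hG hz i hi 0).mul (an_cd hG hz i hi)).sub ((an_Hh hG hz i hi 1).mul (an_sd hG hz i hi))

theorem cpv_ztay_pOF (i : ℕ) (hi : i ≤ n) :
    ztay z (C.pOF i) = ztay z (C.Hh i 0) * ztay z (C.cd i) + ztay z (C.Hh i 1) * ztay z (C.sd i) := by
  have h : C.pOF i = C.Hh i 0 * C.cd i + C.Hh i 1 * C.sd i := rfl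
  rw [h, cpv_add ((an_Hh hG hz i hi 0).mul (an_cd hG hz i hi))
    ((an_Hh hG hz i hi 1).mul (an_sd hG hz i hi)), cpv_mul (an_Hh hG hz i hi 0) (an_cd hG hz i hi),
    cpv_mul (an_Hh hG hz i hi 1) (an_sd hG hz i hi)]

theorem cpv_ztay_pIF (i : ℕ) (hi : i ≤ n) :
    ztay z (C.pIF i) = ztay z (C.Hh i 0) * ztay z (C.cd i) - ztay z (C.Hh i 1) * ztay z (C.sd i) := by
  have h : C.pIF i = C.Hh i 0 * C.cd i - C.Hh i 1 * C.sd i := rfl
  rw [h, cpv_sub ((an_Hh hG hz i hi 0).mul (an_cd hG hz i hi))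
    ((an_Hh hG hz i hi 1).mul (an_sd hG hz i hi)), cpv_mul (an_Hh hG hz i hi 0) (an_cd hG hz i hi),
    cpv_mul (an_Hh hG hz i hi 1) (an_sd hG hz i hi)]

theorem ztay_ar0 (hn : 1 ≤ n) :
    ztay z C.ar0 = D1 (ztay z (C.Hh 0 0) * ztay z (C.cd 0) + ztay z (C.Hh 0 1) * ztay z (C.sd 0)) * ztay z (pdt (C.al 1))
      - D2 (ztay z (C.Hh 0 0) * ztay z (C.cd 0) + ztay z (C.Hh 0 1) * ztay z (C.sd 0)) * ztay z (pdy (C.al 1)) := by
  have hp := cpv_an_pOF hG hz 0 (Nat.zero_le n)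
  have ha := hG.al_an 1 (by omega) z hz
  have h : C.ar0 = pdy (C.pOF 0) * pdt (C.al 1) - pdt (C.pOF 0) * pdy (C.al 1) := rfl
  rw [h, cpv_sub ((analyticAt_pdy hp).mul (analyticAt_pdt ha)) ((analyticAt_pdt hp).mul (analyticAt_pdy ha)),
    cpv_mul (analyticAt_pdy hp) (analyticAt_pdt ha), cpv_mul (analyticAt_pdt hp) (analyticAt_pdy ha),
    ztay_pdy hp, ztay_pdt hp, cpv_ztay_pOF hG hz 0 (Nat.zero_le n)]

theorem ztay_arn :
    ztay z C.arn = D1 (ztay z (C.Hh n 0) * ztay z (C.cd n) - ztay z (C.Hh n 1) * ztay z (C.sd n)) * ztay z (pdt (C.al n))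
      - D2 (ztay z (C.Hh n 0) * ztay z (C.cd n) - ztay z (C.Hh n 1) * ztay z (C.sd n)) * ztay z (pdy (C.al n)) := by
  have hp := cpv_an_pIF hG hz n le_rfl
  have ha := hG.al_an n (by omega) z hz
  have h : C.arn = pdy (C.pIF n) * pdt (C.al n) - pdt (C.pIF n) * pdy (C.al n) := rfl
  rw [h, cpv_sub ((analyticAt_pdy hp).mul (analyticAt_pdt ha)) ((analyticAt_pdt hp).mul (analyticAt_pdy ha)),
    cpv_mul (analyticAt_pdy hp) (analyticAt_pdt ha), cpv_mul (analyticAt_pdt hp) (analyticAt_pdy ha),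
    ztay_pdy hp, ztay_pdt hp, cpv_ztay_pIF hG hz n le_rfl]

end rot

/-- the variational system with point end conditions of the chain at the point `z`, for a derivation `δ` killing the end data. -/
noncomputable def varSysP {η₀ ρ : ℝ} (hG : C.Good1 η₀ ρ) {z : ℂ × ℂ} (hz : z ∈ C.bd η₀) (hn : 1 ≤ n) {δ : Dv ℂ}
    (hE : C.EndKilledP z δ) : VarSysP SS n :=
  { C.varBase hG hz δ with
    n_pos := hn
    end_H0 := hE.H0
    end_Hn := hE.Hn
    end_01 := by
      have h := hE.p01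
      rw [ztay_pdy_ps hG hz 0 (Nat.zero_le n)] at h
      exact h
    end_02 := by
      have h := hE.p02
      rw [ztay_pdt_ps hG hz 0 (Nat.zero_le n)] at h
      exact h
    end_n1 := by
      have h := hE.pn1
      rw [ztay_pdy_ps hG hz n le_rfl] at h
      exact h
    end_n2 := by
      have h := hE.pn2
      rw [ztay_pdt_ps hG hz n le_rfl] at h
      exact h
    end_ec := by
      have h := hE.ec
      rw [← rotEC_ztay hG hz] at h
      exact h
    end_es := by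
      have h := hE.es
      rw [← rotES_ztay hG hz] at h
      exact h
    end_ar0 := by
      have h := hE.ar0
      rw [ztay_ar0 hG hz hn] at h
      exact h
    end_arn := by
      have h := hE.arn
      rw [ztay_arn hG hz] at h
      exact h }


/-! ### closure properties for a core over `SS` -/

theorem cpv_isPS_two : IsPS (2 : SS) := by
  have := IsPS.natCast 2
  simpa using this

theorem cpv_isPS_half {x : SS} (h : IsPS x) : IsPS (x / 2) := by
  have := h.div_natCast 2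
  simpa using this

theorem cpv_isRe_two : IsRe (2 : SS) := by
  have := IsRe.natCast 2
  simpa using this

theorem cpv_isRe_half {x : SS} (h : IsRe x) : IsRe (x / 2) := by
  have := h.div_natCast 2
  simpa using this

section closure

variable (V : VarCore SS n)
  (hs : ∀ i, IsPS (V.s i)) (hc : ∀ i, IsPS (V.c i)) (hH : ∀ i l, IsPS (V.H i l))
  (hD : ∀ x, IsPS x → IsPS (V.Dl x)) (hA0 : IsPS V.A0) (hB0 : IsPS V.B0)

include hs hc hD in
theorem cpv_isPS_u (i : ℕ) : IsPS (V.u i) :=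
  ((hc i).mul (hD _ (hs i))).sub ((hs i).mul (hD _ (hc i)))

include hs hc hD hA0 in
theorem cpv_isPS_A (j : ℕ) : IsPS (V.A j) := by
  induction j with
  | zero => exact hA0
  | succ j ih => exact ih.add (cpv_isPS_two.mul (cpv_isPS_u V hs hc hD j))

include hs hc hD hA0 in
theorem cpv_isPS_Ps (i : ℕ) : IsPS (V.Ps i) :=
  cpv_isPS_half ((cpv_isPS_A V hs hc hD hA0 i).add (cpv_isPS_A V hs hc hD hA0 (i + 1)))

include hs hc hH hD hA0 in
theorem cpv_isPS_F (i m : ℕ) : IsPS (V.F i m) :=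
  (hD _ (hH i m)).sub ((hH i (m + 1)).mul (cpv_isPS_Ps V hs hc hD hA0 i))

include hD in
theorem cpv_isPS_D2 {x : SS} (h : IsPS x) : IsPS (V.D2 x) := cpv_isPS_half (hD _ (hD _ h))

include hs hc hD in
theorem cpv_isPS_b (i : ℕ) : IsPS (V.b i) :=
  ((hc i).mul (cpv_isPS_D2 V hD (hs i))).sub ((hs i).mul (cpv_isPS_D2 V hD (hc i)))

include hs hc hD hB0 in
theorem cpv_isPS_Bq (j : ℕ) : IsPS (V.Bq j) := by
  induction j with
  | zero => exact hB0
  | succ j ih => exact ih.add (cpv_isPS_two.mul (cpv_isPS_b V hs hc hD j))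

include hs hc hD hB0 in
theorem cpv_isPS_Qs (i : ℕ) : IsPS (V.Qs i) :=
  cpv_isPS_half ((cpv_isPS_Bq V hs hc hD hB0 i).add (cpv_isPS_Bq V hs hc hD hB0 (i + 1)))

include hs hc hH hD hA0 hB0 in
theorem cpv_isPS_Gt (i m : ℕ) : IsPS (V.Gt i m) :=
  (((cpv_isPS_D2 V hD (hH i m)).sub
    ((cpv_isPS_F V hs hc hH hD hA0 i (m + 1)).mul (cpv_isPS_Ps V hs hc hD hA0 i))).sub
    ((hH i (m + 1)).mul (cpv_isPS_Qs V hs hc hD hB0 i))).sub
    (cpv_isPS_half ((hH i (m + 2)).mul ((cpv_isPS_Ps V hs hc hD hA0 i).pow 2)))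

variable (rs : ∀ i ≤ n, IsRe (V.s i)) (rc : ∀ i ≤ n, IsRe (V.c i)) (rH : ∀ i ≤ n, ∀ l, IsRe (V.H i l))
  (rD : ∀ x, IsRe x → IsRe (V.Dl x)) (rA0 : IsRe V.A0)

include hs hc hD rs rc rD in
theorem cpv_isRe_u (i : ℕ) (hi : i ≤ n) : IsRe (V.u i) :=
  (IsRe.mul (hc i) (hD _ (hs i)) (rc i hi) (rD _ (rs i hi))).sub
    (IsRe.mul (hs i) (hD _ (hc i)) (rs i hi) (rD _ (rc i hi)))

include hs hc hD rs rc rD rA0 in
theorem cpv_isRe_A (j : ℕ) (hj : j ≤ n + 1) : IsRe (V.A j) := by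
  induction j with
  | zero => exact rA0
  | succ j ih =>
    exact (ih (by omega)).add (IsRe.mul cpv_isPS_two (cpv_isPS_u V hs hc hD j) cpv_isRe_two
      (cpv_isRe_u V hs hc hD rs rc rD j (by omega)))

include hs hc hD rs rc rD rA0 in
theorem cpv_isRe_Ps (i : ℕ) (hi : i ≤ n) : IsRe (V.Ps i) :=
  cpv_isRe_half ((cpv_isRe_A V hs hc hD rs rc rD rA0 i (by omega)).add
    (cpv_isRe_A V hs hc hD rs rc rD rA0 (i + 1) (by omega)))

include hs hc hH hD hA0 rs rc rH rD rA0 in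
theorem cpv_isRe_F (i : ℕ) (hi : i ≤ n) (m : ℕ) : IsRe (V.F i m) :=
  (rD _ (rH i hi m)).sub (IsRe.mul (hH i (m + 1)) (cpv_isPS_Ps V hs hc hD hA0 i) (rH i hi (m + 1))
    (cpv_isRe_Ps V hs hc hD rs rc rD rA0 i hi))

end closure

section props

variable {C} {η₀ ρ : ℝ}

theorem cpv_an_hlF (hG : C.Good1 η₀ ρ) {w : ℂ × ℂ} (hw : w ∈ C.bd η₀) (j : ℕ) (hj : j ≤ n) :
    AnalyticAt ℂ (C.hlF j) w :=
  cpv_an_half (((an_Hh hG hw j hj 0).add (an_Hh hG hw j hj 2)).mul (an_sd hG hw j hj))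

theorem cpv_an_cornP (hG : C.Good1 η₀ ρ) {w : ℂ × ℂ} (hw : w ∈ C.bd η₀) (a : Fin n) :
    AnalyticAt ℂ (fun x => C.cornP x a) w := by
  unfold cornP
  refine AnalyticAt.add ?_ ?_
  · split_ifs
    · exact cpv_an_hlF hG hw 0 (Nat.zero_le n)
    · exact analyticAt_const
  · split_ifs
    · exact cpv_an_hlF hG hw n le_rfl
    · exact analyticAt_const

theorem cpv_hessP_apply (x : ℂ × ℂ) (a b : Fin n) :
    C.hessP x a b = C.hess x a b - (if a = b then C.cornP x a else 0) := by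
  unfold hessP
  rw [Matrix.sub_apply, Matrix.diagonal_apply]

theorem an_hessP (hG : C.Good1 η₀ ρ) {w : ℂ × ℂ} (hw : w ∈ C.bd η₀) (a b : Fin n) :
    AnalyticAt ℂ (fun x => C.hessP x a b) w := by
  simp only [cpv_hessP_apply]
  refine (an_hess hG hw a b).sub ?_
  split_ifs
  · exact cpv_an_cornP hG hw a
  · exact analyticAt_const

theorem cpv_real_hlF (hG : C.Good1 η₀ ρ) {r : ℝ × ℝ} (hr : rp r ∈ C.bd η₀) (j : ℕ) (hj : j ≤ n) :
    (C.hlF j (rp r)).im = 0 := by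
  obtain ⟨-, h2, -, h4⟩ := C.real_vals hG hr j hj
  unfold hlF
  rw [Complex.div_ofNat_im, Complex.mul_im, Complex.add_im, h4 0, h4 2, h2]
  simp

theorem real_hessP (hG : C.Good1 η₀ ρ) {r : ℝ × ℝ} (hr : rp r ∈ C.bd η₀) (a b : Fin n) :
    (C.hessP (rp r) a b).im = 0 := by
  rw [cpv_hessP_apply, Complex.sub_im, C.real_hess hG hr a b]
  split_ifs
  · unfold cornP
    rw [Complex.add_im]
    split_ifs <;> simp [cpv_real_hlF hG hr 0 (Nat.zero_le n), cpv_real_hlF hG hr n le_rfl]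
  · simp

variable (hG : C.Good1 η₀ ρ) (hn : 1 ≤ n)

theorem cpv_isPS_A0 {z : ℂ × ℂ} (hz : z ∈ C.bd η₀) {δ : Dv ℂ} (hE : C.EndKilledP z δ) :
    IsPS (C.varSysP hG hz hn hE).core.A0 :=
  (((isPS_ztay z _).mul ((isPS_ztay z _).DD δ)).sub ((isPS_ztay z _).mul ((isPS_ztay z _).DD δ))).neg

theorem cpv_isPS_B0 {z : ℂ × ℂ} (hz : z ∈ C.bd η₀) {δ : Dv ℂ} (hE : C.EndKilledP z δ) :
    IsPS (C.varSysP hG hz hn hE).core.B0 :=
  (((isPS_ztay z _).mul (cpv_isPS_half (((isPS_ztay z _).DD δ).DD δ))).sub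
    ((isPS_ztay z _).mul (cpv_isPS_half (((isPS_ztay z _).DD δ).DD δ)))).neg

theorem isPS_AP {z : ℂ × ℂ} (hz : z ∈ C.bd η₀) {δ : Dv ℂ} (hE : C.EndKilledP z δ) (j : ℕ) :
    IsPS ((C.varSysP hG hz hn hE).core.A j) :=
  cpv_isPS_A _ (fun _ => isPS_ztay z _) (fun _ => isPS_ztay z _) (fun _ h => h.DD δ)
    (cpv_isPS_A0 hG hn hz hE) j

theorem isPS_FP {z : ℂ × ℂ} (hz : z ∈ C.bd η₀) {δ : Dv ℂ} (hE : C.EndKilledP z δ) (i m : ℕ) :
    IsPS ((C.varSysP hG hz hn hE).core.F i m) :=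
  cpv_isPS_F _ (fun _ => isPS_ztay z _) (fun _ => isPS_ztay z _) (fun _ _ => isPS_ztay z _)
    (fun _ h => h.DD δ) (cpv_isPS_A0 hG hn hz hE) i m

theorem isPS_GtP {z : ℂ × ℂ} (hz : z ∈ C.bd η₀) {δ : Dv ℂ} (hE : C.EndKilledP z δ) (i m : ℕ) :
    IsPS ((C.varSysP hG hz hn hE).core.Gt i m) :=
  cpv_isPS_Gt _ (fun _ => isPS_ztay z _) (fun _ => isPS_ztay z _) (fun _ _ => isPS_ztay z _)
    (fun _ h => h.DD δ) (cpv_isPS_A0 hG hn hz hE) (cpv_isPS_B0 hG hn hz hE) i m

/-- the first floors of the end towers are power series. -/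
theorem isPS_endP {z : ℂ × ℂ} (hz : z ∈ C.bd η₀) {δ : Dv ℂ} (hE : C.EndKilledP z δ) (i : ℕ) :
    IsPS ((C.varSysP hG hz hn hE).core.rr i * (C.varSysP hG hz hn hE).core.Dl ((C.varSysP hG hz hn hE).core.c i)) ∧
    IsPS ((C.varSysP hG hz hn hE).core.rr i * (C.varSysP hG hz hn hE).core.D2 ((C.varSysP hG hz hn hE).core.c i)) :=
  ⟨((isPS_ztay z _).add (isPS_ztay z _)).mul ((isPS_ztay z _).DD δ),
    ((isPS_ztay z _).add (isPS_ztay z _)).mul (cpv_isPS_half (((isPS_ztay z _).DD δ).DD δ))⟩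

/-! ### reality -/

include hG in
theorem cpv_conj_mem {x : ℂ} (hx : x ∈ Metric.ball C.x₀ ρ) :
    (starRingEnd ℂ) x ∈ Metric.ball C.x₀ ρ := by
  have h0 : (starRingEnd ℂ) C.x₀ = C.x₀ := Complex.conj_eq_iff_im.mpr hG.x₀_real
  rw [Metric.mem_ball] at hx ⊢
  rw [← h0, Complex.dist_conj_conj]
  exact hx

include hG in
theorem cpv_iter_conj (l : ℕ) : ∀ x ∈ Metric.ball C.x₀ ρ,
    iteratedDeriv l C.h ((starRingEnd ℂ) x) = (starRingEnd ℂ) (iteratedDeriv l C.h x) := by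
  induction l with
  | zero =>
    intro x hx
    simpa using hG.h_conj x hx
  | succ l ih =>
    intro x hx
    simp only [iteratedDeriv_succ]
    have hx' := cpv_conj_mem hG hx
    have he : iteratedDeriv l C.h =ᶠ[𝓝 ((starRingEnd ℂ) x)]
        (starRingEnd ℂ) ∘ iteratedDeriv l C.h ∘ (starRingEnd ℂ) := by
      filter_upwards [Metric.isOpen_ball.mem_nhds hx'] with y hy
      simp only [Function.comp_apply]
      rw [ih y hy, Complex.conj_conj]
    rw [he.deriv_eq, deriv_conj_conj]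
    simp

include hG in
theorem cpv_conj_dd {w : ℂ × ℂ} (hw : w ∈ C.bd η₀) (i : ℕ) (hi : i ≤ n) :
    C.dd i ((starRingEnd ℂ) w.1, (starRingEnd ℂ) w.2) = (starRingEnd ℂ) (C.dd i w) := by
  unfold dd
  rw [hG.al_conj (i + 1) (by omega) w hw, hG.al_conj i (by omega) w hw]
  rw [map_div₀, map_sub, map_ofNat]

include hG in
theorem cpv_conj_ps {w : ℂ × ℂ} (hw : w ∈ C.bd η₀) (i : ℕ) (hi : i ≤ n) :
    C.ps i ((starRingEnd ℂ) w.1, (starRingEnd ℂ) w.2) = (starRingEnd ℂ) (C.ps i w) := by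
  unfold ps
  rw [hG.al_conj (i + 1) (by omega) w hw, hG.al_conj i (by omega) w hw]
  rw [map_div₀, map_add, map_ofNat]

include hG in
theorem cpv_isRe_sd {r : ℝ × ℝ} (hz : rp r ∈ C.bd η₀) (i : ℕ) (hi : i ≤ n) :
    IsRe (ztay (rp r) (C.sd i)) := by
  refine isRe_ztay (by simp [rp]) (by simp [rp]) (an_sd hG hz i hi) ?_
  filter_upwards [(C.bd_isOpen η₀).mem_nhds hz] with w hw
  unfold sd
  rw [cpv_conj_dd hG hw i hi, Complex.sin_conj]

include hG in
theorem cpv_isRe_cd {r : ℝ × ℝ} (hz : rp r ∈ C.bd η₀) (i : ℕ) (hi : i ≤ n) :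
    IsRe (ztay (rp r) (C.cd i)) := by
  refine isRe_ztay (by simp [rp]) (by simp [rp]) (an_cd hG hz i hi) ?_
  filter_upwards [(C.bd_isOpen η₀).mem_nhds hz] with w hw
  unfold cd
  rw [cpv_conj_dd hG hw i hi, Complex.cos_conj]

include hG in
theorem cpv_isRe_Hh {r : ℝ × ℝ} (hz : rp r ∈ C.bd η₀) (i : ℕ) (hi : i ≤ n) (l : ℕ) :
    IsRe (ztay (rp r) (C.Hh i l)) := by
  refine isRe_ztay (by simp [rp]) (by simp [rp]) (an_Hh hG hz i hi l) ?_
  filter_upwards [(C.bd_isOpen η₀).mem_nhds hz] with w hw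
  unfold Hh
  rw [cpv_conj_ps hG hw i hi, cpv_iter_conj hG l _ (hG.ps_mem i hi w hw)]

theorem isRe_FP {r : ℝ × ℝ} (hz : rp r ∈ C.bd η₀) {δ : Dv ℝ} (hE : C.EndKilledP (rp r) δ.cx) (i : ℕ) (hi : i ≤ n) (m : ℕ) :
    IsRe ((C.varSysP hG hz hn hE).core.F i m) := by
  have z0 := Nat.zero_le n
  refine cpv_isRe_F _ (fun _ => isPS_ztay _ _) (fun _ => isPS_ztay _ _) (fun _ _ => isPS_ztay _ _)
    (fun _ h => h.DD δ.cx) (cpv_isPS_A0 hG hn hz hE) (fun i hi => cpv_isRe_sd hG hz i hi)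
    (fun i hi => cpv_isRe_cd hG hz i hi) (fun i hi l => cpv_isRe_Hh hG hz i hi l)
    (fun _ h => h.DD δ) ?_ i hi m
  exact ((IsRe.mul (isPS_ztay _ _) ((isPS_ztay _ _).DD δ.cx) (cpv_isRe_cd hG hz 0 z0)
    ((cpv_isRe_sd hG hz 0 z0).DD δ)).sub
    (IsRe.mul (isPS_ztay _ _) ((isPS_ztay _ _).DD δ.cx) (cpv_isRe_sd hG hz 0 z0)
    ((cpv_isRe_cd hG hz 0 z0).DD δ))).neg

/-! ### the tridiagonal sum -/

omit hG hn in
theorem cpv_tridiag {R : Type*} [CommRing R] (m a : ℕ) (ha : a < m) (d : R) (X L : ℕ → R) :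
    ∑ b ∈ Finset.range m,
      (if a = b then d else if a + 1 = b then L b else if b + 1 = a then L a else 0) * X (b + 1)
    = d * X (a + 1) + (if a + 1 < m then L (a + 1) * X (a + 2) else 0)
      + (if 0 < a then L a * X a else 0) := by
  have h : ∀ b ∈ Finset.range m,
      (if a = b then d else if a + 1 = b then L b else if b + 1 = a then L a else 0) * X (b + 1)
      = (if a = b then d * X (b + 1) else 0) + (if a + 1 = b then L b * X (b + 1) else 0)
        + (if a - 1 = b then (if 0 < a then L a * X a else 0) else 0) := by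
    intro b _
    by_cases h1 : a = b
    · subst h1
      have h2 : ¬ (a + 1 = a) := by omega
      by_cases h3 : 0 < a
      · have h4 : ¬ (a - 1 = a) := by omega
        simp [h4]
      · simp [h3]
    · by_cases h2 : a + 1 = b
      · subst h2
        have h4 : ¬ (a - 1 = a + 1) := by omega
        simp [h4]
      · by_cases h3 : b + 1 = a
        · subst h3
          simp [h2]
        · have h4 : ¬ (a - 1 = b ∧ 0 < a) := by omega
          by_cases h5 : a - 1 = b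
          · have h6 : ¬ 0 < a := fun h => h4 ⟨h5, h⟩
            simp [h1, h2, h3, h6]
          · simp [h1, h2, h3, h5]
  rw [Finset.sum_congr rfl h, Finset.sum_add_distrib, Finset.sum_add_distrib, Finset.sum_ite_eq,
    Finset.sum_ite_eq, Finset.sum_ite_eq]
  have m1 : a ∈ Finset.range m := Finset.mem_range.mpr ha
  have m3 : a - 1 ∈ Finset.range m := Finset.mem_range.mpr (by omega)
  rw [if_pos m1, if_pos m3]
  simp only [Finset.mem_range]

omit hG hn in
theorem cpv_final {R : Type*} [CommRing R] (m k : ℕ) (hk : k < m) (X Lf : ℕ → R) (d v : R)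
    (L : v + Lf k * X k + d * X (k + 1) + Lf (k + 1) * X (k + 2) = 0) (A0 : X 0 = -X 1)
    (A1 : X (m + 1) = -X m) :
    (d - ((if k = 0 then Lf 0 else 0) + (if k + 1 = m then Lf m else 0))) * X (k + 1)
      + (if k + 1 < m then Lf (k + 1) * X (k + 2) else 0) + (if 0 < k then Lf k * X k else 0)
    = -v := by
  by_cases h2 : k = 0 <;> by_cases h3 : k + 1 = m
  · subst h2
    subst h3
    rw [if_pos rfl, if_pos rfl, if_neg (lt_irrefl _), if_neg (lt_irrefl 0)]
    linear_combination L - Lf 0 * A0 - Lf (0 + 1) * A1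
  · subst h2
    have h4 : 0 + 1 < m := by omega
    rw [if_pos rfl, if_neg h3, if_pos h4, if_neg (lt_irrefl 0)]
    linear_combination L - Lf 0 * A0
  · subst h3
    have h5 : 0 < k := by omega
    rw [if_neg h2, if_pos rfl, if_neg (lt_irrefl _), if_pos h5]
    linear_combination L - Lf (k + 1) * A1
  · have h4 : k + 1 < m := by omega
    have h5 : 0 < k := by omega
    rw [if_neg h2, if_neg h3, if_pos h4, if_pos h5]
    linear_combination L

include hG in
theorem cpv_ztay_hlF {z : ℂ × ℂ} (hz : z ∈ C.bd η₀) (j : ℕ) (hj : j ≤ n) :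
    ztay z (C.hlF j) = (ztay z (C.Hh j 0) + ztay z (C.Hh j 2)) * ztay z (C.sd j) / 2 := by
  have h : C.hlF j = (C.Hh j 0 + C.Hh j 2) * C.sd j / 2 := rfl
  have h0 := an_Hh hG hz j hj 0
  have h2 := an_Hh hG hz j hj 2
  have hs := an_sd hG hz j hj
  rw [h, cpv_half ((h0.add h2).mul hs), cpv_mul (h0.add h2) hs, cpv_add h0 h2]

include hG in
theorem cpv_an_hdF {z : ℂ × ℂ} (hz : z ∈ C.bd η₀) (j : ℕ) (hj : j + 1 ≤ n) :
    AnalyticAt ℂ (C.hdF j) z := by
  have hj' : j ≤ n := by omega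
  exact (((an_Hh hG hz j hj' 1).mul (an_cd hG hz j hj')).add
    (cpv_an_half (((an_Hh hG hz j hj' 2).sub (an_Hh hG hz j hj' 0)).mul (an_sd hG hz j hj')))).add
    (((an_Hh hG hz (j + 1) hj 1).mul (an_cd hG hz (j + 1) hj)).neg.add
    (cpv_an_half (((an_Hh hG hz (j + 1) hj 2).sub (an_Hh hG hz (j + 1) hj 0)).mul
      (an_sd hG hz (j + 1) hj))))

include hG in
theorem cpv_ztay_hdF {z : ℂ × ℂ} (hz : z ∈ C.bd η₀) (j : ℕ) (hj : j + 1 ≤ n) :
    ztay z (C.hdF j) =
      (ztay z (C.Hh j 1) * ztay z (C.cd j)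
        + (ztay z (C.Hh j 2) - ztay z (C.Hh j 0)) * ztay z (C.sd j) / 2)
      + (-(ztay z (C.Hh (j + 1) 1) * ztay z (C.cd (j + 1)))
        + (ztay z (C.Hh (j + 1) 2) - ztay z (C.Hh (j + 1) 0)) * ztay z (C.sd (j + 1)) / 2) := by
  have hj' : j ≤ n := by omega
  have h : C.hdF j = (C.Hh j 1 * C.cd j + (C.Hh j 2 - C.Hh j 0) * C.sd j / 2)
      + (-(C.Hh (j + 1) 1 * C.cd (j + 1)) + (C.Hh (j + 1) 2 - C.Hh (j + 1) 0) * C.sd (j + 1) / 2) := rfl
  have a0 := an_Hh hG hz j hj' 0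
  have a1 := an_Hh hG hz j hj' 1
  have a2 := an_Hh hG hz j hj' 2
  have as := an_sd hG hz j hj'
  have ac := an_cd hG hz j hj'
  have b0 := an_Hh hG hz (j + 1) hj 0
  have b1 := an_Hh hG hz (j + 1) hj 1
  have b2 := an_Hh hG hz (j + 1) hj 2
  have bs := an_sd hG hz (j + 1) hj
  have bc := an_cd hG hz (j + 1) hj
  rw [h, cpv_add ((a1.mul ac).add (cpv_an_half ((a2.sub a0).mul as)))
      ((b1.mul bc).neg.add (cpv_an_half ((b2.sub b0).mul bs))),
    cpv_add (a1.mul ac) (cpv_an_half ((a2.sub a0).mul as)),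
    cpv_add (b1.mul bc).neg (cpv_an_half ((b2.sub b0).mul bs)),
    cpv_neg (b1.mul bc), cpv_half ((a2.sub a0).mul as), cpv_half ((b2.sub b0).mul bs),
    cpv_mul a1 ac, cpv_mul b1 bc, cpv_mul (a2.sub a0) as, cpv_mul (b2.sub b0) bs, cpv_sub a2 a0,
    cpv_sub b2 b0]

omit hG hn in
theorem cpv_ztay_ite (z : ℂ × ℂ) (p : Prop) [Decidable p] (u : ℂ × ℂ → ℂ) :
    ztay z (fun w => if p then u w else 0) = if p then ztay z u else 0 := by
  split_ifs
  · rfl
  · exact ztay_zero z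

include hG in
theorem cpv_ztay_cornP {z : ℂ × ℂ} (hz : z ∈ C.bd η₀) (a : Fin n) :
    ztay z (fun w => C.cornP w a) = (if (a : ℕ) = 0 then ztay z (C.hlF 0) else 0)
      + (if (a : ℕ) + 1 = n then ztay z (C.hlF n) else 0) := by
  have a1 : AnalyticAt ℂ (fun w => if (a : ℕ) = 0 then C.hlF 0 w else 0) z := by
    split_ifs
    · exact cpv_an_hlF hG hz 0 (Nat.zero_le n)
    · exact analyticAt_const
  have a2 : AnalyticAt ℂ (fun w => if (a : ℕ) + 1 = n then C.hlF n w else 0) z := by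
    split_ifs
    · exact cpv_an_hlF hG hz n le_rfl
    · exact analyticAt_const
  have h := ztay_add a1 a2
  rw [cpv_ztay_ite, cpv_ztay_ite] at h
  exact h

include hG in
theorem cpv_ztay_hessP {z : ℂ × ℂ} (hz : z ∈ C.bd η₀) (a b : Fin n) :
    ztay z (fun w => C.hessP w a b)
      = (if (a : ℕ) = b then ztay z (C.hdF a)
            - ((if (a : ℕ) = 0 then ztay z (C.hlF 0) else 0)
              + (if (a : ℕ) + 1 = n then ztay z (C.hlF n) else 0))
          else if (a : ℕ) + 1 = b then ztay z (C.hlF b)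
          else if (b : ℕ) + 1 = a then ztay z (C.hlF a) else 0) := by
  have ha := a.2
  have hb := b.2
  by_cases h1 : (a : ℕ) = b
  · have h1' : a = b := Fin.ext h1
    subst h1'
    rw [if_pos rfl]
    have e : (fun w => C.hessP w a a) = C.hdF a - (fun w => C.cornP w a) := by
      funext w
      simp [cpv_hessP_apply, hess]
    rw [e, cpv_sub (cpv_an_hdF hG hz a (by omega)) (cpv_an_cornP hG hz a), cpv_ztay_cornP hG hz a]
  · have h1' : a ≠ b := fun h => h1 (congrArg Fin.val h)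
    rw [if_neg h1]
    by_cases h2 : (a : ℕ) + 1 = b
    · rw [if_pos h2]
      congr 1
      funext w
      simp [cpv_hessP_apply, hess, h1', h2]
    · rw [if_neg h2]
      by_cases h3 : (b : ℕ) + 1 = a
      · rw [if_pos h3]
        congr 1
        funext w
        simp [cpv_hessP_apply, hess, h1', h2, h3]
      · rw [if_neg h3]
        have e : (fun w => C.hessP w a b) = fun _ => 0 := by
          funext w
          simp [cpv_hessP_apply, hess, h1', h2, h3]
        rw [e, ztay_zero]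

/-- linearised stationarity in matrix form. -/
theorem lin_stat_matrixP {z : ℂ × ℂ} (hz : z ∈ C.bd η₀) {δ : Dv ℂ} (hE : C.EndKilledP z δ) (a : Fin n) :
    ∑ b : Fin n, ztay z (fun w => C.hessP w a b) * (C.varSysP hG hz hn hE).core.A (b + 1)
      = -(C.varSysP hG hz hn hE).core.v a := by
  have ha := a.2
  simp only [cpv_ztay_hessP hG hz]
  rw [Fin.sum_univ_eq_sum_range (fun b : ℕ =>
    (if (a : ℕ) = b then ztay z (C.hdF a)
            - ((if (a : ℕ) = 0 then ztay z (C.hlF 0) else 0)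
              + (if (a : ℕ) + 1 = n then ztay z (C.hlF n) else 0))
          else if (a : ℕ) + 1 = b then ztay z (C.hlF b)
          else if b + 1 = (a : ℕ) then ztay z (C.hlF a) else 0)
      * (C.varSysP hG hz hn hE).core.A (b + 1)) n,
    cpv_tridiag n a ha _ (fun j => (C.varSysP hG hz hn hE).core.A j) (fun j => ztay z (C.hlF j))]
  have L := (C.varSysP hG hz hn hE).core.lin_stat a ha
  have hl1 : (C.varSysP hG hz hn hE).core.hl a = ztay z (C.hlF a) :=
    (cpv_ztay_hlF hG hz a (by omega)).symm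
  have hl2 : (C.varSysP hG hz hn hE).core.hl (a + 1) = ztay z (C.hlF (a + 1)) :=
    (cpv_ztay_hlF hG hz (a + 1) (by omega)).symm
  have hd1 : (C.varSysP hG hz hn hE).core.hd a = ztay z (C.hdF a) :=
    (cpv_ztay_hdF hG hz a (by omega)).symm
  rw [hl1, hl2, hd1] at L
  exact cpv_final n a ha (fun j => (C.varSysP hG hz hn hE).core.A j) (fun j => ztay z (C.hlF j)) _ _ L
    (C.varSysP hG hz hn hE).A_zero (C.varSysP hG hz hn hE).A_last

end props

end CChain

end Claimed.Agent.R269
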