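/-
Row 269, P1 Section 4, unit 4E (ALG2, formal part): THE EVENNESS LEMMA.   Statements: helper36.   HOST-FREE.

Setting: `k((τ))`, `t = τ^e`; `A = E0(τ^e)`, `B = P0(τ^e)` the line `L_0`; a point `Z = (Zc, W)` on `L_0`
(`Zc + A W = 2 B`) of rank one (`∂_y Zc ∂_τ W - ∂_τ Zc ∂_y W = 0`).  Then `W` solves the first order PDE

      Rop A B W := (2 ∂_y B - W ∂_y A) ∂_τ W - (2 ∂_τ B - W ∂_τ A) ∂_y W = 0 .

All proofs are LEADING TERM arguments (`Lau.ne_zero_of_orderTop_lt`, `Lau.order_dt`, `HahnSeries.order_mul`, ...):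
 * `ord_nonneg`        : a pole `W = ω τ^{-n} + ..` gives the single lowest term `n ω² (A⁰)' τ^{-2n-1}`.
 * `unique_transverse` : `Δ = W - W' = D τ^m + ..`; `Rop_sub` has the single lowest term `T m D τ^{m-1}`.
 * `tangent_dichotomy` : `Δ = D τ^n + ..`; the terms of `Rop_sub` have orders `e+n-1` (coefficient
                         `-(n+e) w₁ (A⁰)' D`), `2n-1` (coefficient `-n (A⁰)' D²`) and `≥ 2e-1+n`;
                         so `n = e` and `D = -2 w₁`.
The `sorry`s are replaced IN PLACE by the owner of the package (table subtask, target row269, LF-S4-Even-a).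
-/
import Claimed.Agent.R269.S4.Fgl

set_option autoImplicit false

namespace Claimed.Agent.R269.Evn

open HahnSeries Lau

variable {k : Type*} [Field k] [CharZero k] (d : Dv k)

/-- the rank-one operator. -/
noncomputable def Rop (A B W : LaurentSeries k) : LaurentSeries k :=
  (2 * dy d B - W * dy d A) * dt W - (2 * dt B - W * dt A) * dy d W

omit [CharZero k] in
theorem evn_two_mul (δ : Dv (LaurentSeries k)) (x : LaurentSeries k) : δ (2 * x) = 2 * δ x := by
  rw [two_mul, map_add, two_mul]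

theorem Rop_of_rank (A B W Zc : LaurentSeries k) (hinc : Zc + A * W = 2 * B)
    (hrank : dy d Zc * dt W - dt Zc * dy d W = 0) : Rop d A B W = 0 := by
  have hZ : Zc = 2 * B - A * W := by linear_combination hinc
  rw [hZ, map_sub, map_sub, evn_two_mul, evn_two_mul, (dy d).leibniz, dt.leibniz] at hrank
  rw [Rop]
  linear_combination hrank

theorem Rop_sub (A B W W' : LaurentSeries k) :
    Rop d A B W - Rop d A B W' =
      (2 * dy d B - W * dy d A) * dt (W - W') - (2 * dt B - W * dt A) * dy d (W - W')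
        - (W - W') * (dy d A * dt W' - dt A * dy d W') := by
  rw [Rop, Rop, map_sub, map_sub]
  ring

/-- `Rop (W(ζτ)) = ζ (Rop W)(ζτ)` if `A`, `B` are invariant. -/
theorem Rop_rot (ζ : kˣ) (hdζ : d (ζ : k) = 0) (A B W : LaurentSeries k) (hA : rot ζ A = A)
    (hB : rot ζ B = B) : Rop d A B (rot ζ W) = HahnSeries.C (ζ : k) * rot ζ (Rop d A B W) := by
  have h1 : dt A = HahnSeries.C (ζ : k) * rot ζ (dt A) := by rw [← dt_rot, hA]
  have h2 : dt B = HahnSeries.C (ζ : k) * rot ζ (dt B) := by rw [← dt_rot, hB]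
  have h3 : rot ζ (dy d A) = dy d A := by rw [rot_dy d ζ hdζ, hA]
  have h4 : rot ζ (dy d B) = dy d B := by rw [rot_dy d ζ hdζ, hB]
  rw [Rop, Rop, map_sub, map_mul, map_mul, map_sub, map_sub, map_mul, map_mul, map_mul, map_mul,
    map_ofNat, h3, h4, dt_rot, ← rot_dy d ζ hdζ W]
  linear_combination (-2 * rot ζ (dy d W)) * h2 + (rot ζ W * rot ζ (dy d W)) * h1

/-- chain rule: `Rop` commutes with `t = τ^e` up to the factor `e τ^{e-1}`. -/
theorem Rop_pw (e : ℕ) (he : 0 < e) (A B W : LaurentSeries k) :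
    Rop d (pw e he A) (pw e he B) (pw e he W) =
      single ((e : ℤ) - 1) (e : k) * pw e he (Rop d A B W) := by
  rw [Rop, Rop, map_sub, map_mul, map_mul, map_sub, map_sub, map_mul, map_mul, map_mul, map_mul,
    map_ofNat, dt_pw, dt_pw, dt_pw, dy_pw, dy_pw, dy_pw]
  ring

/-! ### lowest coefficients -/

omit [CharZero k] in
theorem evn_mul_lo (F G : LaurentSeries k) (a b : ℤ) (ha : ∀ i < a, F.coeff i = 0)
    (hb : ∀ j < b, G.coeff j = 0) : ∀ n < a + b, (F * G).coeff n = 0 := by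
  intro n hn
  rw [lau_coeff_mul F G a b ha hb, Finset.Icc_eq_empty (by omega), Finset.sum_empty]

omit [CharZero k] in
theorem evn_mul_coeff (F G : LaurentSeries k) (a b : ℤ) (ha : ∀ i < a, F.coeff i = 0)
    (hb : ∀ j < b, G.coeff j = 0) : (F * G).coeff (a + b) = F.coeff a * G.coeff b := by
  rw [lau_coeff_mul F G a b ha hb, add_sub_cancel_right, Finset.Icc_self, Finset.sum_singleton,
    add_sub_cancel_left]

omit [CharZero k] in
theorem evn_dt_lo (F : LaurentSeries k) (a : ℤ) (ha : ∀ i < a, F.coeff i = 0) :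
    ∀ i < a - 1, (dt F).coeff i = 0 := by
  intro i hi
  rw [dt_coeff, ha _ (by omega), mul_zero]

omit [CharZero k] in
theorem evn_dt_coeff (F : LaurentSeries k) (a : ℤ) : (dt F).coeff (a - 1) = (a : k) * F.coeff a := by
  rw [dt_coeff, sub_add_cancel]
  push_cast
  ring

omit [CharZero k] in
theorem evn_dt_lo_zero (F : LaurentSeries k) (ha : ∀ i < 0, F.coeff i = 0) :
    ∀ i < 0, (dt F).coeff i = 0 := by
  intro i hi
  rw [dt_coeff]
  by_cases h : i = -1
  · subst h
    simp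
  · rw [ha _ (by omega), mul_zero]

omit [CharZero k] in
theorem evn_dy_lo (F : LaurentSeries k) (a : ℤ) (ha : ∀ i < a, F.coeff i = 0) :
    ∀ i < a, (dy d F).coeff i = 0 := by
  intro i hi
  rw [dy_coeff, ha _ hi, map_zero]

omit [CharZero k] in
theorem evn_two_mul_coeff (F : LaurentSeries k) (n : ℤ) : (2 * F).coeff n = 2 * F.coeff n := by
  rw [two_mul, HahnSeries.coeff_add, two_mul]

omit [CharZero k] in
theorem evn_lo_mono (F : LaurentSeries k) {a b : ℤ} (hab : b ≤ a) (ha : ∀ i < a, F.coeff i = 0) :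
    ∀ i < b, F.coeff i = 0 := fun i hi => ha i (by omega)

/-- no pole along `τ = 0`. -/
theorem ord_nonneg (A B W : LaurentSeries k) (hA : 0 ≤ A.orderTop) (hB : 0 ≤ B.orderTop)
    (hA0 : d (A.coeff 0) ≠ 0) (h : Rop d A B W = 0) : 0 ≤ W.orderTop := by
  by_contra hneg
  have hW0 : W ≠ 0 := by
    rintro rfl
    exact hneg (by rw [HahnSeries.orderTop_zero]; exact le_top)
  obtain ⟨m, hm⟩ : ∃ m, m = W.order := ⟨_, rfl⟩
  have hm0 : m < 0 := by
    rw [← HahnSeries.order_eq_orderTop_of_ne_zero hW0, ← hm, not_le] at hneg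
    exact_mod_cast hneg
  have hWlo : ∀ i < m, W.coeff i = 0 := hm ▸ lau_coeff_lt_order W
  have hω : W.coeff m ≠ 0 := by
    rw [hm]
    exact fun h => hW0 (HahnSeries.coeff_order_eq_zero.1 h)
  have hAlo := lau_coeff_of_orderTop_nonneg A hA
  have hBlo := lau_coeff_of_orderTop_nonneg B hB
  -- the first factor
  have hF1lo : ∀ i < m, (2 * dy d B - W * dy d A).coeff i = 0 := by
    intro i hi
    rw [HahnSeries.coeff_sub, evn_two_mul_coeff, evn_dy_lo d B 0 hBlo i (by omega),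
      evn_mul_lo W (dy d A) m 0 hWlo (evn_dy_lo d A 0 hAlo) i (by omega)]
    simp
  have hF1 : (2 * dy d B - W * dy d A).coeff m = -(W.coeff m * d (A.coeff 0)) := by
    have h1 := evn_mul_coeff W (dy d A) m 0 hWlo (evn_dy_lo d A 0 hAlo)
    rw [add_zero] at h1
    rw [HahnSeries.coeff_sub, evn_two_mul_coeff, evn_dy_lo d B 0 hBlo m hm0, h1, dy_coeff]
    simp
  have hF2lo : ∀ i < m, (2 * dt B - W * dt A).coeff i = 0 := by
    intro i hi
    rw [HahnSeries.coeff_sub, evn_two_mul_coeff, evn_dt_lo_zero B hBlo i (by omega),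
      evn_mul_lo W (dt A) m 0 hWlo (evn_dt_lo_zero A hAlo) i (by omega)]
    simp
  have hc := congrArg (fun G : LaurentSeries k => G.coeff (m + (m - 1))) h
  simp only [Rop, HahnSeries.coeff_sub, HahnSeries.coeff_zero] at hc
  rw [evn_mul_coeff _ _ m (m - 1) hF1lo (evn_dt_lo W m hWlo), hF1, evn_dt_coeff,
    evn_mul_lo _ _ m m hF2lo (evn_dy_lo d W m hWlo) _ (by omega), sub_zero] at hc
  have hmk : (m : k) ≠ 0 := by exact_mod_cast hm0.ne
  have : -(W.coeff m * d (A.coeff 0)) * ((m : k) * W.coeff m) ≠ 0 :=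
    mul_ne_zero (neg_ne_zero.2 (mul_ne_zero hω hA0)) (mul_ne_zero hmk hω)
  exact this hc

/-- transverse case: uniqueness for the noncharacteristic Cauchy problem. -/
theorem unique_transverse (A B W W' : LaurentSeries k) (hA : 0 ≤ A.orderTop) (hB : 0 ≤ B.orderTop)
    (hW : 0 ≤ W.orderTop) (hW' : 0 ≤ W'.orderTop) (h0 : W.coeff 0 = W'.coeff 0)
    (hT : 2 * d (B.coeff 0) - W.coeff 0 * d (A.coeff 0) ≠ 0)
    (h : Rop d A B W = 0) (h' : Rop d A B W' = 0) : W = W' := by
  by_contra hne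
  have hΔ0 : W - W' ≠ 0 := sub_ne_zero.2 hne
  obtain ⟨m, hm⟩ : ∃ m, m = (W - W').order := ⟨_, rfl⟩
  have hΔlo : ∀ i < m, (W - W').coeff i = 0 := hm ▸ lau_coeff_lt_order (W - W')
  have hD : (W - W').coeff m ≠ 0 := by
    rw [hm]
    exact fun h => hΔ0 (HahnSeries.coeff_order_eq_zero.1 h)
  have hAlo := lau_coeff_of_orderTop_nonneg A hA
  have hBlo := lau_coeff_of_orderTop_nonneg B hB
  have hWlo := lau_coeff_of_orderTop_nonneg W hW
  have hW'lo := lau_coeff_of_orderTop_nonneg W' hW'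
  have hm1 : 1 ≤ m := by
    by_contra hlt
    apply hD
    rw [HahnSeries.coeff_sub]
    rcases lt_or_eq_of_le (show m ≤ 0 by omega) with h1 | h1
    · rw [hWlo m h1, hW'lo m h1, sub_zero]
    · rw [h1, h0, sub_self]
  have hF1lo : ∀ i < 0, (2 * dy d B - W * dy d A).coeff i = 0 := by
    intro i hi
    rw [HahnSeries.coeff_sub, evn_two_mul_coeff, evn_dy_lo d B 0 hBlo i hi,
      evn_mul_lo W (dy d A) 0 0 hWlo (evn_dy_lo d A 0 hAlo) i (by omega)]
    simp
  have hF1 : (2 * dy d B - W * dy d A).coeff 0 = 2 * d (B.coeff 0) - W.coeff 0 * d (A.coeff 0) := by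
    have h1 := evn_mul_coeff W (dy d A) 0 0 hWlo (evn_dy_lo d A 0 hAlo)
    rw [add_zero] at h1
    rw [HahnSeries.coeff_sub, evn_two_mul_coeff, h1, dy_coeff, dy_coeff]
  have hF2lo : ∀ i < 0, (2 * dt B - W * dt A).coeff i = 0 := by
    intro i hi
    rw [HahnSeries.coeff_sub, evn_two_mul_coeff, evn_dt_lo_zero B hBlo i hi,
      evn_mul_lo W (dt A) 0 0 hWlo (evn_dt_lo_zero A hAlo) i (by omega)]
    simp
  have hF3lo : ∀ i < 0, (dy d A * dt W' - dt A * dy d W').coeff i = 0 := by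
    intro i hi
    rw [HahnSeries.coeff_sub,
      evn_mul_lo _ _ 0 0 (evn_dy_lo d A 0 hAlo) (evn_dt_lo_zero W' hW'lo) i (by omega),
      evn_mul_lo _ _ 0 0 (evn_dt_lo_zero A hAlo) (evn_dy_lo d W' 0 hW'lo) i (by omega), sub_zero]
  have hs := Rop_sub d A B W W'
  rw [h, h', sub_zero] at hs
  have hc := congrArg (fun G : LaurentSeries k => G.coeff (0 + (m - 1))) hs
  simp only [HahnSeries.coeff_sub, HahnSeries.coeff_zero] at hc
  rw [evn_mul_coeff _ _ 0 (m - 1) hF1lo (evn_dt_lo _ m hΔlo), hF1, evn_dt_coeff,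
    evn_mul_lo _ _ 0 m hF2lo (evn_dy_lo d _ m hΔlo) _ (by omega),
    evn_mul_lo _ _ m 0 hΔlo hF3lo _ (by omega), sub_zero, sub_zero] at hc
  have hmk : (m : k) ≠ 0 := by
    have : m ≠ 0 := by omega
    exact_mod_cast this
  exact mul_ne_zero hT (mul_ne_zero hmk hD) hc.symm

end Claimed.Agent.R269.Evn
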