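/-
Row 269, P1 Section 4, unit 4E: evenness lemma, tangent dichotomy (see the header of EvenA.lean for the plan).  Statements: helper36.
The `sorry` is replaced IN PLACE by the owner of the package (table subtask, target row269, LF-S4-Even-b).
-/
import Claimed.Agent.R269.S4.EvenA

set_option autoImplicit false

namespace Claimed.Agent.R269.Evn

open HahnSeries Lau

variable {k : Type*} [Field k] [CharZero k] (d : Dv k)

omit [CharZero k] in
theorem evnb_mul_coeff (F G : LaurentSeries k) (a b : ℤ) (ha : ∀ i < a, F.coeff i = 0)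
    (hb : ∀ j < b, G.coeff j = 0) (N : ℤ) (hN : N = a + b) :
    (F * G).coeff N = F.coeff a * G.coeff b := by
  rw [hN]
  exact evn_mul_coeff F G a b ha hb

/-- if `ord ∂_τ F ≥ c` then the coefficients `F_j`, `0 < j ≤ c`, vanish. -/
theorem evnb_mid (F : LaurentSeries k) (c : ℤ) (hF : ∀ i < c, (dt F).coeff i = 0) (j : ℤ) (h0 : 0 < j)
    (hj : j ≤ c) : F.coeff j = 0 := by
  have h1 := evn_dt_coeff F j
  rw [hF _ (by omega)] at h1
  have hjk : (j : k) ≠ 0 := by exact_mod_cast h0.ne'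
  exact (mul_eq_zero.1 h1.symm).resolve_left hjk

/-- tangent case: comparison with a known solution `W' = W⁰ + w₁ τ^e + ..`. -/
theorem tangent_dichotomy (e : ℕ) (he : 0 < e) (A B W W' : LaurentSeries k) (w₁ : k)
    (hA : 0 ≤ A.orderTop) (hB : 0 ≤ B.orderTop) (hA0 : d (A.coeff 0) ≠ 0)
    (hAt : ((2 * (e : ℤ) - 1 : ℤ) : WithTop ℤ) ≤ (dt A).orderTop)
    (hBt : ((2 * (e : ℤ) - 1 : ℤ) : WithTop ℤ) ≤ (dt B).orderTop)
    (hW : 0 ≤ W.orderTop) (hW' : 0 ≤ W'.orderTop) (h0 : W.coeff 0 = W'.coeff 0)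
    (hT : 2 * d (B.coeff 0) - W'.coeff 0 * d (A.coeff 0) = 0)
    (hmid : ∀ n : ℤ, 0 < n → n < e → W'.coeff n = 0) (hW'e : W'.coeff e = w₁) (hw₁ : w₁ ≠ 0)
    (h : Rop d A B W = 0) (h' : Rop d A B W' = 0) :
    W = W' ∨ ((∀ n : ℤ, n < e → (W - W').coeff n = 0) ∧ (W - W').coeff e = -2 * w₁) := by
  by_cases hne : W = W'
  · exact Or.inl hne
  right
  have he' : (0 : ℤ) < e := by exact_mod_cast he
  have hΔ0 : W - W' ≠ 0 := sub_ne_zero.2 hne
  obtain ⟨Δ, hΔ⟩ : ∃ Δ, Δ = W - W' := ⟨_, rfl⟩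
  rw [← hΔ] at hΔ0 ⊢
  obtain ⟨n, hn⟩ : ∃ n, n = Δ.order := ⟨_, rfl⟩
  have hΔlo : ∀ i < n, Δ.coeff i = 0 := hn ▸ lau_coeff_lt_order Δ
  have hD : Δ.coeff n ≠ 0 := by
    rw [hn]
    exact fun h => hΔ0 (HahnSeries.coeff_order_eq_zero.1 h)
  have hAlo := lau_coeff_of_orderTop_nonneg A hA
  have hBlo := lau_coeff_of_orderTop_nonneg B hB
  have hWlo := lau_coeff_of_orderTop_nonneg W hW
  have hW'lo := lau_coeff_of_orderTop_nonneg W' hW'
  have hn1 : 1 ≤ n := by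
    by_contra hlt
    apply hD
    rw [hΔ, HahnSeries.coeff_sub]
    rcases lt_or_eq_of_le (show n ≤ 0 by omega) with h1 | h1
    · rw [hWlo n h1, hW'lo n h1, sub_zero]
    · rw [h1, h0, sub_self]
  have hdtA : ∀ i < 2 * (e : ℤ) - 1, (dt A).coeff i = 0 := fun i hi =>
    HahnSeries.coeff_eq_zero_of_lt_orderTop (lt_of_lt_of_le (by exact_mod_cast hi) hAt)
  have hdtB : ∀ i < 2 * (e : ℤ) - 1, (dt B).coeff i = 0 := fun i hi =>
    HahnSeries.coeff_eq_zero_of_lt_orderTop (lt_of_lt_of_le (by exact_mod_cast hi) hBt)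
  have hAmid : ∀ j : ℤ, 0 < j → j ≤ 2 * (e : ℤ) - 1 → A.coeff j = 0 := evnb_mid A _ hdtA
  have hBmid : ∀ j : ℤ, 0 < j → j ≤ 2 * (e : ℤ) - 1 → B.coeff j = 0 := evnb_mid B _ hdtB
  have hdyAlo := evn_dy_lo d A 0 hAlo
  -- `G1 = 2 ∂_y B - W' ∂_y A`
  have hG1lo : ∀ i < (e : ℤ), (2 * dy d B - W' * dy d A).coeff i = 0 := by
    intro i hi
    rw [HahnSeries.coeff_sub, evn_two_mul_coeff, dy_coeff]
    rcases lt_trichotomy i 0 with h1 | h1 | h1
    · rw [hBlo i h1, evn_mul_lo W' (dy d A) 0 0 hW'lo hdyAlo i (by omega)]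
      simp
    · rw [h1, evnb_mul_coeff W' (dy d A) 0 0 hW'lo hdyAlo 0 (by norm_num), dy_coeff]
      exact hT
    · rw [hBmid i h1 (by omega), lau_coeff_mul W' (dy d A) 0 0 hW'lo hdyAlo, Finset.sum_eq_zero]
      · simp
      · intro j hj
        rw [Finset.mem_Icc] at hj
        rcases eq_or_lt_of_le hj.1 with h2 | h2
        · rw [← h2, dy_coeff, sub_zero, hAmid i h1 (by omega), map_zero, mul_zero]
        · rw [hmid j h2 (by omega), zero_mul]
  have hG1 : (2 * dy d B - W' * dy d A).coeff e = -(w₁ * d (A.coeff 0)) := by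
    rw [HahnSeries.coeff_sub, evn_two_mul_coeff, dy_coeff, hBmid e he' (by omega),
      lau_coeff_mul W' (dy d A) 0 0 hW'lo hdyAlo, Finset.sum_eq_single (e : ℤ)]
    · rw [hW'e, dy_coeff, sub_self]
      simp
    · intro j hj hje
      rw [Finset.mem_Icc] at hj
      rcases eq_or_lt_of_le hj.1 with h2 | h2
      · rw [← h2, dy_coeff, sub_zero, hAmid e he' (by omega), map_zero, mul_zero]
      · rw [hmid j h2 (by omega), zero_mul]
    · intro hj
      exact absurd (Finset.mem_Icc.2 ⟨he'.le, by omega⟩) hj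
  have hdtW'lo : ∀ i < (e : ℤ) - 1, (dt W').coeff i = 0 := by
    intro i hi
    rw [dt_coeff]
    rcases lt_trichotomy (i + 1) 0 with h1 | h1 | h1
    · rw [hW'lo _ h1, mul_zero]
    · have : (i : k) + 1 = 0 := by exact_mod_cast h1
      rw [this, zero_mul]
    · rw [hmid _ h1 (by omega), mul_zero]
  have hdtW' : (dt W').coeff ((e : ℤ) - 1) = (e : k) * w₁ := by
    rw [evn_dt_coeff, hW'e]
    simp
  have hF2lo : ∀ i < 2 * (e : ℤ) - 1, (2 * dt B - W * dt A).coeff i = 0 := by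
    intro i hi
    rw [HahnSeries.coeff_sub, evn_two_mul_coeff, hdtB i hi,
      evn_mul_lo W (dt A) 0 _ hWlo hdtA i (by omega)]
    simp
  have hdtΔlo := evn_dt_lo Δ n hΔlo
  have hdtΔ := evn_dt_coeff Δ n
  have hdyΔlo := evn_dy_lo d Δ n hΔlo
  -- the five terms
  have hΔA_lo := evn_mul_lo Δ (dy d A) n 0 hΔlo hdyAlo
  have hΔA := evn_mul_coeff Δ (dy d A) n 0 hΔlo hdyAlo
  have hAW_lo := evn_mul_lo (dy d A) (dt W') 0 _ hdyAlo hdtW'lo
  have hAW := evn_mul_coeff (dy d A) (dt W') 0 _ hdyAlo hdtW'lo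
  have hAW2_lo := evn_mul_lo (dt A) (dy d W') _ 0 hdtA (evn_dy_lo d W' 0 hW'lo)
  have hs := Rop_sub d A B W W'
  rw [h, h', sub_zero, ← hΔ] at hs
  have hWeq : W = W' + Δ := by rw [hΔ]; ring
  have hs2 : (0 : LaurentSeries k) = (2 * dy d B - W' * dy d A) * dt Δ - (Δ * dy d A) * dt Δ
      - (2 * dt B - W * dt A) * dy d Δ - Δ * (dy d A * dt W') + Δ * (dt A * dy d W') := by
    rw [hs]
    have : 2 * dy d B - W * dy d A = (2 * dy d B - W' * dy d A) - Δ * dy d A := by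
      rw [hWeq]
      ring
    rw [this]
    ring
  have hc : ∀ N : ℤ, (0 : k) = ((2 * dy d B - W' * dy d A) * dt Δ).coeff N
      - ((Δ * dy d A) * dt Δ).coeff N - ((2 * dt B - W * dt A) * dy d Δ).coeff N
      - (Δ * (dy d A * dt W')).coeff N + (Δ * (dt A * dy d W')).coeff N := by
    intro N
    have := congrArg (fun G : LaurentSeries k => G.coeff N) hs2
    simpa only [HahnSeries.coeff_sub, HahnSeries.coeff_add, HahnSeries.coeff_zero] using this
  have hnk : (n : k) ≠ 0 := by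
    have : n ≠ 0 := by omega
    exact_mod_cast this
  have hek : (e : k) ≠ 0 := by exact_mod_cast he.ne'
  rcases lt_trichotomy n e with hlt | heq | hgt
  · exfalso
    have h1 := hc ((n + 0) + (n - 1))
    rw [evn_mul_lo _ _ _ _ hG1lo hdtΔlo _ (by omega), evn_mul_coeff _ _ _ _ hΔA_lo hdtΔlo,
      evn_mul_lo _ _ _ _ hF2lo hdyΔlo _ (by omega), evn_mul_lo _ _ _ _ hΔlo hAW_lo _ (by omega),
      evn_mul_lo _ _ _ _ hΔlo hAW2_lo _ (by omega), hΔA, hdtΔ, dy_coeff] at h1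
    have h2 : Δ.coeff n * d (A.coeff 0) * ((n : k) * Δ.coeff n) ≠ 0 :=
      mul_ne_zero (mul_ne_zero hD hA0) (mul_ne_zero hnk hD)
    apply h2
    linear_combination h1
  · refine ⟨fun i hi => hΔlo i (by omega), ?_⟩
    have h1 := hc ((e : ℤ) + (n - 1))
    rw [evn_mul_coeff _ _ _ _ hG1lo hdtΔlo,
      evnb_mul_coeff _ _ _ _ hΔA_lo hdtΔlo _ (by omega),
      evn_mul_lo _ _ _ _ hF2lo hdyΔlo _ (by omega),
      evnb_mul_coeff _ _ _ _ hΔlo hAW_lo _ (by omega),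
      evn_mul_lo _ _ _ _ hΔlo hAW2_lo _ (by omega), hΔA, hAW, hdtΔ, hG1, hdtW', dy_coeff] at h1
    rw [heq] at h1 hD
    have h2 : (e : k) * d (A.coeff 0) * Δ.coeff e * (Δ.coeff e + 2 * w₁) = 0 := by
      push_cast at h1
      linear_combination h1
    have h3 := (mul_eq_zero.1 h2).resolve_left (mul_ne_zero (mul_ne_zero hek hA0) hD)
    linear_combination h3
  · exfalso
    have h1 := hc ((e : ℤ) + (n - 1))
    rw [evn_mul_coeff _ _ _ _ hG1lo hdtΔlo,
      evn_mul_lo _ _ _ _ hΔA_lo hdtΔlo _ (by omega),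
      evn_mul_lo _ _ _ _ hF2lo hdyΔlo _ (by omega),
      evnb_mul_coeff _ _ _ _ hΔlo hAW_lo _ (by omega),
      evn_mul_lo _ _ _ _ hΔlo hAW2_lo _ (by omega), hAW, hdtΔ, hG1, hdtW', dy_coeff] at h1
    have hne2 : ((n : k) + (e : k)) ≠ 0 := by
      have : n + (e : ℤ) ≠ 0 := by omega
      exact_mod_cast this
    have h2 : ((n : k) + (e : k)) * (w₁ * d (A.coeff 0) * Δ.coeff n) ≠ 0 :=
      mul_ne_zero hne2 (mul_ne_zero (mul_ne_zero hw₁ hA0) hD)
    apply h2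
    linear_combination h1

end Claimed.Agent.R269.Evn
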