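/-
Row 269, P1 Section 4, unit 4E: THE EVENNESS LEMMA for a formal glancing datum (plan: header of EvenA.lean and memo S4-1).  Statements: helper36.
PROVED (helper36) from the statements of Fgl, EvenA, EvenB, Lib/Lau: this file has nothing left open.
-/
import Claimed.Agent.R269.S4.EvenB

set_option autoImplicit false
set_option linter.unusedSectionVars false

namespace Claimed.Agent.R269.FGl

open HahnSeries Lau Evn

variable {k : Type*} [Field k] [CharZero k] (Φ : FGl k)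

theorem pw_le_orderTop (e : ℕ) (he : 0 < e) (F : LaurentSeries k) (n : ℤ) (h : (n : WithTop ℤ) ≤ F.orderTop) :
    (((e : ℤ) * n : ℤ) : WithTop ℤ) ≤ (pw e he F).orderTop := by
  rw [pw_orderTop]
  have he' : (0 : ℤ) ≤ e := by positivity
  cases hF : F.orderTop with
  | top => simp
  | coe m =>
    rw [hF] at h
    have hnm : n ≤ m := by exact_mod_cast h
    simp only [WithTop.map_coe]
    exact_mod_cast mul_le_mul_of_nonneg_left hnm he'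

theorem pw_nonneg (e : ℕ) (he : 0 < e) (F : LaurentSeries k) (h : 0 ≤ F.orderTop) : 0 ≤ (pw e he F).orderTop := by
  have := pw_le_orderTop e he F 0 (by exact_mod_cast h)
  simpa using this

theorem pw_coeff_zero (e : ℕ) (he : 0 < e) (F : LaurentSeries k) : (pw e he F).coeff 0 = F.coeff 0 := by
  have := pw_coeff_mul e he F 0
  simpa using this

theorem pw_coeff_e (e : ℕ) (he : 0 < e) (F : LaurentSeries k) : (pw e he F).coeff e = F.coeff 1 := by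
  have := pw_coeff_mul e he F 1
  simpa using this

theorem pw_coeff_mid (e : ℕ) (he : 0 < e) (F : LaurentSeries k) (n : ℤ) (h0 : 0 < n) (h1 : n < e) :
    (pw e he F).coeff n = 0 := by
  apply pw_coeff_of_not_dvd
  intro hd
  have := Int.le_of_dvd h0 hd
  omega

theorem dt_pw_orderTop (e : ℕ) (he : 0 < e) (F : LaurentSeries k) (h : 1 ≤ (dt F).orderTop) :
    ((2 * (e : ℤ) - 1 : ℤ) : WithTop ℤ) ≤ (dt (pw e he F)).orderTop := by
  rw [dt_pw]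
  have h1 : (((e : ℤ) * 1 : ℤ) : WithTop ℤ) ≤ (pw e he (dt F)).orderTop :=
    pw_le_orderTop e he (dt F) 1 (by exact_mod_cast h)
  have h2 : (((e : ℤ) - 1 : ℤ) : WithTop ℤ) ≤ (single ((e : ℤ) - 1) (e : k)).orderTop := orderTop_single_le
  refine le_trans ?_ orderTop_add_le_mul
  refine le_trans ?_ (add_le_add h2 h1)
  have : (2 * (e : ℤ) - 1 : ℤ) = ((e : ℤ) - 1) + (e : ℤ) * 1 := by ring
  rw [this]
  exact_mod_cast le_rfl

theorem rot_nonneg (ζ : kˣ) (F : LaurentSeries k) (h : 0 ≤ F.orderTop) : 0 ≤ (rot ζ F).orderTop := by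
  rw [le_orderTop_iff_forall] at h ⊢
  intro j hj
  rw [rot_coeff, h j hj, mul_zero]

theorem Rop_Wp : Rop Φ.d Φ.E0 Φ.P0 Φ.Wp = 0 :=
  Rop_of_rank Φ.d Φ.E0 Φ.P0 Φ.Wp Φ.Zp (by unfold FGl0.Zp; ring) Φ.rank

theorem Rop_Wm : Rop Φ.d Φ.E0 Φ.P0 Φ.Wm = 0 :=
  Rop_of_rank Φ.d Φ.E0 Φ.P0 Φ.Wm Φ.Zm (by unfold FGl0.Zm; ring) Φ.rank_m

theorem tangency : 2 * Φ.d (Φ.P0.coeff 0) - Φ.WΓ * Φ.d (Φ.E0.coeff 0) = 0 := by
  have h := Φ.hE
  unfold FGl0.WΓ
  field_simp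
  ring

theorem Rop_pw_zero (e : ℕ) (he : 0 < e) (W : LaurentSeries k) (h : Rop Φ.d Φ.E0 Φ.P0 W = 0) :
    Rop Φ.d (pw e he Φ.E0) (pw e he Φ.P0) (pw e he W) = 0 := by
  rw [Rop_pw, h, map_zero, mul_zero]

/-- tangent case: a solution with the initial value `W_Γ` is `W_+` or `W_-`. -/
theorem tangent_case (e : ℕ) (he : 0 < e) (W : LaurentSeries k) (hW : 0 ≤ W.orderTop)
    (h0 : W.coeff 0 = Φ.WΓ) (h : Rop Φ.d (pw e he Φ.E0) (pw e he Φ.P0) W = 0) :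
    W = pw e he Φ.Wp ∨ W = pw e he Φ.Wm := by
  have hA := pw_nonneg e he Φ.E0 Φ.E0_nonneg
  have hB := pw_nonneg e he Φ.P0 Φ.P0_nonneg
  have hA0 : Φ.d ((pw e he Φ.E0).coeff 0) ≠ 0 := by rw [pw_coeff_zero]; exact Φ.hE
  have hAt := dt_pw_orderTop e he Φ.E0 Φ.one_le_orderTop_dt_E0
  have hBt := dt_pw_orderTop e he Φ.P0 Φ.one_le_orderTop_dt_P0
  have hw : Φ.d Φ.WΓ / 2 ≠ 0 := div_ne_zero Φ.hW two_ne_zero
  rcases tangent_dichotomy Φ.d e he _ _ W (pw e he Φ.Wp) (Φ.d Φ.WΓ / 2) hA hB hA0 hAt hBt hW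
    (pw_nonneg e he _ Φ.Wp_nonneg) (by rw [pw_coeff_zero, Φ.Wp_coeff_zero, h0])
    (by rw [pw_coeff_zero, pw_coeff_zero, pw_coeff_zero, Φ.Wp_coeff_zero]; exact Φ.tangency)
    (fun n h0 h1 => pw_coeff_mid e he _ n h0 h1) (by rw [pw_coeff_e, Φ.Wp_coeff_one]) hw h
    (Φ.Rop_pw_zero e he _ Φ.Rop_Wp) with h1 | ⟨-, h1⟩
  · exact Or.inl h1
  · right
    rcases tangent_dichotomy Φ.d e he _ _ W (pw e he Φ.Wm) (-(Φ.d Φ.WΓ / 2)) hA hB hA0 hAt hBt hW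
      (pw_nonneg e he _ Φ.Wm_nonneg) (by rw [pw_coeff_zero, Φ.Wm_coeff_zero, h0])
      (by rw [pw_coeff_zero, pw_coeff_zero, pw_coeff_zero, Φ.Wm_coeff_zero]; exact Φ.tangency)
      (fun n h0 h1 => pw_coeff_mid e he _ n h0 h1) (by rw [pw_coeff_e, Φ.Wm_coeff_one]) (neg_ne_zero.mpr hw) h
      (Φ.Rop_pw_zero e he _ Φ.Rop_Wm) with h2 | ⟨-, h2⟩
    · exact h2
    · exfalso
      rw [coeff_sub, pw_coeff_e, Φ.Wp_coeff_one] at h1
      rw [coeff_sub, pw_coeff_e, Φ.Wm_coeff_one] at h2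
      apply Φ.hW
      linear_combination h1 - h2

theorem rot_pw_even (e : ℕ) (he : 0 < e) (ζ : kˣ) (hζ : ζ ^ e = -1) (F : LaurentSeries k)
    (hF : rot (-1 : kˣ) F = F) : rot ζ (pw e he F) = pw e he F := by
  rw [rot_pw, hζ, hF]

/-- transverse case: `W` is invariant under `τ ↦ ζ τ`, `ζ^e = -1`. -/
theorem transverse_case (e : ℕ) (he : 0 < e) (ζ : kˣ) (hζ : ζ ^ e = -1) (hdζ : Φ.d (ζ : k) = 0)
    (W : LaurentSeries k) (hW : 0 ≤ W.orderTop) (h0 : W.coeff 0 ≠ Φ.WΓ)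
    (h : Rop Φ.d (pw e he Φ.E0) (pw e he Φ.P0) W = 0) : rot ζ W = W := by
  have hA := pw_nonneg e he Φ.E0 Φ.E0_nonneg
  have hB := pw_nonneg e he Φ.P0 Φ.P0_nonneg
  symm
  apply unique_transverse Φ.d _ _ W (rot ζ W) hA hB hW (rot_nonneg ζ W hW) (by rw [rot_coeff]; simp) _ h
  · rw [Rop_rot Φ.d ζ hdζ _ _ W (rot_pw_even e he ζ hζ _ Φ.E0_even) (rot_pw_even e he ζ hζ _ Φ.P0_even), h, map_zero,
      mul_zero]
  · rw [pw_coeff_zero, pw_coeff_zero]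
    intro hT
    apply h0
    have h1 := Φ.tangency
    have h2 : (Φ.WΓ - W.coeff 0) * Φ.d (Φ.E0.coeff 0) = 0 := by linear_combination hT - h1
    rcases mul_eq_zero.mp h2 with h3 | h3
    · exact (sub_eq_zero.mp h3).symm
    · exact absurd h3 Φ.hE

/-- THE EVENNESS LEMMA. -/
theorem even_main (e : ℕ) (he : 0 < e) (ζ : kˣ) (hζ : ζ ^ e = -1) (hdζ : Φ.d (ζ : k) = 0)
    (ME MP W Zc : LaurentSeries k)
    (hinc0 : Zc + pw e he Φ.E0 * W = 2 * pw e he Φ.P0)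
    (hincM : Zc + ME * W = 2 * MP)
    (hrank : dy Φ.d Zc * dt W - dt Zc * dy Φ.d W = 0)
    (hrefl : (dy Φ.d Zc) ^ 2 = pw e he Φ.E0 * ME * (dy Φ.d W) ^ 2)
    (hWy : dy Φ.d W ≠ 0)
    (hminus : W ≠ pw e he Φ.Wm) (hplus : W ≠ pw e he Φ.Wp) :
    rot ζ ME = ME ∧ rot ζ MP = MP := by
  have hR : Rop Φ.d (pw e he Φ.E0) (pw e he Φ.P0) W = 0 := Rop_of_rank Φ.d _ _ W Zc hinc0 hrank
  have hA := pw_nonneg e he Φ.E0 Φ.E0_nonneg
  have hB := pw_nonneg e he Φ.P0 Φ.P0_nonneg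
  have hA0 : Φ.d ((pw e he Φ.E0).coeff 0) ≠ 0 := by rw [pw_coeff_zero]; exact Φ.hE
  have hW : 0 ≤ W.orderTop := ord_nonneg Φ.d _ _ W hA hB hA0 hR
  have h0 : W.coeff 0 ≠ Φ.WΓ := by
    intro h0
    rcases Φ.tangent_case e he W hW h0 hR with h | h
    · exact hplus h
    · exact hminus h
  have hrW : rot ζ W = W := Φ.transverse_case e he ζ hζ hdζ W hW h0 hR
  have hrE := rot_pw_even e he ζ hζ _ Φ.E0_even
  have hrP := rot_pw_even e he ζ hζ _ Φ.P0_even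
  have hZ : Zc = 2 * pw e he Φ.P0 - pw e he Φ.E0 * W := by linear_combination hinc0
  have hrZ : rot ζ Zc = Zc := by
    rw [hZ, map_sub, map_mul, map_mul, hrE, hrP, hrW, map_ofNat]
  have hE0 : pw e he Φ.E0 ≠ 0 := by
    intro h
    exact Φ.E0_ne_zero ((pw e he).injective (by rw [h, map_zero]))
  have hME : rot ζ ME = ME := by
    have h1 := congrArg (rot ζ) hrefl
    rw [map_pow, map_mul, map_mul, map_pow, rot_dy Φ.d ζ hdζ, rot_dy Φ.d ζ hdζ, hrZ, hrW, hrE, hrefl] at h1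
    have h2 : pw e he Φ.E0 * (dy Φ.d W) ^ 2 * (rot ζ ME - ME) = 0 := by linear_combination -h1
    rcases mul_eq_zero.mp h2 with h3 | h3
    · exact absurd h3 (mul_ne_zero hE0 (pow_ne_zero 2 hWy))
    · exact sub_eq_zero.mp h3
  refine ⟨hME, ?_⟩
  have h1 := congrArg (rot ζ) hincM
  rw [map_add, map_mul, map_mul, hrZ, hME, hrW, map_ofNat, hincM] at h1
  exact (mul_left_cancel₀ (two_ne_zero) h1).symm

end Claimed.Agent.R269.FGl
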