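/-
Row 269, P1 Section 4, unit 4E (ALG2, formal part): CONJUGATE LINES and the index reflection `L_1 ↦ L_{-1}`.
Statements: helper36.   HOST-FREE (field theory + `Lau`, `Puiseux`, `Even`).

This replaces the monodromy operation `A, I, A⁻¹, I` of P1 (4.30).  `𝔏 = k((t))`, `k` algebraically closed.
 * `exists_conj`  : `x₁, x₂` algebraic over a subfield `K'`, not both in `K'`  ⇒  for some `e` there is a ring homomorphism
                    `σ : K'(x₁,x₂) → k((τ))`, `= pw e` on `K'`, which moves `(x₁,x₂)`.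
                    (primitive element `θ`, `p = minpoly`, `p = (X-θ) g`, Newton-Puiseux root `ϑ` of `g`, `ϑ ≠ θ` by separability.)
 * `hom_comm`     : such a `σ` commutes with derivations (uniqueness of the extension of a derivation to an algebraic extension).
 * `conj_even`    : for `K' = KL S`, `S ∋ -1, 0`, `M = σ L_1` is invariant under `τ ↦ ζτ`, `ζ^e = -1`  (`even_main`).
 * `conj_neg`     : every polynomial relation of `E_1` (`P_1`) over `KL F₀` holds for `E_{-1}` (`P_{-1}`).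
The `sorry`s are replaced IN PLACE by the owner of the package (table subtask, target row269, LF-S4-Conj-a).
-/
import Claimed.Agent.R269.S4.Even

set_option autoImplicit false

namespace Claimed.Agent.R269

open HahnSeries Lau

/-- `c • δ`. -/
def Dv.smul {A : Type*} [CommRing A] (c : A) (δ : Dv A) : Dv A where
  toFun :=
    { toFun := fun a => c * δ a
      map_zero' := by simp
      map_add' := by
        intro a b
        simp [mul_add] }
  leibniz' := by
    intro a b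
    show c * δ (a * b) = a * (c * δ b) + b * (c * δ a)
    rw [δ.leibniz]
    ring

theorem Dv.smul_apply {A : Type*} [CommRing A] (c : A) (δ : Dv A) (a : A) : Dv.smul c δ a = c * δ a := rfl

/-- the subfield `K'(x₁,x₂)`. -/
def adj2 {F : Type*} [Field F] (K' : Subfield F) (x₁ x₂ : F) : Subfield F :=
  Subfield.closure ((K' : Set F) ∪ {x₁, x₂})

theorem le_adj2 {F : Type*} [Field F] (K' : Subfield F) (x₁ x₂ : F) : K' ≤ adj2 K' x₁ x₂ :=
  fun _ hu => Subfield.subset_closure (Or.inl hu)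

theorem mem_adj2_fst {F : Type*} [Field F] (K' : Subfield F) (x₁ x₂ : F) : x₁ ∈ adj2 K' x₁ x₂ :=
  Subfield.subset_closure (Or.inr (Or.inl rfl))

theorem mem_adj2_snd {F : Type*} [Field F] (K' : Subfield F) (x₁ x₂ : F) : x₂ ∈ adj2 K' x₁ x₂ :=
  Subfield.subset_closure (Or.inr (Or.inr rfl))

theorem adj2_isAlgebraic {F : Type*} [Field F] (K' : Subfield F) (x₁ x₂ : F) (h₁ : IsAlgebraic K' x₁)
    (h₂ : IsAlgebraic K' x₂) : ∀ u ∈ adj2 K' x₁ x₂, IsAlgebraic K' u := by
  have hle : adj2 K' x₁ x₂ ≤ (algebraicClosure K' F).toSubfield := by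
    refine Subfield.closure_le.2 ?_
    rintro u (hu | hu | hu)
    · exact mem_algebraicClosure_iff.2 (isAlgebraic_algebraMap (⟨u, hu⟩ : K'))
    · rw [hu]
      exact mem_algebraicClosure_iff.2 h₁
    · rw [Set.mem_singleton_iff.1 hu]
      exact mem_algebraicClosure_iff.2 h₂
  intro u hu
  exact mem_algebraicClosure_iff.1 (hle hu)

/-- `adj2` is the carrier of `IntermediateField.adjoin`. -/
theorem conja_mem_adjoin_iff {F : Type*} [Field F] (K' : Subfield F) (x₁ x₂ u : F) :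
    u ∈ IntermediateField.adjoin K' {x₁, x₂} ↔ u ∈ adj2 K' x₁ x₂ := by
  rw [← IntermediateField.mem_toSubfield, IntermediateField.adjoin_toSubfield, adj2]
  have : Set.range (algebraMap K' F) = (K' : Set F) := Subtype.range_coe
  rw [this]

theorem conja_adjoin_simple_le {F : Type*} [Field F] (K' : Subfield F) (x₁ x₂ x u : F)
    (hx : x ∈ adj2 K' x₁ x₂) (hu : u ∈ IntermediateField.adjoin K' {x}) : u ∈ adj2 K' x₁ x₂ := by
  rw [← conja_mem_adjoin_iff] at hx ⊢
  exact (IntermediateField.adjoin_le_iff.2 (Set.singleton_subset_iff.2 hx)) hu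

theorem adj2_stable {F : Type*} [Field F] [CharZero F] (δ : Dv F) (K' : Subfield F) (hK : δ.Stable K')
    (x₁ x₂ : F) (h₁ : IsAlgebraic K' x₁) (h₂ : IsAlgebraic K' x₂) : δ.Stable (adj2 K' x₁ x₂) := by
  refine δ.closure_stable _ ?_
  rintro u (hu | hu | hu)
  · exact le_adj2 K' x₁ x₂ (hK u hu)
  · rw [hu]
    exact conja_adjoin_simple_le K' x₁ x₂ x₁ _ (mem_adj2_fst K' x₁ x₂)
      (δ.mem_adjoin_of_isAlgebraic K' hK x₁ h₁)
  · rw [Set.mem_singleton_iff.1 hu]
    exact conja_adjoin_simple_le K' x₁ x₂ x₂ _ (mem_adj2_snd K' x₁ x₂)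
      (δ.mem_adjoin_of_isAlgebraic K' hK x₂ h₂)

/-- a ring homomorphism on an algebraic extension `M` of `K` which intertwines two derivations on `K` intertwines them
on `M`. -/
theorem Dv.hom_comm {F F' : Type*} [Field F] [CharZero F] [Field F'] (δ : Dv F) (δ' : Dv F')
    (K M : Subfield F) (hKM : K ≤ M) (hK : δ.Stable K) (hM : δ.Stable M)
    (halg : ∀ u ∈ M, IsAlgebraic K u) (σ : M →+* F')
    (h : ∀ (u : F) (hu : u ∈ K), δ' (σ ⟨u, hKM hu⟩) = σ ⟨δ u, hKM (hK u hu)⟩) :
    ∀ (u : F) (hu : u ∈ M), δ' (σ ⟨u, hu⟩) = σ ⟨δ u, hM u hu⟩ := by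
  intro u hu
  let _ : Algebra K M := (Subfield.inclusion hKM).toAlgebra
  have : IsScalarTower K M F := IsScalarTower.of_algebraMap_eq fun _ => rfl
  -- the twisted derivation `δ' ∘ σ - σ ∘ δ`
  let D : M →+ F' :=
    { toFun := fun v => δ' (σ v) - σ ⟨δ (v : F), hM v v.2⟩
      map_zero' := by
        have e : (⟨δ ((0 : M) : F), hM _ (0 : M).2⟩ : M) = 0 := Subtype.ext (by simp)
        rw [e]
        simp
      map_add' := by
        intro a b
        have e : (⟨δ ((a + b : M) : F), hM _ (a + b).2⟩ : M) =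
            ⟨δ (a : F), hM a a.2⟩ + ⟨δ (b : F), hM b b.2⟩ := Subtype.ext (by simp)
        rw [e]
        simp only [_root_.map_add]
        ring }
  have hDdef : ∀ v : M, D v = δ' (σ v) - σ ⟨δ (v : F), hM v v.2⟩ := fun _ => rfl
  have hD : ∀ a b, D (a * b) = σ a * D b + σ b * D a := by
    intro a b
    have e : (⟨δ ((a * b : M) : F), hM _ (a * b).2⟩ : M) =
        a * ⟨δ (b : F), hM b b.2⟩ + b * ⟨δ (a : F), hM a a.2⟩ :=
      Subtype.ext (by simp [δ.leibniz])
    rw [hDdef, hDdef, hDdef, e]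
    simp only [_root_.map_add, _root_.map_mul, δ'.leibniz]
    ring
  have h0 : ∀ a : K, D (algebraMap K M a) = 0 := by
    intro a
    rw [hDdef]
    exact sub_eq_zero.2 (h a a.2)
  have hint : IsIntegral K u := (halg u hu).isIntegral
  have hsep : (minpoly K u).Separable := (minpoly.irreducible hint).separable
  have hne : Polynomial.aeval u (minpoly K u).derivative ≠ 0 :=
    hsep.aeval_derivative_ne_zero (minpoly.aeval K u)
  have hval : ∀ p : Polynomial K, ((Polynomial.aeval (⟨u, hu⟩ : M) p : M) : F) =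
      Polynomial.aeval u p := fun p =>
    (Polynomial.aeval_algebraMap_apply F (⟨u, hu⟩ : M) p).symm
  have hz : Polynomial.aeval (⟨u, hu⟩ : M) (minpoly K u) = 0 :=
    Subtype.ext (by rw [hval, minpoly.aeval]; rfl)
  have hne' : σ (Polynomial.aeval (⟨u, hu⟩ : M) (minpoly K u).derivative) ≠ 0 := by
    intro h1
    apply hne
    rw [← hval, (map_eq_zero σ).1 h1]
    rfl
  have h2 := Dv.twisted_aeval_of_zero σ D hD h0 (minpoly K u) (⟨u, hu⟩ : M)
  rw [hz, _root_.map_zero] at h2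
  have hDu : D ⟨u, hu⟩ = 0 := (mul_eq_zero.1 h2.symm).resolve_left hne'
  rw [hDdef] at hDu
  exact sub_eq_zero.1 hDu

/-- a ring homomorphism on `K'(x₁,x₂)` is determined by its values on `K'`, `x₁`, `x₂`. -/
theorem adj2_hom_ext {F F' : Type*} [Field F] [Field F'] (K' : Subfield F) (x₁ x₂ : F)
    (σ σ' : adj2 K' x₁ x₂ →+* F')
    (hK : ∀ (u : F) (hu : u ∈ K'), σ ⟨u, le_adj2 K' x₁ x₂ hu⟩ = σ' ⟨u, le_adj2 K' x₁ x₂ hu⟩)
    (h₁ : σ ⟨x₁, mem_adj2_fst K' x₁ x₂⟩ = σ' ⟨x₁, mem_adj2_fst K' x₁ x₂⟩)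
    (h₂ : σ ⟨x₂, mem_adj2_snd K' x₁ x₂⟩ = σ' ⟨x₂, mem_adj2_snd K' x₁ x₂⟩) : σ = σ' := by
  ext ⟨u, hu⟩
  refine Subfield.closure_induction
    (p := fun (u : F) (hu : u ∈ Subfield.closure ((K' : Set F) ∪ {x₁, x₂})) =>
      σ (⟨u, hu⟩ : adj2 K' x₁ x₂) = σ' (⟨u, hu⟩ : adj2 K' x₁ x₂)) ?_ ?_ ?_ ?_ ?_ ?_ hu
  · rintro v (hv | hv | hv)
    · exact hK v hv
    · subst hv
      exact h₁
    · have hv' : v = x₂ := Set.mem_singleton_iff.1 hv
      subst hv'
      exact h₂
  · exact (map_one σ).trans (map_one σ').symm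
  · intro a b ha hb ha' hb'
    exact (map_add σ (⟨a, ha⟩ : adj2 K' x₁ x₂) ⟨b, hb⟩).trans
      ((congrArg₂ (· + ·) ha' hb').trans (map_add σ' (⟨a, ha⟩ : adj2 K' x₁ x₂) ⟨b, hb⟩).symm)
  · intro a ha ha'
    exact (map_neg σ (⟨a, ha⟩ : adj2 K' x₁ x₂)).trans
      ((congrArg Neg.neg ha').trans (map_neg σ' (⟨a, ha⟩ : adj2 K' x₁ x₂)).symm)
  · intro a ha ha'
    exact (map_inv₀ σ (⟨a, ha⟩ : adj2 K' x₁ x₂)).trans
      ((congrArg Inv.inv ha').trans (map_inv₀ σ' (⟨a, ha⟩ : adj2 K' x₁ x₂)).symm)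
  · intro a b ha hb ha' hb'
    exact (map_mul σ (⟨a, ha⟩ : adj2 K' x₁ x₂) ⟨b, hb⟩).trans
      ((congrArg₂ (· * ·) ha' hb').trans (map_mul σ' (⟨a, ha⟩ : adj2 K' x₁ x₂) ⟨b, hb⟩).symm)

/-- extension of a ring homomorphism to a simple algebraic extension, with a prescribed root. -/
theorem conja_exists_lift {K N L : Type*} [Field K] [Field N] [Field L] [Algebra K N] (θ : N)
    (hθ : IntermediateField.adjoin K {θ} = ⊤) (hint : IsIntegral K θ) (φ : K →+* L) (ϑ : L)
    (hev : (minpoly K θ).eval₂ φ ϑ = 0) :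
    ∃ σ : N →+* L, (∀ a, σ (algebraMap K N a) = φ a) ∧ σ θ = ϑ := by
  let E : N ≃ₐ[K] AdjoinRoot (minpoly K θ) :=
    (IntermediateField.topEquiv.symm.trans (IntermediateField.equivOfEq hθ.symm)).trans
      (IntermediateField.adjoinRootEquivAdjoin K hint).symm
  have hEθ : E θ = AdjoinRoot.root (minpoly K θ) := by
    rw [← AlgEquiv.eq_symm_apply]
    change θ = IntermediateField.topEquiv (IntermediateField.equivOfEq hθ
      (IntermediateField.adjoinRootEquivAdjoin K hint (AdjoinRoot.root (minpoly K θ))))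
    rw [IntermediateField.adjoinRootEquivAdjoin_apply_root]
    rfl
  refine ⟨(AdjoinRoot.lift φ ϑ hev).comp (E : N →+* AdjoinRoot (minpoly K θ)), ?_, ?_⟩
  · intro a
    change AdjoinRoot.lift φ ϑ hev (E (algebraMap K N a)) = _
    rw [E.commutes, AdjoinRoot.algebraMap_eq, AdjoinRoot.lift_of]
  · change AdjoinRoot.lift φ ϑ hev (E θ) = _
    rw [hEθ, AdjoinRoot.lift_root]

/-- the inclusion of `adj2` into `IntermediateField.adjoin`. -/
def conjaIncl {F : Type*} [Field F] (K' : Subfield F) (x₁ x₂ : F) :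
    adj2 K' x₁ x₂ →+* IntermediateField.adjoin K' {x₁, x₂} where
  toFun := fun u => ⟨u.1, (conja_mem_adjoin_iff K' x₁ x₂ u.1).2 u.2⟩
  map_one' := rfl
  map_mul' := fun _ _ => rfl
  map_zero' := rfl
  map_add' := fun _ _ => rfl

theorem conjaIncl_apply {F : Type*} [Field F] (K' : Subfield F) (x₁ x₂ : F) (u : F)
    (hu : u ∈ adj2 K' x₁ x₂) :
    conjaIncl K' x₁ x₂ ⟨u, hu⟩ = ⟨u, (conja_mem_adjoin_iff K' x₁ x₂ u).2 hu⟩ := rfl

variable {k : Type*} [Field k] [CharZero k]

/-- EXISTENCE OF A CONJUGATE in a Puiseux extension. -/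
theorem exists_conj [IsAlgClosed k] (K' : Subfield (LaurentSeries k)) (x₁ x₂ : LaurentSeries k)
    (h₁ : IsAlgebraic K' x₁) (h₂ : IsAlgebraic K' x₂) (hne : ¬ (x₁ ∈ K' ∧ x₂ ∈ K')) :
    ∃ (e : ℕ) (he : 0 < e) (σ : adj2 K' x₁ x₂ →+* LaurentSeries k),
      (∀ (u : LaurentSeries k) (hu : u ∈ K'), σ ⟨u, le_adj2 K' x₁ x₂ hu⟩ = pw e he u) ∧
      ¬ (σ ⟨x₁, mem_adj2_fst K' x₁ x₂⟩ = pw e he x₁ ∧ σ ⟨x₂, mem_adj2_snd K' x₁ x₂⟩ = pw e he x₂) := by
  classical
  have hfin : FiniteDimensional K' (IntermediateField.adjoin K' {x₁, x₂}) :=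
    IntermediateField.finiteDimensional_adjoin (by
      rintro x (hx | hx)
      · rw [hx]
        exact h₁.isIntegral
      · rw [Set.mem_singleton_iff.1 hx]
        exact h₂.isIntegral)
  obtain ⟨θ, hθ⟩ := Field.exists_primitive_element K' (IntermediateField.adjoin K' {x₁, x₂})
  have hint : IsIntegral K' θ := Algebra.IsIntegral.isIntegral θ
  -- the degree is at least two
  have hdeg : 2 ≤ (minpoly K' θ).natDegree := by
    by_contra hlt
    have h1 : (minpoly K' θ).natDegree = 1 := by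
      have := minpoly.natDegree_pos hint
      omega
    have h2 : θ ∈ (algebraMap K' (IntermediateField.adjoin K' {x₁, x₂})).range :=
      minpoly.mem_range_of_degree_eq_one K' θ (by
        rw [Polynomial.degree_eq_natDegree (minpoly.ne_zero hint), h1]
        rfl)
    have h3 : IntermediateField.adjoin K' {θ} = ⊥ :=
      IntermediateField.adjoin_simple_eq_bot_iff.2 (IntermediateField.mem_bot.2 h2)
    have h4 : ∀ y : IntermediateField.adjoin K' {x₁, x₂}, (y : LaurentSeries k) ∈ K' := by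
      intro y
      have hy : y ∈ (⊥ : IntermediateField K' (IntermediateField.adjoin K' {x₁, x₂})) := by
        rw [← h3, hθ]
        exact IntermediateField.mem_top
      obtain ⟨a, ha⟩ := IntermediateField.mem_bot.1 hy
      rw [← ha]
      exact a.2
    exact hne ⟨h4 ⟨x₁, (conja_mem_adjoin_iff K' x₁ x₂ x₁).2 (mem_adj2_fst K' x₁ x₂)⟩,
      h4 ⟨x₂, (conja_mem_adjoin_iff K' x₁ x₂ x₂).2 (mem_adj2_snd K' x₁ x₂)⟩⟩
  -- `θ` is a root, split it off
  have hroot : ((minpoly K' θ).map (algebraMap K' (LaurentSeries k))).IsRoot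
      (θ : LaurentSeries k) := by
    rw [Polynomial.IsRoot.def, Polynomial.eval_map_algebraMap]
    have h := Polynomial.aeval_algebraMap_apply (LaurentSeries k) θ (minpoly K' θ)
    rw [minpoly.aeval, map_zero] at h
    exact h
  obtain ⟨g, hg⟩ := Polynomial.dvd_iff_isRoot.2 hroot
  have hg1 : 1 ≤ g.natDegree := by
    have hP : ((minpoly K' θ).map (algebraMap K' (LaurentSeries k))).natDegree =
        (minpoly K' θ).natDegree := Polynomial.natDegree_map _
    have hg0 : g ≠ 0 := by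
      rintro rfl
      rw [mul_zero] at hg
      rw [hg, Polynomial.natDegree_zero] at hP
      omega
    rw [hg, Polynomial.natDegree_mul (Polynomial.X_sub_C_ne_zero _) hg0,
      Polynomial.natDegree_X_sub_C] at hP
    omega
  obtain ⟨e, he, ϑ, hϑ⟩ := newton_puiseux g hg1
  have hmap : (minpoly K' θ).map ((pw e he).comp (algebraMap K' (LaurentSeries k))) =
      (Polynomial.X - Polynomial.C (pw e he (θ : LaurentSeries k))) * g.map (pw e he) := by
    rw [← Polynomial.map_map, hg, Polynomial.map_mul, Polynomial.map_sub, Polynomial.map_X,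
      Polynomial.map_C]
  have hev : (minpoly K' θ).eval₂ ((pw e he).comp (algebraMap K' (LaurentSeries k))) ϑ = 0 := by
    rw [← Polynomial.eval_map, hmap, Polynomial.eval_mul, hϑ, mul_zero]
  have hϑne : ϑ ≠ pw e he (θ : LaurentSeries k) := by
    intro hcon
    have hsep : ((minpoly K' θ).map
        ((pw e he).comp (algebraMap K' (LaurentSeries k)))).Separable :=
      ((minpoly.irreducible hint).separable).map
    have h1 : Polynomial.aeval ϑ ((minpoly K' θ).map
        ((pw e he).comp (algebraMap K' (LaurentSeries k)))) = 0 := by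
      rw [Polynomial.coe_aeval_eq_eval, Polynomial.eval_map]
      exact hev
    apply hsep.aeval_derivative_ne_zero h1
    rw [Polynomial.coe_aeval_eq_eval, hmap, Polynomial.derivative_mul, Polynomial.eval_add,
      Polynomial.eval_mul, Polynomial.eval_mul, hϑ, hcon]
    simp
  -- the homomorphism
  obtain ⟨σN, hσN1, hσN2⟩ := conja_exists_lift θ hθ hint
    ((pw e he).comp (algebraMap K' (LaurentSeries k))) ϑ hev
  have hσK : ∀ (u : LaurentSeries k) (hu : u ∈ K'),
      (σN.comp (conjaIncl K' x₁ x₂)) ⟨u, le_adj2 K' x₁ x₂ hu⟩ = pw e he u := by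
    intro u hu
    exact hσN1 ⟨u, hu⟩
  refine ⟨e, he, σN.comp (conjaIncl K' x₁ x₂), hσK, ?_⟩
  rintro ⟨hc1, hc2⟩
  have heq : σN.comp (conjaIncl K' x₁ x₂) = (pw e he).comp (adj2 K' x₁ x₂).subtype :=
    adj2_hom_ext K' x₁ x₂ _ _ hσK hc1 hc2
  have hθm : (θ : LaurentSeries k) ∈ adj2 K' x₁ x₂ := (conja_mem_adjoin_iff K' x₁ x₂ _).1 θ.2
  have h5 : (σN.comp (conjaIncl K' x₁ x₂)) ⟨θ, hθm⟩ = ϑ := hσN2
  rw [heq] at h5
  exact hϑne h5.symm

end Claimed.Agent.R269
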