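/-
Row 269, P1 Section 4, unit 4E: the conjugate line is even (plan: header of ConjA.lean).  Statements: helper36.
PROVED (helper36) from the statements of Fgl, Even, ConjA: this file has nothing left open.

`conj_even`: put `ME = σ E_1`, `MP = σ P_1`, `W = σ W_+`, `Zc = σ Z_+` (`W_+, Z_+ ∈ K'(E_1,P_1)`), transport `Zp` incidence, `Zp_inc_one`, `rank`, `refl`,
`Dy_Wp_ne_zero` by `σ` (injective, commutes with `∂_y`, `∂_t` by `conj_dy`, `conj_dt`; the factor `e τ^{e-1}` cancels in the rank identity);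
`W ≠ pw W_-`: `W_- ∈ K'` is fixed, `σ` injective, `Wp_ne_Wm`;  `W ≠ pw W_+`: otherwise `Zc = pw Z_+`, `ME = pw E_1` (reflection law), `MP = pw P_1`.
Then `even_main`.
-/
import Claimed.Agent.R269.S4.ConjA

set_option autoImplicit false
set_option linter.unusedSectionVars false

namespace Claimed.Agent.R269

open HahnSeries Lau

variable {k : Type*} [Field k] [CharZero k]

namespace FGl

variable (Φ : FGl k)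

/-- a root of unity `ζ` with `ζ^e = -1`; it is a constant. -/
theorem exists_zeta [IsAlgClosed k] (e : ℕ) (he : 0 < e) : ∃ ζ : kˣ, ζ ^ e = -1 ∧ Φ.d (ζ : k) = 0 := by
  obtain ⟨z, hz⟩ := IsAlgClosed.exists_pow_nat_eq (-1 : k) he
  have hz0 : z ≠ 0 := by
    intro h
    rw [h, zero_pow he.ne'] at hz
    exact (neg_ne_zero.mpr one_ne_zero) hz.symm
  refine ⟨Units.mk0 z hz0, ?_, ?_⟩
  · apply Units.ext
    simpa using hz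
  · show Φ.d z = 0
    have h1 := congrArg Φ.d hz
    rw [Dv.map_pow, map_neg, Dv.map_one, neg_zero] at h1
    rcases mul_eq_zero.mp h1 with h2 | h2
    · exfalso
      rcases mul_eq_zero.mp h2 with h3 | h3
      · exact he.ne' (by exact_mod_cast h3)
      · exact pow_ne_zero _ hz0 h3
    · exact h2

/-- `σ` commutes with `∂_y`. -/
theorem conj_dy (S : Set ℤ) (e : ℕ) (he : 0 < e)
    (hE : IsAlgebraic (Φ.KL S) (Φ.E 1)) (hP : IsAlgebraic (Φ.KL S) (Φ.P 1))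
    (σ : adj2 (Φ.KL S) (Φ.E 1) (Φ.P 1) →+* LaurentSeries k)
    (hσ : ∀ (u : LaurentSeries k) (hu : u ∈ Φ.KL S), σ ⟨u, le_adj2 _ _ _ hu⟩ = pw e he u)
    (u : LaurentSeries k) (hu : u ∈ adj2 (Φ.KL S) (Φ.E 1) (Φ.P 1)) :
    dy Φ.d (σ ⟨u, hu⟩) = σ ⟨Φ.Dy u, adj2_stable Φ.Dy _ (Φ.KL_stable_dy S) _ _ hE hP u hu⟩ := by
  refine Dv.hom_comm Φ.Dy (dy Φ.d) (Φ.KL S) (adj2 (Φ.KL S) (Φ.E 1) (Φ.P 1)) (le_adj2 _ _ _) (Φ.KL_stable_dy S)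
    (adj2_stable Φ.Dy _ (Φ.KL_stable_dy S) _ _ hE hP) (adj2_isAlgebraic _ _ _ hE hP) σ ?_ u hu
  intro v hv
  rw [hσ v hv, hσ _ (Φ.KL_stable_dy S v hv), dy_pw]
  rfl

/-- `σ` commutes with `∂_t` (chain rule factor `e τ^{e-1}`). -/
theorem conj_dt (S : Set ℤ) (e : ℕ) (he : 0 < e)
    (hE : IsAlgebraic (Φ.KL S) (Φ.E 1)) (hP : IsAlgebraic (Φ.KL S) (Φ.P 1))
    (σ : adj2 (Φ.KL S) (Φ.E 1) (Φ.P 1) →+* LaurentSeries k)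
    (hσ : ∀ (u : LaurentSeries k) (hu : u ∈ Φ.KL S), σ ⟨u, le_adj2 _ _ _ hu⟩ = pw e he u)
    (u : LaurentSeries k) (hu : u ∈ adj2 (Φ.KL S) (Φ.E 1) (Φ.P 1)) :
    dt (σ ⟨u, hu⟩) = single ((e : ℤ) - 1) (e : k) *
      σ ⟨dt u, adj2_stable dt _ (Φ.KL_stable_dt S) _ _ hE hP u hu⟩ := by
  have hc : (single ((e : ℤ) - 1) (e : k) : LaurentSeries k) ≠ 0 := by
    rw [Ne, single_eq_zero_iff]
    exact_mod_cast he.ne'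
  have key := Dv.hom_comm dt (Dv.smul (single ((e : ℤ) - 1) (e : k) : LaurentSeries k)⁻¹ dt) (Φ.KL S)
    (adj2 (Φ.KL S) (Φ.E 1) (Φ.P 1)) (le_adj2 _ _ _) (Φ.KL_stable_dt S)
    (adj2_stable dt _ (Φ.KL_stable_dt S) _ _ hE hP) (adj2_isAlgebraic _ _ _ hE hP) σ (by
      intro v hv
      rw [hσ v hv, hσ _ (Φ.KL_stable_dt S v hv), Dv.smul_apply, dt_pw, inv_mul_cancel_left₀ hc]) u hu
  rw [← key, Dv.smul_apply, mul_inv_cancel_left₀ hc]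

/-- the conjugate line is "even". -/
theorem conj_even (S : Set ℤ) (h0 : (0 : ℤ) ∈ S) (h1 : (-1 : ℤ) ∈ S) (e : ℕ) (he : 0 < e)
    (hE : IsAlgebraic (Φ.KL S) (Φ.E 1)) (hP : IsAlgebraic (Φ.KL S) (Φ.P 1))
    (σ : adj2 (Φ.KL S) (Φ.E 1) (Φ.P 1) →+* LaurentSeries k)
    (hσ : ∀ (u : LaurentSeries k) (hu : u ∈ Φ.KL S), σ ⟨u, le_adj2 _ _ _ hu⟩ = pw e he u)
    (hne : ¬ (σ ⟨Φ.E 1, mem_adj2_fst _ _ _⟩ = pw e he (Φ.E 1) ∧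
      σ ⟨Φ.P 1, mem_adj2_snd _ _ _⟩ = pw e he (Φ.P 1)))
    (ζ : kˣ) (hζ : ζ ^ e = -1) (hdζ : Φ.d (ζ : k) = 0) :
    rot ζ (σ ⟨Φ.E 1, mem_adj2_fst _ _ _⟩) = σ ⟨Φ.E 1, mem_adj2_fst _ _ _⟩ ∧
    rot ζ (σ ⟨Φ.P 1, mem_adj2_snd _ _ _⟩) = σ ⟨Φ.P 1, mem_adj2_snd _ _ _⟩ := by
  have hE0 : Φ.E0 ∈ Φ.KL S := by
    have := Φ.E_mem_KL h0
    rwa [Φ.E_zero] at this
  have hP0 : Φ.P0 ∈ Φ.KL S := by
    have := Φ.P_mem_KL h0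
    rwa [Φ.P_zero] at this
  have mE0 : Φ.E0 ∈ adj2 (Φ.KL S) (Φ.E 1) (Φ.P 1) := le_adj2 _ _ _ hE0
  have mP0 : Φ.P0 ∈ adj2 (Φ.KL S) (Φ.E 1) (Φ.P 1) := le_adj2 _ _ _ hP0
  have mE1 : Φ.E 1 ∈ adj2 (Φ.KL S) (Φ.E 1) (Φ.P 1) := mem_adj2_fst _ _ _
  have mP1 : Φ.P 1 ∈ adj2 (Φ.KL S) (Φ.E 1) (Φ.P 1) := mem_adj2_snd _ _ _
  have m2 : (2 : LaurentSeries k) ∈ adj2 (Φ.KL S) (Φ.E 1) (Φ.P 1) := ofNat_mem _ 2
  have mWp : Φ.Wp ∈ adj2 (Φ.KL S) (Φ.E 1) (Φ.P 1) :=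
    div_mem (mul_mem m2 (sub_mem mP0 mP1)) (sub_mem mE0 mE1)
  have mZp : Φ.Zp ∈ adj2 (Φ.KL S) (Φ.E 1) (Φ.P 1) :=
    sub_mem (mul_mem m2 mP0) (mul_mem mE0 mWp)
  have sE0 : σ ⟨Φ.E0, mE0⟩ = pw e he Φ.E0 := hσ _ hE0
  have sP0 : σ ⟨Φ.P0, mP0⟩ = pw e he Φ.P0 := hσ _ hP0
  have dyW := Φ.conj_dy S e he hE hP σ hσ Φ.Wp mWp
  have dyZ := Φ.conj_dy S e he hE hP σ hσ Φ.Zp mZp
  have dtW := Φ.conj_dt S e he hE hP σ hσ Φ.Wp mWp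
  have dtZ := Φ.conj_dt S e he hE hP σ hσ Φ.Zp mZp
  have hinj : Function.Injective σ := σ.injective
  have hinc0 : σ ⟨Φ.Zp, mZp⟩ + pw e he Φ.E0 * σ ⟨Φ.Wp, mWp⟩ = 2 * pw e he Φ.P0 := by
    rw [← sE0, ← sP0, ← map_mul, ← map_add, ← map_ofNat σ 2, ← map_mul]
    congr 1
    apply Subtype.ext
    show Φ.Zp + Φ.E0 * Φ.Wp = 2 * Φ.P0
    unfold FGl0.Zp
    ring
  have hincM : σ ⟨Φ.Zp, mZp⟩ + σ ⟨Φ.E 1, mE1⟩ * σ ⟨Φ.Wp, mWp⟩ = 2 * σ ⟨Φ.P 1, mP1⟩ := by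
    rw [← map_mul, ← map_add, ← map_ofNat σ 2, ← map_mul]
    congr 1
    apply Subtype.ext
    exact Φ.Zp_inc_one
  refine Φ.even_main e he ζ hζ hdζ _ _ (σ ⟨Φ.Wp, mWp⟩) (σ ⟨Φ.Zp, mZp⟩) hinc0 hincM ?_ ?_ ?_ ?_ ?_
  · rw [dyW, dyZ, dtW, dtZ]
    have h := congrArg σ (Subtype.ext Φ.rank :
      (⟨Φ.Dy Φ.Zp, adj2_stable Φ.Dy _ (Φ.KL_stable_dy S) _ _ hE hP _ mZp⟩ : adj2 (Φ.KL S) (Φ.E 1) (Φ.P 1)) *
        ⟨dt Φ.Wp, adj2_stable dt _ (Φ.KL_stable_dt S) _ _ hE hP _ mWp⟩ -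
        ⟨dt Φ.Zp, adj2_stable dt _ (Φ.KL_stable_dt S) _ _ hE hP _ mZp⟩ *
        ⟨Φ.Dy Φ.Wp, adj2_stable Φ.Dy _ (Φ.KL_stable_dy S) _ _ hE hP _ mWp⟩ = 0)
    rw [map_sub, map_mul, map_mul, map_zero] at h
    linear_combination (single ((e : ℤ) - 1) (e : k) : LaurentSeries k) * h
  · rw [dyW, dyZ, ← sE0]
    have h := congrArg σ (Subtype.ext Φ.refl :
      (⟨Φ.Dy Φ.Zp, adj2_stable Φ.Dy _ (Φ.KL_stable_dy S) _ _ hE hP _ mZp⟩ : adj2 (Φ.KL S) (Φ.E 1) (Φ.P 1)) ^ 2 =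
        ⟨Φ.E0, mE0⟩ * ⟨Φ.E 1, mE1⟩ *
        ⟨Φ.Dy Φ.Wp, adj2_stable Φ.Dy _ (Φ.KL_stable_dy S) _ _ hE hP _ mWp⟩ ^ 2)
    rw [map_pow, map_mul, map_mul, map_pow] at h
    exact h
  · rw [dyW]
    intro h
    rw [← map_zero σ] at h
    exact Φ.Dy_Wp_ne_zero (congrArg Subtype.val (hinj h))
  · intro h
    rw [← hσ _ (Φ.Wm_mem_KL h0 h1)] at h
    exact Φ.Wp_ne_Wm (congrArg Subtype.val (hinj h))
  · intro h
    apply hne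
    have hZ : σ ⟨Φ.Zp, mZp⟩ = pw e he Φ.Zp := by
      have h2 : pw e he Φ.Zp + pw e he Φ.E0 * pw e he Φ.Wp = 2 * pw e he Φ.P0 := by
        rw [← map_mul, ← map_add, ← map_ofNat (pw e he) 2, ← map_mul]
        congr 1
        unfold FGl0.Zp
        ring
      rw [h] at hinc0
      linear_combination hinc0 - h2
    have hWy : pw e he (Φ.Dy Φ.Wp) ≠ 0 := by
      intro h3
      rw [← map_zero (pw e he)] at h3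
      exact Φ.Dy_Wp_ne_zero ((pw e he).injective h3)
    have hE0' : pw e he Φ.E0 ≠ 0 := by
      intro h3
      rw [← map_zero (pw e he)] at h3
      exact Φ.E0_ne_zero ((pw e he).injective h3)
    have hE1 : σ ⟨Φ.E 1, mE1⟩ = pw e he (Φ.E 1) := by
      have h3 := congrArg σ (Subtype.ext Φ.refl :
        (⟨Φ.Dy Φ.Zp, adj2_stable Φ.Dy _ (Φ.KL_stable_dy S) _ _ hE hP _ mZp⟩ : adj2 (Φ.KL S) (Φ.E 1) (Φ.P 1)) ^ 2 =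
          ⟨Φ.E0, mE0⟩ * ⟨Φ.E 1, mE1⟩ *
          ⟨Φ.Dy Φ.Wp, adj2_stable Φ.Dy _ (Φ.KL_stable_dy S) _ _ hE hP _ mWp⟩ ^ 2)
      rw [map_pow, map_mul, map_mul, map_pow, ← dyW, ← dyZ, h, hZ, dy_pw, dy_pw, sE0] at h3
      have h4 := congrArg (pw e he) Φ.refl
      rw [map_pow, map_mul, map_mul, map_pow] at h4
      have h5 : pw e he Φ.E0 * (pw e he (Φ.Dy Φ.Wp)) ^ 2 * (σ ⟨Φ.E 1, mE1⟩ - pw e he (Φ.E 1)) = 0 := by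
        have h3' : pw e he (Φ.Dy Φ.Zp) ^ 2 = pw e he Φ.E0 * σ ⟨Φ.E 1, mE1⟩ * pw e he (Φ.Dy Φ.Wp) ^ 2 := h3
        linear_combination h4 - h3'
      rcases mul_eq_zero.mp h5 with h6 | h6
      · exact absurd h6 (mul_ne_zero hE0' (pow_ne_zero 2 hWy))
      · exact sub_eq_zero.mp h6
    refine ⟨hE1, ?_⟩
    have h7 := congrArg (pw e he) Φ.Zp_inc_one
    rw [map_add, map_mul, map_mul, map_ofNat] at h7
    rw [hZ, hE1, h, h7] at hincM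
    exact (mul_left_cancel₀ two_ne_zero hincM).symm

end FGl
end Claimed.Agent.R269
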