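/-
Row 269, P1 Section 4, unit 4E: INDEX REFLECTION (plan: header of ConjA.lean).  Statements: helper36.
PROVED (helper36) from the statements of Fgl, ConjA, ConjB: this file has nothing left open.
(The three generic lemmas on `IsAlgebraic` over subfields were moved here from Endgame.lean.)

INDEX REFLECTION `conj_neg` (replaces P1 (4.30)).  `F₀ ⊆ {0} ∪ {|j| > K}` finite; `R` a polynomial with coefficients in `KL F₀`.
`b := K+2`, `S := F₀ ∪ -F₀ ∪ {-1,0,b,-b}` (all `≤ 0` or `> K`), `K' := KL S`.  `E_1, P_1` are algebraic over `K'`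
(`lens 0 1 b`, `KL_mono`) and not both in `K'` (`hbad`).  `exists_conj` gives `e, σ`; `exists_zeta` gives `ζ`; `conj_even`.
`R(E_1) = 0` ⇒ (apply `σ`) `(pw R)(σ E_1) = 0` ⇒ (apply `rot ζ`; `rot ζ ∘ pw e = pw e ∘ rot (-1)`) `(pw (I R))(σ E_1) = 0`,
`I R` has coefficients in `KL (-F₀) ≤ K'` ⇒ `σ ((I R)(E_1)) = 0` ⇒ `(I R)(E_1) = 0` ⇒ (apply `I`) `R(E_{-1}) = 0`.
-/
import Claimed.Agent.R269.S4.ConjB

set_option autoImplicit false
set_option linter.unusedSectionVars false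

namespace Claimed.Agent.R269

open HahnSeries Lau

/-- algebraicity in terms of polynomials over the big field with coefficients in the subfield. -/
theorem isAlgebraic_iff_exists_poly {F : Type*} [Field F] (K : Subfield F) (x : F) :
    IsAlgebraic K x ↔ ∃ R : Polynomial F, R ≠ 0 ∧ (∀ i, R.coeff i ∈ K) ∧ R.eval x = 0 := by
  constructor
  · rintro ⟨p, hp0, hp⟩
    refine ⟨p.map (algebraMap K F), (Polynomial.map_ne_zero_iff (algebraMap K F).injective).mpr hp0, ?_, ?_⟩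
    · intro i
      rw [Polynomial.coeff_map]
      exact (p.coeff i).2
    · rw [Polynomial.eval_map_algebraMap]
      exact hp
  · rintro ⟨R, hR0, hR, hx⟩
    have hl : R ∈ Polynomial.lifts (algebraMap K F) := by
      rw [Polynomial.lifts_iff_coeff_lifts]
      intro n
      exact ⟨⟨R.coeff n, hR n⟩, rfl⟩
    obtain ⟨q, hq⟩ := (Polynomial.mem_lifts _).mp hl
    refine ⟨q, ?_, ?_⟩
    · intro h
      apply hR0
      rw [← hq, h, Polynomial.map_zero]
    · rw [← Polynomial.eval_map_algebraMap, hq]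
      exact hx

/-- transport of algebraicity by a ring homomorphism. -/
theorem isAlgebraic_map_of_le {F : Type*} [Field F] (K K' : Subfield F) (φ : F →+* F)
    (h : ∀ u ∈ K, φ u ∈ K') (x : F) (hx : IsAlgebraic K x) : IsAlgebraic K' (φ x) := by
  rw [isAlgebraic_iff_exists_poly] at hx ⊢
  obtain ⟨R, hR0, hR, hx⟩ := hx
  refine ⟨R.map φ, (Polynomial.map_ne_zero_iff φ.injective).mpr hR0, ?_, ?_⟩
  · intro i
    rw [Polynomial.coeff_map]
    exact h _ (hR i)
  · rw [Polynomial.eval_map_apply, hx, map_zero]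

/-- transitivity: `K₁ = closure s`, every element of `s` algebraic over `K`. -/
theorem isAlgebraic_trans_closure {F : Type*} [Field F] (K : Subfield F) (s : Set F)
    (hs : ∀ u ∈ s, IsAlgebraic K u) (x : F) (hx : IsAlgebraic (Subfield.closure s) x) :
    IsAlgebraic K x := by
  have hle : Subfield.closure s ≤ (algebraicClosure K F).toSubfield := by
    rw [Subfield.closure_le]
    intro u hu
    exact mem_algebraicClosure_iff.mpr (hs u hu)
  obtain ⟨p, hp0, hp⟩ := hx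
  let ι : Subfield.closure s →+* algebraicClosure K F :=
    { toFun := fun u => ⟨u.1, hle u.2⟩
      map_one' := rfl
      map_mul' := fun _ _ => rfl
      map_zero' := rfl
      map_add' := fun _ _ => rfl }
  have hA : IsAlgebraic (algebraicClosure K F) x := by
    refine ⟨p.map ι, (Polynomial.map_ne_zero_iff ι.injective).mpr hp0, ?_⟩
    rw [Polynomial.aeval_def, Polynomial.eval₂_map]
    exact hp
  exact hA.restrictScalars K

/-- a ring homomorphism on `M ⊇ K'` which is `φ` on `K'`, applied to a polynomial expression with coefficients in `K'`. -/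
theorem hom_eval_of_coeff_mem {F F' : Type*} [Field F] [Field F'] (K' M : Subfield F) (hKM : K' ≤ M) (σ : M →+* F')
    (φ : F →+* F') (hσ : ∀ (u : F) (hu : u ∈ K'), σ ⟨u, hKM hu⟩ = φ u) (Q : Polynomial F)
    (hQ : ∀ i, Q.coeff i ∈ K') (x : F) (hx : x ∈ M) (hQx : Q.eval x ∈ M) :
    σ ⟨Q.eval x, hQx⟩ = (Q.map φ).eval (σ ⟨x, hx⟩) := by
  have h : (⟨Q.eval x, hQx⟩ : M) =
      ∑ i ∈ Finset.range (Q.natDegree + 1), (⟨Q.coeff i, hKM (hQ i)⟩ : M) * (⟨x, hx⟩ : M) ^ i := by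
    apply Subtype.ext
    rw [AddSubmonoidClass.coe_finsetSum]
    exact Polynomial.eval_eq_sum_range x
  rw [h, map_sum, Polynomial.eval_map, Polynomial.eval₂_eq_sum_range]
  apply Finset.sum_congr rfl
  intro i _
  rw [map_mul, map_pow, hσ _ (hQ i)]

theorem eval_mem_of_coeff_mem {F : Type*} [Field F] (M : Subfield F) (Q : Polynomial F)
    (hQ : ∀ i, Q.coeff i ∈ M) (x : F) (hx : x ∈ M) : Q.eval x ∈ M := by
  rw [Polynomial.eval_eq_sum_range]
  exact sum_mem (fun i _ => mul_mem (hQ i) (pow_mem hx i))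

variable {k : Type*} [Field k] [CharZero k]

namespace FGl

variable (Φ : FGl k)

/-- the hypothesis to be refuted: `L_1` is not a rational differential function of the `L_j`, `j ≤ 0` or `j > K`. -/
def Bad (K : ℕ) : Prop :=
  ∀ F : Finset ℤ, (∀ j ∈ F, j ≤ 0 ∨ (K : ℤ) < j) →
    ¬ (Φ.E 1 ∈ Φ.KL (F : Set ℤ) ∧ Φ.P 1 ∈ Φ.KL (F : Set ℤ))

/-- the transport step of `conj_neg` for one coordinate `x` of `L_1`. -/
theorem conj_neg_aux (K' M : Subfield (LaurentSeries k)) (hKM : K' ≤ M) (e : ℕ) (he : 0 < e)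
    (σ : M →+* LaurentSeries k)
    (hσ : ∀ (u : LaurentSeries k) (hu : u ∈ K'), σ ⟨u, hKM hu⟩ = pw e he u)
    (ζ : kˣ) (hζ : ζ ^ e = -1) (x : LaurentSeries k) (hx : x ∈ M) (hrot : rot ζ (σ ⟨x, hx⟩) = σ ⟨x, hx⟩)
    (R : Polynomial (LaurentSeries k)) (hR : ∀ i, R.coeff i ∈ K') (hR' : ∀ i, rot (-1 : kˣ) (R.coeff i) ∈ K')
    (h : R.eval x = 0) : R.eval (rot (-1 : kˣ) x) = 0 := by
  have hRM : R.eval x ∈ M := eval_mem_of_coeff_mem M R (fun i => hKM (hR i)) x hx
  have h1 := hom_eval_of_coeff_mem K' M hKM σ (pw e he) hσ R hR x hx hRM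
  have h0 : σ ⟨R.eval x, hRM⟩ = 0 := by
    rw [← map_zero σ]
    congr 1
    exact Subtype.ext h
  rw [h0] at h1
  have h2 := congrArg (rot ζ) h1
  rw [map_zero, ← Polynomial.eval_map_apply, hrot, Polynomial.map_map] at h2
  have hcomp : (rot ζ).comp (pw e he) = (pw e he).comp (rot (-1 : kˣ)) := by
    ext1 u
    show rot ζ (pw e he u) = pw e he (rot (-1 : kˣ) u)
    rw [rot_pw, hζ]
  rw [hcomp, ← Polynomial.map_map] at h2
  have hQ : ∀ i, (R.map (rot (-1 : kˣ))).coeff i ∈ K' := by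
    intro i
    rw [Polynomial.coeff_map]
    exact hR' i
  have hQM : (R.map (rot (-1 : kˣ))).eval x ∈ M := eval_mem_of_coeff_mem M _ (fun i => hKM (hQ i)) x hx
  have h3 := hom_eval_of_coeff_mem K' M hKM σ (pw e he) hσ (R.map (rot (-1 : kˣ))) hQ x hx hQM
  rw [← h2, ← map_zero σ] at h3
  have h4 : (R.map (rot (-1 : kˣ))).eval x = 0 := congrArg Subtype.val (σ.injective h3)
  have h5 := congrArg (rot (-1 : kˣ)) h4
  rw [map_zero, ← Polynomial.eval_map_apply, Polynomial.map_map] at h5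
  have hid : (rot (-1 : kˣ)).comp (rot (-1 : kˣ)) = RingHom.id (LaurentSeries k) := by
    ext1 u
    show rot (-1 : kˣ) (rot (-1 : kˣ) u) = u
    rw [rot_rot]
    simp [rot_one]
  rw [hid, Polynomial.map_id] at h5
  exact h5

theorem conj_neg [IsAlgClosed k] (K : ℕ) (hbad : Φ.Bad K) (F₀ : Finset ℤ)
    (hF₀ : ∀ j ∈ F₀, j = 0 ∨ (K : ℤ) < |j|) (R : Polynomial (LaurentSeries k))
    (hR : ∀ i, R.coeff i ∈ Φ.KL (F₀ : Set ℤ)) :
    (R.eval (Φ.E 1) = 0 → R.eval (Φ.E (-1)) = 0) ∧ (R.eval (Φ.P 1) = 0 → R.eval (Φ.P (-1)) = 0) := by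
  classical
  set S : Finset ℤ := F₀ ∪ F₀.image (fun j => -j) ∪ {-1, 0, (K : ℤ) + 2, -((K : ℤ) + 2)} with hS
  have hSb : ∀ j ∈ S, j ≤ 0 ∨ (K : ℤ) < j := by
    intro j hj
    rw [hS] at hj
    simp only [Finset.mem_union, Finset.mem_image, Finset.mem_insert, Finset.mem_singleton] at hj
    rcases hj with (hj | ⟨i, hi, rfl⟩) | hj | hj | hj | hj
    · rcases hF₀ j hj with h | h
      · left; omega
      · rcases le_or_gt j 0 with h' | h'
        · exact Or.inl h'
        · right; rwa [abs_of_pos h'] at h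
    · rcases hF₀ i hi with h | h
      · left; omega
      · rcases le_or_gt 0 i with h' | h'
        · left; omega
        · right; rwa [abs_of_neg h'] at h
    · left; omega
    · left; omega
    · right; omega
    · left; omega
  have h0S : (0 : ℤ) ∈ (S : Set ℤ) := by simp [hS]
  have h1S : (-1 : ℤ) ∈ (S : Set ℤ) := by simp [hS]
  have hbS : ({0, (K : ℤ) + 2} : Set ℤ) ⊆ (S : Set ℤ) := by
    intro j hj
    rcases hj with rfl | hj
    · exact h0S
    · rw [Set.mem_singleton_iff] at hj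
      subst hj
      simp [hS]
  have hF₀S : (F₀ : Set ℤ) ⊆ (S : Set ℤ) := by
    intro j hj
    have : j ∈ F₀ := hj
    simp [hS, this]
  have hF₀S' : (fun j : ℤ => -j) '' (F₀ : Set ℤ) ⊆ (S : Set ℤ) := by
    rintro _ ⟨j, hj, rfl⟩
    have : j ∈ F₀ := hj
    have h2 : -j ∈ F₀.image (fun j => -j) := Finset.mem_image_of_mem _ this
    simp only [hS, Finset.coe_union, Set.mem_union, Finset.mem_coe]
    exact Or.inl (Or.inr h2)
  obtain ⟨hlE, hlP⟩ := Φ.lens 0 1 ((K : ℤ) + 2) (by omega) (by omega)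
  have hE : IsAlgebraic (Φ.KL (S : Set ℤ)) (Φ.E 1) :=
    isAlgebraic_map_of_le _ _ (RingHom.id _) (fun u hu => Φ.KL_mono hbS hu) _ hlE
  have hP : IsAlgebraic (Φ.KL (S : Set ℤ)) (Φ.P 1) :=
    isAlgebraic_map_of_le _ _ (RingHom.id _) (fun u hu => Φ.KL_mono hbS hu) _ hlP
  obtain ⟨e, he, σ, hσ, hne⟩ := exists_conj (Φ.KL (S : Set ℤ)) (Φ.E 1) (Φ.P 1) hE hP (hbad S hSb)
  obtain ⟨ζ, hζ, hdζ⟩ := Φ.exists_zeta e he
  obtain ⟨hrE, hrP⟩ := Φ.conj_even (S : Set ℤ) h0S h1S e he hE hP σ hσ hne ζ hζ hdζ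
  have hRS : ∀ i, R.coeff i ∈ Φ.KL (S : Set ℤ) := fun i => Φ.KL_mono hF₀S (hR i)
  have hRS' : ∀ i, rot (-1 : kˣ) (R.coeff i) ∈ Φ.KL (S : Set ℤ) :=
    fun i => Φ.KL_mono hF₀S' (Φ.rot_mem_KL _ (hR i))
  constructor
  · intro h
    have := conj_neg_aux (Φ.KL (S : Set ℤ)) _ (le_adj2 _ _ _) e he σ hσ ζ hζ (Φ.E 1) (mem_adj2_fst _ _ _) hrE R hRS
      hRS' h
    rwa [Φ.rot_E] at this
  · intro h
    have := conj_neg_aux (Φ.KL (S : Set ℤ)) _ (le_adj2 _ _ _) e he σ hσ ζ hζ (Φ.P 1) (mem_adj2_snd _ _ _) hrP R hRS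
      hRS' h
    rwa [Φ.rot_P] at this

end FGl

end Claimed.Agent.R269
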