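/-
Row 269, P1 Section 4, unit 4F: Lemma 4.2 (continuation of a finite web relation), ALGEBRAIC PART.   Statements: helper36.
HOST-FREE (Mathlib + Lib/Dv).

`S` a field with two derivations `d1 = ∂_y`, `d2 = ∂_t`; `O ⊆ S` a subring stable under `d1`, `d2` ("analytic coefficients").
`m` foliations with gradients `(p i, q i)`, weights `w i`, towers `F i l` ("`f_i^{(l)}(ψ_i)`"):
    `d1 (F i l) = F i (l+1) * p i`,   `d2 (F i l) = F i (l+1) * q i`,    `∑ i, w i * F i 0 = B`.
CLAIM: the finite vector `(F i l)_{i < m, l < m}` satisfies a closed linear system `d1 V = M V + c` with coefficients in `O`.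

PROOF.  (1) Symbol calculus.  Let `N i n` be the `O`-span of `F i l`, `l < n`.  By induction on `a`, `b`:
      `d1^[a] (d2^[b] (w i * F i 0)) - w i * p i ^ a * q i ^ b * F i (a + b) ∈ N i (a + b)`
    (if `x = e * F i n + y`, `e ∈ O`, `y ∈ N i n`, then `d1 x = e * p i * F i (n+1) + (d1 e * F i n + d1 y)` and `d1 (N i n) ⊆ N i (n+1)`).
(2) Apply `d1^[m-r] d2^[r]`, `r < m`, to the relation: with `X i = w i * p i * F i m`,
      `∑ i, p i ^ (m-1-r) * q i ^ r * X i ∈ O + ∑_i N i m`.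
(3) The matrix `(q i ^ r * p i ^ (m-1-r))` is `Matrix.projVandermonde q p` (transposed); its determinant is the product of the
    `q j * p i - q i * p j` (`Matrix.det_projVandermonde`), whose inverse lies in `O`.  Cramer (`Matrix.mul_adjugate`/`nonsing_inv`):
    `X i ∈ O + ∑ N`, hence `p i * F i m = (w i)⁻¹ * X i ∈ O + ∑ N`.
(4) `d1 (F i l) = p i * F i (l+1)`: for `l + 1 < m` a unit row, for `l + 1 = m` use (3).
The `sorry` is replaced IN PLACE by the owner of the package (table subtask, target row269, LF-S4-Web-a).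
-/
import Claimed.Agent.R269.Lib.Dv

set_option autoImplicit false

namespace Claimed.Agent.R269

namespace Web

section aux

variable {S : Type*} [Field S] (O : Subring S) {m : ℕ} (F : Fin m → ℕ → S)

/-- generators of the `O`-module `O + ∑_i N i n`. -/
def wbaGen (n : ℕ) : Set S := insert 1 {x | ∃ (i : Fin m) (l : ℕ), l < n ∧ x = F i l}

/-- the `O`-module `O + ∑_i N i n`. -/
def wbaL (n : ℕ) : Submodule O S := Submodule.span O (wbaGen F n)

theorem wba_mono {n n' : ℕ} (h : n ≤ n') : wbaL O F n ≤ wbaL O F n' := by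
  refine Submodule.span_mono ?_
  intro x hx
  rcases hx with rfl | ⟨i, l, hl, rfl⟩
  · exact Or.inl rfl
  · exact Or.inr ⟨i, l, hl.trans_le h, rfl⟩

theorem wba_mul_mem {n : ℕ} {e x : S} (he : e ∈ O) (hx : x ∈ wbaL O F n) : e * x ∈ wbaL O F n := by
  have h : e * x = (⟨e, he⟩ : O) • x := by simp [Subring.smul_def]
  rw [h]
  exact Submodule.smul_mem _ _ hx

theorem wba_memO {n : ℕ} {e : S} (he : e ∈ O) : e ∈ wbaL O F n := by
  have h := wba_mul_mem O F (n := n) he (Submodule.subset_span (Or.inl rfl))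
  simpa using h

theorem wba_memF {n : ℕ} {e : S} (he : e ∈ O) (i : Fin m) {l : ℕ} (hl : l < n) :
    e * F i l ∈ wbaL O F n :=
  wba_mul_mem O F he (Submodule.subset_span (Or.inr ⟨i, l, hl, rfl⟩))

theorem wba_d (d : Dv S) (hd : ∀ x ∈ O, d x ∈ O) (g : Fin m → S) (hg : ∀ i, g i ∈ O)
    (t : ∀ i l, d (F i l) = F i (l + 1) * g i) {n : ℕ} {x : S} (hx : x ∈ wbaL O F n) :
    d x ∈ wbaL O F (n + 1) := by
  unfold wbaL at hx
  induction hx using Submodule.span_induction with
  | mem x hx =>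
    rcases hx with rfl | ⟨i, l, hl, rfl⟩
    · rw [d.map_one]
      exact zero_mem _
    · rw [t, mul_comm]
      exact wba_memF O F (hg i) i (by omega)
  | zero =>
    rw [map_zero]
    exact zero_mem _
  | add x y _ _ hx hy =>
    rw [map_add]
    exact add_mem hx hy
  | smul e x hx ih =>
    rw [Subring.smul_def, smul_eq_mul, d.leibniz]
    refine add_mem (wba_mul_mem O F e.2 ih) ?_
    rw [mul_comm]
    exact wba_mul_mem O F (hd _ e.2) (wba_mono O F (Nat.le_succ n) hx)

theorem wba_step (d : Dv S) (hd : ∀ x ∈ O, d x ∈ O) (g : Fin m → S) (hg : ∀ i, g i ∈ O)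
    (t : ∀ i l, d (F i l) = F i (l + 1) * g i) {n : ℕ} {x e : S} (i : Fin m) (he : e ∈ O)
    (hx : x - e * F i n ∈ wbaL O F n) :
    d x - (e * g i) * F i (n + 1) ∈ wbaL O F (n + 1) := by
  have h1 := wba_d O F d hd g hg t hx
  have h2 : d x - e * g i * F i (n + 1) = d (x - e * F i n) + d e * F i n := by
    rw [map_sub, d.leibniz, t]
    ring
  rw [h2]
  exact add_mem h1 (wba_memF O F (hd e he) i (Nat.lt_succ_self n))

theorem wba_iter (d : Dv S) (hd : ∀ x ∈ O, d x ∈ O) (g : Fin m → S) (hg : ∀ i, g i ∈ O)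
    (t : ∀ i l, d (F i l) = F i (l + 1) * g i) (i : Fin m) {n₀ : ℕ} {x₀ e₀ : S} (he : e₀ ∈ O)
    (h0 : x₀ - e₀ * F i n₀ ∈ wbaL O F n₀) (a : ℕ) :
    d^[a] x₀ - (e₀ * g i ^ a) * F i (n₀ + a) ∈ wbaL O F (n₀ + a) := by
  induction a with
  | zero => simpa using h0
  | succ a ih =>
    rw [Function.iterate_succ_apply']
    have h := wba_step O F d hd g hg t i (O.mul_mem he (O.pow_mem (hg i) a)) ih
    have e : e₀ * g i ^ (a + 1) = e₀ * g i ^ a * g i := by ring
    rw [e]
    exact h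

theorem wba_iter_sum (d : Dv S) (a : ℕ) {ι : Type*} (s : Finset ι) (f : ι → S) :
    d^[a] (∑ i ∈ s, f i) = ∑ i ∈ s, d^[a] (f i) := by
  induction a generalizing f with
  | zero => simp
  | succ a ih =>
    simp only [Function.iterate_succ_apply]
    rw [d.map_sum, ih]

theorem wba_iter_memO (d : Dv S) (hd : ∀ x ∈ O, d x ∈ O) (a : ℕ) {x : S} (hx : x ∈ O) :
    d^[a] x ∈ O := by
  induction a with
  | zero => simpa using hx
  | succ a ih =>
    rw [Function.iterate_succ_apply']
    exact hd _ ih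

/-- explicit form of the elements of `wbaL O F m`. -/
theorem wba_explicit {x : S} (hx : x ∈ wbaL O F m) :
    ∃ (M : Fin m × Fin m → S) (c : S), (∀ b, M b ∈ O) ∧ c ∈ O ∧
      x = ∑ b : Fin m × Fin m, M b * F b.1 b.2 + c := by
  classical
  unfold wbaL at hx
  induction hx using Submodule.span_induction with
  | mem x hx =>
    rcases hx with rfl | ⟨i, l, hl, rfl⟩
    · exact ⟨0, 1, fun _ => O.zero_mem, O.one_mem, by simp⟩
    · refine ⟨Pi.single (i, ⟨l, hl⟩) 1, 0, fun b => ?_, O.zero_mem, ?_⟩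
      · rw [Pi.single_apply]
        split_ifs
        · exact O.one_mem
        · exact O.zero_mem
      · simp [Pi.single_apply, ite_mul]
  | zero => exact ⟨0, 0, fun _ => O.zero_mem, O.zero_mem, by simp⟩
  | add x y _ _ hx hy =>
    obtain ⟨M, c, hM, hc, rfl⟩ := hx
    obtain ⟨M', c', hM', hc', rfl⟩ := hy
    refine ⟨M + M', c + c', fun b => O.add_mem (hM b) (hM' b), O.add_mem hc hc', ?_⟩
    simp only [Pi.add_apply, add_mul, Finset.sum_add_distrib]
    ring
  | smul e x _ ih =>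
    obtain ⟨M, c, hM, hc, rfl⟩ := ih
    refine ⟨fun b => e * M b, e * c, fun b => O.mul_mem e.2 (hM b), O.mul_mem e.2 hc, ?_⟩
    rw [Subring.smul_def, smul_eq_mul, mul_add, Finset.mul_sum]
    simp only [mul_assoc]

/-- Cramer's rule over the subring `O`. -/
theorem wba_cramer {n : ℕ} (P : Matrix (Fin m) (Fin m) O) (hP : IsUnit P.det) (X : Fin m → S)
    (hy : ∀ r, ∑ i, ((P i r : O) : S) * X i ∈ wbaL O F n) (k : Fin m) : X k ∈ wbaL O F n := by
  classical
  have h1 : P * P⁻¹ = 1 := Matrix.mul_nonsing_inv P hP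
  have h2 : ∀ i, ∑ r, ((P i r : O) : S) * ((P⁻¹ r k : O) : S) = if i = k then 1 else 0 := by
    intro i
    have h3 := congrFun (congrFun h1 i) k
    rw [Matrix.mul_apply, Matrix.one_apply] at h3
    have h4 := congrArg (fun x : O => (x : S)) h3
    simp only [AddSubmonoidClass.coe_finsetSum, Subring.coe_mul] at h4
    rw [h4]
    split_ifs <;> simp
  have h5 : X k = ∑ r, ((P⁻¹ r k : O) : S) * ∑ i, ((P i r : O) : S) * X i := by
    simp only [Finset.mul_sum]
    rw [Finset.sum_comm]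
    have h6 : ∀ i, ∑ r, ((P⁻¹ r k : O) : S) * (((P i r : O) : S) * X i)
        = (if i = k then 1 else 0) * X i := by
      intro i
      rw [← h2 i, Finset.sum_mul]
      exact Finset.sum_congr rfl fun r _ => by ring
    simp only [h6, ite_mul, one_mul, zero_mul, Finset.sum_ite_eq', Finset.mem_univ, if_true]
  rw [h5]
  exact Submodule.sum_mem _ fun r _ => wba_mul_mem O F (P⁻¹ r k).2 (hy r)

end aux

theorem closed_system {S : Type*} [Field S] (d1 d2 : Dv S) (O : Subring S)
    (h1 : ∀ x ∈ O, d1 x ∈ O) (h2 : ∀ x ∈ O, d2 x ∈ O) (m : ℕ) (p q w : Fin m → S)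
    (hp : ∀ i, p i ∈ O) (hq : ∀ i, q i ∈ O) (hw : ∀ i, w i ∈ O)
    (hw0 : ∀ i, w i ≠ 0) (hwi : ∀ i, (w i)⁻¹ ∈ O)
    (hpq0 : ∀ i j, i ≠ j → p i * q j - p j * q i ≠ 0) (hpqi : ∀ i j, i ≠ j → (p i * q j - p j * q i)⁻¹ ∈ O)
    (B : S) (hB : B ∈ O) (F : Fin m → ℕ → S)
    (t1 : ∀ i l, d1 (F i l) = F i (l + 1) * p i) (t2 : ∀ i l, d2 (F i l) = F i (l + 1) * q i)
    (rel : ∑ i, w i * F i 0 = B) :
    ∃ (M : Fin m × Fin m → Fin m × Fin m → S) (c : Fin m × Fin m → S),
      (∀ a b, M a b ∈ O) ∧ (∀ a, c a ∈ O) ∧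
      ∀ a : Fin m × Fin m, d1 (F a.1 a.2) = ∑ b : Fin m × Fin m, M a b * F b.1 b.2 + c a := by
  classical
  -- (2) the differentiated relations
  have hy : ∀ r : Fin m, ∑ i, (w i * q i ^ (r : ℕ) * p i ^ (m - (r : ℕ))) * F i m ∈ wbaL O F m := by
    intro r
    have hi : ∀ i, d1^[m - (r : ℕ)] (d2^[(r : ℕ)] (w i * F i 0))
        - (w i * q i ^ (r : ℕ) * p i ^ (m - (r : ℕ))) * F i m ∈ wbaL O F m := by
      intro i
      have e0 : w i * F i 0 - w i * F i 0 ∈ wbaL O F 0 := by
        rw [sub_self]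
        exact zero_mem _
      have e2 := wba_iter O F d2 h2 q hq t2 i (hw i) e0 (r : ℕ)
      have e1 := wba_iter O F d1 h1 p hp t1 i (O.mul_mem (hw i) (O.pow_mem (hq i) _)) e2
        (m - (r : ℕ))
      have hm : 0 + (r : ℕ) + (m - (r : ℕ)) = m := by have := r.2; omega
      rw [hm] at e1
      exact e1
    have hs := Submodule.sum_mem (wbaL O F m) (t := Finset.univ) fun i _ => hi i
    rw [Finset.sum_sub_distrib, ← wba_iter_sum, ← wba_iter_sum, rel] at hs
    have hB' : d1^[m - (r : ℕ)] (d2^[(r : ℕ)] B) ∈ wbaL O F m :=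
      wba_memO O F (wba_iter_memO O d1 h1 _ (wba_iter_memO O d2 h2 _ hB))
    have := sub_mem hB' hs
    simpa using this
  -- (3) the projective Vandermonde matrix
  set P : Matrix (Fin m) (Fin m) O :=
    Matrix.projVandermonde (fun i => (⟨q i, hq i⟩ : O)) (fun i => (⟨p i, hp i⟩ : O)) with hPdef
  have hPdet : IsUnit P.det := by
    rw [hPdef, Matrix.det_projVandermonde]
    refine Finset.prod_induction _ IsUnit (fun _ _ => IsUnit.mul) isUnit_one fun i _ => ?_
    refine Finset.prod_induction _ IsUnit (fun _ _ => IsUnit.mul) isUnit_one fun j hj => ?_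
    have hij : i ≠ j := (Finset.mem_Ioi.1 hj).ne
    refine IsUnit.of_mul_eq_one (⟨(p i * q j - p j * q i)⁻¹, hpqi i j hij⟩ : O) ?_
    apply Subtype.ext
    simp only [Subring.coe_mul, AddSubgroupClass.coe_sub, Subring.coe_one]
    have : q j * p i - q i * p j = p i * q j - p j * q i := by ring
    rw [this]
    exact mul_inv_cancel₀ (hpq0 i j hij)
  have hX : ∀ k, w k * p k * F k m ∈ wbaL O F m := by
    refine wba_cramer O F P hPdet (fun k => w k * p k * F k m) fun r => ?_
    have h := hy r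
    have e : ∑ i, ((P i r : O) : S) * (w i * p i * F i m)
        = ∑ i, (w i * q i ^ (r : ℕ) * p i ^ (m - (r : ℕ))) * F i m := by
      refine Finset.sum_congr rfl fun i _ => ?_
      rw [hPdef, Matrix.projVandermonde_apply]
      simp only [Subring.coe_mul, Subring.coe_pow, Fin.val_rev]
      have hm : m - (r : ℕ) = (m - ((r : ℕ) + 1)) + 1 := by have := r.2; omega
      rw [hm, pow_succ]
      ring
    rw [e]
    exact h
  -- (4)
  have key : ∀ a : Fin m × Fin m, d1 (F a.1 a.2) ∈ wbaL O F m := by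
    intro a
    rw [t1, mul_comm]
    by_cases hl : (a.2 : ℕ) + 1 < m
    · exact wba_memF O F (hp _) _ hl
    · have hm : (a.2 : ℕ) + 1 = m := by have := a.2.2; omega
      rw [hm]
      have h := wba_mul_mem O F (hwi a.1) (hX a.1)
      have e : (w a.1)⁻¹ * (w a.1 * p a.1 * F a.1 m) = p a.1 * F a.1 m := by
        have := hw0 a.1
        field_simp
      rw [e] at h
      exact h
  choose M c hM hc hx using fun a => wba_explicit O F (key a)
  exact ⟨M, c, hM, hc, hx⟩

end Web

end Claimed.Agent.R269
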