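/-
Row 269, P1 Section 4, unit 4F: Lemma 4.2 (web relation), ODE PART.   Statements: helper36.

A formal power series solution of a linear system `V' = M V + c` whose coefficients are holomorphic on a convex open set `U ∋ y₀` is the
Taylor series at `y₀` of a solution which is holomorphic on ALL of `U`.

PROOF.  (1) `lin_ode`: NOW AVAILABLE: `ca_ode_linear` of Lib/CAOde.lean (helper221, sorry-free; take `E = ι → ℂ`, `A z = Matrix.toLin'`-type CLM); import it.  Otherwise: Picard iteration with primitives.  For holomorphic `g` on `U` let `I g` be the primitive vanishing at `y₀`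
    (`ca_exists_primitive` of Lib/CA1Prim, or `I g y = (y - y₀) ∫₀¹ g (y₀ + s (y - y₀)) ds`).  `v⁰ = v₀`, `v^{n+1} = v₀ + I (M v^n + c)`.
    On a compact convex `K ⊆ U` containing `y₀`, with `μ = sup_K ∑ |M a b|`:  `|v^{n+1} - v^n|(y) ≤ C (μ |y - y₀|)^n / n!`.
    Locally uniform limit: holomorphic (`TendstoLocallyUniformlyOn.differentiableOn`), and `v = v₀ + I (M v + c)`.
    (Every point of `U` has a compact convex neighbourhood `K ⊆ U` containing `y₀`: convex hull of `y₀` and a small closed ball.)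
    Alternative: power series majorants on discs + continuation along segments.
(2) formal uniqueness: two series `V, V'` of nonnegative order with the same constant terms and `dt V = M̂ V + ĉ`, `dt V' = M̂ V' + ĉ` are equal:
    by strong induction on `n`, `(n+1) V_{n+1} = ∑_{i+j=n} M̂_i V_j + ĉ_n` (`Lau.dt_coeff`, `HahnSeries.coeff_mul` or transport to `PowerSeries`).
(3) `ztay1 y₀ (v a)` solves the formal system (`ztay1_deriv`, `ztay1_mul`, `ztay1_add`, `ztay1_sum`, `ztay1_congr`).
The `sorry`s are replaced IN PLACE by the owner of the package (table subtask, target row269, LF-S4-Web-b).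
-/
import Claimed.Agent.R269.S4.ZTayB
import Claimed.Agent.R269.Lib.CA1Prim
import Claimed.Agent.R269.Lib.CAOde

set_option autoImplicit false

namespace Claimed.Agent.R269

namespace Web

open ZT

/-- global solvability of a holomorphic linear system on a convex open set. -/
theorem lin_ode {ι : Type*} [Fintype ι] {U : Set ℂ} (hU : IsOpen U) (hconv : Convex ℝ U) {y₀ : ℂ} (hy : y₀ ∈ U)
    (M : ι → ι → ℂ → ℂ) (c : ι → ℂ → ℂ) (hM : ∀ a b, DifferentiableOn ℂ (M a b) U)
    (hc : ∀ a, DifferentiableOn ℂ (c a) U) (v₀ : ι → ℂ) :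
    ∃ v : ι → ℂ → ℂ, (∀ a, DifferentiableOn ℂ (v a) U) ∧ (∀ a, v a y₀ = v₀ a) ∧
      ∀ a, ∀ y ∈ U, deriv (v a) y = ∑ b, M a b y * v b y + c a y := by
  classical
  -- the matrix as a continuous linear map
  set Eab : ι → ι → ((ι → ℂ) →L[ℂ] (ι → ℂ)) := fun a b =>
    (ContinuousLinearMap.single ℂ (fun _ : ι => ℂ) a).comp (ContinuousLinearMap.proj b) with hE
  set A : ℂ → ((ι → ℂ) →L[ℂ] (ι → ℂ)) := fun y => ∑ a, ∑ b, M a b y • Eab a b with hA
  have hAd : DifferentiableOn ℂ A U :=
    DifferentiableOn.fun_sum fun a _ => DifferentiableOn.fun_sum fun b _ => (hM a b).smul_const _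
  have hAapp : ∀ y (w : ι → ℂ) (a : ι), A y w a = ∑ b, M a b y * w b := by
    intro y w a
    simp only [hA, hE, _root_.sum_apply, _root_.smul_apply,
      ContinuousLinearMap.comp_apply, ContinuousLinearMap.proj_apply, Finset.sum_apply,
      Pi.smul_apply, smul_eq_mul, ContinuousLinearMap.single_apply]
    rw [Finset.sum_eq_single a]
    · simp
    · intro a' _ ha'
      refine Finset.sum_eq_zero fun b _ => ?_
      rw [Pi.single_eq_of_ne (Ne.symm ha'), mul_zero]
    · intro h
      exact absurd (Finset.mem_univ a) h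
  have hb : DifferentiableOn ℂ (fun y => fun a => c a y) U := differentiableOn_pi.2 hc
  obtain ⟨Y, hY0, hY⟩ := ca_ode_linear hU hconv hAd hb hy v₀
  have hder : ∀ a, ∀ y ∈ U, HasDerivAt (fun x => Y x a) (∑ b, M a b y * Y y b + c a y) y := by
    intro a y hy'
    have h1 := (hasDerivAt_pi.1 (hY y hy')) a
    simp only [Pi.add_apply, hAapp] at h1
    exact h1
  refine ⟨fun a x => Y x a, ?_, ?_, ?_⟩
  · intro a y hy'
    exact (hder a y hy').differentiableAt.differentiableWithinAt
  · intro a
    exact congrFun hY0 a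
  · intro a y hy'
    exact (hder a y hy').deriv

/-- formal solutions are Taylor series of global solutions. -/
theorem formal_ode {ι : Type*} [Fintype ι] {U : Set ℂ} (hU : IsOpen U) (hconv : Convex ℝ U) {y₀ : ℂ} (hy : y₀ ∈ U)
    (M : ι → ι → ℂ → ℂ) (c : ι → ℂ → ℂ) (hM : ∀ a b, DifferentiableOn ℂ (M a b) U)
    (hc : ∀ a, DifferentiableOn ℂ (c a) U) (V : ι → LaurentSeries ℂ) (hV : ∀ a, 0 ≤ (V a).orderTop)
    (hode : ∀ a, Lau.dt (V a) = ∑ b, ztay1 y₀ (M a b) * V b + ztay1 y₀ (c a)) :
    ∃ v : ι → ℂ → ℂ, (∀ a, DifferentiableOn ℂ (v a) U) ∧ ∀ a, ztay1 y₀ (v a) = V a := by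
  obtain ⟨v, hv, hv0, hvode⟩ := lin_ode hU hconv hy M c hM hc (fun a => (V a).coeff 0)
  refine ⟨v, hv, ?_⟩
  have hUn : U ∈ nhds y₀ := hU.mem_nhds hy
  have hva : ∀ a, AnalyticAt ℂ (v a) y₀ := fun a => (hv a).analyticAt hUn
  have hMa : ∀ a b, AnalyticAt ℂ (M a b) y₀ := fun a b => (hM a b).analyticAt hUn
  have hca : ∀ a, AnalyticAt ℂ (c a) y₀ := fun a => (hc a).analyticAt hUn
  have hVneg : ∀ a, ∀ i < 0, (V a).coeff i = 0 := fun a =>
    Lau.lau_coeff_of_orderTop_nonneg (V a) (hV a)
  -- the Taylor series solve the formal system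
  have hW : ∀ a, Lau.dt (ztay1 y₀ (v a)) = ∑ b, ztay1 y₀ (M a b) * ztay1 y₀ (v b) + ztay1 y₀ (c a) := by
    intro a
    have h1 : deriv (v a) =ᶠ[nhds y₀] fun y => (∑ b, M a b y * v b y) + c a y := by
      filter_upwards [hUn] with y hy'
      exact hvode a y hy'
    rw [← ztay1_deriv, ztay1_congr h1, ztay1_add (f := fun y => ∑ b, M a b y * v b y)
      (Finset.analyticAt_fun_sum _ fun b _ => (hMa a b).mul (hva b)) (hca a),
      ztay1_sum (f := fun b y => M a b y * v b y) _ fun b _ => (hMa a b).mul (hva b)]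
    congr 1
    exact Finset.sum_congr rfl fun b _ => ztay1_mul (hMa a b) (hva b)
  -- formal uniqueness
  have key : ∀ n : ℕ, ∀ m ≤ n, ∀ a, (ztay1 y₀ (v a)).coeff (m : ℤ) = (V a).coeff (m : ℤ) := by
    intro n
    induction n with
    | zero =>
      intro m hm a
      obtain rfl : m = 0 := by omega
      simp only [Nat.cast_zero]
      rw [ztay1_coeff_zero, hv0]
    | succ n ih =>
      intro m hm a
      rcases Nat.lt_or_ge m (n + 1) with h | h
      · exact ih m (by omega) a
      · obtain rfl : m = n + 1 := by omega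
        apply coeff_succ_eq
        rw [hW a, hode a, HahnSeries.coeff_add, HahnSeries.coeff_add, HahnSeries.coeff_sum,
          HahnSeries.coeff_sum]
        congr 1
        refine Finset.sum_congr rfl fun b _ => ?_
        rw [lau_coeff_mul_nat _ _ (ztay1_coeff_neg _ _) (ztay1_coeff_neg _ _),
          lau_coeff_mul_nat _ _ (ztay1_coeff_neg _ _) (hVneg b)]
        refine Finset.sum_congr rfl fun i hi => ?_
        have hi' : i.2 ≤ n := by
          have := Finset.HasAntidiagonal.mem_antidiagonal.mp hi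
          omega
        rw [ih i.2 hi' b]
  intro a
  exact ztay1_ext (hVneg a) fun m => key m m le_rfl a

end Web

end Claimed.Agent.R269
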