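/-
Row 269, P1 Section 4, unit 4F: Lemma 4.2 (web relation), TOWERS AND UNIVALENT INVERSES.   Statements: helper36.

(1) `tower_unique`: a tower `T l` ("`f^{(l)}(ψ)`") of power series over a foliation with gradient `(p, q)`, `p(z) ≠ 0`, is determined by the
    restriction of `T 0` to the horizontal line.
    PROOF.  `(T l).coeff 0 = 0` for all `l` by induction: `0 = Lau.dt ((T l).coeff 0) = (D1 (T l)).coeff 0 = (T (l+1)).coeff 0 * p.coeff 0`
    (`coeff_zero_mul`) and `p.coeff 0 ≠ 0`.  Then `(T l).coeff n = 0` for all `l` by induction on `n`: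
    `(n+1) (T l).coeff (n+1) = (D2 (T l)).coeff n = (T (l+1) * q).coeff n = ∑_{i+j=n} (T (l+1)).coeff i * q.coeff j = 0`.
(2) `univalent`: Noshiro-Warschawski.  `g(b) - g(a) = (b - a) ∫₀¹ g'(a + s (b - a)) ds` and the integral has positive real part
    (or: `s ↦ Re ((g (a + s (b-a)) - g a) / (b - a))` is strictly increasing).  `g '' U` is open (open mapping theorem
    `AnalyticOnNhd.is_constant_or_isOpen`, or the inverse function theorem at each point).  The inverse is holomorphic
    (`HasStrictDerivAt.to_localInverse` / `HasDerivAt.of_local_left_inverse`; continuity of the inverse from openness of `g`).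
The `sorry`s are replaced IN PLACE by the owner of the package (table subtask, target row269, LF-S4-Web-c).
-/
import Claimed.Agent.R269.S4.ZTayB

set_option autoImplicit false

namespace Claimed.Agent.R269

namespace Web

open ZT

theorem tower_unique (p q : SS) (hp : IsPS p) (hq : IsPS q) (hp0 : cf p 0 0 ≠ 0) (T : ℕ → SS)
    (hT : ∀ l, IsPS (T l)) (t1 : ∀ l, D1 (T l) = T (l + 1) * p) (t2 : ∀ l, D2 (T l) = T (l + 1) * q)
    (h0 : (T 0).coeff 0 = 0) : ∀ l, T l = 0 := by
  -- the zeroth coefficients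
  have hp0' : p.coeff 0 ≠ 0 := by
    intro h
    apply hp0
    show (p.coeff 0).coeff 0 = 0
    rw [h]
    rfl
  have hA : ∀ l, (T l).coeff 0 = 0 := by
    intro l
    induction l with
    | zero => exact h0
    | succ l ih =>
      have h1 : (D1 (T l)).coeff 0 = 0 := by
        show (Lau.dy (Lau.dt (k := ℂ)) (T l)).coeff 0 = 0
        rw [Lau.dy_coeff, ih, map_zero]
      rw [t1 l, Lau.lau_mul_coeff_zero _ _ (hT (l + 1)).coeff_neg hp.coeff_neg] at h1
      exact (mul_eq_zero.mp h1).resolve_right hp0'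
  have hB : ∀ n : ℕ, ∀ m ≤ n, ∀ l, (T l).coeff (m : ℤ) = 0 := by
    intro n
    induction n with
    | zero =>
      intro m hm l
      have : m = 0 := by omega
      subst this
      exact hA l
    | succ n ih =>
      intro m hm l
      rcases Nat.lt_or_ge m (n + 1) with h | h
      · exact ih m (by omega) l
      · have hmn : m = n + 1 := by omega
        subst hmn
        have h1 : (D2 (T l)).coeff (n : ℤ) = 0 := by
          rw [t2 l, lau_coeff_mul_nat _ _ (hT (l + 1)).coeff_neg hq.coeff_neg]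
          refine Finset.sum_eq_zero fun i hi => ?_
          have hi' : i.1 ≤ n := by
            have := Finset.HasAntidiagonal.mem_antidiagonal.mp hi
            omega
          rw [ih i.1 hi' (l + 1), zero_mul]
        have h2 : (D2 (T l)).coeff (n : ℤ) = (((n : ℤ) : LaurentSeries ℂ) + 1) * (T l).coeff ((n : ℤ) + 1) :=
          Lau.dt_coeff _ _
        rw [h2] at h1
        have h3 : (((n : ℤ) : LaurentSeries ℂ) + 1) ≠ 0 := by
          have : (((n : ℤ) : LaurentSeries ℂ) + 1) = ((n + 1 : ℕ) : LaurentSeries ℂ) := by push_cast; rfl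
          rw [this]
          exact Nat.cast_ne_zero.mpr (Nat.succ_ne_zero n)
        have h4 := (mul_eq_zero.mp h1).resolve_left h3
        have h5 : (((n + 1 : ℕ) : ℤ)) = (n : ℤ) + 1 := by push_cast; rfl
        rw [h5]
        exact h4
  intro l
  apply HahnSeries.ext
  funext b
  rcases lt_or_ge b 0 with hb | hb
  · rw [(hT l).coeff_neg b hb]
    rfl
  · obtain ⟨n, rfl⟩ := Int.eq_ofNat_of_zero_le hb
    rw [hB n n le_rfl l]
    rfl

theorem univalent {U : Set ℂ} (hU : IsOpen U) (hconv : Convex ℝ U) {g : ℂ → ℂ} (hg : DifferentiableOn ℂ g U)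
    (hre : ∀ y ∈ U, 0 < (deriv g y).re) :
    IsOpen (g '' U) ∧ Set.InjOn g U ∧ ∃ χ : ℂ → ℂ, DifferentiableOn ℂ χ (g '' U) ∧ ∀ y ∈ U, χ (g y) = y := by
  have hd : ∀ y ∈ U, HasStrictDerivAt g (deriv g y) y := fun y hy =>
    (hg.analyticAt (hU.mem_nhds hy)).hasStrictDerivAt
  have hne : ∀ y ∈ U, deriv g y ≠ 0 := by
    intro y hy h0
    have := hre y hy
    rw [h0] at this
    simp at this
  -- injectivity
  have hinj : Set.InjOn g U := by
    intro a ha b hb hab
    by_contra hne'
    have hba : b - a ≠ 0 := sub_ne_zero.mpr (Ne.symm hne')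
    have hmem : ∀ s ∈ Set.Icc (0 : ℝ) 1, a + (s : ℂ) * (b - a) ∈ U := by
      intro s hs
      have := hconv.add_smul_sub_mem ha hb hs
      rwa [Complex.real_smul] at this
    have hder : ∀ s ∈ Set.Icc (0 : ℝ) 1,
        HasDerivAt (fun t : ℝ => ((starRingEnd ℂ) (b - a) * g (a + (t : ℂ) * (b - a))).re)
          (Complex.normSq (b - a) * (deriv g (a + (s : ℂ) * (b - a))).re) s := by
      intro s hs
      have h1 : HasDerivAt g (deriv g (a + (s : ℂ) * (b - a))) (a + (s : ℂ) * (b - a)) :=
        (hd _ (hmem s hs)).hasDerivAt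
      have h2 : HasDerivAt (fun t : ℂ => a + t * (b - a)) (b - a) (s : ℂ) := by
        have := ((hasDerivAt_id (s : ℂ)).mul_const (b - a)).const_add a
        simpa using this
      have h3 : HasDerivAt (fun t : ℂ => (starRingEnd ℂ) (b - a) * g (a + t * (b - a)))
          ((starRingEnd ℂ) (b - a) * (deriv g (a + (s : ℂ) * (b - a)) * (b - a))) (s : ℂ) :=
        (HasDerivAt.comp (h₂ := g) (h := fun t : ℂ => a + t * (b - a)) (s : ℂ) h1 h2).const_mul _
      have h4 := h3.real_of_complex
      refine h4.congr_deriv ?_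
      have : (starRingEnd ℂ) (b - a) * (deriv g (a + (s : ℂ) * (b - a)) * (b - a))
          = ((Complex.normSq (b - a) : ℝ) : ℂ) * deriv g (a + (s : ℂ) * (b - a)) := by
        rw [Complex.normSq_eq_conj_mul_self]
        ring
      rw [this, Complex.re_ofReal_mul]
    have hmono : StrictMonoOn (fun t : ℝ => ((starRingEnd ℂ) (b - a) * g (a + (t : ℂ) * (b - a))).re)
        (Set.Icc (0 : ℝ) 1) := by
      refine strictMonoOn_of_deriv_pos (convex_Icc 0 1)
        (fun s hs => (hder s hs).continuousAt.continuousWithinAt) ?_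
      intro s hs
      rw [interior_Icc] at hs
      have hs' : s ∈ Set.Icc (0 : ℝ) 1 := ⟨hs.1.le, hs.2.le⟩
      rw [(hder s hs').deriv]
      exact mul_pos (Complex.normSq_pos.mpr hba) (hre _ (hmem s hs'))
    have := hmono (Set.left_mem_Icc.mpr zero_le_one) (Set.right_mem_Icc.mpr zero_le_one) zero_lt_one
    simp only [Complex.ofReal_zero, zero_mul, add_zero, Complex.ofReal_one, one_mul,
      add_sub_cancel] at this
    rw [hab] at this
    exact lt_irrefl _ this
  -- the image is a neighbourhood of each of its points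
  have hopen : IsOpen (g '' U) := by
    rw [isOpen_iff_mem_nhds]
    rintro _ ⟨y, hy, rfl⟩
    rw [← (hd y hy).map_nhds_eq (hne y hy)]
    exact Filter.image_mem_map (hU.mem_nhds hy)
  refine ⟨hopen, hinj, Function.invFunOn g U, ?_, fun y hy => hinj.leftInvOn_invFunOn hy⟩
  rintro _ ⟨y, hy, rfl⟩
  have hloc := (hd y hy).to_localInverse (hne y hy)
  set ψ := (hd y hy).localInverse g (deriv g y) y (hne y hy) with hψ
  have hψy : ψ (g y) = y := HasStrictFDerivAt.localInverse_apply_image _
  have h1 : ∀ᶠ w in nhds (g y), g (ψ w) = w := (hd y hy).eventually_right_inverse (hne y hy)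
  have h2 : ∀ᶠ w in nhds (g y), ψ w ∈ U := by
    have hc : ContinuousAt ψ (g y) := hloc.hasDerivAt.continuousAt
    exact hc.eventually (by rw [hψy]; exact hU.mem_nhds hy)
  have h3 : Function.invFunOn g U =ᶠ[nhds (g y)] ψ := by
    filter_upwards [h1, h2] with w hw1 hw2
    have := hinj.leftInvOn_invFunOn hw2
    rw [hw1] at this
    exact this
  exact (h3.differentiableAt_iff.mpr hloc.hasDerivAt.differentiableAt).differentiableWithinAt

/-- a holomorphic function on a conjugation invariant convex open set with real Taylor coefficients at a real point commutes with conjugation. -/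
theorem conj_symm_of_real_taylor {U : Set ℂ} (hU : IsOpen U) (hconv : Convex ℝ U)
    (hsym : ∀ y ∈ U, (starRingEnd ℂ) y ∈ U) {v : ℂ → ℂ} (hv : DifferentiableOn ℂ v U) {y₀ : ℂ} (hy : y₀ ∈ U)
    (hy0 : y₀.im = 0) (hre : ∀ n : ℤ, ((ztay1 y₀ v).coeff n).im = 0) :
    ∀ y ∈ U, v ((starRingEnd ℂ) y) = (starRingEnd ℂ) (v y) := by
  set vs : ℂ → ℂ := (starRingEnd ℂ) ∘ v ∘ (starRingEnd ℂ) with hvs
  have hvsd : DifferentiableOn ℂ vs U := by
    intro y hy'
    have : DifferentiableAt ℂ v ((starRingEnd ℂ) y) := hv.differentiableAt (hU.mem_nhds (hsym y hy'))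
    exact (differentiableAt_conj_conj_iff.mpr this).differentiableWithinAt
  have hiter : ∀ n : ℕ, iteratedDeriv n vs = (starRingEnd ℂ) ∘ iteratedDeriv n v ∘ (starRingEnd ℂ) := by
    intro n
    induction n with
    | zero => simp [hvs]
    | succ n ih => rw [iteratedDeriv_succ, ih, deriv_conj_conj, ← iteratedDeriv_succ]
  have hy₀c : (starRingEnd ℂ) y₀ = y₀ := Complex.conj_eq_iff_im.mpr hy0
  have hva : AnalyticAt ℂ v y₀ := hv.analyticAt (hU.mem_nhds hy)
  have hvsa : AnalyticAt ℂ vs y₀ := hvsd.analyticAt (hU.mem_nhds hy)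
  have htay : ztay1 y₀ vs = ztay1 y₀ v := by
    apply HahnSeries.ext
    funext n
    rcases lt_or_ge n 0 with hn | hn
    · rw [ztay1_coeff_neg _ _ _ hn, ztay1_coeff_neg _ _ _ hn]
    · obtain ⟨m, rfl⟩ := Int.eq_ofNat_of_zero_le hn
      have h1 := hre (m : ℤ)
      have h2 : (starRingEnd ℂ) ((ztay1 y₀ v).coeff (m : ℤ)) = (ztay1 y₀ v).coeff (m : ℤ) :=
        Complex.conj_eq_iff_im.mpr h1
      show (ztay1 y₀ vs).coeff (m : ℤ) = (ztay1 y₀ v).coeff (m : ℤ)
      rw [← h2, ztay1_coeff, ztay1_coeff, hiter m]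
      simp only [Function.comp, hy₀c, map_div₀, map_natCast]
  have hev : vs =ᶠ[nhds y₀] v := (ztay1_eq_iff hvsa hva).mp htay
  have heq := (hvsd.analyticOnNhd hU).eqOn_of_preconnected_of_eventuallyEq (hv.analyticOnNhd hU)
    hconv.isPreconnected hy hev
  intro y hy'
  have := heq (hsym y hy')
  simp only [hvs, Function.comp, Complex.conj_conj] at this
  exact this.symm

end Web

end Claimed.Agent.R269
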