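/-
Row 269, P1 Section 4, unit 4F: Lemma 4.2 (continuation of a finite web relation), FINAL FORM.   Statements: helper36.

`U ⊆ ℂ` convex open, `t₀ ∈ ℂ`; `ψ i`, `w i`, `B` analytic near the slice `U × {t₀}`; `w i ≠ 0`, `Re ∂_y ψ_i > 0`, gradients pairwise independent.
Formal towers `F i l` at the point `z = (y₁, t₀)` with `∑ w_i F_{i,0} = B`.
CLAIM: `F i l` is the Taylor series of `f_i^{(l)} ∘ ψ_i` with `f_i` holomorphic on the WHOLE image `ψ_i (U × {t₀})`.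

PROOF (glue of WebA, WebB, WebC).
(a) `O := { ztay z u | u analytic at every point of U × {t₀} }` is a subring of `SS`, stable under `D1`, `D2` (`ztay_pdy`, `Emb.analyticAt_pdy`, ...), and
    contains the inverses of `ztay z u` for `u` zero-free on the slice (`ztay_inv`).   `Web.closed_system` gives `M`, `c` over `O`.
(b) take `.coeff 0` (`coeff_zero_D1`, `coeff_zero_mul`, `ztay_coeff_zero`): `V a := (F a.1 a.2).coeff 0` solves the formal ODE with the coefficients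
    `y ↦ M̃ a b (y, t₀)`, holomorphic on `U`.   `Web.formal_ode` gives `v a` holomorphic on `U` with `ztay1 y₁ (v a) = V a`.
(c) `g_i := ψ_i (·, t₀)`, `Web.univalent` gives `χ_i`;  `f_i := v (i,0) ∘ χ_i` (for `m = 0` nothing to prove).
(d) `T l := F i l - ztay z (f_i^{(l)} ∘ ψ_i)` is a tower (`D1_ztay_comp`, `D2_ztay_comp`) with `(T 0).coeff 0 = V (i,0) - ztay1 y₁ (f_i ∘ g_i) = 0`
    since `f_i ∘ g_i = v (i,0)` on `U`.   `Web.tower_unique`.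
PROVED (helper36): this file has nothing left open.
-/
import Claimed.Agent.R269.S4.WebA
import Claimed.Agent.R269.S4.WebB
import Claimed.Agent.R269.S4.WebC

set_option autoImplicit false

namespace Claimed.Agent.R269

namespace Web

open ZT Filter Topology

/-- the ring of Taylor series at `(y₁,t₀)` of the functions analytic near the slice `U × {t₀}`. -/
def sliceRing (U : Set ℂ) (t₀ y₁ : ℂ) (hy₁ : y₁ ∈ U) : Subring SS where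
  carrier := {x | ∃ u : ℂ × ℂ → ℂ, (∀ y ∈ U, AnalyticAt ℂ u (y, t₀)) ∧ x = ztay (y₁, t₀) u}
  mul_mem' := by
    rintro _ _ ⟨u, hu, rfl⟩ ⟨v, hv, rfl⟩
    exact ⟨fun w => u w * v w, fun y hy => (hu y hy).mul (hv y hy), (ztay_mul (hu y₁ hy₁) (hv y₁ hy₁)).symm⟩
  one_mem' := ⟨fun _ => 1, fun _ _ => analyticAt_const, by rw [ztay_const, cst_one]⟩
  add_mem' := by
    rintro _ _ ⟨u, hu, rfl⟩ ⟨v, hv, rfl⟩
    exact ⟨fun w => u w + v w, fun y hy => (hu y hy).add (hv y hy), (ztay_add (hu y₁ hy₁) (hv y₁ hy₁)).symm⟩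
  zero_mem' := ⟨fun _ => 0, fun _ _ => analyticAt_const, by rw [ztay_const, cst_zero]⟩
  neg_mem' := by
    rintro _ ⟨u, hu, rfl⟩
    exact ⟨fun w => -u w, fun y hy => (hu y hy).neg, (ztay_neg (hu y₁ hy₁)).symm⟩

theorem mem_sliceRing {U : Set ℂ} {t₀ y₁ : ℂ} {hy₁ : y₁ ∈ U} {u : ℂ × ℂ → ℂ}
    (hu : ∀ y ∈ U, AnalyticAt ℂ u (y, t₀)) : ztay (y₁, t₀) u ∈ sliceRing U t₀ y₁ hy₁ := ⟨u, hu, rfl⟩

theorem exists_of_mem_sliceRing {U : Set ℂ} {t₀ y₁ : ℂ} {hy₁ : y₁ ∈ U} {x : SS} (h : x ∈ sliceRing U t₀ y₁ hy₁) :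
    ∃ u : ℂ × ℂ → ℂ, (∀ y ∈ U, AnalyticAt ℂ u (y, t₀)) ∧ x = ztay (y₁, t₀) u := h

theorem inv_mem_sliceRing {U : Set ℂ} {t₀ y₁ : ℂ} {hy₁ : y₁ ∈ U} {u : ℂ × ℂ → ℂ}
    (hu : ∀ y ∈ U, AnalyticAt ℂ u (y, t₀)) (h0 : ∀ y ∈ U, u (y, t₀) ≠ 0) :
    (ztay (y₁, t₀) u)⁻¹ ∈ sliceRing U t₀ y₁ hy₁ :=
  ⟨fun w => (u w)⁻¹, fun y hy => (hu y hy).inv (h0 y hy), (ztay_inv (hu y₁ hy₁) (h0 y₁ hy₁)).symm⟩

theorem ztay_ne_zero {z : ℂ × ℂ} {u : ℂ × ℂ → ℂ} (h : u z ≠ 0) : ztay z u ≠ 0 :=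
  ne_zero_of_cf (by rw [cf_ztay_zero]; exact h)

/-- step 1: the closed system with analytic coefficients. -/
theorem web_step1 {m : ℕ} {U : Set ℂ} (t₀ : ℂ)
    (ψ w : Fin m → ℂ × ℂ → ℂ) (B : ℂ × ℂ → ℂ)
    (hψ : ∀ i, ∀ y ∈ U, AnalyticAt ℂ (ψ i) (y, t₀)) (hw : ∀ i, ∀ y ∈ U, AnalyticAt ℂ (w i) (y, t₀))
    (hB : ∀ y ∈ U, AnalyticAt ℂ B (y, t₀))
    (hw0 : ∀ i, ∀ y ∈ U, w i (y, t₀) ≠ 0)
    (hpq : ∀ i j, i ≠ j → ∀ y ∈ U,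
      pdy (ψ i) (y, t₀) * pdt (ψ j) (y, t₀) - pdy (ψ j) (y, t₀) * pdt (ψ i) (y, t₀) ≠ 0)
    {y₁ : ℂ} (hy₁ : y₁ ∈ U) (F : Fin m → ℕ → SS)
    (t1 : ∀ i l, D1 (F i l) = F i (l + 1) * ztay (y₁, t₀) (pdy (ψ i)))
    (t2 : ∀ i l, D2 (F i l) = F i (l + 1) * ztay (y₁, t₀) (pdt (ψ i)))
    (rel : ∑ i, ztay (y₁, t₀) (w i) * F i 0 = ztay (y₁, t₀) B) :
    ∃ (Mt : Fin m × Fin m → Fin m × Fin m → ℂ × ℂ → ℂ) (ct : Fin m × Fin m → ℂ × ℂ → ℂ),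
      (∀ a b, ∀ y ∈ U, AnalyticAt ℂ (Mt a b) (y, t₀)) ∧ (∀ a, ∀ y ∈ U, AnalyticAt ℂ (ct a) (y, t₀)) ∧
      ∀ a : Fin m × Fin m, D1 (F a.1 a.2) =
        ∑ b : Fin m × Fin m, ztay (y₁, t₀) (Mt a b) * F b.1 b.2 + ztay (y₁, t₀) (ct a) := by
  classical
  have hpy : ∀ i, ∀ y ∈ U, AnalyticAt ℂ (pdy (ψ i)) (y, t₀) := fun i y hy => Emb.analyticAt_pdy (hψ i y hy)
  have hpt : ∀ i, ∀ y ∈ U, AnalyticAt ℂ (pdt (ψ i)) (y, t₀) := fun i y hy => Emb.analyticAt_pdt (hψ i y hy)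
  have hWan : ∀ i j, ∀ y ∈ U, AnalyticAt ℂ
      (fun x => pdy (ψ i) x * pdt (ψ j) x - pdy (ψ j) x * pdt (ψ i) x) (y, t₀) := fun i j y hy =>
    ((hpy i y hy).mul (hpt j y hy)).sub ((hpy j y hy).mul (hpt i y hy))
  have hWz : ∀ i j, ztay (y₁, t₀) (pdy (ψ i)) * ztay (y₁, t₀) (pdt (ψ j))
      - ztay (y₁, t₀) (pdy (ψ j)) * ztay (y₁, t₀) (pdt (ψ i))
      = ztay (y₁, t₀) (fun x => pdy (ψ i) x * pdt (ψ j) x - pdy (ψ j) x * pdt (ψ i) x) := by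
    intro i j
    have e1 := ztay_mul (hpy i y₁ hy₁) (hpt j y₁ hy₁)
    have e2 := ztay_mul (hpy j y₁ hy₁) (hpt i y₁ hy₁)
    have e3 := ztay_sub (u := fun x => pdy (ψ i) x * pdt (ψ j) x) (v := fun x => pdy (ψ j) x * pdt (ψ i) x)
      ((hpy i y₁ hy₁).mul (hpt j y₁ hy₁)) ((hpy j y₁ hy₁).mul (hpt i y₁ hy₁))
    rw [e3, e1, e2]
  have hO1 : ∀ x ∈ sliceRing U t₀ y₁ hy₁, D1 x ∈ sliceRing U t₀ y₁ hy₁ := by
    rintro _ ⟨u, hu, rfl⟩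
    exact ⟨pdy u, fun y hy => Emb.analyticAt_pdy (hu y hy), (ztay_pdy (hu y₁ hy₁)).symm⟩
  have hO2 : ∀ x ∈ sliceRing U t₀ y₁ hy₁, D2 x ∈ sliceRing U t₀ y₁ hy₁ := by
    rintro _ ⟨u, hu, rfl⟩
    exact ⟨pdt u, fun y hy => Emb.analyticAt_pdt (hu y hy), (ztay_pdt (hu y₁ hy₁)).symm⟩
  have hne : ∀ i j : Fin m, i ≠ j → ztay (y₁, t₀) (pdy (ψ i)) * ztay (y₁, t₀) (pdt (ψ j))
      - ztay (y₁, t₀) (pdy (ψ j)) * ztay (y₁, t₀) (pdt (ψ i)) ≠ 0 := by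
    intro i j hij
    rw [hWz i j]; exact ztay_ne_zero (hpq i j hij y₁ hy₁)
  have hinv : ∀ i j : Fin m, i ≠ j → (ztay (y₁, t₀) (pdy (ψ i)) * ztay (y₁, t₀) (pdt (ψ j))
      - ztay (y₁, t₀) (pdy (ψ j)) * ztay (y₁, t₀) (pdt (ψ i)))⁻¹ ∈ sliceRing U t₀ y₁ hy₁ := by
    intro i j hij
    rw [hWz i j]; exact inv_mem_sliceRing (hWan i j) (hpq i j hij)
  obtain ⟨p, hp⟩ : ∃ p : Fin m → SS, ∀ i, p i = ztay (y₁, t₀) (pdy (ψ i)) := ⟨_, fun _ => rfl⟩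
  obtain ⟨q, hq⟩ : ∃ q : Fin m → SS, ∀ i, q i = ztay (y₁, t₀) (pdt (ψ i)) := ⟨_, fun _ => rfl⟩
  obtain ⟨ww, hww⟩ : ∃ ww : Fin m → SS, ∀ i, ww i = ztay (y₁, t₀) (w i) := ⟨_, fun _ => rfl⟩
  simp only [← hp, ← hq] at hne hinv t1 t2
  simp only [← hww] at rel
  obtain ⟨M, c, hM, hc, hsys⟩ := closed_system D1 D2 (sliceRing U t₀ y₁ hy₁) hO1 hO2 m p q ww
    (fun i => by rw [hp]; exact mem_sliceRing (hpy i)) (fun i => by rw [hq]; exact mem_sliceRing (hpt i))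
    (fun i => by rw [hww]; exact mem_sliceRing (hw i))
    (fun i => by rw [hww]; exact ztay_ne_zero (hw0 i y₁ hy₁))
    (fun i => by rw [hww]; exact inv_mem_sliceRing (hw i) (hw0 i))
    hne hinv (ztay (y₁, t₀) B) (mem_sliceRing hB) F t1 t2 rel
  have hM' := fun a b => exists_of_mem_sliceRing (hM a b)
  have hc' := fun a => exists_of_mem_sliceRing (hc a)
  choose Mt hMt hMe using hM'
  choose ct hct hce using hc'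
  refine ⟨Mt, ct, hMt, hct, fun a => ?_⟩
  rw [hsys a, hce a]
  congr 1
  exact Finset.sum_congr rfl fun b _ => by rw [hMe a b]

theorem dv_sub (δ : Dv SS) (a b : SS) : δ (a - b) = δ a - δ b := map_sub δ a b

theorem slice_diff {U : Set ℂ} {t₀ : ℂ} {u : ℂ × ℂ → ℂ} (hu : ∀ y ∈ U, AnalyticAt ℂ u (y, t₀)) :
    DifferentiableOn ℂ (fun y => u (y, t₀)) U := by
  intro y hy
  have h3 : DifferentiableAt ℂ (fun y : ℂ => (y, t₀)) y := by fun_prop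
  exact (DifferentiableAt.comp (f := fun y : ℂ => (y, t₀)) (g := u) y (hu y hy).differentiableAt
    h3).differentiableWithinAt

/-- step 2: the restrictions of the towers to the slice are Taylor series of functions holomorphic on `U`. -/
theorem web_step2 {m : ℕ} {U : Set ℂ} (hU : IsOpen U) (hconv : Convex ℝ U) (t₀ : ℂ)
    {y₁ : ℂ} (hy₁ : y₁ ∈ U) (F : Fin m → ℕ → SS) (hF : ∀ i l, IsPS (F i l))
    (Mt : Fin m × Fin m → Fin m × Fin m → ℂ × ℂ → ℂ) (ct : Fin m × Fin m → ℂ × ℂ → ℂ)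
    (hMt : ∀ a b, ∀ y ∈ U, AnalyticAt ℂ (Mt a b) (y, t₀)) (hct : ∀ a, ∀ y ∈ U, AnalyticAt ℂ (ct a) (y, t₀))
    (hsys : ∀ a : Fin m × Fin m, D1 (F a.1 a.2) =
        ∑ b : Fin m × Fin m, ztay (y₁, t₀) (Mt a b) * F b.1 b.2 + ztay (y₁, t₀) (ct a)) :
    ∃ v : Fin m × Fin m → ℂ → ℂ, (∀ a, DifferentiableOn ℂ (v a) U) ∧
      ∀ a : Fin m × Fin m, ztay1 y₁ (v a) = (F a.1 a.2).coeff 0 := by
  refine formal_ode hU hconv hy₁ (fun a b y => Mt a b (y, t₀)) (fun a y => ct a (y, t₀))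
    (fun a b => slice_diff (hMt a b)) (fun a => slice_diff (hct a))
    (fun a : Fin m × Fin m => (F a.1 a.2).coeff 0) (fun a => coeff_orderTop_nonneg (hF a.1 a.2) 0) ?_
  intro a
  have h1 : Lau.dt ((F a.1 a.2).coeff 0) = (D1 (F a.1 a.2)).coeff 0 := (coeff_zero_D1 _).symm
  rw [h1, hsys a, HahnSeries.coeff_add, HahnSeries.coeff_sum, ztay_coeff_zero]
  congr 1
  refine Finset.sum_congr rfl fun b _ => ?_
  rw [coeff_zero_mul (isPS_ztay _ _) (hF b.1 b.2), ztay_coeff_zero]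

/-- step 3: one foliation.  A tower whose restriction to the slice is the Taylor series of a function holomorphic on `U` is the tower of a composite function. -/
theorem web_step3 {U : Set ℂ} (hU : IsOpen U) (hconv : Convex ℝ U) (t₀ : ℂ) (ψ : ℂ × ℂ → ℂ)
    (hψ : ∀ y ∈ U, AnalyticAt ℂ ψ (y, t₀)) (hre : ∀ y ∈ U, 0 < (pdy ψ (y, t₀)).re)
    {y₁ : ℂ} (hy₁ : y₁ ∈ U) (T : ℕ → SS) (hT : ∀ l, IsPS (T l))
    (t1 : ∀ l, D1 (T l) = T (l + 1) * ztay (y₁, t₀) (pdy ψ))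
    (t2 : ∀ l, D2 (T l) = T (l + 1) * ztay (y₁, t₀) (pdt ψ))
    (v : ℂ → ℂ) (hv : DifferentiableOn ℂ v U) (hvT : ztay1 y₁ v = (T 0).coeff 0) :
    ∃ f : ℂ → ℂ, IsOpen ((fun y => ψ (y, t₀)) '' U) ∧ DifferentiableOn ℂ f ((fun y => ψ (y, t₀)) '' U) ∧
      ∀ l, T l = ztay (y₁, t₀) (fun x => iteratedDeriv l f (ψ x)) := by
  obtain ⟨hopen, -, χ, hχd, hχ⟩ := univalent hU hconv (g := fun y => ψ (y, t₀)) (slice_diff hψ)
    (fun y hy => hre y hy)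
  have hfd : DifferentiableOn ℂ (fun x => v (χ x)) ((fun y => ψ (y, t₀)) '' U) := by
    refine hv.comp hχd ?_
    rintro _ ⟨y, hy, rfl⟩
    show χ (ψ (y, t₀)) ∈ U
    rw [hχ y hy]; exact hy
  refine ⟨fun x => v (χ x), hopen, hfd, ?_⟩
  have hfa : AnalyticAt ℂ (fun x => v (χ x)) (ψ (y₁, t₀)) := hfd.analyticAt (hopen.mem_nhds ⟨y₁, hy₁, rfl⟩)
  have hp0 : cf (ztay (y₁, t₀) (pdy ψ)) 0 0 ≠ 0 := by
    rw [cf_ztay_zero]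
    intro h
    have := hre y₁ hy₁
    rw [h] at this
    simp at this
  have key := tower_unique (ztay (y₁, t₀) (pdy ψ)) (ztay (y₁, t₀) (pdt ψ)) (isPS_ztay _ _) (isPS_ztay _ _) hp0
    (fun l => T l - ztay (y₁, t₀) (fun x => iteratedDeriv l (fun x => v (χ x)) (ψ x)))
    (fun l => (hT l).sub (isPS_ztay _ _))
    (fun l => by rw [dv_sub, t1, D1_ztay_comp (hψ y₁ hy₁) hfa l]; ring)
    (fun l => by rw [dv_sub, t2, D2_ztay_comp (hψ y₁ hy₁) hfa l]; ring)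
    (by
      rw [HahnSeries.coeff_sub, ztay_coeff_zero, sub_eq_zero, ← hvT]
      apply ztay1_congr
      filter_upwards [hU.mem_nhds hy₁] with y hy
      simp only [iteratedDeriv_zero]
      rw [hχ y hy])
  intro l
  exact sub_eq_zero.mp (key l)

theorem web_main {m : ℕ} {U : Set ℂ} (hU : IsOpen U) (hconv : Convex ℝ U) (t₀ : ℂ)
    (ψ w : Fin m → ℂ × ℂ → ℂ) (B : ℂ × ℂ → ℂ)
    (hψ : ∀ i, ∀ y ∈ U, AnalyticAt ℂ (ψ i) (y, t₀)) (hw : ∀ i, ∀ y ∈ U, AnalyticAt ℂ (w i) (y, t₀))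
    (hB : ∀ y ∈ U, AnalyticAt ℂ B (y, t₀))
    (hw0 : ∀ i, ∀ y ∈ U, w i (y, t₀) ≠ 0)
    (hre : ∀ i, ∀ y ∈ U, 0 < (pdy (ψ i) (y, t₀)).re)
    (hpq : ∀ i j, i ≠ j → ∀ y ∈ U,
      pdy (ψ i) (y, t₀) * pdt (ψ j) (y, t₀) - pdy (ψ j) (y, t₀) * pdt (ψ i) (y, t₀) ≠ 0)
    {y₁ : ℂ} (hy₁ : y₁ ∈ U) (F : Fin m → ℕ → SS) (hF : ∀ i l, IsPS (F i l))
    (t1 : ∀ i l, D1 (F i l) = F i (l + 1) * ztay (y₁, t₀) (pdy (ψ i)))
    (t2 : ∀ i l, D2 (F i l) = F i (l + 1) * ztay (y₁, t₀) (pdt (ψ i)))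
    (rel : ∑ i, ztay (y₁, t₀) (w i) * F i 0 = ztay (y₁, t₀) B) :
    ∃ f : Fin m → ℂ → ℂ, ∀ i,
      IsOpen ((fun y => ψ i (y, t₀)) '' U) ∧ DifferentiableOn ℂ (f i) ((fun y => ψ i (y, t₀)) '' U) ∧
      ∀ l, F i l = ztay (y₁, t₀) (fun x => iteratedDeriv l (f i) (ψ i x)) := by
  obtain ⟨Mt, ct, hMt, hct, hsys⟩ := web_step1 t₀ ψ w B hψ hw hB hw0 hpq hy₁ F t1 t2 rel
  obtain ⟨v, hv, hvV⟩ := web_step2 hU hconv t₀ hy₁ F hF Mt ct hMt hct hsys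
  have h3 := fun i : Fin m => web_step3 hU hconv t₀ (ψ i) (hψ i) (hre i) hy₁ (F i) (hF i) (t1 i) (t2 i)
    (v (i, ⟨0, i.pos⟩)) (hv _) (hvV (i, ⟨0, i.pos⟩))
  choose f hf using h3
  exact ⟨f, hf⟩

/-- supplement: reality. -/
theorem web_real {U : Set ℂ} (hU : IsOpen U) (hconv : Convex ℝ U) (hsym : ∀ y ∈ U, (starRingEnd ℂ) y ∈ U) (t₀ : ℂ)
    (ψ : ℂ × ℂ → ℂ) (hψ : ∀ y ∈ U, AnalyticAt ℂ ψ (y, t₀))
    (hψc : ∀ y ∈ U, ψ ((starRingEnd ℂ) y, t₀) = (starRingEnd ℂ) (ψ (y, t₀)))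
    {y₁ : ℂ} (hy₁ : y₁ ∈ U) (hy₁r : y₁.im = 0) (f : ℂ → ℂ)
    (hJ : IsOpen ((fun y => ψ (y, t₀)) '' U)) (hf : DifferentiableOn ℂ f ((fun y => ψ (y, t₀)) '' U))
    (hre : IsRe (ztay (y₁, t₀) (fun x => f (ψ x)))) :
    ∀ x ∈ (fun y => ψ (y, t₀)) '' U, f ((starRingEnd ℂ) x) = (starRingEnd ℂ) (f x) := by
  have hv : DifferentiableOn ℂ (fun y => f (ψ (y, t₀))) U :=
    hf.comp (slice_diff hψ) (fun y hy => ⟨y, hy, rfl⟩)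
  have hco : ∀ n : ℤ, ((ztay1 y₁ (fun y => f (ψ (y, t₀)))).coeff n).im = 0 := by
    intro n
    have h := ztay_coeff_zero (y₁, t₀) (fun x => f (ψ x))
    simp only at h
    rw [← h]
    exact hre n 0
  have key := conj_symm_of_real_taylor hU hconv hsym hv hy₁ hy₁r hco
  rintro _ ⟨y, hy, rfl⟩
  have := key y hy
  simp only at this ⊢
  rw [← hψc y hy]
  exact this

end Web

end Claimed.Agent.R269
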