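/-
Row 269, P1 Section 4, unit 4F (Theorem 4.3): FIRST ORDER.   Statements: helper36.

SETTING.  `C` a chain with a good neighbourhood, `z = rp r` a real point with `|r.1 - y₀| < η`, `0 < r.2 < η`, `δ` a derivation of `ℝ` whose complexification kills the
Taylor series at `z` of the end data, `V = C.varSys …` the variational system.
CLAIM.  The first variation of the profile is analytic up to the glancing edge:  `V.F i l = ztay z (f_i^{(l)} ∘ ps i)` with `f_i` holomorphic on `Jm i` (which contains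
`ps i (rp r')` for ALL real `r'` of the `η`-square, `t = 0` included), real on the real axis, and `∑_i f_i (φ(y)) = 0`.

PROOF.  (1) `K := V.Dl V.act` has `D1 K = D2 K = 0` (`VarSys.d1_Dl_act`, `d2_Dl_act`), so `K = cst κ` (`eq_cst_of_D1_D2`).   `VarSys.Dl_act`: `∑ 2 s_i F_{i,0} = cst κ`.
(2) `Web.web_main` with `U = ball y₀ η₀`, `t₀ = r.2`, `m = n + 1`, `ψ i = C.ps i`, `w i = 2 * C.sd i`, `B = const κ`:   hypotheses from `Good1` (`an_ps`, `re_pos`, `indep`),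
    `Good2.sd_ne` (`t₀ ≠ 0`), towers `VarSys.d1_F`, `d2_F` + `ztay_pdy_ps`, `ztay_pdt_ps`, `isPS_F`.   Extend `f : Fin (n+1) → _` to `ℕ → _` by `0`.
(3) reality: `Web.web_real` with `isRe_F` (`l = 0`).
(4) `Φ(w) := ∑ 2 sd_i(w) f_i (ps_i w) - κ` is analytic at `rp r'` for all `r'` in the real square `Q = {|y - y₀| < η, |t| < η}` (`Good3.cover`: `ps i (rp r') ∈ Jm i`, open;
    `DifferentiableOn.analyticAt`), `ztay z Φ = 0`, so `Φ = 0` on `rp '' Q` (`eq_zero_of_ztay_real`; `Q` is convex).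
(5) at `t = 0`: `sd i (y,0) = 0` (`Good1.edge`), so `κ = 0`.   Differentiate `t ↦ Φ(y,t) = 0` at `t = 0`:  `d/dt sd_i (y,t) |_{t=0} = pdt (dd i) (y,0) = φ'(y)/2` (`Good1.slope`),
    `ps i (y,0) = φ(y) = al 0 (y,0)`:   `φ'(y) ∑ f_i(φ(y)) = 0`, and `φ'(y) ≠ 0` (`Good1.φ'_pos`).
PROVED (helper19).  The general lemmas `chain_web`, `chain_real`, `an_prof`, `chain_id` are used by CoreS, CorePF, CorePS too.
-/
import Claimed.Agent.R269.S4.ChainV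
import Claimed.Agent.R269.S4.Web

set_option autoImplicit false

namespace Claimed.Agent.R269

open Filter Topology ZT

namespace CChain

variable {n : ℕ} {C : CChain n}

/-- **The web lemma for chains**: towers over the foliations `ps i`, `i ≤ n`, with one weighted relation, are towers of composite functions
`f_i ∘ ps i`, `f_i` holomorphic on the image `Jm i` of the whole slice. -/
theorem chain_web {η₀ η ρ cc : ℝ} (hG : C.Good η₀ η ρ cc) (r : ℝ × ℝ) (hz : rp r ∈ C.bd η₀)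
    (wt : ℕ → ℂ × ℂ → ℂ) (B : ℂ × ℂ → ℂ)
    (hwt : ∀ i ≤ n, ∀ y ∈ Metric.ball (C.y₀ : ℂ) η₀, AnalyticAt ℂ (wt i) (y, (r.2 : ℂ)))
    (hwt0 : ∀ i ≤ n, ∀ y ∈ Metric.ball (C.y₀ : ℂ) η₀, wt i (y, (r.2 : ℂ)) ≠ 0)
    (hB : ∀ y ∈ Metric.ball (C.y₀ : ℂ) η₀, AnalyticAt ℂ B (y, (r.2 : ℂ)))
    (T : ℕ → ℕ → SS) (hT : ∀ i ≤ n, ∀ l, IsPS (T i l))
    (t1 : ∀ i ≤ n, ∀ l, D1 (T i l) = T i (l + 1) * ztay (rp r) (pdy (C.ps i)))
    (t2 : ∀ i ≤ n, ∀ l, D2 (T i l) = T i (l + 1) * ztay (rp r) (pdt (C.ps i)))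
    (rel : ∑ i ∈ Finset.range (n + 1), ztay (rp r) (wt i) * T i 0 = ztay (rp r) B) :
    ∃ f : ℕ → ℂ → ℂ, (∀ i ≤ n, IsOpen (C.Jm η₀ (r.2 : ℂ) i)) ∧
      (∀ i ≤ n, DifferentiableOn ℂ (f i) (C.Jm η₀ (r.2 : ℂ) i)) ∧
      ∀ i ≤ n, ∀ l, T i l = ztay (rp r) (fun w => iteratedDeriv l (f i) (C.ps i w)) := by
  have hle : ∀ i : Fin (n + 1), (i : ℕ) ≤ n := fun i => Nat.lt_succ_iff.mp i.2
  have hbd : ∀ y ∈ Metric.ball (C.y₀ : ℂ) η₀, (y, (r.2 : ℂ)) ∈ C.bd η₀ := fun y hy => ⟨hy, hz.2⟩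
  obtain ⟨f', hf'⟩ := Web.web_main (m := n + 1) (U := Metric.ball (C.y₀ : ℂ) η₀) Metric.isOpen_ball
    (convex_ball _ _) (r.2 : ℂ) (fun i => C.ps i) (fun i => wt i) B
    (fun i y hy => an_ps hG.g1 (hbd y hy) i (hle i)) (fun i y hy => hwt i (hle i) y hy) hB
    (fun i y hy => hwt0 i (hle i) y hy)
    (fun i y hy => hG.g1.re_pos i (hle i) _ (hbd y hy))
    (fun i j hij y hy => hG.g1.indep i (hle i) j (hle j) (fun h => hij (Fin.ext h)) _ (hbd y hy))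
    (y₁ := (r.1 : ℂ)) hz.1 (fun i l => T i l) (fun i l => hT i (hle i) l)
    (fun i l => t1 i (hle i) l) (fun i l => t2 i (hle i) l)
    ((Fin.sum_univ_eq_sum_range (fun i => ztay (rp r) (wt i) * T i 0) (n + 1)).trans rel)
  refine ⟨fun i => if h : i < n + 1 then f' ⟨i, h⟩ else 0, ?_, ?_, ?_⟩
  · intro i hi
    exact (hf' ⟨i, Nat.lt_succ_iff.mpr hi⟩).1
  · intro i hi
    simp only [dif_pos (Nat.lt_succ_iff.mpr hi)]
    exact (hf' ⟨i, Nat.lt_succ_iff.mpr hi⟩).2.1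
  · intro i hi l
    simp only [dif_pos (Nat.lt_succ_iff.mpr hi)]
    exact (hf' ⟨i, Nat.lt_succ_iff.mpr hi⟩).2.2 l

theorem conj_mem_ball_real {y₀ : ℝ} {η₀ : ℝ} {y : ℂ} (hy : y ∈ Metric.ball (y₀ : ℂ) η₀) :
    (starRingEnd ℂ) y ∈ Metric.ball (y₀ : ℂ) η₀ := by
  rw [Metric.mem_ball] at hy ⊢
  have : dist ((starRingEnd ℂ) y) (y₀ : ℂ) = dist y (y₀ : ℂ) := by
    conv_lhs => rw [← Complex.conj_ofReal y₀]
    exact Complex.dist_conj_conj _ _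
  rwa [this]

/-- `ps i` commutes with conjugation on the bidisc. -/
theorem ps_conj {η₀ ρ : ℝ} (hG : C.Good1 η₀ ρ) (i : ℕ) (hi : i ≤ n) {w : ℂ × ℂ} (hw : w ∈ C.bd η₀) :
    C.ps i ((starRingEnd ℂ) w.1, (starRingEnd ℂ) w.2) = (starRingEnd ℂ) (C.ps i w) := by
  unfold ps
  rw [hG.al_conj i (by omega) w hw, hG.al_conj (i + 1) (by omega) w hw]
  simp [Complex.conj_ofNat]

/-- **Reality** of a profile from the reality of the Taylor series of `f ∘ ps i` at a real point. -/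
theorem chain_real {η₀ η ρ cc : ℝ} (hG : C.Good η₀ η ρ cc) (r : ℝ × ℝ) (hz : rp r ∈ C.bd η₀)
    (i : ℕ) (hi : i ≤ n) (f : ℂ → ℂ) (hJ : IsOpen (C.Jm η₀ (r.2 : ℂ) i))
    (hf : DifferentiableOn ℂ f (C.Jm η₀ (r.2 : ℂ) i))
    (hre : IsRe (ztay (rp r) (fun x => f (C.ps i x)))) :
    ∀ x ∈ C.Jm η₀ (r.2 : ℂ) i, f ((starRingEnd ℂ) x) = (starRingEnd ℂ) (f x) := by
  have hbd : ∀ y ∈ Metric.ball (C.y₀ : ℂ) η₀, (y, (r.2 : ℂ)) ∈ C.bd η₀ := fun y hy => ⟨hy, hz.2⟩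
  exact Web.web_real (U := Metric.ball (C.y₀ : ℂ) η₀) Metric.isOpen_ball (convex_ball _ _)
    (fun y hy => conj_mem_ball_real hy) (r.2 : ℂ) (C.ps i)
    (fun y hy => an_ps hG.g1 (hbd y hy) i hi)
    (fun y hy => by
      have := ps_conj hG.g1 i hi (hbd y hy)
      simpa using this)
    (y₁ := (r.1 : ℂ)) hz.1 (Complex.ofReal_im _) f hJ hf hre

/-- a profile composed with `ps i` is analytic at the real points of the `η`-square. -/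
theorem an_prof {η₀ η ρ cc : ℝ} (hG : C.Good η₀ η ρ cc) {t₀ : ℝ} (ht0 : 0 < t₀) (ht1 : t₀ < η)
    (i : ℕ) (hi : i ≤ n) {f : ℂ → ℂ} (hJ : IsOpen (C.Jm η₀ (t₀ : ℂ) i))
    (hf : DifferentiableOn ℂ f (C.Jm η₀ (t₀ : ℂ) i)) {r' : ℝ × ℝ} (h1 : |r'.1 - C.y₀| < η)
    (h2 : |r'.2| < η) : AnalyticAt ℂ f (C.ps i (rp r')) ∧ AnalyticAt ℂ (fun w => f (C.ps i w)) (rp r') := by
  obtain ⟨y', hy', h⟩ := hG.g3.cover t₀ ht0 ht1 r' h1 h2 i hi
  have hmem : C.ps i (rp r') ∈ C.Jm η₀ (t₀ : ℂ) i := ⟨y', hy', h⟩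
  have ha : AnalyticAt ℂ f (C.ps i (rp r')) := hf.analyticAt (hJ.mem_nhds hmem)
  exact ⟨ha, ha.comp (an_ps hG.g1 (C.rp_mem_bd hG.g3.η_le h1 h2) i hi)⟩

/-- **Continuation of the relation** along a connected set of real points. -/
theorem chain_id {η₀ η ρ cc : ℝ} (hG : C.Good η₀ η ρ cc) (r : ℝ × ℝ) (hr2 : 0 < r.2) (hr3 : r.2 < η)
    (wt : ℕ → ℂ × ℂ → ℂ) (B : ℂ × ℂ → ℂ) (f : ℕ → ℂ → ℂ)
    (hJ : ∀ i ≤ n, IsOpen (C.Jm η₀ (r.2 : ℂ) i))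
    (hf : ∀ i ≤ n, DifferentiableOn ℂ (f i) (C.Jm η₀ (r.2 : ℂ) i))
    {Q : Set (ℝ × ℝ)} (hQ : IsPreconnected Q) (hQη : ∀ r' ∈ Q, |r'.1 - C.y₀| < η ∧ |r'.2| < η) (hrQ : r ∈ Q)
    (hwt : ∀ i ≤ n, ∀ r' ∈ Q, AnalyticAt ℂ (wt i) (rp r'))
    (hB : ∀ r' ∈ Q, AnalyticAt ℂ B (rp r'))
    (rel : ∑ i ∈ Finset.range (n + 1), ztay (rp r) (wt i) * ztay (rp r) (fun w => f i (C.ps i w))
      = ztay (rp r) B) :
    ∀ r' ∈ Q, ∑ i ∈ Finset.range (n + 1), wt i (rp r') * f i (C.ps i (rp r')) = B (rp r') := by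
  have hle : ∀ i ∈ Finset.range (n + 1), i ≤ n := fun i hi => Nat.lt_succ_iff.mp (Finset.mem_range.mp hi)
  have hterm : ∀ r' ∈ Q, ∀ i ∈ Finset.range (n + 1),
      AnalyticAt ℂ (fun w => wt i w * f i (C.ps i w)) (rp r') := fun r' hr' i hi =>
    (hwt i (hle i hi) r' hr').mul
      (an_prof hG hr2 hr3 i (hle i hi) (hJ i (hle i hi)) (hf i (hle i hi)) (hQη r' hr').1 (hQη r' hr').2).2
  have hsum : ∀ r' ∈ Q, AnalyticAt ℂ (fun w => ∑ i ∈ Finset.range (n + 1), wt i w * f i (C.ps i w)) (rp r') :=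
    fun r' hr' => Finset.analyticAt_fun_sum _ (hterm r' hr')
  have hΦ : ∀ r' ∈ Q, AnalyticAt ℂ
      (fun w => (∑ i ∈ Finset.range (n + 1), wt i w * f i (C.ps i w)) - B w) (rp r') :=
    fun r' hr' => (hsum r' hr').sub (hB r' hr')
  have h0 : ztay (rp r) (fun w => (∑ i ∈ Finset.range (n + 1), wt i w * f i (C.ps i w)) - B w) = 0 := by
    have e : ∑ i ∈ Finset.range (n + 1), ztay (rp r) (fun w => wt i w * f i (C.ps i w))
        = ∑ i ∈ Finset.range (n + 1), ztay (rp r) (wt i) * ztay (rp r) (fun w => f i (C.ps i w)) :=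
      Finset.sum_congr rfl fun i hi => ztay_mul (hwt i (hle i hi) r hrQ)
        (an_prof hG hr2 hr3 i (hle i hi) (hJ i (hle i hi)) (hf i (hle i hi)) (hQη r hrQ).1 (hQη r hrQ).2).2
    rw [ztay_sub (hsum r hrQ) (hB r hrQ), ztay_sum _ (hterm r hrQ), e, rel]
    exact sub_self (G := SS) _
  intro r' hr'
  exact sub_eq_zero.mp (eq_zero_of_ztay_real hQ hΦ hrQ h0 r' hr')

theorem cst_two : cst 2 = (2 : SS) := by
  have := cst_natCast 2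
  exact_mod_cast this

theorem slice_t_hasDerivAt {u : ℂ × ℂ → ℂ} {z : ℂ × ℂ} (hu : AnalyticAt ℂ u z) :
    HasDerivAt (fun τ : ℂ => u (z.1, τ)) (pdt u z) z.2 := by
  have h3 : DifferentiableAt ℂ (fun τ : ℂ => (z.1, τ)) z.2 := by fun_prop
  exact (DifferentiableAt.comp (f := fun τ : ℂ => (z.1, τ)) (g := u) z.2 hu.differentiableAt
    h3).hasDerivAt

theorem rp_zero (y : ℝ) : rp (y, 0) = ((y : ℂ), 0) := by simp [rp]

theorem mem_bd_edge {η₀ ρ : ℝ} (hG : C.Good1 η₀ ρ) {y : ℂ} (hy : y ∈ Metric.ball (C.y₀ : ℂ) η₀) :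
    (y, (0 : ℂ)) ∈ C.bd η₀ := ⟨hy, Metric.mem_ball_self hG.η₀_pos⟩

theorem dd_edge {η₀ ρ : ℝ} (hG : C.Good1 η₀ ρ) (i : ℕ) (hi : i ≤ n) {y : ℂ}
    (hy : y ∈ Metric.ball (C.y₀ : ℂ) η₀) : C.dd i (y, 0) = 0 := by
  unfold dd
  rw [hG.edge i (by omega) y hy, hG.edge (i + 1) (by omega) y hy]
  simp

theorem sd_edge {η₀ ρ : ℝ} (hG : C.Good1 η₀ ρ) (i : ℕ) (hi : i ≤ n) {y : ℂ}
    (hy : y ∈ Metric.ball (C.y₀ : ℂ) η₀) : C.sd i (y, 0) = 0 := by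
  unfold sd
  rw [dd_edge hG i hi hy, Complex.sin_zero]

theorem cd_edge {η₀ ρ : ℝ} (hG : C.Good1 η₀ ρ) (i : ℕ) (hi : i ≤ n) {y : ℂ}
    (hy : y ∈ Metric.ball (C.y₀ : ℂ) η₀) : C.cd i (y, 0) = 1 := by
  unfold cd
  rw [dd_edge hG i hi hy, Complex.cos_zero]

theorem ps_edge' {η₀ ρ : ℝ} (hG : C.Good1 η₀ ρ) (i : ℕ) (hi : i ≤ n) {y : ℂ}
    (hy : y ∈ Metric.ball (C.y₀ : ℂ) η₀) : C.ps i (y, 0) = C.al 0 (y, 0) := by
  unfold ps
  rw [hG.edge i (by omega) y hy, hG.edge (i + 1) (by omega) y hy]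
  ring

/-- `∂_t sin d_i = φ'/2` on the glancing edge. -/
theorem pdt_sd_edge {η₀ ρ : ℝ} (hG : C.Good1 η₀ ρ) (i : ℕ) (hi : i ≤ n) {y : ℂ}
    (hy : y ∈ Metric.ball (C.y₀ : ℂ) η₀) : pdt (C.sd i) (y, 0) = pdy (C.al 0) (y, 0) / 2 := by
  have hw := mem_bd_edge hG hy
  have h1 := slice_t_hasDerivAt (hG.al_an (i + 1) (by omega) _ hw)
  have h2 := slice_t_hasDerivAt (hG.al_an i (by omega) _ hw)
  have h3 : HasDerivAt (fun τ : ℂ => C.dd i (y, τ))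
      ((pdt (C.al (i + 1)) (y, 0) - pdt (C.al i) (y, 0)) / 2) 0 := (h1.sub h2).div_const 2
  have h4 : HasDerivAt (fun τ : ℂ => C.sd i (y, τ))
      (Complex.cos (C.dd i (y, 0)) * ((pdt (C.al (i + 1)) (y, 0) - pdt (C.al i) (y, 0)) / 2)) 0 :=
    h3.csin
  have h5 : pdt (C.sd i) (y, 0)
      = Complex.cos (C.dd i (y, 0)) * ((pdt (C.al (i + 1)) (y, 0) - pdt (C.al i) (y, 0)) / 2) := h4.deriv
  rw [h5, dd_edge hG i hi hy, Complex.cos_zero, hG.slope (i + 1) (by omega) y hy,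
    hG.slope i (by omega) y hy]
  push_cast
  ring

theorem isPreconnected_square (y₀ η : ℝ) :
    IsPreconnected {r' : ℝ × ℝ | |r'.1 - y₀| < η ∧ |r'.2| < η} := by
  have h : {r' : ℝ × ℝ | |r'.1 - y₀| < η ∧ |r'.2| < η} = Metric.ball y₀ η ×ˢ Metric.ball (0 : ℝ) η := by
    ext r'
    simp [Real.dist_eq]
  rw [h]
  exact ((convex_ball _ _).prod (convex_ball _ _)).isPreconnected

theorem core_first {η₀ η ρ cc : ℝ} (hG : C.Good η₀ η ρ cc) (r : ℝ × ℝ) (hr1 : |r.1 - C.y₀| < η) (hr2 : 0 < r.2)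
    (hr3 : r.2 < η) (hz : rp r ∈ C.bd η₀) (δ : Dv ℝ) (hE : C.EndKilled (rp r) δ.cx) :
    ∃ f : ℕ → ℂ → ℂ, C.Prof η₀ (r.2 : ℂ) f ∧
      (∀ i ≤ n, ∀ l, (C.varSys hG.g1 hz hE).F i l = ztay (rp r) (fun w => iteratedDeriv l (f i) (C.ps i w))) ∧
      ∀ y : ℝ, |y - C.y₀| < η → ∑ i ∈ Finset.range (n + 1), f i (C.al 0 ((y : ℂ), 0)) = 0 := by
  have hle : ∀ i ∈ Finset.range (n + 1), i ≤ n := fun i hi => Nat.lt_succ_iff.mp (Finset.mem_range.mp hi)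
  have hr2' : (r.2 : ℂ) ≠ 0 := by exact_mod_cast hr2.ne'
  have hbd : ∀ y ∈ Metric.ball (C.y₀ : ℂ) η₀, (y, (r.2 : ℂ)) ∈ C.bd η₀ := fun y hy => ⟨hy, hz.2⟩
  -- (1)
  have hK := eq_cst_of_D1_D2 _ (C.varSys hG.g1 hz hE).d1_Dl_act (C.varSys hG.g1 hz hE).d2_Dl_act
  obtain ⟨κ, hκ⟩ : ∃ κ : ℂ, (C.varSys hG.g1 hz hE).Dl (C.varSys hG.g1 hz hE).act = cst κ := ⟨_, hK⟩
  have hrel0 : ∑ i ∈ Finset.range (n + 1), 2 * (C.varSys hG.g1 hz hE).s i * (C.varSys hG.g1 hz hE).F i 0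
      = cst κ := (C.varSys hG.g1 hz hE).Dl_act.symm.trans hκ
  have hwz : ∀ i ≤ n, ztay (rp r) (fun w => 2 * C.sd i w) = 2 * (C.varSys hG.g1 hz hE).s i := by
    intro i hi
    rw [ztay_mul analyticAt_const (an_sd hG.g1 hz i hi), ztay_const, cst_two]
    rfl
  -- (2)
  obtain ⟨f, hJ, hfd, hfT⟩ := chain_web hG r hz (fun i w => 2 * C.sd i w) (fun _ => κ)
    (fun i hi y hy => analyticAt_const.mul (an_sd hG.g1 (hbd y hy) i hi))
    (fun i hi y hy => mul_ne_zero two_ne_zero (hG.g2.sd_ne i hi _ (hbd y hy) hr2'))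
    (fun y hy => analyticAt_const)
    (fun i l => (C.varSys hG.g1 hz hE).F i l) (fun i _ l => isPS_F hG.g1 hz hE i l)
    (fun i hi l => by
      rw [ztay_pdy_ps hG.g1 hz i hi]
      exact (C.varSys hG.g1 hz hE).d1_F i hi l)
    (fun i hi l => by
      rw [ztay_pdt_ps hG.g1 hz i hi]
      exact (C.varSys hG.g1 hz hE).d2_F i hi l)
    (by
      rw [ztay_const, ← hrel0]
      exact Finset.sum_congr rfl fun i hi => by rw [hwz i (hle i hi)])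
  have hf0 : ∀ i ≤ n, (C.varSys hG.g1 hz hE).F i 0 = ztay (rp r) (fun w => f i (C.ps i w)) := by
    intro i hi
    have := hfT i hi 0
    simpa only [iteratedDeriv_zero] using this
  -- (3)
  have hprof : C.Prof η₀ (r.2 : ℂ) f :=
    ⟨hJ, hfd, fun i hi => chain_real hG r hz i hi (f i) (hJ i hi) (hfd i hi) (by
      rw [← hf0 i hi]
      exact isRe_F hG.g1 hz hE i hi 0)⟩
  refine ⟨f, hprof, hfT, ?_⟩
  -- (4)
  have hΦ := chain_id hG r hr2 hr3 (fun i w => 2 * C.sd i w) (fun _ => κ) f hJ hfd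
    (isPreconnected_square C.y₀ η) (fun r' hr' => hr') (show r ∈ {r' : ℝ × ℝ | |r'.1 - C.y₀| < η ∧ |r'.2| < η} from
      ⟨hr1, by rw [abs_of_pos hr2]; exact hr3⟩)
    (fun i hi r' hr' => analyticAt_const.mul (an_sd hG.g1 (C.rp_mem_bd hG.g3.η_le hr'.1 hr'.2) i hi))
    (fun r' hr' => analyticAt_const)
    (by
      rw [ztay_const, ← hrel0]
      exact Finset.sum_congr rfl fun i hi => by rw [hwz i (hle i hi), hf0 i (hle i hi)])
  have hη := hG.g3.η_pos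
  -- (5)
  intro y hy
  have hyb : (y : ℂ) ∈ Metric.ball (C.y₀ : ℂ) η₀ := (C.rp_mem_bd hG.g3.η_le (r := (y, 0)) hy (by simpa using hη)).1
  have hκ0 : κ = 0 := by
    have h := hΦ (y, 0) ⟨hy, by simpa using hη⟩
    rw [rp_zero] at h
    rw [← h]
    exact Finset.sum_eq_zero fun i hi => by
      show 2 * C.sd i ((y : ℂ), 0) * _ = 0
      rw [sd_edge hG.g1 i (hle i hi) hyb]; ring
  have hw := mem_bd_edge hG.g1 hyb
  have hder : ∀ i ∈ Finset.range (n + 1), HasDerivAt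
      (fun τ : ℂ => 2 * C.sd i ((y : ℂ), τ) * f i (C.ps i ((y : ℂ), τ)))
      (pdy (C.al 0) ((y : ℂ), 0) * f i (C.al 0 ((y : ℂ), 0))) 0 := by
    intro i hi
    have h1 := slice_t_hasDerivAt (an_sd hG.g1 hw i (hle i hi))
    have h2a := (an_prof hG hr2 hr3 i (hle i hi) (hJ i (hle i hi)) (hfd i (hle i hi)) (r' := (y, 0)) hy
      (by simpa using hη)).2
    rw [rp_zero] at h2a
    have h2 := slice_t_hasDerivAt h2a
    have h3 := (h1.const_mul 2).mul h2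
    simp only at h3
    rw [sd_edge hG.g1 i (hle i hi) hyb, pdt_sd_edge hG.g1 i (hle i hi) hyb,
      ps_edge' hG.g1 i (hle i hi) hyb] at h3
    exact h3.congr_deriv (by ring)
  have hsum := (HasDerivAt.fun_sum hder).comp_ofReal
  have hzero : (fun t : ℝ => ∑ i ∈ Finset.range (n + 1),
      2 * C.sd i ((y : ℂ), (t : ℂ)) * f i (C.ps i ((y : ℂ), (t : ℂ)))) =ᶠ[𝓝 0] fun _ => (0 : ℂ) := by
    filter_upwards [Metric.ball_mem_nhds (0 : ℝ) hη] with t ht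
    have h := hΦ (y, t) ⟨hy, by simpa [Real.dist_eq] using ht⟩
    rw [hκ0] at h
    exact h
  have hD := (hzero.hasDerivAt_iff.2 (hasDerivAt_const (0 : ℝ) (0 : ℂ))).unique hsum
  rw [← Finset.mul_sum] at hD
  have hφ : pdy (C.al 0) ((y : ℂ), 0) ≠ 0 := by
    intro h0
    have := hG.g1.φ'_pos (y : ℂ) hyb
    rw [h0] at this
    simp at this
  exact (mul_eq_zero.mp hD.symm).resolve_left hφ

end CChain

end Claimed.Agent.R269
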