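/-
Row 269, P1 Section 4, unit 4F (Theorem 4.3): SECOND ORDER, from the formal identity to an identity of analytic functions.   Statements: helper36.

SETTING as in CoreF; `f` the first variation of the profile found there.
CLAIM.  There are profiles `g_i` (holomorphic on `Jm i`, real on the real axis) and a constant `κ` with
      `∑_i 2 sd_i g_i(ps_i) + ½ ∑_j At_j vF_j = κ`      at all real points `|y - y₀| < η`, `0 < t < η`,         `At = - hess⁻¹ vF`.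

PROOF.  (1) `V.v j = ztay z (C.vF f j)` for `j < n` (hypothesis `hF` with `l = 0, 1`; `iteratedDeriv_zero`, `iteratedDeriv_one`; `ztay_mul`, `ztay_add`, `ztay_sub`).
(2) `V.A (j+1) = ztay z (fun w => C.At f w j)`: `lin_stat_matrix` + `ztay_linsolve'` (`Good2.det_ne`, `z.2 = r.2 ≠ 0`).
(3) `K := V.D2 V.act` is a constant `cst κ` (`VarSys.d1_Dl_Dl_act`, `d2_Dl_Dl_act`, `eq_cst_of_D1_D2`).   `VarSys.D2_act`:  `∑ 2 s_i Gt_{i,0} = ztay z B`,
    `B(w) := κ - (∑_j At f w j * vF f j w) / 2`, analytic at every `(y, r.2)`, `y ∈ ball y₀ η₀` (there `ps i (y, r.2) ∈ Jm i` trivially, `det hess ≠ 0`; `analyticAt_inv`).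
(4) `Web.web_main` as in CoreF with the towers `VarSys.d1_Gt`, `d2_Gt`, `isPS_Gt`; reality by `Web.web_real`, `isRe_Gt`.
(5) `Φ := ∑ 2 sd_i g_i(ps_i) - B` is analytic at all real points of `Q⁺ = {|y - y₀| < η, 0 < t < η}` (convex; `Good3.cover`, `Good2.det_ne`), `ztay z Φ = 0`;  `eq_zero_of_ztay_real`.
PROVED (helper19).  General lemmas `an_prof'`, `an_vF`, `an_solve`, `ztay_vF` are used by CorePS too.
-/
import Claimed.Agent.R269.S4.CoreF
import Claimed.Agent.R269.S4.ZTayC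

set_option autoImplicit false

namespace Claimed.Agent.R269

open Filter Topology ZT

theorem VarSys.d1_D2_act {S : Type*} [Field S] [CharZero S] {n : ℕ} (V : VarSys S n) :
    V.d1 (V.D2 V.act) = 0 := by
  rw [V.d1_D2]
  unfold VarSys.D2
  rw [V.comm1, V.d1_Dl_act, map_zero]
  ring

theorem VarSys.d2_D2_act {S : Type*} [Field S] [CharZero S] {n : ℕ} (V : VarSys S n) :
    V.d2 (V.D2 V.act) = 0 := by
  rw [V.d2_D2]
  unfold VarSys.D2
  rw [V.comm2, V.d2_Dl_act, map_zero]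
  ring

namespace CChain

variable {n : ℕ} {C : CChain n}

/-- a profile (and its derivative) composed with `ps i` is analytic at the points `w` with `ps i w ∈ Jm i`. -/
theorem an_prof' {η₀ ρ : ℝ} (hG : C.Good1 η₀ ρ) {t₀ : ℂ} (i : ℕ) (hi : i ≤ n) {f : ℂ → ℂ}
    (hJ : IsOpen (C.Jm η₀ t₀ i)) (hf : DifferentiableOn ℂ f (C.Jm η₀ t₀ i)) {w : ℂ × ℂ} (hw : w ∈ C.bd η₀)
    (hm : C.ps i w ∈ C.Jm η₀ t₀ i) :
    AnalyticAt ℂ (fun x => f (C.ps i x)) w ∧ AnalyticAt ℂ (fun x => deriv f (C.ps i x)) w := by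
  have ha : AnalyticAt ℂ f (C.ps i w) := hf.analyticAt (hJ.mem_nhds hm)
  exact ⟨ha.comp (an_ps hG hw i hi), ha.deriv.comp (an_ps hG hw i hi)⟩

theorem an_vF {η₀ ρ : ℝ} (hG : C.Good1 η₀ ρ) {t₀ : ℂ} {f : ℕ → ℂ → ℂ}
    (hJ : ∀ i ≤ n, IsOpen (C.Jm η₀ t₀ i)) (hf : ∀ i ≤ n, DifferentiableOn ℂ (f i) (C.Jm η₀ t₀ i))
    {w : ℂ × ℂ} (hw : w ∈ C.bd η₀) (hm : ∀ i ≤ n, C.ps i w ∈ C.Jm η₀ t₀ i) (j : ℕ) (hj : j < n) :
    AnalyticAt ℂ (C.vF f j) w := by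
  obtain ⟨a1, a2⟩ := an_prof' hG j (by omega) (hJ j (by omega)) (hf j (by omega)) hw (hm j (by omega))
  obtain ⟨b1, b2⟩ := an_prof' hG (j + 1) (by omega) (hJ (j + 1) (by omega)) (hf (j + 1) (by omega)) hw
    (hm (j + 1) (by omega))
  exact ((a2.mul (an_sd hG hw j (by omega))).add (a1.mul (an_cd hG hw j (by omega)))).add
    ((b2.mul (an_sd hG hw (j + 1) (by omega))).sub (b1.mul (an_cd hG hw (j + 1) (by omega))))

/-- the solution of an analytic linear system is analytic. -/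
theorem an_solve {N : ℂ × ℂ → Matrix (Fin n) (Fin n) ℂ} {v : Fin n → ℂ × ℂ → ℂ} {w : ℂ × ℂ}
    (hN : ∀ a b, AnalyticAt ℂ (fun x => N x a b) w) (hdet : (N w).det ≠ 0)
    (hv : ∀ a, AnalyticAt ℂ (v a) w) (a : Fin n) :
    AnalyticAt ℂ (fun x => (-((N x)⁻¹.mulVec fun j => v j x)) a) w := by
  have h : AnalyticAt ℂ (fun x => ∑ b, (N x)⁻¹ a b * v b x) w :=
    Finset.analyticAt_fun_sum _ fun b _ => (analyticAt_inv hN hdet a b).mul (hv b)
  exact h.neg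

/-- the formal gradient is the Taylor series of the analytic one. -/
theorem ztay_vF {η₀ ρ : ℝ} (hG : C.Good1 η₀ ρ) {t₀ : ℂ} {f : ℕ → ℂ → ℂ}
    (hJ : ∀ i ≤ n, IsOpen (C.Jm η₀ t₀ i)) (hf : ∀ i ≤ n, DifferentiableOn ℂ (f i) (C.Jm η₀ t₀ i))
    {z : ℂ × ℂ} (hz : z ∈ C.bd η₀) (hm : ∀ i ≤ n, C.ps i z ∈ C.Jm η₀ t₀ i) (j : ℕ) (hj : j < n) :
    ztay z (C.vF f j) =
      (ztay z (fun w => iteratedDeriv 1 (f j) (C.ps j w)) * ztay z (C.sd j)
        + ztay z (fun w => iteratedDeriv 0 (f j) (C.ps j w)) * ztay z (C.cd j))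
      + (ztay z (fun w => iteratedDeriv 1 (f (j + 1)) (C.ps (j + 1) w)) * ztay z (C.sd (j + 1))
        - ztay z (fun w => iteratedDeriv 0 (f (j + 1)) (C.ps (j + 1) w)) * ztay z (C.cd (j + 1))) := by
  obtain ⟨a1, a2⟩ := an_prof' hG j (by omega) (hJ j (by omega)) (hf j (by omega)) hz (hm j (by omega))
  obtain ⟨b1, b2⟩ := an_prof' hG (j + 1) (by omega) (hJ (j + 1) (by omega)) (hf (j + 1) (by omega)) hz
    (hm (j + 1) (by omega))
  have s1 := an_sd hG hz j (by omega)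
  have c1 := an_cd hG hz j (by omega)
  have s2 := an_sd hG hz (j + 1) (by omega)
  have c2 := an_cd hG hz (j + 1) (by omega)
  simp only [iteratedDeriv_one, iteratedDeriv_zero]
  have m1 : AnalyticAt ℂ (fun w => deriv (f j) (C.ps j w) * C.sd j w) z := a2.mul s1
  have m2 : AnalyticAt ℂ (fun w => f j (C.ps j w) * C.cd j w) z := a1.mul c1
  have m3 : AnalyticAt ℂ (fun w => deriv (f (j + 1)) (C.ps (j + 1) w) * C.sd (j + 1) w) z := b2.mul s2
  have m4 : AnalyticAt ℂ (fun w => f (j + 1) (C.ps (j + 1) w) * C.cd (j + 1) w) z := b1.mul c2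
  have m5 : AnalyticAt ℂ (fun w => deriv (f j) (C.ps j w) * C.sd j w + f j (C.ps j w) * C.cd j w) z :=
    m1.add m2
  have m6 : AnalyticAt ℂ (fun w => deriv (f (j + 1)) (C.ps (j + 1) w) * C.sd (j + 1) w
      - f (j + 1) (C.ps (j + 1) w) * C.cd (j + 1) w) z := m3.sub m4
  rw [← ztay_mul a2 s1, ← ztay_mul a1 c1, ← ztay_mul b2 s2, ← ztay_mul b1 c2,
    ← ztay_add m1 m2, ← ztay_sub m3 m4, ← ztay_add m5 m6]
  rfl

theorem slice_mem_Jm (C : CChain n) {η₀ : ℝ} {t₀ : ℂ} (i : ℕ) {y : ℂ} (hy : y ∈ Metric.ball (C.y₀ : ℂ) η₀) :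
    C.ps i (y, t₀) ∈ C.Jm η₀ t₀ i := ⟨y, hy, rfl⟩

theorem isPreconnected_halfsquare (y₀ η : ℝ) :
    IsPreconnected {r' : ℝ × ℝ | |r'.1 - y₀| < η ∧ 0 < r'.2 ∧ r'.2 < η} := by
  have h : {r' : ℝ × ℝ | |r'.1 - y₀| < η ∧ 0 < r'.2 ∧ r'.2 < η} = Metric.ball y₀ η ×ˢ Set.Ioo (0 : ℝ) η := by
    ext r'
    simp [Real.dist_eq]
  rw [h]
  exact ((convex_ball _ _).prod (convex_Ioo _ _)).isPreconnected

theorem ztay_half {z : ℂ × ℂ} {u : ℂ × ℂ → ℂ} (hu : AnalyticAt ℂ u z) :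
    ztay z (fun w => u w / 2) = ztay z u / 2 := by
  rw [ztay_div hu analyticAt_const two_ne_zero, ztay_const, cst_two]

theorem core_second {η₀ η ρ cc : ℝ} (hG : C.Good η₀ η ρ cc) (r : ℝ × ℝ) (hr1 : |r.1 - C.y₀| < η) (hr2 : 0 < r.2)
    (hr3 : r.2 < η) (hz : rp r ∈ C.bd η₀) (δ : Dv ℝ) (hE : C.EndKilled (rp r) δ.cx)
    (f : ℕ → ℂ → ℂ) (hf : C.Prof η₀ (r.2 : ℂ) f)
    (hF : ∀ i ≤ n, ∀ l, (C.varSys hG.g1 hz hE).F i l = ztay (rp r) (fun w => iteratedDeriv l (f i) (C.ps i w))) :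
    ∃ (g : ℕ → ℂ → ℂ) (κ : ℂ), C.Prof η₀ (r.2 : ℂ) g ∧
      ∀ r' : ℝ × ℝ, |r'.1 - C.y₀| < η → 0 < r'.2 → r'.2 < η →
        ∑ i ∈ Finset.range (n + 1), 2 * C.sd i (rp r') * g i (C.ps i (rp r'))
          + (∑ j : Fin n, C.At f (rp r') j * C.vF f j (rp r')) / 2 = κ := by
  have hle : ∀ i ∈ Finset.range (n + 1), i ≤ n := fun i hi => Nat.lt_succ_iff.mp (Finset.mem_range.mp hi)
  have hr2' : (r.2 : ℂ) ≠ 0 := by exact_mod_cast hr2.ne'
  have hbd : ∀ y ∈ Metric.ball (C.y₀ : ℂ) η₀, (y, (r.2 : ℂ)) ∈ C.bd η₀ := fun y hy => ⟨hy, hz.2⟩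
  have hzm : ∀ i ≤ n, C.ps i (rp r) ∈ C.Jm η₀ (r.2 : ℂ) i := fun i _ => C.slice_mem_Jm i hz.1
  -- analyticity of `vF`, `At`, `B` at the points where the profiles live and the Hessian is invertible
  have hanv : ∀ w ∈ C.bd η₀, (∀ i ≤ n, C.ps i w ∈ C.Jm η₀ (r.2 : ℂ) i) → ∀ j : Fin n,
      AnalyticAt ℂ (C.vF f j) w := fun w hw hm j => an_vF hG.g1 hf.isOpen hf.diff hw hm j j.2
  have hanA : ∀ w ∈ C.bd η₀, (∀ i ≤ n, C.ps i w ∈ C.Jm η₀ (r.2 : ℂ) i) → w.2 ≠ 0 → ∀ j : Fin n,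
      AnalyticAt ℂ (fun x => C.At f x j) w := fun w hw hm h0 j =>
    an_solve (N := C.hess) (v := fun j x => C.vF f j x) (fun a b => an_hess hG.g1 hw a b)
      (hG.g2.det_ne w hw h0) (hanv w hw hm) j
  have hanS : ∀ w ∈ C.bd η₀, (∀ i ≤ n, C.ps i w ∈ C.Jm η₀ (r.2 : ℂ) i) → w.2 ≠ 0 →
      AnalyticAt ℂ (fun x => ∑ j : Fin n, C.At f x j * C.vF f j x) w := fun w hw hm h0 =>
    Finset.analyticAt_fun_sum _ fun j _ => (hanA w hw hm h0 j).mul (hanv w hw hm j)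
  -- (1)
  have hv : ∀ j < n, (C.varSys hG.g1 hz hE).v j = ztay (rp r) (C.vF f j) := by
    intro j hj
    rw [ztay_vF hG.g1 hf.isOpen hf.diff hz hzm j hj, ← hF j (by omega) 1, ← hF j (by omega) 0,
      ← hF (j + 1) (by omega) 1, ← hF (j + 1) (by omega) 0]
    rfl
  -- (2)
  have hA : ∀ a : Fin n, (C.varSys hG.g1 hz hE).A (a + 1) = ztay (rp r) (fun w => C.At f w a) := by
    intro a
    have h := ztay_linsolve' (N := C.hess) (fun a b => an_hess hG.g1 hz a b) (hG.g2.det_ne _ hz hr2')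
      (fun a w => -C.vF f a w) (fun a => (hanv _ hz hzm a).neg)
      (fun a : Fin n => (C.varSys hG.g1 hz hE).A (a + 1))
      (fun a => by
        rw [lin_stat_matrix hG.g1 hz hE a, hv a a.2, ztay_neg (hanv _ hz hzm a)]) a
    rw [h]
    congr 1
    funext w
    unfold At
    have e : (fun b : Fin n => -C.vF f b w) = -(fun b : Fin n => C.vF f b w) := rfl
    rw [e, Matrix.mulVec_neg]
  -- (3)
  have hD1 : D1 ((C.varSys hG.g1 hz hE).D2 (C.varSys hG.g1 hz hE).act) = 0 :=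
    (C.varSys hG.g1 hz hE).d1_D2_act
  have hD2 : D2 ((C.varSys hG.g1 hz hE).D2 (C.varSys hG.g1 hz hE).act) = 0 :=
    (C.varSys hG.g1 hz hE).d2_D2_act
  obtain ⟨κ, hκ⟩ : ∃ κ : ℂ, (C.varSys hG.g1 hz hE).D2 (C.varSys hG.g1 hz hE).act = cst κ :=
    ⟨_, eq_cst_of_D1_D2 _ hD1 hD2⟩
  have hBz : ztay (rp r) (fun w => κ - (∑ j : Fin n, C.At f w j * C.vF f j w) / 2)
      = cst κ - (∑ j ∈ Finset.range n, (C.varSys hG.g1 hz hE).A (j + 1) * (C.varSys hG.g1 hz hE).v j) / 2 := by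
    have hS := hanS _ hz hzm hr2'
    have hS2 : AnalyticAt ℂ (fun w => (∑ j : Fin n, C.At f w j * C.vF f j w) / 2) (rp r) :=
      hS.div analyticAt_const two_ne_zero
    rw [ztay_sub analyticAt_const hS2, ztay_const, ztay_half hS,
      ztay_sum (u := fun (j : Fin n) w => C.At f w j * C.vF f j w) Finset.univ
        (fun j _ => (hanA _ hz hzm hr2' j).mul (hanv _ hz hzm j)),
      ← Fin.sum_univ_eq_sum_range
        (fun j => (C.varSys hG.g1 hz hE).A (j + 1) * (C.varSys hG.g1 hz hE).v j) n]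
    congr 2
    exact Finset.sum_congr rfl fun j _ => by
      rw [ztay_mul (hanA _ hz hzm hr2' j) (hanv _ hz hzm j), hA j, hv j j.2]
  have hrel0 : ∑ i ∈ Finset.range (n + 1), 2 * (C.varSys hG.g1 hz hE).s i * (C.varSys hG.g1 hz hE).Gt i 0
      = ztay (rp r) (fun w => κ - (∑ j : Fin n, C.At f w j * C.vF f j w) / 2) := by
    rw [hBz, ← hκ, (C.varSys hG.g1 hz hE).D2_act]
    ring
  have hwz : ∀ i ≤ n, ztay (rp r) (fun w => 2 * C.sd i w) = 2 * (C.varSys hG.g1 hz hE).s i := by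
    intro i hi
    rw [ztay_mul analyticAt_const (an_sd hG.g1 hz i hi), ztay_const, cst_two]
    rfl
  -- (4)
  obtain ⟨g, hJ, hgd, hgT⟩ := chain_web hG r hz (fun i w => 2 * C.sd i w)
    (fun w => κ - (∑ j : Fin n, C.At f w j * C.vF f j w) / 2)
    (fun i hi y hy => analyticAt_const.mul (an_sd hG.g1 (hbd y hy) i hi))
    (fun i hi y hy => mul_ne_zero two_ne_zero (hG.g2.sd_ne i hi _ (hbd y hy) hr2'))
    (fun y hy => analyticAt_const.sub
      ((hanS _ (hbd y hy) (fun i _ => C.slice_mem_Jm i hy) hr2').div analyticAt_const two_ne_zero))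
    (fun i l => (C.varSys hG.g1 hz hE).Gt i l) (fun i _ l => isPS_Gt hG.g1 hz hE i l)
    (fun i hi l => by
      rw [ztay_pdy_ps hG.g1 hz i hi]
      exact (C.varSys hG.g1 hz hE).d1_Gt i hi l)
    (fun i hi l => by
      rw [ztay_pdt_ps hG.g1 hz i hi]
      exact (C.varSys hG.g1 hz hE).d2_Gt i hi l)
    (by
      rw [← hrel0]
      exact Finset.sum_congr rfl fun i hi => by rw [hwz i (hle i hi)])
  have hg0 : ∀ i ≤ n, (C.varSys hG.g1 hz hE).Gt i 0 = ztay (rp r) (fun w => g i (C.ps i w)) := by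
    intro i hi
    have := hgT i hi 0
    simpa only [iteratedDeriv_zero] using this
  have hprof : C.Prof η₀ (r.2 : ℂ) g :=
    ⟨hJ, hgd, fun i hi => chain_real hG r hz i hi (g i) (hJ i hi) (hgd i hi) (by
      rw [← hg0 i hi]
      exact isRe_Gt hG.g1 hz hE i hi 0)⟩
  refine ⟨g, κ, hprof, ?_⟩
  -- (5)
  have hQ : ∀ r' ∈ {r' : ℝ × ℝ | |r'.1 - C.y₀| < η ∧ 0 < r'.2 ∧ r'.2 < η}, |r'.1 - C.y₀| < η ∧ |r'.2| < η :=
    fun r' hr' => ⟨hr'.1, by rw [abs_of_pos hr'.2.1]; exact hr'.2.2⟩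
  have hΦ := chain_id hG r hr2 hr3 (fun i w => 2 * C.sd i w)
    (fun w => κ - (∑ j : Fin n, C.At f w j * C.vF f j w) / 2) g hJ hgd
    (isPreconnected_halfsquare C.y₀ η) hQ
    (show r ∈ {r' : ℝ × ℝ | |r'.1 - C.y₀| < η ∧ 0 < r'.2 ∧ r'.2 < η} from ⟨hr1, hr2, hr3⟩)
    (fun i hi r' hr' => analyticAt_const.mul
      (an_sd hG.g1 (C.rp_mem_bd hG.g3.η_le (hQ r' hr').1 (hQ r' hr').2) i hi))
    (fun r' hr' => analyticAt_const.sub
      ((hanS _ (C.rp_mem_bd hG.g3.η_le (hQ r' hr').1 (hQ r' hr').2)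
        (fun i hi => by
          obtain ⟨y', hy', h⟩ := hG.g3.cover r.2 hr2 hr3 r' (hQ r' hr').1 (hQ r' hr').2 i hi
          exact ⟨y', hy', h⟩)
        (by
          show ((r'.2 : ℝ) : ℂ) ≠ 0
          exact_mod_cast hr'.2.1.ne')).div analyticAt_const two_ne_zero))
    (by
      rw [← hrel0]
      exact Finset.sum_congr rfl fun i hi => by rw [hwz i (hle i hi), hg0 i (hle i hi)])
  intro r' h1 h2 h3
  have h := hΦ r' ⟨h1, h2, h3⟩
  rw [h]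
  ring

end CChain

end Claimed.Agent.R269
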