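/-
Row 269, P1 Section 4, unit 4F (Theorem 4.3): THE INFINITESIMAL LENS RIGIDITY.   Statements: helper36.

THEOREM `core_main`.  For real `z = (y,t)` close to `(y₀,0)`, `t > 0`:  a derivation of `ℝ` (complexified, applied to Taylor coefficients at `z`) which kills the end data of the
chain kills `sin d_i`, `cos d_i` and all `h^{(l)}(ψ_i)`.

PROOF (glue).  `exists_good`; `z ∈ bd η₀` (`rp_mem_bd`); `core_first` gives `f`; `core_second` gives `g`, `κ`; `core_blowup` gives `f_j(φ(y)) = f_{j+1}(φ(y))`, `j < n`; with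
`∑_{i ≤ n} f_i(φ(y)) = 0`:  `f_i(φ(y)) = 0` for all `i ≤ n` and all real `|y - y₀| < η`.
`prof_zero`: `φ = al 0 (·,0)` is analytic with `φ'(y₀) ≠ 0`, so `φ(y) ≠ φ(y₀) = x₀` for real `y ≠ y₀` close to `y₀` and `φ(y) → x₀`:  the zeros of `f_i` accumulate at `x₀ ∈ Jm i`
(`Good3.cover` with `r = (y₀,0)`, `Good1.edge`); `Jm i` is open and preconnected (continuous image of a ball): `AnalyticOnNhd.eqOn_zero_of_preconnected_of_frequently_eq_zero`.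
Then `V.F i l = ztay z 0 = 0` (`ztay_congr`: `iteratedDeriv l (f i) = 0` on the open set `Jm i ∋ ps i z`), `V.v j = 0`, `lin_stat_matrix` + `ztay_linsolve` give `V.A (j+1) = 0`, `j < n`;
`V.A 0 = 0` by definition, `V.A (n+1) = 0` by `VarSys.A_last`.   `VarSys.core_killed`.
PROVED (helper36): this file has nothing left open.
-/
import Claimed.Agent.R269.S4.ChainB
import Claimed.Agent.R269.S4.CoreF
import Claimed.Agent.R269.S4.CoreS
import Claimed.Agent.R269.S4.CoreB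

set_option autoImplicit false

namespace Claimed.Agent.R269

open Filter Topology ZT

namespace CChain

variable {n : ℕ}

theorem slice_mem_bd {C : CChain n} {η₀ : ℝ} {t₀ : ℂ} (ht : t₀ ∈ Metric.ball (0 : ℂ) η₀) {y : ℂ}
    (hy : y ∈ Metric.ball (C.y₀ : ℂ) η₀) : (y, t₀) ∈ C.bd η₀ := ⟨hy, ht⟩

theorem Jm_preconnected {C : CChain n} {η₀ ρ : ℝ} (hG : C.Good1 η₀ ρ) {t₀ : ℂ} (ht : t₀ ∈ Metric.ball (0 : ℂ) η₀)
    (i : ℕ) (hi : i ≤ n) : IsPreconnected (C.Jm η₀ t₀ i) := by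
  apply (convex_ball (C.y₀ : ℂ) η₀).isPreconnected.image
  intro y hy
  have h1 : ContinuousAt (C.ps i) (y, t₀) := (an_ps hG (slice_mem_bd ht hy) i hi).continuousAt
  have h2 : ContinuousAt (fun y : ℂ => (y, t₀)) y := by fun_prop
  exact (ContinuousAt.comp (f := fun y : ℂ => (y, t₀)) (g := C.ps i) h1 h2).continuousWithinAt

/-- `ps i (y,0) = φ(y)`. -/
theorem ps_edge {C : CChain n} {η₀ ρ : ℝ} (hG : C.Good1 η₀ ρ) (i : ℕ) (hi : i ≤ n) {y : ℂ}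
    (hy : y ∈ Metric.ball (C.y₀ : ℂ) η₀) : C.ps i (y, 0) = C.al 0 (y, 0) := by
  unfold ps
  rw [hG.edge i (by omega) y hy, hG.edge (i + 1) (by omega) y hy]
  ring

theorem real_mem_ball {C : CChain n} {η₀ η : ℝ} (hη : η ≤ η₀) {y : ℝ} (hy : |y - C.y₀| < η) :
    (y : ℂ) ∈ Metric.ball (C.y₀ : ℂ) η₀ := by
  rw [Metric.mem_ball, dist_eq_norm, ← Complex.ofReal_sub, Complex.norm_real]
  exact lt_of_lt_of_le hy hη

/-- `φ(y) ∈ Jm i` for real `y` close to `y₀`. -/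
theorem edge_mem_Jm {C : CChain n} {η₀ η ρ cc : ℝ} (hG : C.Good η₀ η ρ cc) (t₀ : ℝ) (ht0 : 0 < t₀) (ht1 : t₀ < η)
    (i : ℕ) (hi : i ≤ n) {y : ℝ} (hy : |y - C.y₀| < η) : C.al 0 ((y : ℂ), 0) ∈ C.Jm η₀ (t₀ : ℂ) i := by
  obtain ⟨y', hy', h⟩ := hG.g3.cover t₀ ht0 ht1 (y, 0) hy (by simpa using hG.g3.η_pos) i hi
  refine ⟨y', hy', ?_⟩
  have h2 : C.ps i (rp (y, 0)) = C.al 0 ((y : ℂ), 0) := by
    have := ps_edge hG.g1 i hi (real_mem_ball hG.g3.η_le hy)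
    simpa [rp] using this
  show C.ps i (y', (t₀ : ℂ)) = _
  rw [h, h2]

theorem hasDerivAt_edge (C : CChain n) :
    HasDerivAt (fun y : ℂ => C.al 0 (y, 0)) (pdy (C.al 0) ((C.y₀ : ℂ), 0)) (C.y₀ : ℂ) := by
  have h1 : AnalyticAt ℂ (C.al 0) ((C.y₀ : ℂ), 0) := C.al_an 0 (by omega)
  have h2 : DifferentiableAt ℂ (fun y : ℂ => C.al 0 (y, 0)) (C.y₀ : ℂ) := by
    have h3 : DifferentiableAt ℂ (fun y : ℂ => (y, (0 : ℂ))) (C.y₀ : ℂ) := by fun_prop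
    exact DifferentiableAt.comp (f := fun y : ℂ => (y, (0 : ℂ))) (g := C.al 0) _ h1.differentiableAt h3
  exact h2.hasDerivAt

/-- a profile which vanishes on `φ((y₀ - η, y₀ + η))` vanishes identically. -/
theorem prof_zero {C : CChain n} {η₀ η ρ cc : ℝ} (hG : C.Good η₀ η ρ cc) (t₀ : ℝ) (ht0 : 0 < t₀) (ht1 : t₀ < η)
    (f : ℕ → ℂ → ℂ) (hf : C.Prof η₀ (t₀ : ℂ) f) (i : ℕ) (hi : i ≤ n)
    (h0 : ∀ y : ℝ, |y - C.y₀| < η → f i (C.al 0 ((y : ℂ), 0)) = 0) :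
    ∀ x ∈ C.Jm η₀ (t₀ : ℂ) i, f i x = 0 := by
  have htb : (t₀ : ℂ) ∈ Metric.ball (0 : ℂ) η₀ := by
    rw [Metric.mem_ball, dist_zero_right, Complex.norm_real, Real.norm_eq_abs, abs_of_pos ht0]
    exact lt_of_lt_of_le ht1 hG.g3.η_le
  have han : AnalyticOnNhd ℂ (f i) (C.Jm η₀ (t₀ : ℂ) i) := (hf.diff i hi).analyticOnNhd (hf.isOpen i hi)
  have hpre := Jm_preconnected hG.g1 htb i hi
  have hx₀ : C.al 0 ((C.y₀ : ℂ), 0) ∈ C.Jm η₀ (t₀ : ℂ) i :=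
    edge_mem_Jm hG t₀ ht0 ht1 i hi (y := C.y₀) (by simpa using hG.g3.η_pos)
  have hd : HasDerivAt (fun y : ℝ => C.al 0 ((y : ℂ), 0)) (pdy (C.al 0) ((C.y₀ : ℂ), 0)) C.y₀ :=
    (hasDerivAt_edge C).comp_ofReal
  have hne : pdy (C.al 0) ((C.y₀ : ℂ), 0) ≠ 0 := by
    intro h
    have := C.φ'_pos
    rw [h] at this
    simp at this
  have hev : ∀ᶠ y : ℝ in 𝓝[≠] C.y₀, C.al 0 ((y : ℂ), 0) ≠ C.al 0 ((C.y₀ : ℂ), 0) := hd.eventually_ne hne
  have htend : Tendsto (fun y : ℝ => C.al 0 ((y : ℂ), 0)) (𝓝[≠] C.y₀) (𝓝[≠] (C.al 0 ((C.y₀ : ℂ), 0))) :=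
    tendsto_nhdsWithin_of_tendsto_nhds_of_eventually_within _
      (hd.continuousAt.tendsto.mono_left nhdsWithin_le_nhds) hev
  have hnear : ∀ᶠ y in 𝓝[≠] C.y₀, |y - C.y₀| < η := by
    have : ∀ᶠ y in 𝓝 C.y₀, |y - C.y₀| < η := by
      have := Metric.ball_mem_nhds C.y₀ hG.g3.η_pos
      filter_upwards [this] with y hy
      simpa [Real.dist_eq] using hy
    exact this.filter_mono nhdsWithin_le_nhds
  have hfreq : ∃ᶠ x in 𝓝[≠] (C.al 0 ((C.y₀ : ℂ), 0)), f i x = 0 :=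
    htend.frequently ((hnear.mono fun y hy => h0 y hy).frequently)
  exact han.eqOn_zero_of_preconnected_of_frequently_eq_zero hpre hx₀ hfreq

/-- if all consecutive values agree and the sum vanishes, all values vanish. -/
theorem all_zero_of_sum {a : ℕ → ℂ} (heq : ∀ j < n, a j = a (j + 1))
    (hsum : ∑ i ∈ Finset.range (n + 1), a i = 0) : ∀ i ≤ n, a i = 0 := by
  have h1 : ∀ i ≤ n, a i = a 0 := by
    intro i
    induction i with
    | zero => intro _; rfl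
    | succ i ih => intro hi; rw [← heq i (by omega), ih (by omega)]
  have h2 : ∑ i ∈ Finset.range (n + 1), a i = (n + 1 : ℕ) * a 0 := by
    rw [Finset.sum_congr rfl fun i hi => h1 i (by have := Finset.mem_range.mp hi; omega)]
    simp
  rw [h2] at hsum
  have h3 : a 0 = 0 := by
    rcases mul_eq_zero.mp hsum with h | h
    · exact absurd h (by exact_mod_cast Nat.succ_ne_zero n)
    · exact h
  intro i hi
  rw [h1 i hi, h3]

theorem core_main (C : CChain n) : ∃ η : ℝ, 0 < η ∧ ∀ r : ℝ × ℝ, |r.1 - C.y₀| < η → 0 < r.2 → r.2 < η →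
    ∀ δ : Dv ℝ, C.EndKilled (rp r) δ.cx → ∀ i ≤ n,
      DD δ.cx (ztay (rp r) (C.sd i)) = 0 ∧ DD δ.cx (ztay (rp r) (C.cd i)) = 0 ∧
        ∀ l, DD δ.cx (ztay (rp r) (C.Hh i l)) = 0 := by
  obtain ⟨η₀, η, ρ, cc, hG⟩ := C.exists_good
  refine ⟨η, hG.g3.η_pos, ?_⟩
  intro r hr1 hr2 hr3 δ hE i hi
  have hz : rp r ∈ C.bd η₀ := C.rp_mem_bd hG.g3.η_le hr1 (by rw [abs_of_pos hr2]; exact hr3)
  obtain ⟨f, hf, hF, hsum⟩ := core_first hG r hr1 hr2 hr3 hz δ hE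
  obtain ⟨g, κ, hg, hid⟩ := core_second hG r hr1 hr2 hr3 hz δ hE f hf hF
  have hzero : ∀ y : ℝ, |y - C.y₀| < η → ∀ i ≤ n, f i (C.al 0 ((y : ℂ), 0)) = 0 := by
    intro y hy
    exact all_zero_of_sum (a := fun i => f i (C.al 0 ((y : ℂ), 0)))
      (fun j hj => core_blowup hG r.2 hr2 hr3 f g hf hg κ hid y hy j hj) (hsum y hy)
  have hfz : ∀ i ≤ n, ∀ x ∈ C.Jm η₀ (r.2 : ℂ) i, f i x = 0 := fun i hi =>
    prof_zero hG r.2 hr2 hr3 f hf i hi fun y hy => hzero y hy i hi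
  have hF0 : ∀ i ≤ n, ∀ m, (C.varSys hG.g1 hz hE).F i m = 0 := by
    intro i hi m
    rw [hF i hi m]
    have hmem : C.ps i (rp r) ∈ C.Jm η₀ (r.2 : ℂ) i := ⟨(r.1 : ℂ), hz.1, rfl⟩
    have hnh : C.Jm η₀ (r.2 : ℂ) i ∈ 𝓝 (C.ps i (rp r)) := (hf.isOpen i hi).mem_nhds hmem
    have hev : ∀ᶠ w in 𝓝 (rp r), C.ps i w ∈ C.Jm η₀ (r.2 : ℂ) i :=
      (an_ps hG.g1 hz i hi).continuousAt.eventually hnh
    have hcong : (fun w => iteratedDeriv m (f i) (C.ps i w)) =ᶠ[𝓝 (rp r)] fun _ => (0 : ℂ) := by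
      filter_upwards [hev] with w hw
      have h1 : f i =ᶠ[𝓝 (C.ps i w)] fun _ => (0 : ℂ) := by
        filter_upwards [(hf.isOpen i hi).mem_nhds hw] with x hx
        exact hfz i hi x hx
      rw [h1.iteratedDeriv_eq m]
      simp
    rw [ztay_congr hcong, ztay_const, cst_zero]
  have hv : ∀ j < n, (C.varSys hG.g1 hz hE).v j = 0 := by
    intro j hj
    unfold VarSys.v
    rw [hF0 j (by omega) 1, hF0 j (by omega) 0, hF0 (j + 1) (by omega) 1, hF0 (j + 1) (by omega) 0]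
    ring
  have hz2 : (rp r).2 ≠ 0 := by
    show ((r.2 : ℝ) : ℂ) ≠ 0
    exact_mod_cast hr2.ne'
  have hAi : ∀ a : Fin n, (C.varSys hG.g1 hz hE).A (a + 1) = 0 :=
    ztay_linsolve (N := C.hess) (fun a b => an_hess hG.g1 hz a b) (hG.g2.det_ne _ hz hz2)
      (fun a : Fin n => (C.varSys hG.g1 hz hE).A (a + 1))
      (fun a => by rw [lin_stat_matrix hG.g1 hz hE a, hv a a.2]; exact neg_zero (G := SS))
  have hA : ∀ j ≤ n + 1, (C.varSys hG.g1 hz hE).A j = 0 := by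
    intro j hj
    rcases Nat.eq_zero_or_pos j with h0 | hpos
    · subst h0; rfl
    · rcases Nat.lt_or_ge j (n + 1) with hlt | hge
      · obtain ⟨k, rfl⟩ : ∃ k, j = k + 1 := ⟨j - 1, by omega⟩
        exact hAi ⟨k, by omega⟩
      · have : j = n + 1 := by omega
        subst this
        exact (C.varSys hG.g1 hz hE).A_last
  exact (C.varSys hG.g1 hz hE).core_killed hF0 hA i hi

end CChain

end Claimed.Agent.R269
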