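/-
Row 269, P1 Section 4, unit 4F (Theorem 4.3): THE BLOW-UP ARGUMENT at the glancing edge.   Statements: helper36.
Plain analysis (no formal series).

CLAIM.  If  `∑_i 2 sd_i g_i(ps_i) + ½ ∑_j At_j vF_j = κ`  at all real points `|y - y₀| < η`, `0 < t < η`, with real profiles `f`, `g`, then `f_j(φ(y)) = f_{j+1}(φ(y))`.

PROOF.  Fix a real `y`, `|y - y₀| < η`, and let `t ∈ (0, η)`, `w = rp (y,t)`.   `hess w *ᵥ At f w = - vF f w` (`Good2.det_ne`, `Matrix.mul_nonsing_inv`).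
`hess w` and `vF f j w` are real (`real_hess`, `real_vals`, `Prof.conj`: `f i x` and `deriv (f i) x` are real at real `x ∈ Jm i`; `ps i w ∈ Jm i` by `Good3.cover`).
Put `x b := (At f w b).re`.  Taking real parts:  `∑_b (hess w a b).re * x b = - (vF f a w).re`   and   `(∑_j At_j vF_j).re = ∑_j x_j (vF f j w).re`.
`Good2.coer`:      `cc ∑_a (vF f a w).re² ≤ t ∑_a x_a (vF f a w).re = 2 t (κ - ∑ 2 sd_i g_i(ps_i)).re`.
As `t → 0+`:  `ps i (y,t) → ps i (y,0) = φ(y) ∈ Jm i` (`Good1.edge`, `Good3.cover` with `r = (y,0)`), `sd i → 0`, `cd i → 1`, `g i`, `f i`, `deriv (f i)` are continuous at `φ(y)`;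
the right side tends to `0` and `vF f a w → f_a(φ(y)) - f_{a+1}(φ(y))` (a real number).   Hence `cc (f_a - f_{a+1})² ≤ 0`.
Proof: helper151 (LF-S4-Core-b); no sorry in this file (uses the ChainV lemmas).
-/
import Claimed.Agent.R269.S4.ChainV

set_option autoImplicit false

namespace Claimed.Agent.R269

open Filter Topology ZT

namespace CChain

variable {n : ℕ} {C : CChain n}

theorem coB_real_f {η₀ : ℝ} {t₀ : ℂ} {f : ℕ → ℂ → ℂ} (hf : C.Prof η₀ t₀ f) {i : ℕ} (hi : i ≤ n) {x : ℂ}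
    (hx : x ∈ C.Jm η₀ t₀ i) (hre : x.im = 0) : (f i x).im = 0 := by
  have h1 := hf.conj i hi x hx
  rw [Complex.conj_eq_iff_im.2 hre] at h1
  exact Complex.conj_eq_iff_im.1 h1.symm

theorem coB_real_df {η₀ : ℝ} {t₀ : ℂ} {f : ℕ → ℂ → ℂ} (hf : C.Prof η₀ t₀ f) {i : ℕ} (hi : i ≤ n) {x : ℂ}
    (hx : x ∈ C.Jm η₀ t₀ i) (hre : x.im = 0) : (deriv (f i) x).im = 0 := by
  have hnh : C.Jm η₀ t₀ i ∈ 𝓝 x := (hf.isOpen i hi).mem_nhds hx
  have hd : HasDerivAt (f i) (deriv (f i) x) x := ((hf.diff i hi).differentiableAt hnh).hasDerivAt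
  obtain ⟨s, rfl⟩ : ∃ s : ℝ, x = (s : ℂ) := ⟨x.re, Complex.ext rfl (by simpa using hre)⟩
  have h1 : HasDerivAt (fun u : ℝ => (f i (u : ℂ)).im) (deriv (f i) (s : ℂ)).im s := by
    have h2 : HasDerivAt (fun u : ℝ => f i (u : ℂ)) (deriv (f i) (s : ℂ)) s := hd.comp_ofReal
    have h3 := (Complex.imCLM.hasFDerivAt (x := f i (s : ℂ))).comp_hasDerivAt s h2
    exact h3
  have h4 : (fun u : ℝ => (f i (u : ℂ)).im) =ᶠ[𝓝 s] fun _ => (0 : ℝ) := by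
    have h5 : ∀ᶠ u : ℝ in 𝓝 s, (u : ℂ) ∈ C.Jm η₀ t₀ i :=
      Complex.continuous_ofReal.continuousAt.eventually_mem hnh
    filter_upwards [h5] with u hu
    exact coB_real_f hf hi hu (by simp)
  have h6 : HasDerivAt (fun u : ℝ => (f i (u : ℂ)).im) 0 s := (hasDerivAt_const s (0 : ℝ)).congr_of_eventuallyEq h4
  exact h1.unique h6

theorem coB_mem_Jm {η₀ η : ℝ} (h3 : C.Good3 η₀ η) {t₀ : ℝ} (ht0 : 0 < t₀) (ht1 : t₀ < η) {r : ℝ × ℝ}
    (h1 : |r.1 - C.y₀| < η) (h2 : |r.2| < η) {i : ℕ} (hi : i ≤ n) : C.ps i (rp r) ∈ C.Jm η₀ (t₀ : ℂ) i := by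
  obtain ⟨y', hy', he⟩ := h3.cover t₀ ht0 ht1 r h1 h2 i hi
  exact ⟨y', hy', he⟩

theorem coB_vF_real {η₀ η ρ cc : ℝ} (hG : C.Good η₀ η ρ cc) {t₀ : ℝ} (ht0 : 0 < t₀) (ht1 : t₀ < η)
    {f : ℕ → ℂ → ℂ} (hf : C.Prof η₀ (t₀ : ℂ) f) {r : ℝ × ℝ}
    (h1 : |r.1 - C.y₀| < η) (h2 : |r.2| < η) {a : ℕ} (ha : a < n) : (C.vF f a (rp r)).im = 0 := by
  have hr : rp r ∈ C.bd η₀ := C.rp_mem_bd hG.g3.η_le h1 h2
  obtain ⟨p1, s1, c1, -⟩ := C.real_vals hG.g1 hr a ha.le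
  obtain ⟨p2, s2, c2, -⟩ := C.real_vals hG.g1 hr (a + 1) ha
  have m1 := coB_mem_Jm hG.g3 ht0 ht1 h1 h2 (i := a) ha.le
  have m2 := coB_mem_Jm hG.g3 ht0 ht1 h1 h2 (i := a + 1) ha
  have f1 := coB_real_f hf ha.le m1 p1
  have f2 := coB_real_f hf ha m2 p2
  have d1 := coB_real_df hf ha.le m1 p1
  have d2 := coB_real_df hf ha m2 p2
  unfold vF
  simp only [Complex.add_im, Complex.sub_im, Complex.mul_im, f1, f2, d1, d2, s1, s2, c1, c2]
  ring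

theorem coB_ineq {η₀ η ρ cc : ℝ} (hG : C.Good η₀ η ρ cc) {t₀ : ℝ} (ht0 : 0 < t₀) (ht1 : t₀ < η)
    {f : ℕ → ℂ → ℂ} (hf : C.Prof η₀ (t₀ : ℂ) f) {r : ℝ × ℝ}
    (h1 : |r.1 - C.y₀| < η) (h2 : 0 < r.2) (h3 : r.2 < η) :
    cc * ∑ a : Fin n, ((C.vF f a (rp r)).re) ^ 2
      ≤ r.2 * (∑ j : Fin n, C.At f (rp r) j * C.vF f j (rp r)).re := by
  have h2' : |r.2| < η := by rwa [abs_of_pos h2]
  have hr : rp r ∈ C.bd η₀ := C.rp_mem_bd hG.g3.η_le h1 h2'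
  have hne : (rp r).2 ≠ 0 := by
    show ((r.2 : ℝ) : ℂ) ≠ 0
    exact_mod_cast h2.ne'
  have hdet : (C.hess (rp r)).det ≠ 0 := hG.g2.det_ne _ hr hne
  have hHA : (C.hess (rp r)).mulVec (C.At f (rp r)) = -(fun j : Fin n => C.vF f j (rp r)) := by
    unfold At
    rw [Matrix.mulVec_neg, Matrix.mulVec_mulVec, Matrix.mul_nonsing_inv _ (isUnit_iff_ne_zero.2 hdet),
      Matrix.one_mulVec]
  have hrow : ∀ a : Fin n, ∑ b : Fin n, (C.hess (rp r) a b).re * (C.At f (rp r) b).re = -(C.vF f a (rp r)).re := by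
    intro a
    have e1 : ∑ b : Fin n, C.hess (rp r) a b * C.At f (rp r) b = -C.vF f a (rp r) := congrFun hHA a
    have e2 := congrArg Complex.re e1
    rw [Complex.re_sum, Complex.neg_re] at e2
    rw [← e2]
    refine Finset.sum_congr rfl fun b _ => ?_
    rw [Complex.mul_re, C.real_hess hG.g1 hr a b]
    ring
  have hco := hG.g2.coer r hr h2 (fun b => (C.At f (rp r) b).re)
  simp only [hrow] at hco
  have e3 : (∑ j : Fin n, C.At f (rp r) j * C.vF f j (rp r)).re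
      = -∑ a : Fin n, (C.At f (rp r) a).re * -(C.vF f a (rp r)).re := by
    rw [Complex.re_sum, ← Finset.sum_neg_distrib]
    refine Finset.sum_congr rfl fun a _ => ?_
    rw [Complex.mul_re, coB_vF_real hG ht0 ht1 hf h1 h2' a.2]
    ring
  rw [e3]
  simpa only [neg_sq] using hco

theorem coB_vF_cont {η₀ η ρ cc : ℝ} (hG : C.Good η₀ η ρ cc) {t₀ : ℝ} (ht0 : 0 < t₀) (ht1 : t₀ < η)
    {f : ℕ → ℂ → ℂ} (hf : C.Prof η₀ (t₀ : ℂ) f) {r : ℝ × ℝ}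
    (h1 : |r.1 - C.y₀| < η) (h2 : |r.2| < η) {a : ℕ} (ha : a < n) : ContinuousAt (C.vF f a) (rp r) := by
  have hr : rp r ∈ C.bd η₀ := C.rp_mem_bd hG.g3.η_le h1 h2
  have key : ∀ i ≤ n, ContinuousAt (fun w => f i (C.ps i w)) (rp r) ∧
      ContinuousAt (fun w => deriv (f i) (C.ps i w)) (rp r) ∧ ContinuousAt (C.sd i) (rp r) ∧
      ContinuousAt (C.cd i) (rp r) := by
    intro i hi
    have nh : C.Jm η₀ (t₀ : ℂ) i ∈ 𝓝 (C.ps i (rp r)) :=
      (hf.isOpen i hi).mem_nhds (coB_mem_Jm hG.g3 ht0 ht1 h1 h2 hi)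
    have cp : ContinuousAt (C.ps i) (rp r) := (an_ps hG.g1 hr i hi).continuousAt
    have cf : ContinuousAt (f i) (C.ps i (rp r)) := ((hf.diff i hi).differentiableAt nh).continuousAt
    have cdf : ContinuousAt (deriv (f i)) (C.ps i (rp r)) := ((hf.diff i hi).analyticAt nh).deriv.continuousAt
    exact ⟨ContinuousAt.comp (g := f i) cf cp, ContinuousAt.comp (g := deriv (f i)) cdf cp,
      (an_sd hG.g1 hr i hi).continuousAt, (an_cd hG.g1 hr i hi).continuousAt⟩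
  obtain ⟨a1, a2, a3, a4⟩ := key a ha.le
  obtain ⟨b1, b2, b3, b4⟩ := key (a + 1) ha
  exact ((a2.mul a3).add (a1.mul a4)).add ((b2.mul b3).sub (b1.mul b4))

theorem coB_S_cont {η₀ η ρ cc : ℝ} (hG : C.Good η₀ η ρ cc) {t₀ : ℝ} (ht0 : 0 < t₀) (ht1 : t₀ < η)
    {g : ℕ → ℂ → ℂ} (hg : C.Prof η₀ (t₀ : ℂ) g) {r : ℝ × ℝ}
    (h1 : |r.1 - C.y₀| < η) (h2 : |r.2| < η) :
    ContinuousAt (fun w => ∑ i ∈ Finset.range (n + 1), 2 * C.sd i w * g i (C.ps i w)) (rp r) := by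
  have hr : rp r ∈ C.bd η₀ := C.rp_mem_bd hG.g3.η_le h1 h2
  refine tendsto_finsetSum _ fun i hi => ?_
  have hi' : i ≤ n := Nat.lt_succ_iff.1 (Finset.mem_range.1 hi)
  have nh : C.Jm η₀ (t₀ : ℂ) i ∈ 𝓝 (C.ps i (rp r)) :=
    (hg.isOpen i hi').mem_nhds (coB_mem_Jm hG.g3 ht0 ht1 h1 h2 hi')
  have cp : ContinuousAt (C.ps i) (rp r) := (an_ps hG.g1 hr i hi').continuousAt
  have cf : ContinuousAt (g i) (C.ps i (rp r)) := ((hg.diff i hi').differentiableAt nh).continuousAt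
  have c1 : ContinuousAt (fun w => 2 * C.sd i w * g i (C.ps i w)) (rp r) :=
    (continuousAt_const.mul (an_sd hG.g1 hr i hi').continuousAt).mul (ContinuousAt.comp (g := g i) cf cp)
  exact c1

theorem coB_vF_edge {η₀ ρ : ℝ} (h : C.Good1 η₀ ρ) {y : ℂ} (hy : y ∈ Metric.ball (C.y₀ : ℂ) η₀) (f : ℕ → ℂ → ℂ)
    {a : ℕ} (ha : a < n) : C.vF f a (y, 0) = f a (C.al 0 (y, 0)) - f (a + 1) (C.al 0 (y, 0)) := by
  have e0 := h.edge a (by omega) y hy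
  have e1 := h.edge (a + 1) (by omega) y hy
  have e2 := h.edge (a + 1 + 1) (by omega) y hy
  unfold vF sd cd dd ps
  rw [e0, e1, e2]
  simp
  ring

theorem core_blowup {η₀ η ρ cc : ℝ} (hG : C.Good η₀ η ρ cc) (t₀ : ℝ) (ht0 : 0 < t₀) (ht1 : t₀ < η)
    (f g : ℕ → ℂ → ℂ) (hf : C.Prof η₀ (t₀ : ℂ) f) (hg : C.Prof η₀ (t₀ : ℂ) g) (κ : ℂ)
    (hid : ∀ r' : ℝ × ℝ, |r'.1 - C.y₀| < η → 0 < r'.2 → r'.2 < η →
        ∑ i ∈ Finset.range (n + 1), 2 * C.sd i (rp r') * g i (C.ps i (rp r'))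
          + (∑ j : Fin n, C.At f (rp r') j * C.vF f j (rp r')) / 2 = κ)
    (y : ℝ) (hy : |y - C.y₀| < η) (j : ℕ) (hj : j < n) :
    f j (C.al 0 ((y : ℂ), 0)) = f (j + 1) (C.al 0 ((y : ℂ), 0)) := by
  have hη : 0 < η := hG.g3.η_pos
  have h20 : |((y, (0 : ℝ)) : ℝ × ℝ).2| < η := by simpa using hη
  have hw0 : rp (y, (0 : ℝ)) = ((y : ℂ), 0) := by simp [rp]
  have hr0 : rp (y, (0 : ℝ)) ∈ C.bd η₀ := C.rp_mem_bd hG.g3.η_le (r := (y, (0 : ℝ))) hy h20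
  have hyb : (y : ℂ) ∈ Metric.ball (C.y₀ : ℂ) η₀ := by
    have := hr0.1
    simpa [rp] using this
  have hγ : ContinuousAt (fun t : ℝ => rp (y, t)) 0 := by
    have : Continuous (fun t : ℝ => rp (y, t)) := continuous_rp.comp (by fun_prop)
    exact this.continuousAt
  -- the two sides of the inequality
  have cF : ContinuousAt (fun t : ℝ => cc * ∑ a : Fin n, ((C.vF f a (rp (y, t))).re) ^ 2) 0 := by
    refine continuousAt_const.mul (tendsto_finsetSum _ fun a _ => ?_)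
    have c1 : ContinuousAt (fun t : ℝ => C.vF f a (rp (y, t))) 0 :=
      ContinuousAt.comp (g := C.vF f a) (f := fun t : ℝ => rp (y, t))
        (coB_vF_cont hG ht0 ht1 hf (r := (y, (0 : ℝ))) hy h20 a.2) hγ
    exact (Complex.continuous_re.continuousAt.comp c1).pow 2
  have cG : ContinuousAt (fun t : ℝ => t * (2 * (κ - ∑ i ∈ Finset.range (n + 1),
      2 * C.sd i (rp (y, t)) * g i (C.ps i (rp (y, t))))).re) 0 := by
    have c1 : ContinuousAt (fun t : ℝ => ∑ i ∈ Finset.range (n + 1),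
        2 * C.sd i (rp (y, t)) * g i (C.ps i (rp (y, t)))) 0 :=
      ContinuousAt.comp (g := fun w => ∑ i ∈ Finset.range (n + 1), 2 * C.sd i w * g i (C.ps i w))
        (f := fun t : ℝ => rp (y, t)) (coB_S_cont hG ht0 ht1 hg (r := (y, (0 : ℝ))) hy h20) hγ
    exact continuousAt_id.mul
      (Complex.continuous_re.continuousAt.comp (continuousAt_const.mul (continuousAt_const.sub c1)))
  have hle : ∀ᶠ t : ℝ in 𝓝[>] 0, cc * ∑ a : Fin n, ((C.vF f a (rp (y, t))).re) ^ 2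
      ≤ t * (2 * (κ - ∑ i ∈ Finset.range (n + 1),
          2 * C.sd i (rp (y, t)) * g i (C.ps i (rp (y, t))))).re := by
    filter_upwards [Ioo_mem_nhdsGT hη] with t ht
    have h1 := coB_ineq hG ht0 ht1 hf (r := (y, t)) hy ht.1 ht.2
    have h2 := hid (y, t) hy ht.1 ht.2
    have h3 : ∑ j : Fin n, C.At f (rp (y, t)) j * C.vF f j (rp (y, t))
        = 2 * (κ - ∑ i ∈ Finset.range (n + 1), 2 * C.sd i (rp (y, t)) * g i (C.ps i (rp (y, t)))) := by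
      rw [← h2]
      ring
    rw [h3] at h1
    exact h1
  have hlim := le_of_tendsto_of_tendsto (cF.tendsto.mono_left nhdsWithin_le_nhds)
    (cG.tendsto.mono_left nhdsWithin_le_nhds) hle
  simp only [zero_mul] at hlim
  have hcc := hG.g2.cc_pos
  have hsum : ∑ a : Fin n, ((C.vF f a (rp (y, (0 : ℝ)))).re) ^ 2 ≤ 0 := by
    by_contra hcon
    push Not at hcon
    have := mul_pos hcc hcon
    linarith
  have hterm : ((C.vF f (⟨j, hj⟩ : Fin n) (rp (y, (0 : ℝ)))).re) ^ 2 ≤ 0 :=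
    le_trans (Finset.single_le_sum (f := fun a : Fin n => ((C.vF f a (rp (y, (0 : ℝ)))).re) ^ 2)
      (fun a _ => sq_nonneg _) (Finset.mem_univ (⟨j, hj⟩ : Fin n))) hsum
  have hre : (C.vF f j (rp (y, (0 : ℝ)))).re = 0 := by
    have : ((C.vF f j (rp (y, (0 : ℝ)))).re) ^ 2 = 0 := le_antisymm hterm (sq_nonneg _)
    exact pow_eq_zero_iff (two_ne_zero) |>.1 this
  have him : (C.vF f j (rp (y, (0 : ℝ)))).im = 0 := coB_vF_real hG ht0 ht1 hf (r := (y, (0 : ℝ))) hy h20 hj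
  have hz : C.vF f j (rp (y, (0 : ℝ))) = 0 := Complex.ext hre him
  rw [hw0, coB_vF_edge hG.g1 hyb f hj] at hz
  exact sub_eq_zero.1 hz

end CChain

end Claimed.Agent.R269
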