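/-
Row 269, P1 Section 4, unit 4H (Theorem 4.4): THE BLOW-UP ARGUMENT at the glancing edge.   Statements: helper183.   (Model: CoreB of unit 4F.)
Plain analysis (no formal series).

CLAIM.  If  `∑_{i ≤ n} wtP_i g_i(ps_i) + ½ ∑_j AtP_j vF_j = κ`  at all real points `|y - y₀| < η`, `0 < t < η`, with a real profile `f` and holomorphic `g_i`, then `f_j(φ(y)) = f_{j+1}(φ(y))`, `j < n`.

PROOF.  Fix a real `y`, `|y - y₀| < η`, and let `t ∈ (0, η)`, `w = rp (y,t)`.   `hessP w *ᵥ AtP f w = - vF f w` (`Good2P.det_ne`, `Matrix.mul_nonsing_inv`).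
`hessP w` and `vF f j w` are real (`real_hessP`, `real_vals`, `Prof.conj`: `f i x` and `deriv (f i) x` are real at real `x ∈ Jm i`; `ps i w ∈ Jm i` by `Good3.cover`).
Put `x b := (AtP f w b).re`.  Taking real parts:  `∑_b (hessP w a b).re * x b = - (vF f a w).re`   and   `(∑_j AtP_j vF_j).re = ∑_j x_j (vF f j w).re`.
`Good2P.coer`:      `ccP ∑_a (vF f a w).re² ≤ t ∑_a x_a (vF f a w).re = 2 t (κ - ∑_i wtP_i g_i(ps_i)).re`.
As `t → 0+`:  `ps i (y,t) → ps i (y,0) = φ(y) ∈ Jm i` (`Good1.edge`, `Good3.cover` with `r = (y,0)`), `sd i → 0`, `cd i → 1`, `g i`, `f i`, `deriv (f i)` are continuous at `φ(y)`, `wtP i (y,t)` has a limit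
(`1`, `-1` or `0`): the bracket is bounded, the right side tends to `0`, and `vF f a w → f_a(φ(y)) - f_{a+1}(φ(y))` (a real number).   Hence `ccP (f_a - f_{a+1})² ≤ 0`.
PROVED (helper228).  `bup_gen` is the argument for a general matrix function `M` and general continuous weights `W` (it also gives `core_blowup` of CoreB with `M = hess`, `W i = 2 sd i`).
-/
import Claimed.Agent.R269.S4.ChainPV

set_option autoImplicit false

namespace Claimed.Agent.R269

open Filter Topology ZT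

namespace CChain

variable {n : ℕ} {C : CChain n}

/-- values and derivatives of a profile at real points are real. -/
theorem Prof.bup_real {η₀ : ℝ} {t₀ : ℂ} {f : ℕ → ℂ → ℂ} (hf : C.Prof η₀ t₀ f) {i : ℕ} (hi : i ≤ n) {x : ℂ}
    (hx : x ∈ C.Jm η₀ t₀ i) (hr : x.im = 0) : (f i x).im = 0 ∧ (deriv (f i) x).im = 0 := by
  have hcx : (starRingEnd ℂ) x = x := Complex.conj_eq_iff_im.2 hr
  constructor
  · have := hf.conj i hi x hx
    rw [hcx] at this
    exact Complex.conj_eq_iff_im.1 this.symm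
  · have hev : f i =ᶠ[𝓝 x] (starRingEnd ℂ) ∘ f i ∘ (starRingEnd ℂ) := by
      filter_upwards [(hf.isOpen i hi).mem_nhds hx] with x' hx'
      simp [hf.conj i hi x' hx']
    have := hev.deriv_eq
    rw [deriv_conj_conj] at this
    simp only [Function.comp_apply, hcx] at this
    exact Complex.conj_eq_iff_im.1 this.symm

/-- THE BLOW-UP ARGUMENT, for a general matrix function `M` (nondegenerate for `t ≠ 0`, real and coercive at real points) and general
continuous weights `W`. -/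
theorem bup_gen {η₀ η ρ cc cM : ℝ} (hG : C.Good η₀ η ρ cc)
    (M : ℂ × ℂ → Matrix (Fin n) (Fin n) ℂ) (W : ℕ → ℂ × ℂ → ℂ) (hcM : 0 < cM)
    (hdet : ∀ w ∈ C.bd η₀, w.2 ≠ 0 → (M w).det ≠ 0)
    (hre : ∀ r : ℝ × ℝ, rp r ∈ C.bd η₀ → ∀ a b, (M (rp r) a b).im = 0)
    (hcoer : ∀ r : ℝ × ℝ, rp r ∈ C.bd η₀ → 0 < r.2 → ∀ x : Fin n → ℝ,
      cM * ∑ a, (∑ b, (M (rp r) a b).re * x b) ^ 2 ≤ r.2 * (-∑ a, x a * ∑ b, (M (rp r) a b).re * x b))
    (hW : ∀ i ≤ n, ∀ w ∈ C.bd η₀, ContinuousAt (W i) w)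
    (t₀ : ℝ) (ht0 : 0 < t₀) (ht1 : t₀ < η) (f g : ℕ → ℂ → ℂ) (hf : C.Prof η₀ (t₀ : ℂ) f)
    (hg : ∀ i ≤ n, DifferentiableOn ℂ (g i) (C.Jm η₀ (t₀ : ℂ) i)) (κ : ℂ)
    (hid : ∀ r' : ℝ × ℝ, |r'.1 - C.y₀| < η → 0 < r'.2 → r'.2 < η →
        ∑ i ∈ Finset.range (n + 1), W i (rp r') * g i (C.ps i (rp r'))
          + (∑ j : Fin n, (-((M (rp r'))⁻¹.mulVec fun j : Fin n => C.vF f j (rp r'))) j * C.vF f j (rp r')) / 2 = κ)
    (y : ℝ) (hy : |y - C.y₀| < η) (j : ℕ) (hj : j < n) :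
    f j (C.al 0 ((y : ℂ), 0)) = f (j + 1) (C.al 0 ((y : ℂ), 0)) := by
  classical
  have g1 := hG.g1
  have g3 := hG.g3
  set φ : ℂ := C.al 0 ((y : ℂ), 0) with hφ
  have hη0 : |((y, 0) : ℝ × ℝ).2| < η := by simpa using g3.η_pos
  have hb0 : rp (y, 0) ∈ C.bd η₀ := C.rp_mem_bd g3.η_le (r := (y, 0)) hy hη0
  have hrp0 : rp (y, 0) = ((y : ℂ), 0) := by simp [rp]
  have hyb : (y : ℂ) ∈ Metric.ball (C.y₀ : ℂ) η₀ := by
    have := hb0
    rw [hrp0] at this
    exact this.1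
  have hps0 : ∀ i ≤ n, C.ps i (rp (y, 0)) = φ := by
    intro i hi
    rw [hrp0]
    unfold ps
    rw [g1.edge i (by omega) _ hyb, g1.edge (i + 1) (by omega) _ hyb]
    ring
  have hdd0 : ∀ i ≤ n, C.dd i (rp (y, 0)) = 0 := by
    intro i hi
    rw [hrp0]
    unfold dd
    rw [g1.edge i (by omega) _ hyb, g1.edge (i + 1) (by omega) _ hyb]
    ring
  have hφmem : ∀ i ≤ n, φ ∈ C.Jm η₀ (t₀ : ℂ) i := by
    intro i hi
    obtain ⟨y', hy', he⟩ := g3.cover t₀ ht0 ht1 (y, 0) hy hη0 i hi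
    rw [hps0 i hi] at he
    exact ⟨y', hy', he⟩
  have hφre : φ.im = 0 := by
    have := (C.real_vals g1 hb0 0 (Nat.zero_le n)).1
    rwa [hps0 0 (Nat.zero_le n)] at this
  have hpath : Tendsto (fun t : ℝ => rp (y, t)) (𝓝[>] 0) (𝓝 (rp (y, 0))) := by
    have : Continuous (fun t : ℝ => rp (y, t)) := by
      unfold rp
      fun_prop
    exact (this.tendsto 0).mono_left nhdsWithin_le_nhds
  have hps : ∀ i ≤ n, Tendsto (fun t : ℝ => C.ps i (rp (y, t))) (𝓝[>] 0) (𝓝 φ) := by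
    intro i hi
    have := (an_ps g1 hb0 i hi).continuousAt.tendsto.comp hpath
    rwa [hps0 i hi] at this
  have hsd : ∀ i ≤ n, Tendsto (fun t : ℝ => C.sd i (rp (y, t))) (𝓝[>] 0) (𝓝 0) := by
    intro i hi
    have := (an_sd g1 hb0 i hi).continuousAt.tendsto.comp hpath
    have h0 : C.sd i (rp (y, 0)) = 0 := by
      unfold sd
      rw [hdd0 i hi, Complex.sin_zero]
    rwa [h0] at this
  have hcd : ∀ i ≤ n, Tendsto (fun t : ℝ => C.cd i (rp (y, t))) (𝓝[>] 0) (𝓝 1) := by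
    intro i hi
    have := (an_cd g1 hb0 i hi).continuousAt.tendsto.comp hpath
    have h0 : C.cd i (rp (y, 0)) = 1 := by
      unfold cd
      rw [hdd0 i hi, Complex.cos_zero]
    rwa [h0] at this
  have hfan : ∀ i ≤ n, AnalyticAt ℂ (f i) φ := fun i hi =>
    (hf.diff i hi).analyticAt ((hf.isOpen i hi).mem_nhds (hφmem i hi))
  have hfc : ∀ i ≤ n, Tendsto (fun t : ℝ => f i (C.ps i (rp (y, t)))) (𝓝[>] 0) (𝓝 (f i φ)) := fun i hi =>
    (hfan i hi).continuousAt.tendsto.comp (hps i hi)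
  have hdfc : ∀ i ≤ n, Tendsto (fun t : ℝ => deriv (f i) (C.ps i (rp (y, t)))) (𝓝[>] 0) (𝓝 (deriv (f i) φ)) :=
    fun i hi => (hfan i hi).deriv.continuousAt.tendsto.comp (hps i hi)
  have hgc : ∀ i ≤ n, Tendsto (fun t : ℝ => g i (C.ps i (rp (y, t)))) (𝓝[>] 0) (𝓝 (g i φ)) := fun i hi =>
    ((hg i hi).analyticAt ((hf.isOpen i hi).mem_nhds (hφmem i hi))).continuousAt.tendsto.comp (hps i hi)
  have hWc : ∀ i ≤ n, Tendsto (fun t : ℝ => W i (rp (y, t))) (𝓝[>] 0) (𝓝 (W i (rp (y, 0)))) := fun i hi =>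
    (hW i hi _ hb0).tendsto.comp hpath
  have hvF : ∀ a < n, Tendsto (fun t : ℝ => C.vF f a (rp (y, t))) (𝓝[>] 0) (𝓝 (f a φ - f (a + 1) φ)) := by
    intro a ha
    have h1 := (((hdfc a ha.le).mul (hsd a ha.le)).add ((hfc a ha.le).mul (hcd a ha.le))).add
      (((hdfc (a + 1) ha).mul (hsd (a + 1) ha)).sub ((hfc (a + 1) ha).mul (hcd (a + 1) ha)))
    have h2 : deriv (f a) φ * 0 + f a φ * 1 + (deriv (f (a + 1)) φ * 0 - f (a + 1) φ * 1) = f a φ - f (a + 1) φ := by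
      ring
    rw [h2] at h1
    exact h1
  -- the inequality at `t > 0`
  have hineq : ∀ t : ℝ, 0 < t → t < η →
      cM * ∑ a : Fin n, ((C.vF f a (rp (y, t))).re) ^ 2
        ≤ t * (2 * (κ - ∑ i ∈ Finset.range (n + 1), W i (rp (y, t)) * g i (C.ps i (rp (y, t)))).re) := by
    intro t ht htη
    have habs : |((y, t) : ℝ × ℝ).2| < η := by
      simpa [abs_of_pos ht] using htη
    have hb : rp (y, t) ∈ C.bd η₀ := C.rp_mem_bd g3.η_le (r := (y, t)) hy habs
    set w := rp (y, t) with hw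
    have hw2 : w.2 ≠ 0 := by
      simp [hw, rp, ht.ne']
    set A : Fin n → ℂ := -((M w)⁻¹.mulVec fun j : Fin n => C.vF f j w) with hA
    have hMA : (M w).mulVec A = -(fun j : Fin n => C.vF f j w) := by
      rw [hA, Matrix.mulVec_neg, Matrix.mulVec_mulVec,
        Matrix.mul_nonsing_inv _ (isUnit_iff_ne_zero.2 (hdet w hb hw2)), Matrix.one_mulVec]
    have hvre : ∀ a : Fin n, (C.vF f a w).im = 0 := by
      intro a
      have ha : (a : ℕ) < n := a.2
      have hmem : ∀ i ≤ n, C.ps i w ∈ C.Jm η₀ (t₀ : ℂ) i := by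
        intro i hi
        obtain ⟨y', hy', he⟩ := g3.cover t₀ ht0 ht1 (y, t) hy habs i hi
        exact ⟨y', hy', he⟩
      have R1 := C.real_vals g1 hb a ha.le
      have R2 := C.real_vals g1 hb (a + 1) ha
      rw [← hw] at R1 R2
      obtain ⟨r1, r2, r3, -⟩ := R1
      obtain ⟨q1, q2, q3, -⟩ := R2
      obtain ⟨u1, u2⟩ := hf.bup_real ha.le (hmem a ha.le) r1
      obtain ⟨v1, v2⟩ := hf.bup_real (i := (a : ℕ) + 1) ha (hmem (a + 1) ha) q1
      unfold vF
      simp [Complex.add_im, Complex.sub_im, Complex.mul_im, r2, r3, q2, q3, u1, u2, v1, v2]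
    have hrow : ∀ a : Fin n, ∑ b, (M w a b).re * (A b).re = -(C.vF f a w).re := by
      intro a
      have h1 := congrFun hMA a
      have h2 := congrArg Complex.re h1
      simp only [Matrix.mulVec, dotProduct, Pi.neg_apply, Complex.neg_re, Complex.re_sum, Complex.mul_re] at h2
      rw [← h2]
      refine Finset.sum_congr rfl fun b _ => ?_
      rw [hre (y, t) hb a b]
      ring
    have hc := hcoer (y, t) hb ht (fun b => (A b).re)
    rw [← hw] at hc
    simp only [hrow] at hc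
    have hsum : (∑ j : Fin n, A j * C.vF f j w).re = ∑ j : Fin n, (A j).re * (C.vF f j w).re := by
      rw [Complex.re_sum]
      refine Finset.sum_congr rfl fun b _ => ?_
      rw [Complex.mul_re, hvre b]
      ring
    have hk := hid (y, t) hy ht htη
    have hk2 : ∑ j : Fin n, A j * C.vF f j w
        = 2 * (κ - ∑ i ∈ Finset.range (n + 1), W i w * g i (C.ps i w)) := by
      rw [← hk]
      ring
    have hk3 := congrArg Complex.re hk2
    rw [hsum] at hk3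
    have hk4 : (2 * (κ - ∑ i ∈ Finset.range (n + 1), W i w * g i (C.ps i w))).re
        = 2 * (κ - ∑ i ∈ Finset.range (n + 1), W i w * g i (C.ps i w)).re := by
      simp [Complex.mul_re]
    rw [hk4] at hk3
    rw [← hk3]
    calc cM * ∑ a : Fin n, ((C.vF f a w).re) ^ 2 = cM * ∑ a : Fin n, (-(C.vF f a w).re) ^ 2 := by
          simp
      _ ≤ t * (-∑ a : Fin n, (A a).re * -(C.vF f a w).re) := hc
      _ = t * ∑ j : Fin n, (A j).re * (C.vF f j w).re := by
          simp [Finset.sum_neg_distrib]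
  -- the limit
  have hL : Tendsto (fun t : ℝ => cM * ∑ a : Fin n, ((C.vF f a (rp (y, t))).re) ^ 2) (𝓝[>] 0)
      (𝓝 (cM * ∑ a : Fin n, ((f a φ - f (a + 1) φ).re) ^ 2)) := by
    refine Tendsto.const_mul _ (tendsto_finsetSum _ fun a _ => ?_)
    exact ((Complex.continuous_re.tendsto _).comp (hvF a a.2)).pow 2
  have hR : Tendsto (fun t : ℝ => t * (2 * (κ - ∑ i ∈ Finset.range (n + 1),
      W i (rp (y, t)) * g i (C.ps i (rp (y, t)))).re)) (𝓝[>] 0)
      (𝓝 (0 * (2 * (κ - ∑ i ∈ Finset.range (n + 1), W i (rp (y, 0)) * g i φ).re))) := by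
    refine Tendsto.mul (tendsto_id.mono_left nhdsWithin_le_nhds) (Tendsto.const_mul _ ?_)
    refine (Complex.continuous_re.tendsto _).comp (Tendsto.sub tendsto_const_nhds ?_)
    refine tendsto_finsetSum _ fun i hi => ?_
    have hi' : i ≤ n := by
      have := Finset.mem_range.1 hi
      omega
    exact (hWc i hi').mul (hgc i hi')
  have hle : cM * ∑ a : Fin n, ((f a φ - f (a + 1) φ).re) ^ 2
      ≤ 0 * (2 * (κ - ∑ i ∈ Finset.range (n + 1), W i (rp (y, 0)) * g i φ).re) := by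
    refine le_of_tendsto_of_tendsto hL hR ?_
    filter_upwards [Ioo_mem_nhdsGT g3.η_pos] with t ht
    exact hineq t ht.1 ht.2
  rw [zero_mul] at hle
  have hs0 : ∑ a : Fin n, ((f a φ - f (a + 1) φ).re) ^ 2 ≤ 0 := by
    by_contra hcon
    rw [not_le] at hcon
    have := mul_pos hcM hcon
    linarith
  have hz : ((f j φ - f (j + 1) φ).re) ^ 2 ≤ 0 := by
    have := Finset.single_le_sum (f := fun a : Fin n => ((f a φ - f (a + 1) φ).re) ^ 2)
      (fun a _ => sq_nonneg _) (Finset.mem_univ (⟨j, hj⟩ : Fin n))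
    exact le_trans this hs0
  have hz' : (f j φ - f (j + 1) φ).re = 0 := by
    have := le_antisymm hz (sq_nonneg _)
    exact pow_eq_zero_iff (two_ne_zero) |>.1 this
  have hi1 := (hf.bup_real hj.le (hφmem j hj.le) hφre).1
  have hi2 := (hf.bup_real (i := j + 1) hj (hφmem (j + 1) hj) hφre).1
  apply sub_eq_zero.1
  apply Complex.ext
  · simpa using hz'
  · simp [hi1, hi2]

theorem core_blowupP {η₀ η ρ cc ccP : ℝ} (hG : C.Good η₀ η ρ cc) (hP : C.Good2P η₀ ccP) (t₀ : ℝ) (ht0 : 0 < t₀)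
    (ht1 : t₀ < η) (f g : ℕ → ℂ → ℂ) (hf : C.Prof η₀ (t₀ : ℂ) f)
    (hg : ∀ i ≤ n, DifferentiableOn ℂ (g i) (C.Jm η₀ (t₀ : ℂ) i)) (κ : ℂ)
    (hid : ∀ r' : ℝ × ℝ, |r'.1 - C.y₀| < η → 0 < r'.2 → r'.2 < η →
        ∑ i ∈ Finset.range (n + 1), C.wtP i (rp r') * g i (C.ps i (rp r'))
          + (∑ j : Fin n, C.AtP f (rp r') j * C.vF f j (rp r')) / 2 = κ)
    (y : ℝ) (hy : |y - C.y₀| < η) (j : ℕ) (hj : j < n) :
    f j (C.al 0 ((y : ℂ), 0)) = f (j + 1) (C.al 0 ((y : ℂ), 0)) := by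
  refine bup_gen hG C.hessP C.wtP hP.cc_pos hP.det_ne (fun r hr a b => real_hessP hG.g1 hr a b) hP.coer ?_
    t₀ ht0 ht1 f g hf hg κ hid y hy j hj
  intro i hi w hw
  unfold wtP
  split_ifs
  · exact continuousAt_const
  · exact continuousAt_const
  · exact continuousAt_const.mul (an_sd hG.g1 hw i hi).continuousAt

end CChain

end Claimed.Agent.R269
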