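/-
Row 269, P1 Section 4, unit 4H (Theorem 4.4): formal series in two variables, POINCARE LEMMA AND TOWERS.   Statements: helper183.
HOST-FREE up to `ztay` (Mathlib + ZTayA + ZTayB).

(1) `poincare`: a closed formal 1-form `P dy + Q dt` (power series, `∂_t P = ∂_y Q`) is exact.
    PROOF.  Put `ρ a b := cf P (a-1) b / a` for `a ≥ 1`, `ρ 0 b := cf Q 0 (b-1) / b` for `b ≥ 1`, `ρ 0 0 := 0`, and
       `R := HahnSeries.ofPowerSeries ℤ _ (PowerSeries.mk fun b => ((PowerSeries.mk fun a => ρ a b : PowerSeries ℂ) : LaurentSeries ℂ))`   (compare the definition of `ztay`).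
    `cf R a b = ρ a b` for `a b : ℕ`, `= 0` if `a < 0` or `b < 0` (as for `cf_ztay`, `isPS_ztay`).   `D1 R = P`: `ext_cf`, `cf_D1`: `(a+1) ρ (a+1) b = cf P a b`; negative indices: both sides vanish
    (for `a = -1`: the factor `a + 1 = 0`).   `D2 R = Q`: `cf_D2`: `(b+1) ρ a (b+1) = cf Q a b`; for `a = 0` by definition; for `a = a' + 1`:  `(b+1) cf P a' (b+1) / (a'+1) = cf Q (a'+1) b` is the
    coefficient `(a', b)` of the hypothesis `D2 P = D1 Q`.
(2) `tower_step`: pure differential algebra in the field `SS` (`Dv.map_div`, `D1_D2`, `field_simp`):   with `T' = D1 T / p`: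
       `D2 T = q D1 T / p = T' q`;     `D2 T' = (p D2 D1 T - D1 T D2 p) / p²`,  `D2 D1 T = D1 D2 T = D1 (T' q) = q D1 T' + T' D1 q`,  `D2 p = D1 q`   ⟹   `p D2 T' = q D1 T'`.
(3) `tower_exists`:  `p := ztay z (pdy ψ)`, `q := ztay z (pdt ψ)`;  `p ≠ 0` (`ne_zero_of_cf`, `cf_ztay_zero`), `p⁻¹ = ztay z (fun w => (pdy ψ w)⁻¹)` is a power series (`ztay_inv`, `isPS_ztay`, `Emb.analyticAt_pdy`);
    `D2 p = D1 q` (`ztay_pdy`, `ztay_pdt`, `D1_D2`).   `T 0 :=` a primitive of `T1 p dy + T1 q dt` (`poincare`; closed by `hcl` and `D2 p = D1 q`), `T (l+1) := (fun X => D1 X / p)^[l] T1`;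
    by induction on `l ≥ 1`: `IsPS (T l)` and `p * D2 (T l) = q * D1 (T l)` (`tower_step`).
The `sorry`s are replaced IN PLACE by the owner of the package (table subtask, target row269, LF-S4-ZT-d).
-/
import Claimed.Agent.R269.S4.ZTayB

set_option autoImplicit false

namespace Claimed.Agent.R269

open Filter Topology

namespace ZT

/-- the power series with given coefficients. -/
noncomputable def mkPS (ρ : ℕ → ℕ → ℂ) : SS :=
  HahnSeries.ofPowerSeries ℤ (LaurentSeries ℂ)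
    (PowerSeries.mk fun b => HahnSeries.ofPowerSeries ℤ ℂ (PowerSeries.mk fun a => ρ a b))

theorem cf_mkPS (ρ : ℕ → ℕ → ℂ) (a b : ℕ) : cf (mkPS ρ) (a : ℤ) (b : ℤ) = ρ a b := by
  show ((mkPS ρ).coeff (b : ℤ)).coeff (a : ℤ) = _
  unfold mkPS
  rw [coeff_ofPS, coeff_ofPS]

theorem isPS_mkPS (ρ : ℕ → ℕ → ℂ) : IsPS (mkPS ρ) := by
  intro a b hab
  show ((mkPS ρ).coeff b).coeff a = 0
  unfold mkPS
  by_cases hb : b < 0
  · rw [coeff_ofPS_neg _ _ hb]
    rfl
  · have ha : a < 0 := hab.resolve_right hb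
    obtain ⟨b', rfl⟩ := Int.eq_ofNat_of_zero_le (not_lt.1 hb)
    rw [coeff_ofPS]
    exact coeff_ofPS_neg _ _ ha

/-- the coefficients of the primitive. -/
noncomputable def poincCoeff (P Q : SS) : ℕ → ℕ → ℂ
  | (a + 1), b => cf P (a : ℤ) (b : ℤ) / ((a : ℂ) + 1)
  | 0, (b + 1) => cf Q 0 (b : ℤ) / ((b : ℂ) + 1)
  | 0, 0 => 0

/-- the formal Poincare lemma. -/
theorem poincare (P Q : SS) (hP : IsPS P) (hQ : IsPS Q) (h : D2 P = D1 Q) :
    ∃ R : SS, IsPS R ∧ D1 R = P ∧ D2 R = Q := by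
  refine ⟨mkPS (poincCoeff P Q), isPS_mkPS _, ?_, ?_⟩
  · refine ext_ps (isPS_mkPS _).D1 hP fun a b => ?_
    have h1 : ((a : ℤ) + 1) = ((a + 1 : ℕ) : ℤ) := by push_cast; rfl
    rw [cf_D1, h1, cf_mkPS]
    show (((a : ℤ) : ℂ) + 1) * (cf P (a : ℤ) (b : ℤ) / ((a : ℂ) + 1)) = _
    have h3 : ((a : ℂ) + 1) ≠ 0 := by exact_mod_cast Nat.succ_ne_zero a
    push_cast
    field_simp
  · refine ext_ps (isPS_mkPS _).D2 hQ fun a b => ?_
    have h1 : ((b : ℤ) + 1) = ((b + 1 : ℕ) : ℤ) := by push_cast; rfl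
    rw [cf_D2, h1, cf_mkPS]
    have h3 : ((b : ℂ) + 1) ≠ 0 := by exact_mod_cast Nat.succ_ne_zero b
    rcases a with _ | a
    · show (((b : ℤ) : ℂ) + 1) * (cf Q 0 (b : ℤ) / ((b : ℂ) + 1)) = _
      push_cast
      field_simp
    · show (((b : ℤ) : ℂ) + 1) * (cf P (a : ℤ) ((b + 1 : ℕ) : ℤ) / ((a : ℂ) + 1)) = _
      have h4 : ((a : ℂ) + 1) ≠ 0 := by exact_mod_cast Nat.succ_ne_zero a
      have h5 : cf (D2 P) (a : ℤ) (b : ℤ) = cf (D1 Q) (a : ℤ) (b : ℤ) := by rw [h]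
      rw [cf_D2, cf_D1, h1] at h5
      have h6 : ((a : ℤ) + 1) = ((a + 1 : ℕ) : ℤ) := by push_cast; rfl
      rw [h6] at h5
      push_cast at h5 ⊢
      rw [mul_div_assoc', h5, mul_div_cancel_left₀ _ h4]

/-- the field identity behind `tower_step` (all derivatives are opaque elements: this avoids unifying the ring structures of `SS`). -/
theorem tower_field {F : Type*} [Field F] (p q A B A1 A2 p1 q1 : F) (hp : p ≠ 0)
    (hcl : p * B = q * A) (h1 : p * A2 + B * p1 = q * A1 + A * q1) :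
    A = A / p * p ∧ B = A / p * q ∧
      p * ((p * A2 - A * q1) / p ^ 2) = q * ((p * A1 - A * p1) / p ^ 2) := by
  refine ⟨(div_mul_cancel₀ _ hp).symm, ?_, ?_⟩
  · field_simp
    linear_combination hcl
  · field_simp
    linear_combination p * h1 - p1 * hcl

/-- one step of a tower over the foliation with gradient `(p, q)`. -/
theorem tower_step (p q T : SS) (hp : p ≠ 0) (hpq : D2 p = D1 q) (hcl : p * D2 T = q * D1 T) :
    D1 T = D1 T / p * p ∧ D2 T = D1 T / p * q ∧ p * D2 (D1 T / p) = q * D1 (D1 T / p) := by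
  have e2 : D2 (D1 T / p) = (p * D2 (D1 T) - D1 T * D2 p) / p ^ 2 := Dv.map_div D2 (D1 T) p hp
  have e1 : D1 (D1 T / p) = (p * D1 (D1 T) - D1 T * D1 p) / p ^ 2 := Dv.map_div D1 (D1 T) p hp
  have h1 : D1 (p * D2 T) = D1 (q * D1 T) := by rw [hcl]
  rw [D1.leibniz, D1.leibniz, D1_D2] at h1
  rw [e2, e1, hpq]
  exact tower_field p q (D1 T) (D2 T) (D1 (D1 T)) (D2 (D1 T)) (D1 p) (D1 q) hp hcl h1

/-- a power series `T1` with `dT1 ∧ dψ = 0` is the first floor of a tower "`T l = τ^{(l)}(ψ)`" over the foliation `ψ`. -/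
theorem tower_exists {z : ℂ × ℂ} {ψ : ℂ × ℂ → ℂ} (hψ : AnalyticAt ℂ ψ z) (h0 : pdy ψ z ≠ 0) (T1 : SS) (hT : IsPS T1)
    (hcl : ztay z (pdy ψ) * D2 T1 = ztay z (pdt ψ) * D1 T1) :
    ∃ T : ℕ → SS, T 1 = T1 ∧ (∀ l, IsPS (T l)) ∧ (∀ l, D1 (T l) = T (l + 1) * ztay z (pdy ψ)) ∧
      (∀ l, D2 (T l) = T (l + 1) * ztay z (pdt ψ)) := by
  set p := ztay z (pdy ψ) with hp
  set q := ztay z (pdt ψ) with hq
  have hp0 : p ≠ 0 := by
    apply ne_zero_of_cf
    rw [hp, cf_ztay_zero]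
    exact h0
  have hpinv : IsPS p⁻¹ := by
    rw [hp, ← ztay_inv (analyticAt_pdy hψ) h0]
    exact isPS_ztay _ _
  have hpq : D2 p = D1 q := by
    rw [hp, hq, ← ztay_pdt', ztay_congr (pdt_pdy_comm hψ), ztay_pdy (analyticAt_pdt hψ)]
  have hclosed : D2 (T1 * p) = D1 (T1 * q) := by
    rw [D2.leibniz, D1.leibniz, hpq, hcl]
  obtain ⟨R, hR, hR1, hR2⟩ := poincare (T1 * p) (T1 * q) (hT.mul (isPS_ztay _ _))
    (hT.mul (isPS_ztay _ _)) hclosed
  set S : ℕ → SS := fun l => ((fun X => D1 X / p)^[l]) T1 with hS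
  have hSsucc : ∀ l, S (l + 1) = D1 (S l) / p := fun l => Function.iterate_succ_apply' _ _ _
  have hinv : ∀ l, IsPS (S l) ∧ p * D2 (S l) = q * D1 (S l) := by
    intro l
    induction l with
    | zero => exact ⟨hT, hcl⟩
    | succ l ih =>
      rw [hSsucc]
      refine ⟨?_, (tower_step p q (S l) hp0 hpq ih.2).2.2⟩
      rw [div_eq_mul_inv]
      exact ih.1.D1.mul hpinv
  refine ⟨fun l => Nat.casesOn l R S, rfl, ?_, ?_, ?_⟩
  · intro l
    rcases l with _ | l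
    · exact hR
    · exact (hinv l).1
  · intro l
    rcases l with _ | l
    · exact hR1
    · show D1 (S l) = S (l + 1) * p
      rw [hSsucc]
      exact (tower_step p q (S l) hp0 hpq (hinv l).2).1
  · intro l
    rcases l with _ | l
    · exact hR2
    · show D2 (S l) = S (l + 1) * q
      rw [hSsucc]
      exact (tower_step p q (S l) hp0 hpq (hinv l).2).2.1

end ZT

end Claimed.Agent.R269
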