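/-
Row 269, P1 Section 4, unit 4H (Theorem 4.4): FIRST ORDER.   Statements: helper183.   (Model: CoreF of unit 4F.)

SETTING.  `C` a chain with a good neighbourhood, `n ≥ 1`, `z = rp r` a real point with `|r.1 - y₀| < η`, `0 < r.2 < η`, `δ` a derivation of `ℝ` whose complexification kills the Taylor series at `z` of the
point end data, `V = C.varSysP …`, `W = V.core`.
CLAIM.  The first variation of the profile is analytic up to the glancing edge:  `W.F i l = ztay z (f_i^{(l)} ∘ ps i)` with `f_i` holomorphic on `Jm i`, real on the real axis, and `f_0 = f_n = 0`.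

PROOF.  (1) END TOWERS.  `U1 := W.rr 0 * W.Dl (W.c 0)`, `Y1 := W.rr n * W.Dl (W.c n)` are power series (`isPS_endP`) and closed: `VarSysP.closed_Dl0`, `closed_Dln`, where `W.p1 i = ztay z (pdy (ps i))`,
    `W.p2 i = ztay z (pdt (ps i))` (`ztay_pdy_ps`, `ztay_pdt_ps`; `W.p1 i` unfolds to `(a1 i + a1 (i+1)) / 2`).   `ZT.tower_exists` (`ψ = ps 0`, resp. `ps n`; `pdy (ps i) z ≠ 0` from `Good1.re_pos`) gives towers `U`, `Y`
    with `U 1 = U1`, `Y 1 = Y1`.
(2) `K := W.Dl V.len - Y 0 + U 0` has `D1 K = D2 K = 0` (`VarSysP.d1_Dl_len`, `d2_Dl_len`, the tower relations at `l = 0`; `ring`), so `K = cst κ` (`eq_cst_of_D1_D2`).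
    `VarSysP.Dl_len`:  `∑_{i ≤ n} 2 s_i F_{i,0} + U 0 - Y 0 = cst κ`, and `F 0 0 = F n 0 = 0` (`VarSysP.F_zero`, `F_last`).
(3) `Web.web_main` with `U = ball y₀ η₀`, `t₀ = r.2`, `m = n + 1`, `ψ i = C.ps i`, `w i = C.wtP i`, `B = const κ`, towers `T i := if i = 0 then U else if i = n then Y else W.F i`
    (`VarCore.d1_F`, `d2_F`, `isPS_FP`);  weights: `wtP 0 = 1`, `wtP n = -1`, else `2 sd i ≠ 0` (`Good2.sd_ne`, `t₀ ≠ 0`), analytic (`an_sd`);  `re_pos`, `indep` from `Good1`.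
    The relation:  `ztay z (wtP i) * T i 0 = 2 s_i F_{i,0} + (if i = 0 then U 0 else 0) - (if i = n then Y 0 else 0)` for every `i ≤ n` (`ztay_const`, `cst_one`, `0 ≠ n`), then `Fin.sum_univ_eq_sum_range`, `Finset.sum_add_distrib`, `Finset.sum_ite_eq`.
(4) Let `f' : Fin (n+1) → ℂ → ℂ` be the result;  `f i := if 0 < i ∧ i < n then f' i else 0`.   For `i = 0, n`: `W.F i l = 0 = ztay z 0` (`iteratedDeriv` of the zero function, `ztay_const`).
    `Prof`: `isOpen` for all `i ≤ n` from `web_main`; `diff`; `conj`: `Web.web_real` with `isRe_FP` (`l = 0`) for `0 < i < n`, trivial for the zero function.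
The `sorry` is replaced IN PLACE by the owner of the package (table subtask, target row269, LF-S4-CoreP-f).
-/
import Claimed.Agent.R269.S4.ChainPV
import Claimed.Agent.R269.S4.ZTayD
import Claimed.Agent.R269.S4.CoreS

set_option autoImplicit false

namespace Claimed.Agent.R269

open Filter Topology ZT

namespace CChain

variable {n : ℕ} {C : CChain n}

theorem wtP_zero (C : CChain n) : C.wtP 0 = fun _ => 1 := by
  funext w
  simp [wtP]

theorem wtP_last (C : CChain n) (hn : 1 ≤ n) : C.wtP n = fun _ => -1 := by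
  funext w
  have : n ≠ 0 := by omega
  simp [wtP, this]

theorem wtP_mid (C : CChain n) {i : ℕ} (h0 : i ≠ 0) (h1 : i ≠ n) : C.wtP i = fun w => 2 * C.sd i w := by
  funext w
  simp [wtP, h0, h1]

theorem an_wtP {η₀ ρ : ℝ} (hG : C.Good1 η₀ ρ) {w : ℂ × ℂ} (hw : w ∈ C.bd η₀) (i : ℕ) (hi : i ≤ n) :
    AnalyticAt ℂ (C.wtP i) w := by
  by_cases h0 : i = 0
  · subst h0
    rw [wtP_zero]
    exact analyticAt_const
  · by_cases h1 : i = n
    · subst h1
      rw [wtP_last C (by omega)]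
      exact analyticAt_const
    · rw [wtP_mid C h0 h1]
      exact analyticAt_const.mul (an_sd hG hw i hi)

theorem wtP_ne {η₀ cc : ℝ} (hG : C.Good2 η₀ cc) {w : ℂ × ℂ} (hw : w ∈ C.bd η₀) (h2 : w.2 ≠ 0) (i : ℕ)
    (hi : i ≤ n) : C.wtP i w ≠ 0 := by
  unfold wtP
  split_ifs
  · exact one_ne_zero
  · exact neg_ne_zero.mpr one_ne_zero
  · exact mul_ne_zero two_ne_zero (hG.sd_ne i hi w hw h2)

theorem cst_neg_one : cst (-1) = (-1 : SS) := by
  simp [cst]

/-- **The web lemma for chains between two end impacts.** -/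
theorem chain_webP {η₀ η ρ cc : ℝ} (hG : C.Good η₀ η ρ cc) (hn : 1 ≤ n) (r : ℝ × ℝ) (hr2 : 0 < r.2)
    (hz : rp r ∈ C.bd η₀) (U1 Y1 L : SS) (hU1 : IsPS U1) (hY1 : IsPS Y1)
    (hclU : ztay (rp r) (pdy (C.ps 0)) * D2 U1 = ztay (rp r) (pdt (C.ps 0)) * D1 U1)
    (hclY : ztay (rp r) (pdy (C.ps n)) * D2 Y1 = ztay (rp r) (pdt (C.ps n)) * D1 Y1)
    (hL1 : D1 L = Y1 * ztay (rp r) (pdy (C.ps n)) - U1 * ztay (rp r) (pdy (C.ps 0)))
    (hL2 : D2 L = Y1 * ztay (rp r) (pdt (C.ps n)) - U1 * ztay (rp r) (pdt (C.ps 0)))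
    (X : ℕ → ℕ → SS) (hX : ∀ i ≤ n, ∀ l, IsPS (X i l))
    (t1 : ∀ i ≤ n, ∀ l, D1 (X i l) = X i (l + 1) * ztay (rp r) (pdy (C.ps i)))
    (t2 : ∀ i ≤ n, ∀ l, D2 (X i l) = X i (l + 1) * ztay (rp r) (pdt (C.ps i)))
    (hX0 : X 0 0 = 0) (hXn : X n 0 = 0)
    (R : ℂ × ℂ → ℂ) (hR : ∀ y ∈ Metric.ball (C.y₀ : ℂ) η₀, AnalyticAt ℂ R (y, (r.2 : ℂ)))
    (hLrel : L = ∑ i ∈ Finset.range (n + 1), 2 * ztay (rp r) (C.sd i) * X i 0 + ztay (rp r) R) :
    ∃ (g : ℕ → ℂ → ℂ) (κ : ℂ), (∀ i ≤ n, IsOpen (C.Jm η₀ (r.2 : ℂ) i)) ∧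
      (∀ i ≤ n, DifferentiableOn ℂ (g i) (C.Jm η₀ (r.2 : ℂ) i)) ∧
      (∀ i, 0 < i → i < n → ∀ l, X i l = ztay (rp r) (fun w => iteratedDeriv l (g i) (C.ps i w))) ∧
      ∑ i ∈ Finset.range (n + 1), ztay (rp r) (C.wtP i) * ztay (rp r) (fun w => g i (C.ps i w))
        = ztay (rp r) (fun w => κ - R w) := by
  have hle : ∀ i ∈ Finset.range (n + 1), i ≤ n := fun i hi => Nat.lt_succ_iff.mp (Finset.mem_range.mp hi)
  have hr2' : (r.2 : ℂ) ≠ 0 := by exact_mod_cast hr2.ne'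
  have hbd : ∀ y ∈ Metric.ball (C.y₀ : ℂ) η₀, (y, (r.2 : ℂ)) ∈ C.bd η₀ := fun y hy => ⟨hy, hz.2⟩
  have hn0 : n ≠ 0 := by omega
  have hpne : ∀ i ≤ n, pdy (C.ps i) (rp r) ≠ 0 := by
    intro i hi h0
    have := hG.g1.re_pos i hi _ hz
    rw [h0] at this
    simp at this
  obtain ⟨U, hU1', hUps, hUt1, hUt2⟩ := tower_exists (an_ps hG.g1 hz 0 (Nat.zero_le n)) (hpne 0 (Nat.zero_le n))
    U1 hU1 hclU
  obtain ⟨Y, hY1', hYps, hYt1, hYt2⟩ := tower_exists (an_ps hG.g1 hz n le_rfl) (hpne n le_rfl) Y1 hY1 hclY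
  have hK1 : D1 (L - Y 0 + U 0) = 0 := by
    rw [map_add, Web.dv_sub, hL1, hYt1 0, hUt1 0, hY1', hU1']
    ring
  have hK2 : D2 (L - Y 0 + U 0) = 0 := by
    rw [map_add, Web.dv_sub, hL2, hYt2 0, hUt2 0, hY1', hU1']
    ring
  obtain ⟨κ, hκ⟩ : ∃ κ : ℂ, L - Y 0 + U 0 = cst κ := ⟨_, eq_cst_of_D1_D2 _ hK1 hK2⟩
  have hBz : ztay (rp r) (fun w => κ - R w) = cst κ - ztay (rp r) R := by
    have hRz : AnalyticAt ℂ R (rp r) := hR _ hz.1
    rw [ztay_sub analyticAt_const hRz, ztay_const]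
  have hterm : ∀ i ∈ Finset.range (n + 1),
      ztay (rp r) (C.wtP i) * (if i = 0 then U else if i = n then Y else X i) 0
        = 2 * ztay (rp r) (C.sd i) * X i 0 + ((if i = 0 then U 0 else 0) + (if i = n then -Y 0 else 0)) := by
    intro i hi
    by_cases h0 : i = 0
    · subst h0
      rw [wtP_zero, ztay_const, cst_one, if_pos rfl, if_pos rfl, if_neg (Ne.symm hn0), hX0]
      ring
    · by_cases h1 : i = n
      · subst h1
        rw [wtP_last C hn, ztay_const, cst_neg_one, if_neg h0, if_pos rfl, if_neg h0, if_pos rfl, hXn]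
        ring
      · rw [wtP_mid C h0 h1, if_neg h0, if_neg h1, if_neg h0, if_neg h1,
          ztay_mul analyticAt_const (an_sd hG.g1 hz i (hle i hi)), ztay_const, cst_two]
        ring
  have hrel : ∑ i ∈ Finset.range (n + 1),
      ztay (rp r) (C.wtP i) * (if i = 0 then U else if i = n then Y else X i) 0
        = ztay (rp r) (fun w => κ - R w) := by
    rw [Finset.sum_congr rfl hterm, Finset.sum_add_distrib, Finset.sum_add_distrib,
      Finset.sum_ite_eq' , Finset.sum_ite_eq', if_pos (Finset.mem_range.mpr (Nat.succ_pos n)),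
      if_pos (Finset.mem_range.mpr (Nat.lt_succ_self n)), hBz, ← hκ, hLrel]
    ring
  obtain ⟨g, hJ, hgd, hgT⟩ := chain_web hG r hz C.wtP (fun w => κ - R w)
    (fun i hi y hy => an_wtP hG.g1 (hbd y hy) i hi)
    (fun i hi y hy => wtP_ne hG.g2 (hbd y hy) hr2' i hi)
    (fun y hy => analyticAt_const.sub (hR y hy))
    (fun i => if i = 0 then U else if i = n then Y else X i)
    (fun i hi l => by
      split_ifs
      · exact hUps l
      · exact hYps l
      · exact hX i hi l)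
    (fun i hi l => by
      split_ifs with h0 h1
      · rw [h0]; exact hUt1 l
      · rw [h1]; exact hYt1 l
      · exact t1 i hi l)
    (fun i hi l => by
      split_ifs with h0 h1
      · rw [h0]; exact hUt2 l
      · rw [h1]; exact hYt2 l
      · exact t2 i hi l)
    hrel
  refine ⟨g, κ, hJ, hgd, ?_, ?_⟩
  · intro i h0 h1 l
    have := hgT i h1.le l
    rwa [if_neg (by omega), if_neg (by omega)] at this
  · rw [← hrel]
    refine Finset.sum_congr rfl fun i hi => ?_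
    have := hgT i (hle i hi) 0
    simp only [iteratedDeriv_zero] at this
    rw [this]

theorem ztay_p1P {η₀ ρ : ℝ} (hG : C.Good1 η₀ ρ) {z : ℂ × ℂ} (hz : z ∈ C.bd η₀) (hn : 1 ≤ n) {δ : Dv ℂ}
    (hE : C.EndKilledP z δ) (i : ℕ) (hi : i ≤ n) :
    ztay z (pdy (C.ps i)) = (C.varSysP hG hz hn hE).core.p1 i := by
  rw [ztay_pdy_ps hG hz i hi]
  rfl

theorem ztay_p2P {η₀ ρ : ℝ} (hG : C.Good1 η₀ ρ) {z : ℂ × ℂ} (hz : z ∈ C.bd η₀) (hn : 1 ≤ n) {δ : Dv ℂ}
    (hE : C.EndKilledP z δ) (i : ℕ) (hi : i ≤ n) :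
    ztay z (pdt (C.ps i)) = (C.varSysP hG hz hn hE).core.p2 i := by
  rw [ztay_pdt_ps hG hz i hi]
  rfl

theorem core_firstP {η₀ η ρ cc : ℝ} (hG : C.Good η₀ η ρ cc) (hn : 1 ≤ n) (r : ℝ × ℝ) (hr1 : |r.1 - C.y₀| < η)
    (hr2 : 0 < r.2) (hr3 : r.2 < η) (hz : rp r ∈ C.bd η₀) (δ : Dv ℝ) (hE : C.EndKilledP (rp r) δ.cx) :
    ∃ f : ℕ → ℂ → ℂ, C.Prof η₀ (r.2 : ℂ) f ∧
      (∀ i ≤ n, ∀ l, (C.varSysP hG.g1 hz hn hE).core.F i l
        = ztay (rp r) (fun w => iteratedDeriv l (f i) (C.ps i w))) ∧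
      (∀ x, f 0 x = 0) ∧ (∀ x, f n x = 0) := by
  obtain ⟨g, κ, hJ, hgd, hgT, -⟩ := chain_webP hG hn r hr2 hz
    ((C.varSysP hG.g1 hz hn hE).core.rr 0 * (C.varSysP hG.g1 hz hn hE).core.Dl ((C.varSysP hG.g1 hz hn hE).core.c 0))
    ((C.varSysP hG.g1 hz hn hE).core.rr n * (C.varSysP hG.g1 hz hn hE).core.Dl ((C.varSysP hG.g1 hz hn hE).core.c n))
    ((C.varSysP hG.g1 hz hn hE).core.Dl (C.varSysP hG.g1 hz hn hE).len)
    (isPS_endP hG.g1 hn hz hE 0).1 (isPS_endP hG.g1 hn hz hE n).1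
    (by
      rw [ztay_p1P hG.g1 hz hn hE 0 (Nat.zero_le n), ztay_p2P hG.g1 hz hn hE 0 (Nat.zero_le n)]
      exact (C.varSysP hG.g1 hz hn hE).closed_Dl0)
    (by
      rw [ztay_p1P hG.g1 hz hn hE n le_rfl, ztay_p2P hG.g1 hz hn hE n le_rfl]
      exact (C.varSysP hG.g1 hz hn hE).closed_Dln)
    (by
      rw [ztay_p1P hG.g1 hz hn hE n le_rfl, ztay_p1P hG.g1 hz hn hE 0 (Nat.zero_le n)]
      exact (C.varSysP hG.g1 hz hn hE).d1_Dl_len)
    (by
      rw [ztay_p2P hG.g1 hz hn hE n le_rfl, ztay_p2P hG.g1 hz hn hE 0 (Nat.zero_le n)]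
      exact (C.varSysP hG.g1 hz hn hE).d2_Dl_len)
    (fun i l => (C.varSysP hG.g1 hz hn hE).core.F i l) (fun i _ l => isPS_FP hG.g1 hn hz hE i l)
    (fun i hi l => by
      rw [ztay_p1P hG.g1 hz hn hE i hi]
      exact (C.varSysP hG.g1 hz hn hE).core.d1_F i hi l)
    (fun i hi l => by
      rw [ztay_p2P hG.g1 hz hn hE i hi]
      exact (C.varSysP hG.g1 hz hn hE).core.d2_F i hi l)
    ((C.varSysP hG.g1 hz hn hE).F_zero 0) ((C.varSysP hG.g1 hz hn hE).F_last 0)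
    (fun _ => 0) (fun y _ => analyticAt_const)
    (by
      rw [ztay_const, cst_zero]
      exact (C.varSysP hG.g1 hz hn hE).Dl_len.trans (add_zero (M := SS) _).symm)
  have hzero : ∀ l : ℕ, iteratedDeriv l (fun _ : ℂ => (0 : ℂ)) = fun _ => 0 := by
    intro l
    induction l with
    | zero => rfl
    | succ l ih =>
      rw [iteratedDeriv_succ, ih]
      funext x
      simp
  obtain ⟨f, hf_in, hf_out⟩ : ∃ f : ℕ → ℂ → ℂ, (∀ i, 0 < i → i < n → f i = g i) ∧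
      (∀ i, ¬ (0 < i ∧ i < n) → f i = fun _ => (0 : ℂ)) :=
    ⟨fun i => if 0 < i ∧ i < n then g i else fun _ => 0, fun i h0 h1 => by simp only [if_pos (And.intro h0 h1)],
      fun i h => by simp only [if_neg h]⟩
  have hT : ∀ i ≤ n, ∀ l, (C.varSysP hG.g1 hz hn hE).core.F i l
        = ztay (rp r) (fun w => iteratedDeriv l (f i) (C.ps i w)) := by
    intro i hi l
    by_cases h : 0 < i ∧ i < n
    · rw [hf_in i h.1 h.2]
      exact hgT i h.1 h.2 l
    · rw [hf_out i h, hzero l]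
      simp only
      rw [ztay_const, cst_zero]
      have : i = 0 ∨ i = n := by omega
      rcases this with rfl | rfl
      · exact (C.varSysP hG.g1 hz hn hE).F_zero l
      · exact (C.varSysP hG.g1 hz hn hE).F_last l
  refine ⟨f, ⟨hJ, ?_, ?_⟩, hT, ?_, ?_⟩
  · intro i hi
    by_cases h : 0 < i ∧ i < n
    · rw [hf_in i h.1 h.2]
      exact hgd i hi
    · rw [hf_out i h]
      exact differentiableOn_const _
  · intro i hi
    by_cases h : 0 < i ∧ i < n
    · rw [hf_in i h.1 h.2]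
      refine chain_real hG r hz i hi (g i) (hJ i hi) (hgd i hi) ?_
      have := hgT i h.1 h.2 0
      simp only [iteratedDeriv_zero] at this
      rw [← this]
      exact isRe_FP hG.g1 hn hz hE i hi 0
    · rw [hf_out i h]
      intro x hx
      simp
  · intro x
    rw [hf_out 0 (by omega)]
  · intro x
    rw [hf_out n (by omega)]

end CChain

end Claimed.Agent.R269
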