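/-
Row 269, P1 Section 4, unit 4F: Taylor expansion, LINEAR ALGEBRA SUPPLEMENT.   Statements: helper36.

`ztay_linsolve`: from `adjugate (N w) * N w = det (N w) • 1` (entrywise, an identity of analytic functions: entries of the adjugate and the determinant are
polynomials in the entries, `Matrix.det_apply`, `Matrix.adjugate_apply`; analyticity by `Finset.analyticAt_sum`, `Finset.analyticAt_prod`) one gets, applying `ztay z`
(`ztay_sum`, `ztay_mul`),  `∑_b ztay (adj a b) * ztay (N b c) = ztay det * [a = c]`;  hence `ztay det * X a = ∑_b ztay (adj a b) * ∑_c ztay (N b c) * X c = 0`, and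
`ztay det ≠ 0` by `ne_zero_of_cf`, `cf_ztay_zero`.
The `sorry`s are replaced IN PLACE by the owner of the package (table subtask, target row269, LF-S4-ZT-c).
-/
import Claimed.Agent.R269.S4.ZTayB

set_option autoImplicit false

namespace Claimed.Agent.R269

open Filter Topology

namespace ZT

theorem analyticAt_det {n : ℕ} {N : ℂ × ℂ → Matrix (Fin n) (Fin n) ℂ} {z : ℂ × ℂ}
    (hN : ∀ a b, AnalyticAt ℂ (fun w => N w a b) z) : AnalyticAt ℂ (fun w => (N w).det) z := by
  simp only [Matrix.det_apply']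
  exact Finset.analyticAt_fun_sum _ fun σ _ => analyticAt_const.mul
    (Finset.analyticAt_fun_prod _ fun i _ => hN (σ i) i)

theorem analyticAt_adjugate {n : ℕ} {N : ℂ × ℂ → Matrix (Fin n) (Fin n) ℂ} {z : ℂ × ℂ}
    (hN : ∀ a b, AnalyticAt ℂ (fun w => N w a b) z) (a b : Fin n) :
    AnalyticAt ℂ (fun w => (N w).adjugate a b) z := by
  simp only [Matrix.adjugate_apply]
  refine analyticAt_det fun i j => ?_
  by_cases h : i = b
  · subst h
    simp only [Matrix.updateRow_self]
    exact analyticAt_const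
  · simp only [Matrix.updateRow_ne h]
    exact hN i j

/-- the entries of the inverse matrix are analytic where the determinant does not vanish. -/
theorem analyticAt_inv {n : ℕ} {N : ℂ × ℂ → Matrix (Fin n) (Fin n) ℂ} {z : ℂ × ℂ}
    (hN : ∀ a b, AnalyticAt ℂ (fun w => N w a b) z) (hdet : (N z).det ≠ 0) (a b : Fin n) :
    AnalyticAt ℂ (fun w => (N w)⁻¹ a b) z := by
  have h1 : (fun w => (N w)⁻¹ a b) = fun w => ((N w).det)⁻¹ * (N w).adjugate a b := by
    funext w
    rw [Matrix.inv_def, Matrix.smul_apply, Ring.inverse_eq_inv', smul_eq_mul]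
  rw [h1]
  exact ((analyticAt_det hN).inv hdet).mul (analyticAt_adjugate hN a b)

theorem ztay_prod {ι : Type*} (s : Finset ι) {z : ℂ × ℂ} {u : ι → ℂ × ℂ → ℂ}
    (hu : ∀ i ∈ s, AnalyticAt ℂ (u i) z) :
    ztay z (fun w => ∏ i ∈ s, u i w) = ∏ i ∈ s, ztay z (u i) := by
  classical
  induction s using Finset.induction_on with
  | empty =>
    simp only [Finset.prod_empty]
    rw [ztay_const, cst_one]
  | insert i s hi ih =>
    simp only [Finset.prod_insert hi]
    rw [ztay_mul (v := fun w => ∏ j ∈ s, u j w) (hu i (Finset.mem_insert_self i s))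
      (Finset.analyticAt_fun_prod _ fun j hj => hu j (Finset.mem_insert_of_mem hj)),
      ih fun j hj => hu j (Finset.mem_insert_of_mem hj)]

theorem cst_intCast (m : ℤ) : cst (m : ℂ) = (m : SS) := by
  simp [cst]

/-- the Taylor series of a determinant. -/
theorem ztay_det {n : ℕ} {N : ℂ × ℂ → Matrix (Fin n) (Fin n) ℂ} {z : ℂ × ℂ}
    (hN : ∀ a b, AnalyticAt ℂ (fun w => N w a b) z) :
    ztay z (fun w => (N w).det) = (Matrix.of fun a b => ztay z (fun w => N w a b)).det := by
  simp only [Matrix.det_apply', Matrix.of_apply]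
  rw [ztay_sum (Finset.univ : Finset (Equiv.Perm (Fin n)))
    (u := fun σ w => ((Equiv.Perm.sign σ : ℤ) : ℂ) * ∏ i, N w (σ i) i)
    fun σ _ => analyticAt_const.mul (Finset.analyticAt_fun_prod _ fun i _ => hN (σ i) i)]
  refine Finset.sum_congr rfl fun σ _ => ?_
  rw [ztay_mul (u := fun _ => ((Equiv.Perm.sign σ : ℤ) : ℂ)) (v := fun w => ∏ i, N w (σ i) i)
    analyticAt_const (Finset.analyticAt_fun_prod _ fun i _ => hN (σ i) i), ztay_const, cst_intCast,
    ztay_prod _ fun i _ => hN (σ i) i]

/-- a homogeneous linear system over `SS` whose matrix is the Taylor series of an analytic matrix invertible at `z` has only the zero solution. -/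
theorem ztay_linsolve {n : ℕ} {N : ℂ × ℂ → Matrix (Fin n) (Fin n) ℂ} {z : ℂ × ℂ}
    (hN : ∀ a b, AnalyticAt ℂ (fun w => N w a b) z) (hdet : (N z).det ≠ 0) (X : Fin n → SS)
    (hX : ∀ a, ∑ b, ztay z (fun w => N w a b) * X b = 0) : ∀ a, X a = 0 := by
  have h1 : (Matrix.of fun a b => ztay z (fun w => N w a b)).det ≠ 0 := by
    rw [← ztay_det hN]
    apply ne_zero_of_cf
    rw [cf_ztay_zero]
    exact hdet
  have h2 : (Matrix.of fun a b => ztay z (fun w => N w a b)).mulVec X = 0 := by
    funext a
    exact hX a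
  have h3 := Matrix.eq_zero_of_mulVec_eq_zero h1 h2
  intro a
  rw [h3]
  rfl

/-- the inhomogeneous version: the formal solution is the Taylor series of the analytic solution. -/
theorem ztay_linsolve' {n : ℕ} {N : ℂ × ℂ → Matrix (Fin n) (Fin n) ℂ} {z : ℂ × ℂ}
    (hN : ∀ a b, AnalyticAt ℂ (fun w => N w a b) z) (hdet : (N z).det ≠ 0) (v : Fin n → ℂ × ℂ → ℂ)
    (hv : ∀ a, AnalyticAt ℂ (v a) z) (X : Fin n → SS)
    (hX : ∀ a, ∑ b, ztay z (fun w => N w a b) * X b = ztay z (v a)) :
    ∀ a, X a = ztay z (fun w => ((N w)⁻¹.mulVec fun b => v b w) a) := by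
  have hY : ∀ b, AnalyticAt ℂ (fun w => ((N w)⁻¹.mulVec fun c => v c w) b) z := by
    intro b
    simp only [Matrix.mulVec, dotProduct]
    exact Finset.analyticAt_fun_sum _ fun c _ => (analyticAt_inv hN hdet b c).mul (hv c)
  have hsol : ∀ a, ∑ b, ztay z (fun w => N w a b) *
      ztay z (fun w => ((N w)⁻¹.mulVec fun c => v c w) b) = ztay z (v a) := by
    intro a
    have h1 : (fun w => ∑ b, N w a b * ((N w)⁻¹.mulVec fun c => v c w) b) =ᶠ[𝓝 z] v a := by
      filter_upwards [(analyticAt_det hN).continuousAt.eventually_ne hdet] with w hw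
      have h2 : (N w).mulVec ((N w)⁻¹.mulVec fun c => v c w) = fun c => v c w := by
        rw [Matrix.mulVec_mulVec, Matrix.mul_nonsing_inv _ (Ne.isUnit hw), Matrix.one_mulVec]
      exact congrFun h2 a
    rw [← ztay_congr h1, ztay_sum (Finset.univ : Finset (Fin n))
      (u := fun b w => N w a b * ((N w)⁻¹.mulVec fun c => v c w) b)
      fun b _ => (hN a b).mul (hY b)]
    exact Finset.sum_congr rfl fun b _ => (ztay_mul (hN a b) (hY b)).symm
  have hzero : ∀ a, ∑ b, ztay z (fun w => N w a b) *
      (X b - ztay z (fun w => ((N w)⁻¹.mulVec fun c => v c w) b)) = 0 := by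
    intro a
    have h1 : ∀ b, ztay z (fun w => N w a b) *
        (X b - ztay z (fun w => ((N w)⁻¹.mulVec fun c => v c w) b))
        = ztay z (fun w => N w a b) * X b - ztay z (fun w => N w a b) *
          ztay z (fun w => ((N w)⁻¹.mulVec fun c => v c w) b) := fun b =>
      mul_sub (ztay z (fun w => N w a b)) (X b)
        (ztay z (fun w => ((N w)⁻¹.mulVec fun c => v c w) b))
    rw [Finset.sum_congr rfl fun b _ => h1 b]
    have h2 := Finset.sum_sub_distrib (s := (Finset.univ : Finset (Fin n)))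
      (fun b => ztay z (fun w => N w a b) * X b) (fun b => ztay z (fun w => N w a b) *
          ztay z (fun w => ((N w)⁻¹.mulVec fun c => v c w) b))
    rw [hX a, hsol a] at h2
    exact h2.trans (sub_self (ztay z (v a)))
  have hdiff := ztay_linsolve hN hdet
    (fun b => X b - ztay z (fun w => ((N w)⁻¹.mulVec fun c => v c w) b)) hzero
  intro a
  exact sub_eq_zero.1 (hdiff a)

end ZT

end Claimed.Agent.R269
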