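/-
Row 269, P1 Section 4, unit 4H (Theorem 4.4): SECOND ORDER, from the formal identity to an identity of analytic functions.   Statements: helper183.   (Model: CoreS of unit 4F.)

SETTING as in CorePF; `f` the first variation of the profile found there; `V = C.varSysP …`, `W = V.core`.
CLAIM.  There are functions `g_i` holomorphic on `Jm i` (`i ≤ n`) and a constant `κ` with
      `∑_{i ≤ n} wtP_i g_i(ps_i) + ½ ∑_j AtP_j vF_j = κ`      at all real points `|y - y₀| < η`, `0 < t < η`,         `AtP = - hessP⁻¹ vF`.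

PROOF.  (1) `W.v j = ztay z (C.vF f j)` for `j < n` (hypothesis `hF` with `l = 0, 1`; `iteratedDeriv_zero`, `iteratedDeriv_one`; `ztay_mul`, `ztay_add`, `ztay_sub`; analyticity of `f i ∘ ps i`, `deriv (f i) ∘ ps i` at `z`:
    `ps i z ∈ Jm i` since `z = (r.1, r.2)` lies on the slice, `Prof.isOpen`, `Prof.diff`, `DifferentiableOn.analyticAt`).
(2) `W.A (j+1) = ztay z (fun w => C.AtP f w j)`: `lin_stat_matrixP` + `ztay_linsolve'` (`Good2P.det_ne`, `z.2 = r.2 ≠ 0`, `an_hessP`) applied to `-vF`.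
(3) END TOWERS as in CorePF (1) with `W.D2 (W.c 0)`, `W.D2 (W.c n)` (`isPS_endP`, `VarSysP.closed_D20`, `closed_D2n`, `ZT.tower_exists`): towers `U`, `Y`;   `K := W.D2 V.len - Y 0 + U 0 = cst κ`
    (`VarSysP.d1_D2_len`, `d2_D2_len`, `eq_cst_of_D1_D2`).   `VarSysP.D2_len`, `Gt_zero`, `Gt_last`:   `∑_{i ≤ n} 2 s_i Gt_{i,0} + U 0 - Y 0 = ztay z B`,
    `B(w) := κ - (∑_j AtP f w j * vF f j w) / 2`, analytic at every `(y, r.2)`, `y ∈ ball y₀ η₀` (there `ps i (y, r.2) ∈ Jm i` trivially, `det hessP ≠ 0`; `analyticAt_inv`).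
(4) `Web.web_main` as in CorePF (3) with the towers `T i := if i = 0 then U else if i = n then Y else W.Gt i` (`VarCore.d1_Gt`, `d2_Gt`, `isPS_GtP`).   Extend `g : Fin (n+1) → _` to `ℕ → _` by `0`.
(5) `Φ := ∑ wtP_i g_i(ps_i) - B` is analytic at all real points of `Q⁺ = {|y - y₀| < η, 0 < t < η}` (convex; `Good3.cover`, `Good2P.det_ne`), `ztay z Φ = 0`;  `eq_zero_of_ztay_real`.
The `sorry` is replaced IN PLACE by the owner of the package (table subtask, target row269, LF-S4-CoreP-s).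
-/
import Claimed.Agent.R269.S4.ChainPV
import Claimed.Agent.R269.S4.ZTayC
import Claimed.Agent.R269.S4.ZTayD
import Claimed.Agent.R269.S4.CorePF

set_option autoImplicit false

namespace Claimed.Agent.R269

open Filter Topology ZT

namespace CChain

variable {n : ℕ} {C : CChain n}

theorem core_secondP {η₀ η ρ cc ccP : ℝ} (hG : C.Good η₀ η ρ cc) (hP : C.Good2P η₀ ccP) (hn : 1 ≤ n) (r : ℝ × ℝ)
    (hr1 : |r.1 - C.y₀| < η) (hr2 : 0 < r.2) (hr3 : r.2 < η) (hz : rp r ∈ C.bd η₀) (δ : Dv ℝ)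
    (hE : C.EndKilledP (rp r) δ.cx) (f : ℕ → ℂ → ℂ) (hf : C.Prof η₀ (r.2 : ℂ) f)
    (hF : ∀ i ≤ n, ∀ l, (C.varSysP hG.g1 hz hn hE).core.F i l
      = ztay (rp r) (fun w => iteratedDeriv l (f i) (C.ps i w))) :
    ∃ (g : ℕ → ℂ → ℂ) (κ : ℂ), (∀ i ≤ n, DifferentiableOn ℂ (g i) (C.Jm η₀ (r.2 : ℂ) i)) ∧
      ∀ r' : ℝ × ℝ, |r'.1 - C.y₀| < η → 0 < r'.2 → r'.2 < η →
        ∑ i ∈ Finset.range (n + 1), C.wtP i (rp r') * g i (C.ps i (rp r'))
          + (∑ j : Fin n, C.AtP f (rp r') j * C.vF f j (rp r')) / 2 = κ := by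
  have hle : ∀ i ∈ Finset.range (n + 1), i ≤ n := fun i hi => Nat.lt_succ_iff.mp (Finset.mem_range.mp hi)
  have hr2' : (r.2 : ℂ) ≠ 0 := by exact_mod_cast hr2.ne'
  have hbd : ∀ y ∈ Metric.ball (C.y₀ : ℂ) η₀, (y, (r.2 : ℂ)) ∈ C.bd η₀ := fun y hy => ⟨hy, hz.2⟩
  have hzm : ∀ i ≤ n, C.ps i (rp r) ∈ C.Jm η₀ (r.2 : ℂ) i := fun i _ => C.slice_mem_Jm i hz.1
  have hanv : ∀ w ∈ C.bd η₀, (∀ i ≤ n, C.ps i w ∈ C.Jm η₀ (r.2 : ℂ) i) → ∀ j : Fin n,
      AnalyticAt ℂ (C.vF f j) w := fun w hw hm j => an_vF hG.g1 hf.isOpen hf.diff hw hm j j.2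
  have hanA : ∀ w ∈ C.bd η₀, (∀ i ≤ n, C.ps i w ∈ C.Jm η₀ (r.2 : ℂ) i) → w.2 ≠ 0 → ∀ j : Fin n,
      AnalyticAt ℂ (fun x => C.AtP f x j) w := fun w hw hm h0 j =>
    an_solve (N := C.hessP) (v := fun j x => C.vF f j x) (fun a b => an_hessP hG.g1 hw a b)
      (hP.det_ne w hw h0) (hanv w hw hm) j
  have hanS : ∀ w ∈ C.bd η₀, (∀ i ≤ n, C.ps i w ∈ C.Jm η₀ (r.2 : ℂ) i) → w.2 ≠ 0 →
      AnalyticAt ℂ (fun x => ∑ j : Fin n, C.AtP f x j * C.vF f j x) w := fun w hw hm h0 =>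
    Finset.analyticAt_fun_sum _ fun j _ => (hanA w hw hm h0 j).mul (hanv w hw hm j)
  -- (1)
  have hv : ∀ j < n, (C.varSysP hG.g1 hz hn hE).core.v j = ztay (rp r) (C.vF f j) := by
    intro j hj
    rw [ztay_vF hG.g1 hf.isOpen hf.diff hz hzm j hj, ← hF j (by omega) 1, ← hF j (by omega) 0,
      ← hF (j + 1) (by omega) 1, ← hF (j + 1) (by omega) 0]
    rfl
  -- (2)
  have hA : ∀ a : Fin n, (C.varSysP hG.g1 hz hn hE).core.A (a + 1) = ztay (rp r) (fun w => C.AtP f w a) := by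
    intro a
    have h := ztay_linsolve' (N := C.hessP) (fun a b => an_hessP hG.g1 hz a b) (hP.det_ne _ hz hr2')
      (fun a w => -C.vF f a w) (fun a => (hanv _ hz hzm a).neg)
      (fun a : Fin n => (C.varSysP hG.g1 hz hn hE).core.A (a + 1))
      (fun a => by
        rw [lin_stat_matrixP hG.g1 hn hz hE a, hv a a.2, ztay_neg (hanv _ hz hzm a)]) a
    rw [h]
    congr 1
    funext w
    unfold AtP
    have e : (fun b : Fin n => -C.vF f b w) = -(fun b : Fin n => C.vF f b w) := rfl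
    rw [e, Matrix.mulVec_neg]
  -- (3)
  have hRz : ztay (rp r) (fun w => (∑ j : Fin n, C.AtP f w j * C.vF f j w) / 2)
      = (∑ j ∈ Finset.range n, (C.varSysP hG.g1 hz hn hE).core.A (j + 1) * (C.varSysP hG.g1 hz hn hE).core.v j) / 2 := by
    have hS := hanS _ hz hzm hr2'
    rw [ztay_half hS,
      ztay_sum (u := fun (j : Fin n) w => C.AtP f w j * C.vF f j w) Finset.univ
        (fun j _ => (hanA _ hz hzm hr2' j).mul (hanv _ hz hzm j)),
      ← Fin.sum_univ_eq_sum_range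
        (fun j => (C.varSysP hG.g1 hz hn hE).core.A (j + 1) * (C.varSysP hG.g1 hz hn hE).core.v j) n]
    congr 1
    exact Finset.sum_congr rfl fun j _ => by
      rw [ztay_mul (hanA _ hz hzm hr2' j) (hanv _ hz hzm j), hA j, hv j j.2]
  obtain ⟨g, κ, hJ, hgd, -, hrel⟩ := chain_webP hG hn r hr2 hz
    ((C.varSysP hG.g1 hz hn hE).core.rr 0 * (C.varSysP hG.g1 hz hn hE).core.D2 ((C.varSysP hG.g1 hz hn hE).core.c 0))
    ((C.varSysP hG.g1 hz hn hE).core.rr n * (C.varSysP hG.g1 hz hn hE).core.D2 ((C.varSysP hG.g1 hz hn hE).core.c n))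
    ((C.varSysP hG.g1 hz hn hE).core.D2 (C.varSysP hG.g1 hz hn hE).len)
    (isPS_endP hG.g1 hn hz hE 0).2 (isPS_endP hG.g1 hn hz hE n).2
    (by
      rw [ztay_p1P hG.g1 hz hn hE 0 (Nat.zero_le n), ztay_p2P hG.g1 hz hn hE 0 (Nat.zero_le n)]
      exact (C.varSysP hG.g1 hz hn hE).closed_D20)
    (by
      rw [ztay_p1P hG.g1 hz hn hE n le_rfl, ztay_p2P hG.g1 hz hn hE n le_rfl]
      exact (C.varSysP hG.g1 hz hn hE).closed_D2n)
    (by
      rw [ztay_p1P hG.g1 hz hn hE n le_rfl, ztay_p1P hG.g1 hz hn hE 0 (Nat.zero_le n)]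
      exact (C.varSysP hG.g1 hz hn hE).d1_D2_len)
    (by
      rw [ztay_p2P hG.g1 hz hn hE n le_rfl, ztay_p2P hG.g1 hz hn hE 0 (Nat.zero_le n)]
      exact (C.varSysP hG.g1 hz hn hE).d2_D2_len)
    (fun i l => (C.varSysP hG.g1 hz hn hE).core.Gt i l) (fun i _ l => isPS_GtP hG.g1 hn hz hE i l)
    (fun i hi l => by
      rw [ztay_p1P hG.g1 hz hn hE i hi]
      exact (C.varSysP hG.g1 hz hn hE).core.d1_Gt i hi l)
    (fun i hi l => by
      rw [ztay_p2P hG.g1 hz hn hE i hi]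
      exact (C.varSysP hG.g1 hz hn hE).core.d2_Gt i hi l)
    ((C.varSysP hG.g1 hz hn hE).Gt_zero 0) ((C.varSysP hG.g1 hz hn hE).Gt_last 0)
    (fun w => (∑ j : Fin n, C.AtP f w j * C.vF f j w) / 2)
    (fun y hy => (hanS _ (hbd y hy) (fun i _ => C.slice_mem_Jm i hy) hr2').div analyticAt_const two_ne_zero)
    (by
      rw [hRz]
      exact (C.varSysP hG.g1 hz hn hE).D2_len)
  refine ⟨g, κ, hgd, ?_⟩
  -- (5)
  have hQ : ∀ r' ∈ {r' : ℝ × ℝ | |r'.1 - C.y₀| < η ∧ 0 < r'.2 ∧ r'.2 < η}, |r'.1 - C.y₀| < η ∧ |r'.2| < η :=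
    fun r' hr' => ⟨hr'.1, by rw [abs_of_pos hr'.2.1]; exact hr'.2.2⟩
  have hΦ := chain_id hG r hr2 hr3 C.wtP
    (fun w => κ - (∑ j : Fin n, C.AtP f w j * C.vF f j w) / 2) g hJ hgd
    (isPreconnected_halfsquare C.y₀ η) hQ
    (show r ∈ {r' : ℝ × ℝ | |r'.1 - C.y₀| < η ∧ 0 < r'.2 ∧ r'.2 < η} from ⟨hr1, hr2, hr3⟩)
    (fun i hi r' hr' => an_wtP hG.g1 (C.rp_mem_bd hG.g3.η_le (hQ r' hr').1 (hQ r' hr').2) i hi)
    (fun r' hr' => analyticAt_const.sub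
      ((hanS _ (C.rp_mem_bd hG.g3.η_le (hQ r' hr').1 (hQ r' hr').2)
        (fun i hi => by
          obtain ⟨y', hy', h⟩ := hG.g3.cover r.2 hr2 hr3 r' (hQ r' hr').1 (hQ r' hr').2 i hi
          exact ⟨y', hy', h⟩)
        (by
          show ((r'.2 : ℝ) : ℂ) ≠ 0
          exact_mod_cast hr'.2.1.ne')).div analyticAt_const two_ne_zero))
    hrel
  intro r' h1 h2 h3
  have h := hΦ r' ⟨h1, h2, h3⟩
  rw [h]
  ring

end CChain

end Claimed.Agent.R269
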