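/-
Row 269, P1 Section 4, unit 4H (Theorem 4.4): THE INFINITESIMAL LENS RIGIDITY FOR POINT ENDS.   helper183.   (Model: Core of unit 4F.)

THEOREM `core_mainP`.  For real `z = (y,t)` close to `(y₀,0)`, `t > 0`:  a derivation of `ℝ` (complexified, applied to Taylor coefficients at `z`) which kills the point end data of the chain (two end impacts, area
coefficient) kills `sin d_i`, `cos d_i` and all `h^{(l)}(ψ_i)`, `i ≤ n`.   (Also exported: `∂_y ψ_i (z) ≠ 0`, needed in LensPB.)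

PROOF (glue).  `exists_goodP`; `z ∈ bd η₀` (`rp_mem_bd`); `core_firstP` gives `f` with `f 0 = 0`; `core_secondP` gives `g`, `κ`; `core_blowupP` gives `f_j(φ(y)) = f_{j+1}(φ(y))`, `j < n`; by induction
`f_i(φ(y)) = 0` for all `i ≤ n` and all real `|y - y₀| < η`;  `prof_zero` (Core.lean):  `f_i = 0` on `Jm i`.
Then `W.F i l = ztay z 0 = 0` (`ztay_congr`: `iteratedDeriv l (f i) = 0` on the open set `Jm i ∋ ps i z`), `W.v j = 0`, `lin_stat_matrixP` + `ztay_linsolve` give `W.A (j+1) = 0`, `j < n`;  `VarSysP.core_killed`.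
-/
import Claimed.Agent.R269.S4.ChainPB
import Claimed.Agent.R269.S4.CorePF
import Claimed.Agent.R269.S4.CorePS
import Claimed.Agent.R269.S4.CorePB
import Claimed.Agent.R269.S4.Core

set_option autoImplicit false

namespace Claimed.Agent.R269

open Filter Topology ZT

namespace CChain

variable {n : ℕ}

/-- if the profile `f i` vanishes on `Jm i`, the Taylor series of `f_i^{(l)} ∘ ps i` at a point of the slice vanishes. -/
theorem ztay_prof_zero {C : CChain n} {η₀ ρ : ℝ} (hG : C.Good1 η₀ ρ) {r : ℝ × ℝ} (hz : rp r ∈ C.bd η₀)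
    (f : ℕ → ℂ → ℂ) (hf : C.Prof η₀ (r.2 : ℂ) f) (i : ℕ) (hi : i ≤ n)
    (h0 : ∀ x ∈ C.Jm η₀ (r.2 : ℂ) i, f i x = 0) (l : ℕ) :
    ztay (rp r) (fun w => iteratedDeriv l (f i) (C.ps i w)) = 0 := by
  have hmem : C.ps i (rp r) ∈ C.Jm η₀ (r.2 : ℂ) i := ⟨(r.1 : ℂ), hz.1, rfl⟩
  have hopen := hf.isOpen i hi
  have hcont : ContinuousAt (C.ps i) (rp r) := (an_ps hG hz i hi).continuousAt
  have hev : ∀ᶠ w in 𝓝 (rp r), C.ps i w ∈ C.Jm η₀ (r.2 : ℂ) i := hcont (hopen.mem_nhds hmem)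
  have h1 : (fun w => iteratedDeriv l (f i) (C.ps i w)) =ᶠ[𝓝 (rp r)] fun _ => 0 := by
    filter_upwards [hev] with w hw
    have h2 : f i =ᶠ[𝓝 (C.ps i w)] fun _ => 0 := by
      filter_upwards [hopen.mem_nhds hw] with x hx
      exact h0 x hx
    rw [h2.iteratedDeriv_eq l]
    simp
  rw [ztay_congr h1, ztay_zero]

theorem core_mainP (C : CChain n) (hn : 1 ≤ n) : ∃ η : ℝ, 0 < η ∧ ∀ r : ℝ × ℝ, |r.1 - C.y₀| < η → 0 < r.2 → r.2 < η →
    (∀ i ≤ n, pdy (C.ps i) (rp r) ≠ 0) ∧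
    ∀ δ : Dv ℝ, C.EndKilledP (rp r) δ.cx → ∀ i ≤ n,
      DD δ.cx (ztay (rp r) (C.sd i)) = 0 ∧ DD δ.cx (ztay (rp r) (C.cd i)) = 0 ∧
        ∀ l, DD δ.cx (ztay (rp r) (C.Hh i l)) = 0 := by
  obtain ⟨η₀, η, ρ, cc, ccP, hG, hP⟩ := C.exists_goodP
  refine ⟨η, hG.g3.η_pos, ?_⟩
  intro r hr1 hr2 hr3
  have hz : rp r ∈ C.bd η₀ := C.rp_mem_bd hG.g3.η_le hr1 (by rw [abs_of_pos hr2]; exact hr3)
  refine ⟨fun i hi h0 => ?_, ?_⟩
  · have := hG.g1.re_pos i hi (rp r) hz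
    rw [h0] at this
    simp at this
  intro δ hE
  obtain ⟨f, hf, hF, hf0, -⟩ := core_firstP hG hn r hr1 hr2 hr3 hz δ hE
  obtain ⟨g, κ, hg, hid⟩ := core_secondP hG hP hn r hr1 hr2 hr3 hz δ hE f hf hF
  have hstep : ∀ y : ℝ, |y - C.y₀| < η → ∀ j < n, f j (C.al 0 ((y : ℂ), 0)) = f (j + 1) (C.al 0 ((y : ℂ), 0)) :=
    fun y hy j hj => core_blowupP hG hP r.2 hr2 hr3 f g hf hg κ hid y hy j hj
  have hedge : ∀ i ≤ n, ∀ y : ℝ, |y - C.y₀| < η → f i (C.al 0 ((y : ℂ), 0)) = 0 := by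
    intro i
    induction i with
    | zero => intro _ y _; exact hf0 _
    | succ i ih =>
      intro hi y hy
      rw [← hstep y hy i (by omega)]
      exact ih (by omega) y hy
  have hzero : ∀ i ≤ n, ∀ x ∈ C.Jm η₀ (r.2 : ℂ) i, f i x = 0 :=
    fun i hi => prof_zero hG r.2 hr2 hr3 f hf i hi (hedge i hi)
  set V := C.varSysP hG.g1 hz hn hE with hV
  have hF0 : ∀ i ≤ n, ∀ m, V.core.F i m = 0 := by
    intro i hi m
    rw [hF i hi m]
    exact ztay_prof_zero hG.g1 hz f hf i hi (hzero i hi) m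
  have hv : ∀ j < n, V.core.v j = 0 := by
    intro j hj
    unfold VarCore.v
    rw [hF0 j (by omega) 1, hF0 j (by omega) 0, hF0 (j + 1) (by omega) 1, hF0 (j + 1) (by omega) 0]
    ring
  have hA : ∀ a : Fin n, V.core.A ((a : ℕ) + 1) = 0 := by
    apply ztay_linsolve (N := C.hessP) (z := rp r) (fun a b => an_hessP hG.g1 hz a b)
      (hP.det_ne (rp r) hz (by
        show ((r.2 : ℝ) : ℂ) ≠ 0
        exact_mod_cast hr2.ne'))
    intro a
    rw [lin_stat_matrixP hG.g1 hn hz hE a, hv a a.2]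
    ring
  exact V.core_killed hF0 (fun j hj => hA ⟨j, hj⟩)

end CChain

end Claimed.Agent.R269
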