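/-
Row 269, P1 Section 4, unit 4E: from the formal ALG2 to `G.Alg2`.   Statements: helper36.

  `kk`    an algebraically closed differential field containing the Taylor series in `y`:  the algebraic closure of `ℂ((y))`
  `dk`    the extension of `d/dy` to `kk`
  `tay u` the Taylor expansion at `(0,0)` of a function analytic there, as an element of `kk((t))`

PART 1 (`tay_*`): `tay` is an injective differential ring homomorphism, compatible with the shears `(y,t) ↦ (y+qt,t)` and `t ↦ -t`.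
PART 2 (`Glance.fgl`): the formal glancing datum of a `Glance` (needs `G.LensL`).
PART 3 (`alg2_of_lensL`): `G.LensL → G.Alg2`.
The `sorry`s are replaced IN PLACE by the owners of the packages (table subtask, target row269, LF-S4-Emb-a (this file = PART 1)).

HINT (helper36, 10:20): this file now imports ZTayB, so that nothing has to be proved twice.   `ZT.ztay (0,0) u = ofPowerSeries ℤ _ (PowerSeries.mk c)` and
`tay u = ofPowerSeries ℤ kk (PowerSeries.map (algebraMap (LaurentSeries ℂ) kk) (PowerSeries.mk c))` with the SAME `c n = ztay1 0 (fun y => pd 0 n u (y,0) / n!)` (`ztay1 0 f = (tay1 f : LaurentSeries ℂ)` is `rfl`).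
So `tay_add`, `tay_mul`, `tay_const`, `tay_congr`, `tay_eq_zero_iff`, `tay_pdy`, `tay_pdt` follow from `ZT.ztay_add`, … by `HahnSeries.ofPowerSeries_injective`, `map_add`, `map_mul`, injectivity of `algebraMap`.
(`Emb.analyticAt_pdy`, `analyticAt_pdt`, `analyticAt_pd` were moved to ZTayB.)
-/
import Claimed.Agent.R269.S4.Fgl
import Claimed.Agent.R269.S4.ZTayCore

set_option autoImplicit false

namespace Claimed.Agent.R269

open HahnSeries Lau Filter Topology

namespace Emb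

/-- the coefficient field. -/
abbrev kk := AlgebraicClosure (LaurentSeries ℂ)

/-- `d/dy` on `kk`. -/
noncomputable def dk : Dv kk :=
  Classical.choose (Dv.exists_extension (F := LaurentSeries ℂ) (L := kk) (Lau.dt (k := ℂ)))

theorem dk_algebraMap (a : LaurentSeries ℂ) :
    dk (algebraMap (LaurentSeries ℂ) kk a) = algebraMap (LaurentSeries ℂ) kk (Lau.dt a) :=
  Classical.choose_spec (Dv.exists_extension (F := LaurentSeries ℂ) (L := kk) (Lau.dt (k := ℂ))) a

/-- Taylor series at `0` of a function of one variable. -/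
noncomputable def tay1 (f : ℂ → ℂ) : PowerSeries ℂ :=
  PowerSeries.mk fun m => iteratedDeriv m f 0 / (m.factorial : ℂ)

/-- the coefficient of `t^n`: the Taylor series in `y` of `∂_t^n u (y,0) / n!`. -/
noncomputable def tayc (u : ℂ × ℂ → ℂ) (n : ℕ) : kk :=
  algebraMap (LaurentSeries ℂ) kk
    ((tay1 (fun y => pd 0 n u (y, 0) / (n.factorial : ℂ)) : PowerSeries ℂ) : LaurentSeries ℂ)

/-- Taylor expansion at `(0,0)`. -/
noncomputable def tay (u : ℂ × ℂ → ℂ) : LaurentSeries kk :=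
  HahnSeries.ofPowerSeries ℤ kk (PowerSeries.mk (tayc u))

/-- the power series over `ℂ((y))` underlying both `tay` and `ZT.ztay (0,0)`. -/
noncomputable def embaPS (u : ℂ × ℂ → ℂ) : PowerSeries (LaurentSeries ℂ) :=
  PowerSeries.mk fun n => ZT.ztay1 0 (fun y => pd 0 n u (y, 0) / (n.factorial : ℂ))

/-- change of coefficients `ℂ((y))[[t]] → kk((t))`. -/
noncomputable def embaHom : PowerSeries (LaurentSeries ℂ) →+* LaurentSeries kk :=
  (HahnSeries.ofPowerSeries ℤ kk).comp (PowerSeries.map (algebraMap (LaurentSeries ℂ) kk))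

theorem emba_algebraMap_injective : Function.Injective (algebraMap (LaurentSeries ℂ) kk) :=
  (algebraMap (LaurentSeries ℂ) kk).injective

theorem embaHom_injective : Function.Injective embaHom := by
  intro p q h
  apply PowerSeries.map_injective _ emba_algebraMap_injective
  apply HahnSeries.ofPowerSeries_injective (Γ := ℤ)
  exact h

theorem emba_ztay (u : ℂ × ℂ → ℂ) :
    ZT.ztay (0, 0) u = HahnSeries.ofPowerSeries ℤ (LaurentSeries ℂ) (embaPS u) := rfl

theorem emba_tay (u : ℂ × ℂ → ℂ) : tay u = embaHom (embaPS u) := by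
  show HahnSeries.ofPowerSeries ℤ kk _ = HahnSeries.ofPowerSeries ℤ kk _
  congr 1

theorem emba_ofPS_coeff_neg {R : Type*} [CommSemiring R] (p : PowerSeries R) (n : ℤ) (hn : n < 0) :
    (HahnSeries.ofPowerSeries ℤ R p).coeff n = 0 := by
  rw [HahnSeries.ofPowerSeries_apply]
  apply HahnSeries.embDomain_of_notMem_range
  rintro ⟨m, hm⟩
  have : (m : ℤ) = n := hm
  omega

/-- the coefficients of `tay u` are the images of the coefficients of `ZT.ztay (0,0) u`. -/
theorem emba_tay_coeff (u : ℂ × ℂ → ℂ) (n : ℤ) :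
    (tay u).coeff n = algebraMap (LaurentSeries ℂ) kk ((ZT.ztay (0, 0) u).coeff n) := by
  rcases lt_or_ge n 0 with hn | hn
  · rw [emba_ztay, emba_ofPS_coeff_neg _ n hn, map_zero]
    exact emba_ofPS_coeff_neg _ n hn
  · obtain ⟨m, rfl⟩ := Int.eq_ofNat_of_zero_le hn
    rw [emba_ztay, emba_tay]
    show (HahnSeries.ofPowerSeries ℤ kk _).coeff _ = _
    rw [HahnSeries.ofPowerSeries_apply_coeff, HahnSeries.ofPowerSeries_apply_coeff,
      PowerSeries.coeff_map]

theorem emba_PS_eq {u v : ℂ × ℂ → ℂ} (h : ZT.ztay (0, 0) u = ZT.ztay (0, 0) v) :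
    embaPS u = embaPS v := HahnSeries.ofPowerSeries_injective h

theorem tay_nonneg (u : ℂ × ℂ → ℂ) : 0 ≤ (tay u).orderTop := by
  rw [HahnSeries.le_orderTop_iff_forall]
  intro j hj
  exact emba_ofPS_coeff_neg _ j (by exact_mod_cast hj)

theorem tay_coeff (u : ℂ × ℂ → ℂ) (n : ℕ) : (tay u).coeff (n : ℤ) = tayc u n := by
  exact HahnSeries.ofPowerSeries_apply_coeff _ n |>.trans (PowerSeries.coeff_mk _ _)

theorem tay_congr {u v : ℂ × ℂ → ℂ} (h : u =ᶠ[𝓝 (0, 0)] v) : tay u = tay v := by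
  rw [emba_tay, emba_tay, emba_PS_eq (ZT.ztay_congr h)]

theorem tay_const (c : ℂ) : tay (fun _ => c) = algebraMap ℂ (LaurentSeries kk) c := by
  have h1 : embaPS (fun _ => c) = PowerSeries.C (HahnSeries.C c) := by
    apply HahnSeries.ofPowerSeries_injective (Γ := ℤ)
    rw [← emba_ztay, ZT.ztay_const, HahnSeries.ofPowerSeries_C]
    rfl
  rw [emba_tay, h1]
  show HahnSeries.ofPowerSeries ℤ kk (PowerSeries.map _ _) = _
  rw [PowerSeries.map_C, HahnSeries.algebraMap_apply', PowerSeries.algebraMap_apply,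
    IsScalarTower.algebraMap_apply ℂ (LaurentSeries ℂ) kk, HahnSeries.algebraMap_apply',
    PowerSeries.algebraMap_apply, HahnSeries.ofPowerSeries_C, HahnSeries.ofPowerSeries_C,
    HahnSeries.ofPowerSeries_C]
  rfl

theorem tay_add {u v : ℂ × ℂ → ℂ} (hu : AnalyticAt ℂ u (0, 0)) (hv : AnalyticAt ℂ v (0, 0)) :
    tay (fun z => u z + v z) = tay u + tay v := by
  have h1 : embaPS (fun z => u z + v z) = embaPS u + embaPS v := by
    apply HahnSeries.ofPowerSeries_injective (Γ := ℤ)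
    rw [map_add, ← emba_ztay, ← emba_ztay, ← emba_ztay, ZT.ztay_add hu hv]
  rw [emba_tay, emba_tay, emba_tay, h1, map_add]

theorem tay_mul {u v : ℂ × ℂ → ℂ} (hu : AnalyticAt ℂ u (0, 0)) (hv : AnalyticAt ℂ v (0, 0)) :
    tay (fun z => u z * v z) = tay u * tay v := by
  have h1 : embaPS (fun z => u z * v z) = embaPS u * embaPS v := by
    apply HahnSeries.ofPowerSeries_injective (Γ := ℤ)
    rw [map_mul, ← emba_ztay, ← emba_ztay, ← emba_ztay, ZT.ztay_mul hu hv]
  rw [emba_tay, emba_tay, emba_tay, h1, map_mul]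

theorem tay_eq_zero_iff {u : ℂ × ℂ → ℂ} (hu : AnalyticAt ℂ u (0, 0)) :
    tay u = 0 ↔ ∀ᶠ z in 𝓝 ((0 : ℂ), (0 : ℂ)), u z = 0 := by
  rw [← ZT.ztay_eq_zero_iff hu, emba_tay, emba_ztay, map_eq_zero_iff _ embaHom_injective,
    map_eq_zero_iff _ HahnSeries.ofPowerSeries_injective]

theorem tay_pdy {u : ℂ × ℂ → ℂ} (hu : AnalyticAt ℂ u (0, 0)) : tay (pdy u) = dy dk (tay u) := by
  ext n
  rw [dy_coeff, emba_tay_coeff, emba_tay_coeff, ZT.ztay_pdy hu, dk_algebraMap]
  rfl

theorem tay_pdt {u : ℂ × ℂ → ℂ} (hu : AnalyticAt ℂ u (0, 0)) : tay (pdt u) = dt (tay u) := by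
  ext n
  rw [dt_coeff, emba_tay_coeff, emba_tay_coeff, ZT.ztay_pdt hu]
  show algebraMap (LaurentSeries ℂ) kk ((Lau.dt (ZT.ztay (0, 0) u)).coeff n) = _
  rw [dt_coeff, map_mul, map_add, map_intCast, map_one]

theorem tay_pd {u : ℂ × ℂ → ℂ} (hu : AnalyticAt ℂ u (0, 0)) (a b : ℕ) :
    tay (pd a b u) = ((dy dk)^[a]) ((dt^[b]) (tay u)) := by
  have h1 : ∀ b : ℕ, tay ((pdt^[b]) u) = (dt^[b]) (tay u) := by
    intro b
    induction b with
    | zero => rfl
    | succ b ih =>
      rw [Function.iterate_succ_apply', Function.iterate_succ_apply', ← ih]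
      exact tay_pdt (analyticAt_pd 0 b hu)
  induction a with
  | zero => exact h1 b
  | succ a ih =>
    rw [Function.iterate_succ_apply', ← ih]
    show tay ((pdy^[a + 1]) ((pdt^[b]) u)) = _
    rw [Function.iterate_succ_apply']
    exact tay_pdy (analyticAt_pd a b hu)

/-- two power series in `t` agree if their coefficients of nonnegative index agree. -/
theorem emba_ext_nat {F G : LaurentSeries kk} (hF : 0 ≤ F.orderTop) (hG : 0 ≤ G.orderTop)
    (h : ∀ n : ℕ, F.coeff (n : ℤ) = G.coeff (n : ℤ)) : F = G := by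
  ext n
  rcases lt_or_ge n 0 with hn | hn
  · rw [lau_coeff_of_orderTop_nonneg F hF n hn, lau_coeff_of_orderTop_nonneg G hG n hn]
  · obtain ⟨m, rfl⟩ := Int.eq_ofNat_of_zero_le hn
    exact h m

/-- the step of the induction on the order in `t`. -/
theorem emba_coeff_succ {F G : LaurentSeries kk} (n : ℕ)
    (h : (dt F).coeff (n : ℤ) = (dt G).coeff (n : ℤ)) :
    F.coeff ((n + 1 : ℕ) : ℤ) = G.coeff ((n + 1 : ℕ) : ℤ) := by
  rw [dt_coeff, dt_coeff] at h
  have hn : ((n : ℤ) : kk) + 1 ≠ 0 := by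
    have : ((n + 1 : ℕ) : kk) ≠ 0 := Nat.cast_ne_zero.2 (Nat.succ_ne_zero n)
    push_cast at this ⊢
    exact this
  have := mul_left_cancel₀ hn h
  push_cast
  exact this

theorem emba_tay_neg_fun {u : ℂ × ℂ → ℂ} (hu : AnalyticAt ℂ u (0, 0)) :
    tay (fun z => -u z) = -tay u := by
  have h1 : (fun z => -u z) = fun z => (fun _ => (-1 : ℂ)) z * u z := by
    funext z
    ring
  rw [h1, tay_mul analyticAt_const hu, tay_const, map_neg, map_one]
  ring

theorem emba_shear_map_analyticAt (q : ℂ) :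
    AnalyticAt ℂ (fun z : ℂ × ℂ => (z.1 + q * z.2, z.2)) (0, 0) :=
  AnalyticAt.prod (analyticAt_fst.add (analyticAt_const.mul analyticAt_snd)) analyticAt_snd

theorem emba_shear_analyticAt {u : ℂ × ℂ → ℂ} (hu : AnalyticAt ℂ u (0, 0)) (q : ℂ) :
    AnalyticAt ℂ (fun z => u (z.1 + q * z.2, z.2)) (0, 0) := by
  exact AnalyticAt.comp (f := fun z : ℂ × ℂ => (z.1 + q * z.2, z.2)) (by simpa using hu)
    (emba_shear_map_analyticAt q)

theorem emba_pdy_eq_fderiv {g : ℂ × ℂ → ℂ} {z : ℂ × ℂ} (hg : DifferentiableAt ℂ g z) :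
    pdy g z = fderiv ℂ g z (1, 0) := by
  have h1 : HasDerivAt (fun y : ℂ => (y, z.2)) ((1 : ℂ), (0 : ℂ)) z.1 :=
    (hasDerivAt_id z.1).prodMk (hasDerivAt_const z.1 z.2)
  have h2 : HasFDerivAt g (fderiv ℂ g z) ((fun y : ℂ => (y, z.2)) z.1) := hg.hasFDerivAt
  exact (h2.comp_hasDerivAt z.1 h1).deriv

theorem emba_pdt_eq_fderiv {g : ℂ × ℂ → ℂ} {z : ℂ × ℂ} (hg : DifferentiableAt ℂ g z) :
    pdt g z = fderiv ℂ g z (0, 1) := by
  have h1 : HasDerivAt (fun t : ℂ => (z.1, t)) ((0 : ℂ), (1 : ℂ)) z.2 :=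
    (hasDerivAt_const z.2 z.1).prodMk (hasDerivAt_id z.2)
  have h2 : HasFDerivAt g (fderiv ℂ g z) ((fun t : ℂ => (z.1, t)) z.2) := hg.hasFDerivAt
  exact (h2.comp_hasDerivAt z.2 h1).deriv

/-- chain rule for the shear. -/
theorem emba_pdt_shear {u : ℂ × ℂ → ℂ} (hu : AnalyticAt ℂ u (0, 0)) (q : ℂ) :
    pdt (fun z => u (z.1 + q * z.2, z.2)) =ᶠ[𝓝 (0, 0)]
      fun z => (fun w => pdt u w + (fun _ => q) w * pdy u w) (z.1 + q * z.2, z.2) := by
  have hc : Tendsto (fun z : ℂ × ℂ => (z.1 + q * z.2, z.2)) (𝓝 (0, 0)) (𝓝 (0, 0)) := by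
    have := (emba_shear_map_analyticAt q).continuousAt.tendsto
    simpa using this
  filter_upwards [hc.eventually hu.eventually_analyticAt] with z hz
  have hd : DifferentiableAt ℂ u (z.1 + q * z.2, z.2) := hz.differentiableAt
  have h1 : HasDerivAt (fun t : ℂ => (z.1 + q * t, t)) (q, (1 : ℂ)) z.2 := by
    have h2 : HasDerivAt (fun t : ℂ => z.1 + q * t) q z.2 := by
      simpa using ((hasDerivAt_id z.2).const_mul q).const_add z.1
    exact h2.prodMk (hasDerivAt_id z.2)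
  have h2 : HasFDerivAt u (fderiv ℂ u (z.1 + q * z.2, z.2)) ((fun t : ℂ => (z.1 + q * t, t)) z.2) :=
    hd.hasFDerivAt
  have h3 : pdt (fun z => u (z.1 + q * z.2, z.2)) z = fderiv ℂ u (z.1 + q * z.2, z.2) (q, 1) :=
    (HasFDerivAt.comp_hasDerivAt (f := fun t : ℂ => (z.1 + q * t, t)) z.2 h2 h1).deriv
  rw [h3]
  show _ = pdt u (z.1 + q * z.2, z.2) + q * pdy u (z.1 + q * z.2, z.2)
  rw [emba_pdt_eq_fderiv hd, emba_pdy_eq_fderiv hd]
  have h4 : ((q, 1) : ℂ × ℂ) = (0, 1) + q • ((1, 0) : ℂ × ℂ) := by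
    ext <;> simp
  rw [h4, map_add, map_smul, smul_eq_mul]

theorem emba_shear_coeff (q : ℤ) (n : ℕ) : ∀ {u : ℂ × ℂ → ℂ}, AnalyticAt ℂ u (0, 0) →
    (tay (fun z => u (z.1 + (q : ℂ) * z.2, z.2))).coeff (n : ℤ) =
      (Lau.shear dk q (tay u)).coeff (n : ℤ) := by
  induction n with
  | zero =>
    intro u _
    rw [Nat.cast_zero, shear_coeff_zero dk q (tay u) (tay_nonneg u)]
    have h1 := tay_coeff (fun z => u (z.1 + (q : ℂ) * z.2, z.2)) 0
    have h2 := tay_coeff u 0
    rw [Nat.cast_zero] at h1 h2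
    rw [h1, h2]
    unfold tayc
    congr 3
    funext y
    simp [pd]
  | succ n ih =>
    intro u hu
    apply emba_coeff_succ
    have hw : AnalyticAt ℂ (fun w => (fun _ => (q : ℂ)) w * pdy u w) (0, 0) :=
      analyticAt_const.mul (analyticAt_pdy hu)
    have hv : AnalyticAt ℂ (fun w => pdt u w + (fun w => (fun _ => (q : ℂ)) w * pdy u w) w) (0, 0) :=
      (analyticAt_pdt hu).add hw
    rw [← tay_pdt (emba_shear_analyticAt hu q), tay_congr (emba_pdt_shear hu q), ih hv, dt_shear,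
      tay_add (analyticAt_pdt hu) hw,
      tay_mul analyticAt_const (analyticAt_pdy hu), tay_const, tay_pdt hu, tay_pdy hu, map_intCast]

/-- compatibility with the shear `(y,t) ↦ (y + q t, t)`. -/
theorem tay_shear {u : ℂ × ℂ → ℂ} (hu : AnalyticAt ℂ u (0, 0)) (q : ℤ) :
    tay (fun z => u (z.1 + (q : ℂ) * z.2, z.2)) = Lau.shear dk q (tay u) := by
  refine emba_ext_nat (tay_nonneg _) ?_ fun n => emba_shear_coeff q n hu
  rw [shear_orderTop]
  exact tay_nonneg u

theorem emba_neg_analyticAt {u : ℂ × ℂ → ℂ} (hu : AnalyticAt ℂ u (0, 0)) :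
    AnalyticAt ℂ (fun z => u (z.1, -z.2)) (0, 0) := by
  exact AnalyticAt.comp (f := fun z : ℂ × ℂ => (z.1, -z.2)) (by simpa using hu)
    (AnalyticAt.prod analyticAt_fst analyticAt_snd.neg)

theorem emba_pdt_neg (u : ℂ × ℂ → ℂ) :
    pdt (fun z => u (z.1, -z.2)) = fun z => (fun w => -pdt u w) (z.1, -z.2) := by
  funext z
  exact deriv_comp_neg (fun t => u (z.1, t)) z.2

theorem emba_neg_coeff (n : ℕ) : ∀ {u : ℂ × ℂ → ℂ}, AnalyticAt ℂ u (0, 0) →
    (tay (fun z => u (z.1, -z.2))).coeff (n : ℤ) = (rot (-1 : kkˣ) (tay u)).coeff (n : ℤ) := by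
  induction n with
  | zero =>
    intro u _
    have h1 := tay_coeff (fun z => u (z.1, -z.2)) 0
    have h2 := tay_coeff u 0
    rw [Nat.cast_zero] at h1 h2
    rw [Nat.cast_zero, rot_coeff, h1, h2, zpow_zero, Units.val_one, one_mul]
    unfold tayc
    congr 3
    funext y
    simp [pd]
  | succ n ih =>
    intro u hu
    apply emba_coeff_succ
    have hv : AnalyticAt ℂ (fun w => -pdt u w) (0, 0) := (analyticAt_pdt hu).neg
    rw [← tay_pdt (emba_neg_analyticAt hu), emba_pdt_neg, ih hv,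
      emba_tay_neg_fun (analyticAt_pdt hu), tay_pdt hu, map_neg, FGl.fgl_rot_dt, neg_neg]

/-- compatibility with `t ↦ -t`. -/
theorem tay_neg {u : ℂ × ℂ → ℂ} (hu : AnalyticAt ℂ u (0, 0)) :
    tay (fun z => u (z.1, -z.2)) = rot (-1 : kkˣ) (tay u) := by
  refine emba_ext_nat (tay_nonneg _) ?_ fun n => emba_neg_coeff n hu
  rw [HahnSeries.le_orderTop_iff_forall]
  intro j hj
  rw [rot_coeff, HahnSeries.coeff_eq_zero_of_lt_orderTop (lt_of_lt_of_le hj (tay_nonneg u)), mul_zero]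

/-- the constant term in `t` and its `y`-derivative detect nonvanishing at the origin. -/
theorem tayc_zero_ne_zero {u : ℂ × ℂ → ℂ} (h : u (0, 0) ≠ 0) : tayc u 0 ≠ 0 := by
  unfold tayc
  rw [Ne, map_eq_zero_iff _ emba_algebraMap_injective]
  intro h0
  have h1 := congrArg (fun x : LaurentSeries ℂ => x.coeff ((0 : ℕ) : ℤ)) h0
  simp only [HahnSeries.coeff_zero] at h1
  have h2 := HahnSeries.ofPowerSeries_apply_coeff (Γ := ℤ)
    (tay1 (fun y => pd 0 0 u (y, 0) / ((0 : ℕ).factorial : ℂ))) 0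
  rw [tay1, PowerSeries.coeff_mk] at h2
  apply h
  have h3 := h2.symm.trans h1
  simpa [pd] using h3

end Emb

end Claimed.Agent.R269
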