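/-
Row 269, P1 Section 4, unit 4E: analytic facts on a `Glance` near `(0,0)` used by the embedding (see EmbedA.lean).  Statements: helper36.
All follow from the fields of `Glance` (holomorphy, evenness, `refl_in`, `refl_out`, `φ'_pos`, `rad_pos`/`normalised`).
With `x = suppPt hc ψ`, `ψ = (Θ(y,t)+Θ(y+t,t))/2`:  `(x₁+ix₂) + e^{2iθ}(x₁-ix₂) = 2 e^{iθ} (x·n_θ)`,  `x·n_θ = h(ψ) cos(ψ-θ) - h'(ψ) sin(ψ-θ)`;
`∂x = (h+h'')(ψ) ∂ψ e_ψ`, `e_ψ ↦ (i e^{iψ}, -i e^{-iψ})` in the coordinates `(Zc, W)`.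
The `sorry`s are replaced IN PLACE by the owner of the package (table subtask, target row269, LF-S4-Emb-b).
-/
import Claimed.Agent.R269.S4.Defs
import Claimed.Agent.R269.Lib.SCV0

set_option autoImplicit false

namespace Claimed.Agent.R269

open Filter Topology

namespace Glance

variable (G : Glance)

/-- the two coordinate functions of `L0`. -/
noncomputable def Lc (c : Fin 2) (z : ℂ × ℂ) : ℂ := crd c (G.L0 z)

theorem embb_isOpen_hstrip (s : ℝ) : IsOpen (hstrip s) :=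
  isOpen_lt (continuous_abs.comp Complex.continuous_im) continuous_const

theorem embb_s_pos : 0 < G.s := G.r₁_pos.trans G.r₁_lt

theorem embb_zero_mem_hstrip {s : ℝ} (hs : 0 < s) : (0 : ℂ) ∈ hstrip s := by
  show |(0 : ℂ).im| < s
  simpa using hs

theorem embb_Θ_analytic :
    AnalyticOnNhd ℂ (fun z : ℂ × ℂ => G.Θ z.1 z.2) (hstrip (2 * G.s) ×ˢ Metric.ball 0 G.r₁) :=
  SCV.analyticOnNhd_of_differentiableOn ((embb_isOpen_hstrip _).prod Metric.isOpen_ball) G.Θ_diff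

theorem embb_p_analytic :
    AnalyticOnNhd ℂ (fun z : ℂ × ℂ => G.p z.1 z.2) (hstrip (2 * G.s) ×ˢ Metric.ball 0 G.r₁) :=
  SCV.analyticOnNhd_of_differentiableOn ((embb_isOpen_hstrip _).prod Metric.isOpen_ball) G.p_diff

theorem embb_hc_analytic : AnalyticOnNhd ℂ G.hc (hstrip G.σ) :=
  G.hc_diff.analyticOnNhd (embb_isOpen_hstrip _)

theorem embb_Lc_zero (z : ℂ × ℂ) : G.Lc 0 z = Complex.exp (2 * Complex.I * G.Θ z.1 z.2) := rfl

theorem embb_Lc_one (z : ℂ × ℂ) :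
    G.Lc 1 z = G.p z.1 z.2 * Complex.exp (Complex.I * G.Θ z.1 z.2) := rfl

theorem Lc_analyticAt (c : Fin 2) {z : ℂ × ℂ} (hz : z ∈ hstrip (2 * G.s) ×ˢ Metric.ball (0 : ℂ) G.r₁) :
    AnalyticAt ℂ (G.Lc c) z := by
  have h1 : AnalyticAt ℂ (fun w : ℂ × ℂ => G.Θ w.1 w.2) z := G.embb_Θ_analytic z hz
  have h2 : AnalyticAt ℂ (fun w : ℂ × ℂ => G.p w.1 w.2) z := G.embb_p_analytic z hz
  fin_cases c
  · exact (analyticAt_const.mul h1).cexp
  · exact h2.mul (analyticAt_const.mul h1).cexp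

/-! ### analytic facts near `(0,0)` -/

/-- the isotropic coordinates of the impact `X_+ = X0(y + t/2, t)`. -/
noncomputable def wP (z : ℂ × ℂ) : ℂ :=
  (G.X0 (z.1 + z.2 / 2, z.2)).1 - Complex.I * (G.X0 (z.1 + z.2 / 2, z.2)).2

noncomputable def zP (z : ℂ × ℂ) : ℂ :=
  (G.X0 (z.1 + z.2 / 2, z.2)).1 + Complex.I * (G.X0 (z.1 + z.2 / 2, z.2)).2

/-- the mean normal angle of the impact `X_+`. -/
noncomputable def embbψ (z : ℂ × ℂ) : ℂ := (G.Θ z.1 z.2 + G.Θ (z.1 + z.2) z.2) / 2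

/-- `Zc` of the support point as a function of the normal angle. -/
noncomputable def embbZ (ψ : ℂ) : ℂ :=
  (G.hc ψ + Complex.I * deriv G.hc ψ) * Complex.exp (Complex.I * ψ)

/-- `W` of the support point as a function of the normal angle. -/
noncomputable def embbW (ψ : ℂ) : ℂ :=
  (G.hc ψ - Complex.I * deriv G.hc ψ) * Complex.exp (-(Complex.I * ψ))

theorem embb_X0 (z : ℂ × ℂ) : G.X0 (z.1 + z.2 / 2, z.2) = suppPt G.hc (G.embbψ z) := by
  unfold X0 embbψ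
  simp only
  have e1 : z.1 + z.2 / 2 - z.2 / 2 = z.1 := by ring
  have e2 : z.1 + z.2 / 2 + z.2 / 2 = z.1 + z.2 := by ring
  rw [e1, e2]

theorem embb_exp_I_mul (ψ : ℂ) :
    Complex.exp (Complex.I * ψ) = Complex.cos ψ + Complex.sin ψ * Complex.I := by
  rw [mul_comm, Complex.exp_mul_I]

theorem embb_exp_neg_I_mul (ψ : ℂ) :
    Complex.exp (-(Complex.I * ψ)) = Complex.cos ψ - Complex.sin ψ * Complex.I := by
  have : -(Complex.I * ψ) = (-ψ) * Complex.I := by ring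
  rw [this, Complex.exp_mul_I, Complex.cos_neg, Complex.sin_neg]
  ring

theorem embb_zP_eq (z : ℂ × ℂ) : G.zP z = G.embbZ (G.embbψ z) := by
  unfold zP embbZ
  rw [embb_X0, embb_exp_I_mul]
  unfold suppPt
  simp only
  linear_combination (-(deriv G.hc (G.embbψ z)) * Complex.sin (G.embbψ z)) * Complex.I_mul_I

theorem embb_wP_eq (z : ℂ × ℂ) : G.wP z = G.embbW (G.embbψ z) := by
  unfold wP embbW
  rw [embb_X0, embb_exp_neg_I_mul]
  unfold suppPt
  simp only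
  linear_combination (-(deriv G.hc (G.embbψ z)) * Complex.sin (G.embbψ z)) * Complex.I_mul_I

theorem embb_zero_mem : ((0 : ℂ), (0 : ℂ)) ∈ hstrip (2 * G.s) ×ˢ Metric.ball (0 : ℂ) G.r₁ :=
  ⟨embb_zero_mem_hstrip (by have := G.embb_s_pos; linarith), Metric.mem_ball_self G.r₁_pos⟩

theorem embb_ψ_analyticAt : AnalyticAt ℂ G.embbψ (0, 0) := by
  have h1 : AnalyticAt ℂ (fun w : ℂ × ℂ => G.Θ w.1 w.2) (0, 0) := G.embb_Θ_analytic _ G.embb_zero_mem
  have h2 : AnalyticAt ℂ (fun w : ℂ × ℂ => G.Θ (w.1 + w.2) w.2) (0, 0) :=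
    AnalyticAt.comp (g := fun z : ℂ × ℂ => G.Θ z.1 z.2) (f := fun w : ℂ × ℂ => (w.1 + w.2, w.2))
      (by simpa using h1) ((analyticAt_fst.add analyticAt_snd).prod analyticAt_snd)
  exact (h1.add h2).div analyticAt_const (by norm_num)

theorem embb_ψ_zero : G.embbψ (0, 0) = G.Θ 0 0 := by
  unfold embbψ
  simp

theorem embb_ψ_mem : ∀ᶠ z in 𝓝 ((0 : ℂ), (0 : ℂ)), G.embbψ z ∈ hstrip G.σ := by
  apply G.embb_ψ_analyticAt.continuousAt.eventually_mem
  apply (embb_isOpen_hstrip G.σ).mem_nhds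
  rw [embb_ψ_zero]
  exact G.Θ_mem 0 G.embb_zero_mem.1 0 G.embb_zero_mem.2

theorem embb_hasDerivAt_Z {ψ : ℂ} (hψ : ψ ∈ hstrip G.σ) :
    HasDerivAt G.embbZ
      (Complex.I * (G.hc ψ + deriv (deriv G.hc) ψ) * Complex.exp (Complex.I * ψ)) ψ := by
  have h1 : HasDerivAt G.hc (deriv G.hc ψ) ψ := (G.embb_hc_analytic ψ hψ).differentiableAt.hasDerivAt
  have h2 : HasDerivAt (deriv G.hc) (deriv (deriv G.hc) ψ) ψ :=
    (G.embb_hc_analytic.deriv ψ hψ).differentiableAt.hasDerivAt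
  have h3 : HasDerivAt (fun ψ : ℂ => Complex.exp (Complex.I * ψ))
      (Complex.exp (Complex.I * ψ) * (Complex.I * 1)) ψ :=
    ((hasDerivAt_id ψ).const_mul Complex.I).cexp
  have h4 := (h1.add (h2.const_mul Complex.I)).mul h3
  refine h4.congr_deriv ?_
  simp only [Pi.add_apply]
  linear_combination (deriv G.hc ψ * Complex.exp (Complex.I * ψ)) * Complex.I_mul_I

theorem embb_hasDerivAt_W {ψ : ℂ} (hψ : ψ ∈ hstrip G.σ) :
    HasDerivAt G.embbW
      (-Complex.I * (G.hc ψ + deriv (deriv G.hc) ψ) * Complex.exp (-(Complex.I * ψ))) ψ := by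
  have h1 : HasDerivAt G.hc (deriv G.hc ψ) ψ := (G.embb_hc_analytic ψ hψ).differentiableAt.hasDerivAt
  have h2 : HasDerivAt (deriv G.hc) (deriv (deriv G.hc) ψ) ψ :=
    (G.embb_hc_analytic.deriv ψ hψ).differentiableAt.hasDerivAt
  have h3 : HasDerivAt (fun ψ : ℂ => Complex.exp (-(Complex.I * ψ)))
      (Complex.exp (-(Complex.I * ψ)) * (-(Complex.I * 1))) ψ :=
    ((hasDerivAt_id ψ).const_mul Complex.I).neg.cexp
  have h4 := (h1.sub (h2.const_mul Complex.I)).mul h3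
  refine h4.congr_deriv ?_
  simp only [Pi.sub_apply]
  linear_combination (deriv G.hc ψ * Complex.exp (-(Complex.I * ψ))) * Complex.I_mul_I

theorem embb_Z_analyticAt {ψ : ℂ} (hψ : ψ ∈ hstrip G.σ) : AnalyticAt ℂ G.embbZ ψ :=
  ((G.embb_hc_analytic ψ hψ).add (analyticAt_const.mul (G.embb_hc_analytic.deriv ψ hψ))).mul
    (analyticAt_const.mul analyticAt_id).cexp

theorem embb_W_analyticAt {ψ : ℂ} (hψ : ψ ∈ hstrip G.σ) : AnalyticAt ℂ G.embbW ψ :=
  ((G.embb_hc_analytic ψ hψ).sub (analyticAt_const.mul (G.embb_hc_analytic.deriv ψ hψ))).mul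
    (analyticAt_const.mul analyticAt_id).neg.cexp

theorem embb_slice_fst {g : ℂ × ℂ → ℂ} {z : ℂ × ℂ} (hg : DifferentiableAt ℂ g z) :
    HasDerivAt (fun y => g (y, z.2)) (pdy g z) z.1 := by
  have h1 : DifferentiableAt ℂ (fun y : ℂ => (y, z.2)) z.1 := by fun_prop
  exact (DifferentiableAt.comp (f := fun y : ℂ => (y, z.2)) (g := g) z.1 hg h1).hasDerivAt

theorem embb_slice_snd {g : ℂ × ℂ → ℂ} {z : ℂ × ℂ} (hg : DifferentiableAt ℂ g z) :
    HasDerivAt (fun t => g (z.1, t)) (pdt g z) z.2 := by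
  have h1 : DifferentiableAt ℂ (fun t : ℂ => (z.1, t)) z.2 := by fun_prop
  exact (DifferentiableAt.comp (f := fun t : ℂ => (z.1, t)) (g := g) z.2 hg h1).hasDerivAt

/-- the four partial derivatives of `zP`, `wP`. -/
theorem embb_partials : ∀ᶠ z in 𝓝 ((0 : ℂ), (0 : ℂ)),
    pdy G.zP z = Complex.I * (G.hc (G.embbψ z) + deriv (deriv G.hc) (G.embbψ z))
        * Complex.exp (Complex.I * G.embbψ z) * pdy G.embbψ z ∧
    pdt G.zP z = Complex.I * (G.hc (G.embbψ z) + deriv (deriv G.hc) (G.embbψ z))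
        * Complex.exp (Complex.I * G.embbψ z) * pdt G.embbψ z ∧
    pdy G.wP z = -Complex.I * (G.hc (G.embbψ z) + deriv (deriv G.hc) (G.embbψ z))
        * Complex.exp (-(Complex.I * G.embbψ z)) * pdy G.embbψ z ∧
    pdt G.wP z = -Complex.I * (G.hc (G.embbψ z) + deriv (deriv G.hc) (G.embbψ z))
        * Complex.exp (-(Complex.I * G.embbψ z)) * pdt G.embbψ z := by
  filter_upwards [G.embb_ψ_mem, G.embb_ψ_analyticAt.eventually_analyticAt] with z hz ha
  have hy := embb_slice_fst ha.differentiableAt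
  have ht := embb_slice_snd ha.differentiableAt
  have hZ : HasDerivAt G.embbZ _ (G.embbψ (z.1, z.2)) := G.embb_hasDerivAt_Z hz
  have hW : HasDerivAt G.embbW _ (G.embbψ (z.1, z.2)) := G.embb_hasDerivAt_W hz
  have ez : G.zP = fun z => G.embbZ (G.embbψ z) := funext G.embb_zP_eq
  have ew : G.wP = fun z => G.embbW (G.embbψ z) := funext G.embb_wP_eq
  rw [ez, ew]
  exact ⟨(HasDerivAt.comp (h₂ := G.embbZ) (h := fun y => G.embbψ (y, z.2)) z.1 hZ hy).deriv,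
    (HasDerivAt.comp (h₂ := G.embbZ) (h := fun t => G.embbψ (z.1, t)) z.2 hZ ht).deriv,
    (HasDerivAt.comp (h₂ := G.embbW) (h := fun y => G.embbψ (y, z.2)) z.1 hW hy).deriv,
    (HasDerivAt.comp (h₂ := G.embbW) (h := fun t => G.embbψ (z.1, t)) z.2 hW ht).deriv⟩

/-- `z.1 ∈ hstrip s`, `z.2 ∈ ball 0 r₁` near the origin. -/
theorem embb_mem_nhds : ∀ᶠ z in 𝓝 ((0 : ℂ), (0 : ℂ)),
    z.1 ∈ hstrip G.s ∧ z.2 ∈ Metric.ball (0 : ℂ) G.r₁ := by
  have h : hstrip G.s ×ˢ Metric.ball (0 : ℂ) G.r₁ ∈ 𝓝 ((0 : ℂ), (0 : ℂ)) :=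
    ((embb_isOpen_hstrip _).prod Metric.isOpen_ball).mem_nhds
      ⟨embb_zero_mem_hstrip G.embb_s_pos, Metric.mem_ball_self G.r₁_pos⟩
  filter_upwards [h] with z hz
  exact hz

theorem embb_hstrip_mono {s s' : ℝ} (h : s ≤ s') {y : ℂ} (hy : y ∈ hstrip s) : y ∈ hstrip s' :=
  lt_of_lt_of_le (show |y.im| < s from hy) h

/-- the incidence identity for the incoming line. -/
theorem embb_incid_alg_in (H H' θ θ' : ℂ) :
    (H + Complex.I * H') * Complex.exp (Complex.I * ((θ + θ') / 2))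
        + Complex.exp (2 * Complex.I * θ)
          * ((H - Complex.I * H') * Complex.exp (-(Complex.I * ((θ + θ') / 2))))
      = 2 * ((H * Complex.cos ((θ' - θ) / 2) - H' * Complex.sin ((θ' - θ) / 2))
          * Complex.exp (Complex.I * θ)) := by
  have e1 : Complex.exp ((θ' - θ) / 2 * Complex.I) * Complex.exp (Complex.I * θ)
      = Complex.exp (Complex.I * ((θ + θ') / 2)) := by
    rw [← Complex.exp_add]
    congr 1
    ring
  have e2 : Complex.exp (-((θ' - θ) / 2) * Complex.I) * Complex.exp (Complex.I * θ)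
      = Complex.exp (2 * Complex.I * θ) * Complex.exp (-(Complex.I * ((θ + θ') / 2))) := by
    rw [← Complex.exp_add, ← Complex.exp_add]
    congr 1
    ring
  rw [Complex.cos, Complex.sin]
  linear_combination (-(H + Complex.I * H')) * e1 - (H - Complex.I * H') * e2

/-- the incidence identity for the outgoing line. -/
theorem embb_incid_alg_out (H H' θ θ' : ℂ) :
    (H + Complex.I * H') * Complex.exp (Complex.I * ((θ + θ') / 2))
        + Complex.exp (2 * Complex.I * θ')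
          * ((H - Complex.I * H') * Complex.exp (-(Complex.I * ((θ + θ') / 2))))
      = 2 * ((H * Complex.cos ((θ' - θ) / 2) + H' * Complex.sin ((θ' - θ) / 2))
          * Complex.exp (Complex.I * θ')) := by
  have e1 : Complex.exp (-((θ' - θ) / 2) * Complex.I) * Complex.exp (Complex.I * θ')
      = Complex.exp (Complex.I * ((θ + θ') / 2)) := by
    rw [← Complex.exp_add]
    congr 1
    ring
  have e2 : Complex.exp ((θ' - θ) / 2 * Complex.I) * Complex.exp (Complex.I * θ')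
      = Complex.exp (2 * Complex.I * θ') * Complex.exp (-(Complex.I * ((θ + θ') / 2))) := by
    rw [← Complex.exp_add, ← Complex.exp_add]
    congr 1
    ring
  rw [Complex.cos, Complex.sin]
  linear_combination (-(H + Complex.I * H')) * e1 - (H - Complex.I * H') * e2

theorem wP_analyticAt : AnalyticAt ℂ G.wP (0, 0) := by
  have ew : G.wP = fun z => G.embbW (G.embbψ z) := funext G.embb_wP_eq
  rw [ew]
  exact AnalyticAt.comp (g := G.embbW) (G.embb_W_analyticAt G.embb_ψ_mem.self_of_nhds)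
    G.embb_ψ_analyticAt

theorem zP_analyticAt : AnalyticAt ℂ G.zP (0, 0) := by
  have ez : G.zP = fun z => G.embbZ (G.embbψ z) := funext G.embb_zP_eq
  rw [ez]
  exact AnalyticAt.comp (g := G.embbZ) (G.embb_Z_analyticAt G.embb_ψ_mem.self_of_nhds)
    G.embb_ψ_analyticAt

/-- `X_+ ∈ L_0` (from `refl_in`). -/
theorem inc_zero : ∀ᶠ z in 𝓝 ((0 : ℂ), (0 : ℂ)), G.zP z + G.Lc 0 z * G.wP z = 2 * G.Lc 1 z := by
  filter_upwards [G.embb_mem_nhds] with z hz
  rw [embb_zP_eq, embb_wP_eq, embb_Lc_zero, embb_Lc_one, G.refl_in _ hz.1 _ hz.2]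
  exact embb_incid_alg_in _ _ _ _

/-- `X_+ ∈ L_1` (from `refl_out`). -/
theorem inc_one : ∀ᶠ z in 𝓝 ((0 : ℂ), (0 : ℂ)),
    G.zP z + G.Lc 0 (z.1 + z.2, z.2) * G.wP z = 2 * G.Lc 1 (z.1 + z.2, z.2) := by
  filter_upwards [G.embb_mem_nhds] with z hz
  rw [embb_zP_eq, embb_wP_eq, embb_Lc_zero, embb_Lc_one, G.refl_out _ hz.1 _ hz.2]
  exact embb_incid_alg_out _ _ _ _

/-- rank one: `X_+` is a curve composed with a scalar function. -/
theorem rank_fun : ∀ᶠ z in 𝓝 ((0 : ℂ), (0 : ℂ)),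
    pdy G.zP z * pdt G.wP z - pdt G.zP z * pdy G.wP z = 0 := by
  filter_upwards [G.embb_partials] with z hz
  rw [hz.1, hz.2.1, hz.2.2.1, hz.2.2.2]
  ring

/-- reflection law. -/
theorem refl_fun : ∀ᶠ z in 𝓝 ((0 : ℂ), (0 : ℂ)),
    pdy G.zP z ^ 2 = G.Lc 0 z * G.Lc 0 (z.1 + z.2, z.2) * pdy G.wP z ^ 2 := by
  filter_upwards [G.embb_partials] with z hz
  rw [hz.1, hz.2.2.1, embb_Lc_zero, embb_Lc_zero]
  have e : Complex.exp (Complex.I * G.embbψ z) ^ 2 = Complex.exp (2 * Complex.I * G.Θ z.1 z.2)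
      * Complex.exp (2 * Complex.I * G.Θ (z.1 + z.2) z.2)
      * Complex.exp (-(Complex.I * G.embbψ z)) ^ 2 := by
    rw [← Complex.exp_nat_mul, ← Complex.exp_nat_mul, ← Complex.exp_add, ← Complex.exp_add]
    congr 1
    unfold embbψ
    push_cast
    ring
  linear_combination (Complex.I * (G.hc (G.embbψ z) + deriv (deriv G.hc) (G.embbψ z))
    * pdy G.embbψ z) ^ 2 * e

theorem even_fun (c : Fin 2) : ∀ᶠ z in 𝓝 ((0 : ℂ), (0 : ℂ)), G.Lc c (z.1, -z.2) = G.Lc c z := by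
  filter_upwards [G.embb_mem_nhds] with z hz
  have h1 : z.1 ∈ hstrip (2 * G.s) := embb_hstrip_mono (by have := G.embb_s_pos; linarith) hz.1
  unfold Lc L0
  simp only
  rw [G.Θ_even _ h1 _ hz.2, G.p_even _ h1 _ hz.2]

/-! ### the glancing line `t = 0` -/

theorem embb_φ_analyticAt {y : ℂ} (hy : y ∈ hstrip (2 * G.s)) :
    AnalyticAt ℂ (fun y => G.Θ y 0) y :=
  AnalyticAt.comp (g := fun z : ℂ × ℂ => G.Θ z.1 z.2) (f := fun y : ℂ => (y, (0 : ℂ)))
    (G.embb_Θ_analytic (y, 0) ⟨hy, Metric.mem_ball_self G.r₁_pos⟩)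
    (analyticAt_id.prod analyticAt_const)

theorem embb_φ'_ne_zero : deriv (fun y => G.Θ y 0) 0 ≠ 0 := by
  intro h0
  have := G.φ'_pos 0
  rw [Complex.ofReal_zero, h0] at this
  simp at this

theorem embb_ρ_ne_zero : G.hc (G.Θ 0 0) + deriv (deriv G.hc) (G.Θ 0 0) ≠ 0 := by
  have h := G.normalised 0
  rw [Complex.ofReal_zero] at h
  have hc : (G.c : ℂ) ≠ 0 := by exact_mod_cast G.c_pos.ne'
  rw [← h] at hc
  exact left_ne_zero_of_mul hc

theorem embb_hasDerivAt_E {y : ℂ} (hy : y ∈ hstrip (2 * G.s)) :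
    HasDerivAt (fun y => G.Lc 0 (y, 0))
      (Complex.exp (2 * Complex.I * G.Θ y 0) * (2 * Complex.I * deriv (fun y => G.Θ y 0) y)) y :=
  ((G.embb_φ_analyticAt hy).differentiableAt.hasDerivAt.const_mul (2 * Complex.I)).cexp

theorem embb_p_zero {y : ℂ} (hy : y ∈ hstrip G.s) : G.p y 0 = G.hc (G.Θ y 0) := by
  rw [G.refl_in y hy 0 (Metric.mem_ball_self G.r₁_pos)]
  unfold pInC
  have e1 : (G.Θ y 0 + G.Θ (y + 0) 0) / 2 = G.Θ y 0 := by
    rw [add_zero]
    ring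
  have e2 : (G.Θ (y + 0) 0 - G.Θ y 0) / 2 = 0 := by
    rw [add_zero]
    ring
  rw [e1, e2]
  simp

theorem embb_hasDerivAt_P {y : ℂ} (hy : y ∈ hstrip G.s) :
    HasDerivAt (fun y => G.Lc 1 (y, 0))
      (deriv (fun y => G.Θ y 0) y * (deriv G.hc (G.Θ y 0) + Complex.I * G.hc (G.Θ y 0))
        * Complex.exp (Complex.I * G.Θ y 0)) y := by
  have hy2 : y ∈ hstrip (2 * G.s) := embb_hstrip_mono (by have := G.embb_s_pos; linarith) hy
  have hφ := (G.embb_φ_analyticAt hy2).differentiableAt.hasDerivAt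
  have hm : G.Θ y 0 ∈ hstrip G.σ := G.Θ_mem y hy2 0 (Metric.mem_ball_self G.r₁_pos)
  have hh : HasDerivAt G.hc (deriv G.hc (G.Θ y 0)) (G.Θ y 0) :=
    (G.embb_hc_analytic _ hm).differentiableAt.hasDerivAt
  have h1 : HasDerivAt (fun y => G.hc (G.Θ y 0))
      (deriv G.hc (G.Θ y 0) * deriv (fun y => G.Θ y 0) y) y :=
    HasDerivAt.comp (h₂ := G.hc) (h := fun y => G.Θ y 0) y hh hφ
  have h2 := (hφ.const_mul Complex.I).cexp
  have h3 := h1.mul h2
  have h4 : (fun y => G.Lc 1 (y, 0)) =ᶠ[𝓝 y]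
      ((fun y => G.hc (G.Θ y 0)) * fun y => Complex.exp (Complex.I * G.Θ y 0)) := by
    filter_upwards [(embb_isOpen_hstrip G.s).mem_nhds hy] with y' hy'
    rw [embb_Lc_one, Pi.mul_apply]
    simp only
    rw [G.embb_p_zero hy']
  refine (h4.hasDerivAt_iff.2 h3).congr_deriv ?_
  ring

/-- the envelope relation `2 P' = W_Γ E'`. -/
theorem embb_envelope {y : ℂ} (hy : y ∈ hstrip G.s) :
    2 * deriv (fun y => G.Lc 1 (y, 0)) y =
      G.embbW (G.Θ y 0) * deriv (fun y => G.Lc 0 (y, 0)) y := by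
  have hy2 : y ∈ hstrip (2 * G.s) := embb_hstrip_mono (by have := G.embb_s_pos; linarith) hy
  rw [(G.embb_hasDerivAt_P hy).deriv, (G.embb_hasDerivAt_E hy2).deriv]
  unfold embbW
  have e : Complex.exp (-(Complex.I * G.Θ y 0)) * Complex.exp (2 * Complex.I * G.Θ y 0)
      = Complex.exp (Complex.I * G.Θ y 0) := by
    rw [← Complex.exp_add]
    congr 1
    ring
  linear_combination (-(G.hc (G.Θ y 0) - Complex.I * deriv G.hc (G.Θ y 0))
    * (2 * Complex.I * deriv (fun y => G.Θ y 0) y)) * e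
    + (2 * deriv (fun y => G.Θ y 0) y * deriv G.hc (G.Θ y 0) * Complex.exp (Complex.I * G.Θ y 0))
      * Complex.I_mul_I

theorem embb_deriv_E_ne_zero : deriv (fun y => G.Lc 0 (y, 0)) 0 ≠ 0 := by
  rw [(G.embb_hasDerivAt_E G.embb_zero_mem.1).deriv]
  exact mul_ne_zero (Complex.exp_ne_zero _)
    (mul_ne_zero (mul_ne_zero two_ne_zero Complex.I_ne_zero) G.embb_φ'_ne_zero)

/-- `∂_y E (0,0) = 2 i φ'(0) E ≠ 0`. -/
theorem pdy_E_ne_zero : pdy (G.Lc 0) (0, 0) ≠ 0 := by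
  exact G.embb_deriv_E_ne_zero

/-- `P'' E' - P' E'' ≠ 0` at the origin (`= W_Γ' E'^2/2`, `W_Γ' = -i φ' e^{-iφ} (h + h'')(φ)`). -/
theorem wronski_ne_zero :
    pdy (pdy (G.Lc 1)) (0, 0) * pdy (G.Lc 0) (0, 0) - pdy (G.Lc 1) (0, 0) * pdy (pdy (G.Lc 0)) (0, 0) ≠ 0 := by
  show deriv (deriv (fun y => G.Lc 1 (y, 0))) 0 * deriv (fun y => G.Lc 0 (y, 0)) 0
    - deriv (fun y => G.Lc 1 (y, 0)) 0 * deriv (deriv (fun y => G.Lc 0 (y, 0))) 0 ≠ 0
  have h0s : (0 : ℂ) ∈ hstrip G.s := embb_zero_mem_hstrip G.embb_s_pos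
  have hm : G.Θ 0 0 ∈ hstrip G.σ := G.Θ_mem 0 G.embb_zero_mem.1 0 G.embb_zero_mem.2
  have hslice : ∀ c : Fin 2, AnalyticAt ℂ (fun y => G.Lc c (y, 0)) 0 := fun c =>
    AnalyticAt.comp (g := G.Lc c) (f := fun y : ℂ => (y, (0 : ℂ)))
      (G.Lc_analyticAt c G.embb_zero_mem) (analyticAt_id.prod analyticAt_const)
  have hE2 : HasDerivAt (deriv (fun y => G.Lc 0 (y, 0))) (deriv (deriv (fun y => G.Lc 0 (y, 0))) 0) 0 :=
    (hslice 0).deriv.differentiableAt.hasDerivAt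
  have hP2 : HasDerivAt (deriv (fun y => G.Lc 1 (y, 0))) (deriv (deriv (fun y => G.Lc 1 (y, 0))) 0) 0 :=
    (hslice 1).deriv.differentiableAt.hasDerivAt
  have hφ := (G.embb_φ_analyticAt G.embb_zero_mem.1).differentiableAt.hasDerivAt
  have hW := HasDerivAt.comp (h₂ := G.embbW) (h := fun y => G.Θ y 0) 0 (G.embb_hasDerivAt_W hm) hφ
  have h1 := hW.mul hE2
  have h2 : (fun y => 2 * deriv (fun y => G.Lc 1 (y, 0)) y) =ᶠ[𝓝 0]
      ((G.embbW ∘ fun y => G.Θ y 0) * deriv (fun y => G.Lc 0 (y, 0))) := by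
    filter_upwards [(embb_isOpen_hstrip G.s).mem_nhds h0s] with y hy
    exact G.embb_envelope hy
  have h3 := (h2.hasDerivAt_iff.2 h1).unique (hP2.const_mul 2)
  have h4 := G.embb_envelope h0s
  simp only [Function.comp_apply] at h3
  have hne : -Complex.I * (G.hc (G.Θ 0 0) + deriv (deriv G.hc) (G.Θ 0 0))
      * Complex.exp (-(Complex.I * G.Θ 0 0)) * deriv (fun y => G.Θ y 0) 0
      * deriv (fun y => G.Lc 0 (y, 0)) 0 ^ 2 ≠ 0 :=
    mul_ne_zero (mul_ne_zero (mul_ne_zero (mul_ne_zero (neg_ne_zero.2 Complex.I_ne_zero)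
      G.embb_ρ_ne_zero) (Complex.exp_ne_zero _)) G.embb_φ'_ne_zero)
      (pow_ne_zero 2 G.embb_deriv_E_ne_zero)
  intro hcon
  apply hne
  linear_combination 2 * hcon + (deriv (fun y => G.Lc 0 (y, 0)) 0) * h3
    + (deriv (deriv (fun y => G.Lc 0 (y, 0))) 0) * h4

end Glance

end Claimed.Agent.R269
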