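/-
Row 269, P1 Section 4, unit 4E (ALG2, formal part): THE ENDGAME (infinitely many roots).  Statements: helper36.  HOST-FREE.
PROVED (helper36) from the statements of Fgl, Conj, Lib/Dv, Lib/Lau: this file has nothing left open.

`alg2_formal`: for every `K` there is a finite `F ⊆ ℤ ∖ [1,K]` with `E_1, P_1 ∈ KL F`.
Proof by contradiction from `FGl.conj_neg` (P1, proof of Theorem 4.8, paragraph after (4.30)); `b := K + 2`:
 (g1) `L_{-1}` is algebraic over `KL {0,b}`; by shears `L_{q-1}` is algebraic over `KL {q, q+b}` for all `q`;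
 (g2) every `L_j`, `j ≤ B + b`, is algebraic over `KL {B, B+b}` (descending induction, transitivity, derivatives of algebraic
      elements are algebraic);
 (g3) `B := K + 3`, `R ≠ 0` over `KL {B, B+b}` with `R(E_1) = 0`; then `R(E_{1-2n}) = 0` for all `n` (shear by `2n`, `conj_neg` with
      `F₀ = {B+2n, B+b+2n}`, shear back); the `E_j` are pairwise distinct: contradiction.
-/
import Claimed.Agent.R269.S4.Conj

set_option autoImplicit false
set_option linter.unusedSectionVars false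

namespace Claimed.Agent.R269

open HahnSeries Lau

namespace FGl

variable {k : Type*} [Field k] [CharZero k] (Φ : FGl k)

/-- if `shear j G` is algebraic over `KL F`, so are `shear j (∂_y G)` and `shear j (∂_t G)`. -/
theorem shear_alg_dy (F : Set ℤ) (j : ℤ) (G : LaurentSeries k) (h : IsAlgebraic (Φ.KL F) (shear Φ.d j G)) :
    IsAlgebraic (Φ.KL F) (shear Φ.d j (Φ.Dy G)) := by
  have h1 := Φ.Dy.isAlgebraic_map (Φ.KL F) (Φ.KL_stable_dy F) _ h
  have h2 : Φ.Dy (shear Φ.d j G) = shear Φ.d j (Φ.Dy G) := dy_shear Φ.d j G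
  rwa [h2] at h1

theorem shear_alg_dt (F : Set ℤ) (j : ℤ) (G : LaurentSeries k) (h : IsAlgebraic (Φ.KL F) (shear Φ.d j G)) :
    IsAlgebraic (Φ.KL F) (shear Φ.d j (dt G)) := by
  have h1 := (dt : Dv (LaurentSeries k)).isAlgebraic_map (Φ.KL F) (Φ.KL_stable_dt F) _ h
  have h2 := Φ.shear_alg_dy F j G h
  have h3 : shear Φ.d j (dt G) = dt (shear Φ.d j G) - (j : LaurentSeries k) * shear Φ.d j (Φ.Dy G) := by
    rw [dt_shear, map_add, map_mul, map_intCast]
    show _ = _ + _ * shear Φ.d j (Φ.Dy G) - _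
    ring
  rw [h3]
  exact h1.sub ((isAlgebraic_intCast j).mul h2)

theorem shear_alg_iter (F : Set ℤ) (j : ℤ) (G : LaurentSeries k) (h : IsAlgebraic (Φ.KL F) (shear Φ.d j G))
    (a b : ℕ) : IsAlgebraic (Φ.KL F) (shear Φ.d j ((Φ.Dy^[a]) ((dt^[b]) G))) := by
  have h1 : ∀ b : ℕ, IsAlgebraic (Φ.KL F) (shear Φ.d j ((dt^[b]) G)) := by
    intro b
    induction b with
    | zero => exact h
    | succ b ih =>
      rw [Function.iterate_succ_apply']
      exact Φ.shear_alg_dt F j _ ih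
  induction a with
  | zero => exact h1 b
  | succ a ih =>
    rw [Function.iterate_succ_apply']
    exact Φ.shear_alg_dy F j _ ih

/-- if `E_j`, `P_j` are algebraic over the differential field `KL F`, so are all generators of `KL {j}`. -/
theorem gens_isAlgebraic (F : Set ℤ) (j : ℤ) (hE : IsAlgebraic (Φ.KL F) (Φ.E j))
    (hP : IsAlgebraic (Φ.KL F) (Φ.P j)) : ∀ u ∈ Φ.gens {j}, IsAlgebraic (Φ.KL F) u := by
  rintro u (⟨i, hi, a, b, rfl | rfl⟩ | ⟨c, hc, rfl⟩)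
  · rw [Set.mem_singleton_iff] at hi
    subst hi
    exact Φ.shear_alg_iter F i _ hE a b
  · rw [Set.mem_singleton_iff] at hi
    subst hi
    exact Φ.shear_alg_iter F i _ hP a b
  · exact isAlgebraic_algebraMap (⟨_, Φ.C_mem_KL F hc⟩ : Φ.KL F)

theorem gens_pair (a b : ℤ) : Φ.gens {a, b} = Φ.gens {a} ∪ Φ.gens {b} := by
  ext x
  constructor
  · rintro (⟨j, hj, h⟩ | h)
    · rcases hj with rfl | hj
      · exact Or.inl (Or.inl ⟨j, rfl, h⟩)
      · exact Or.inr (Or.inl ⟨j, hj, h⟩)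
    · exact Or.inl (Or.inr h)
  · rintro ((⟨j, hj, h⟩ | h) | (⟨j, hj, h⟩ | h))
    · exact Or.inl ⟨j, Or.inl hj, h⟩
    · exact Or.inr h
    · exact Or.inl ⟨j, Or.inr hj, h⟩
    · exact Or.inr h

/-- (g1) -/
theorem alg_left [IsAlgClosed k] (K : ℕ) (hbad : Φ.Bad K) (q : ℤ) :
    IsAlgebraic (Φ.KL {q, q + (K + 2)}) (Φ.E (q - 1)) ∧
    IsAlgebraic (Φ.KL {q, q + (K + 2)}) (Φ.P (q - 1)) := by
  classical
  obtain ⟨hlE, hlP⟩ := Φ.lens 0 1 ((K : ℤ) + 2) (by omega) (by omega)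
  have hF₀ : ∀ j ∈ ({0, (K : ℤ) + 2} : Finset ℤ), j = 0 ∨ (K : ℤ) < |j| := by
    intro j hj
    rw [Finset.mem_insert, Finset.mem_singleton] at hj
    rcases hj with rfl | rfl
    · exact Or.inl rfl
    · right
      rw [abs_of_pos (by omega)]
      omega
  have hco : ((({0, (K : ℤ) + 2} : Finset ℤ)) : Set ℤ) = {0, (K : ℤ) + 2} := by simp
  have hsh : ∀ u ∈ Φ.KL {0, (K : ℤ) + 2}, shear Φ.d q u ∈ Φ.KL {q, q + ((K : ℤ) + 2)} := by
    intro u hu
    refine Φ.KL_mono ?_ (Φ.shear_mem_KL _ q hu)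
    rintro _ ⟨j, hj, rfl⟩
    rcases hj with rfl | hj
    · left; simp
    · rw [Set.mem_singleton_iff] at hj
      subst hj
      right; rfl
  constructor
  · obtain ⟨R, hR0, hR, hx⟩ := (isAlgebraic_iff_exists_poly _ _).mp hlE
    have h1 := (Φ.conj_neg K hbad {0, (K : ℤ) + 2} hF₀ R (by rw [hco]; exact hR)).1 hx
    have h2 : IsAlgebraic (Φ.KL {0, (K : ℤ) + 2}) (Φ.E (-1)) :=
      (isAlgebraic_iff_exists_poly _ _).mpr ⟨R, hR0, hR, h1⟩
    have h3 := isAlgebraic_map_of_le _ _ (shear Φ.d q) hsh _ h2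
    rwa [Φ.shear_E, ← sub_eq_add_neg] at h3
  · obtain ⟨R, hR0, hR, hx⟩ := (isAlgebraic_iff_exists_poly _ _).mp hlP
    have h1 := (Φ.conj_neg K hbad {0, (K : ℤ) + 2} hF₀ R (by rw [hco]; exact hR)).2 hx
    have h2 : IsAlgebraic (Φ.KL {0, (K : ℤ) + 2}) (Φ.P (-1)) :=
      (isAlgebraic_iff_exists_poly _ _).mpr ⟨R, hR0, hR, h1⟩
    have h3 := isAlgebraic_map_of_le _ _ (shear Φ.d q) hsh _ h2
    rwa [Φ.shear_P, ← sub_eq_add_neg] at h3

theorem isAlgebraic_of_mem' {F : Type*} [Field F] (K : Subfield F) (x : F) (hx : x ∈ K) : IsAlgebraic K x :=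
  isAlgebraic_algebraMap (⟨x, hx⟩ : K)

/-- (g2) -/
theorem alg_all_left [IsAlgClosed k] (K : ℕ) (hbad : Φ.Bad K) (B : ℤ) (n : ℕ) :
    IsAlgebraic (Φ.KL {B, B + (K + 2)}) (Φ.E (B + (K + 2) - n)) ∧
    IsAlgebraic (Φ.KL {B, B + (K + 2)}) (Φ.P (B + (K + 2) - n)) := by
  induction n using Nat.strong_induction_on with
  | _ n ih =>
    rcases Nat.eq_zero_or_pos n with rfl | hn0
    · have hm : B + ((K : ℤ) + 2) - ((0 : ℕ) : ℤ) ∈ ({B, B + ((K : ℤ) + 2)} : Set ℤ) := by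
        right; simp
      exact ⟨isAlgebraic_of_mem' _ _ (Φ.E_mem_KL hm), isAlgebraic_of_mem' _ _ (Φ.P_mem_KL hm)⟩
    rcases lt_trichotomy n (K + 2) with hn | hn | hn
    · exact Φ.lens B _ (B + ((K : ℤ) + 2)) (by omega) (by omega)
    · have hm : B + ((K : ℤ) + 2) - (n : ℤ) ∈ ({B, B + ((K : ℤ) + 2)} : Set ℤ) := by
        left; subst hn; push_cast; ring
      exact ⟨isAlgebraic_of_mem' _ _ (Φ.E_mem_KL hm), isAlgebraic_of_mem' _ _ (Φ.P_mem_KL hm)⟩
    · obtain ⟨a1, a2⟩ := ih (n - 1) (by omega)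
      obtain ⟨b1, b2⟩ := ih (n - 1 - (K + 2)) (by omega)
      have e1 : B + ((K : ℤ) + 2) - ((n - 1 : ℕ) : ℤ) = B + ((K : ℤ) + 2) - n + 1 := by
        rw [Nat.cast_sub (by omega)]; push_cast; ring
      have e2 : B + ((K : ℤ) + 2) - ((n - 1 - (K + 2) : ℕ) : ℤ) = B + ((K : ℤ) + 2) - n + 1 + ((K : ℤ) + 2) := by
        rw [Nat.cast_sub (by omega), Nat.cast_sub (by omega)]; push_cast; ring
      rw [e1] at a1 a2
      rw [e2] at b1 b2
      obtain ⟨c1, c2⟩ := Φ.alg_left K hbad (B + ((K : ℤ) + 2) - n + 1)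
      rw [add_sub_cancel_right] at c1 c2
      have hg : ∀ u ∈ Φ.gens {B + ((K : ℤ) + 2) - n + 1, B + ((K : ℤ) + 2) - n + 1 + ((K : ℤ) + 2)},
          IsAlgebraic (Φ.KL {B, B + ((K : ℤ) + 2)}) u := by
        intro u hu
        rw [gens_pair] at hu
        rcases hu with hu | hu
        · exact Φ.gens_isAlgebraic _ _ a1 a2 u hu
        · exact Φ.gens_isAlgebraic _ _ b1 b2 u hu
      exact ⟨isAlgebraic_trans_closure _ _ hg _ c1, isAlgebraic_trans_closure _ _ hg _ c2⟩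

/-- (g3), induction step in sheared form. -/
theorem root_step [IsAlgClosed k] (K : ℕ) (hbad : Φ.Bad K) (B : ℤ) (hB : (K : ℤ) < B)
    (R : Polynomial (LaurentSeries k)) (hR : ∀ i, R.coeff i ∈ Φ.KL {B, B + (K + 2)}) (n : ℕ)
    (h : R.eval (Φ.E (1 - 2 * n)) = 0) : R.eval (Φ.E (-1 - 2 * n)) = 0 := by
  classical
  have hF₀ : ∀ j ∈ ({2 * (n : ℤ) + B, 2 * (n : ℤ) + (B + ((K : ℤ) + 2))} : Finset ℤ), j = 0 ∨ (K : ℤ) < |j| := by
    intro j hj
    rw [Finset.mem_insert, Finset.mem_singleton] at hj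
    right
    rcases hj with rfl | rfl
    · rw [abs_of_pos (by omega)]
      omega
    · rw [abs_of_pos (by omega)]
      omega
  have hc : ∀ i, (R.map (shear Φ.d (2 * (n : ℤ)))).coeff i ∈
      Φ.KL ((({2 * (n : ℤ) + B, 2 * (n : ℤ) + (B + ((K : ℤ) + 2))} : Finset ℤ)) : Set ℤ) := by
    intro i
    rw [Polynomial.coeff_map]
    refine Φ.KL_mono ?_ (Φ.shear_mem_KL _ (2 * (n : ℤ)) (hR i))
    rintro _ ⟨j, hj, rfl⟩
    rcases hj with rfl | hj
    · simp
    · rw [Set.mem_singleton_iff] at hj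
      subst hj
      simp
  have h1 : (R.map (shear Φ.d (2 * (n : ℤ)))).eval (Φ.E 1) = 0 := by
    have := congrArg (shear Φ.d (2 * (n : ℤ))) h
    rw [map_zero, ← Polynomial.eval_map_apply, Φ.shear_E] at this
    rwa [show 2 * (n : ℤ) + (1 - 2 * n) = 1 by ring] at this
  have h2 := (Φ.conj_neg K hbad _ hF₀ _ hc).1 h1
  have h3 := congrArg (shear Φ.d (-(2 * (n : ℤ)))) h2
  rw [map_zero, ← Polynomial.eval_map_apply, Φ.shear_E, Polynomial.map_map] at h3
  have hid : (shear Φ.d (-(2 * (n : ℤ)))).comp (shear Φ.d (2 * (n : ℤ))) = RingHom.id (LaurentSeries k) := by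
    ext1 u
    show shear Φ.d (-(2 * (n : ℤ))) (shear Φ.d (2 * (n : ℤ)) u) = u
    rw [shear_shear, neg_add_cancel, shear_zero]
  rw [hid, Polynomial.map_id] at h3
  rwa [show -(2 * (n : ℤ)) + -1 = -1 - 2 * n by ring] at h3

theorem not_bad [IsAlgClosed k] (K : ℕ) : ¬ Φ.Bad K := by
  intro hbad
  have h1 := (Φ.alg_all_left K hbad ((K : ℤ) + 3) (2 * K + 4)).1
  rw [show (K : ℤ) + 3 + ((K : ℤ) + 2) - ((2 * K + 4 : ℕ) : ℤ) = 1 by push_cast; ring] at h1
  obtain ⟨R, hR0, hR, hx⟩ := (isAlgebraic_iff_exists_poly _ _).mp h1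
  have hroot : ∀ n : ℕ, R.eval (Φ.E (1 - 2 * n)) = 0 := by
    intro n
    induction n with
    | zero => simpa using hx
    | succ n ih =>
      have := Φ.root_step K hbad ((K : ℤ) + 3) (by omega) R hR n ih
      rwa [show (-1 : ℤ) - 2 * n = 1 - 2 * ((n + 1 : ℕ) : ℤ) by push_cast; ring] at this
  apply hR0
  apply Polynomial.eq_zero_of_infinite_isRoot
  have hinj : Function.Injective (fun n : ℕ => Φ.E (1 - 2 * n)) := by
    intro a b hab
    have := Φ.E_injective hab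
    omega
  refine (Set.infinite_range_of_injective hinj).mono ?_
  rintro _ ⟨n, rfl⟩
  exact hroot n

/-- ALG2, formal version. -/
theorem alg2_formal [IsAlgClosed k] (K : ℕ) :
    ∃ F : Finset ℤ, (∀ j ∈ F, j ≤ 0 ∨ (K : ℤ) < j) ∧
      Φ.E 1 ∈ Φ.KL (F : Set ℤ) ∧ Φ.P 1 ∈ Φ.KL (F : Set ℤ) := by
  have h := Φ.not_bad K
  unfold Bad at h
  push Not at h
  obtain ⟨F, hF, h1, h2⟩ := h
  exact ⟨F, hF, h1, h2⟩

end FGl

end Claimed.Agent.R269
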