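/-
Row 269, P1 Section 4, unit 4E: `G.LensL → G.Alg2` (PARTS 2, 3; see EmbedA.lean).  Statements: helper36.
The `sorry`s are replaced IN PLACE by the owner of the package (table subtask, target row269, LF-S4-Emb-c).
-/
import Claimed.Agent.R269.S4.Endgame
import Claimed.Agent.R269.S4.EmbedA
import Claimed.Agent.R269.S4.EmbedB

set_option autoImplicit false

namespace Claimed.Agent.R269

open HahnSeries Lau Filter Topology Emb

namespace Glance

variable (G : Glance)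

/-- complex numbers are constants of `kk`. -/
theorem emb_dk_const (a : ℂ) : dk (algebraMap ℂ kk a) = 0 := by
  rw [IsScalarTower.algebraMap_apply ℂ (LaurentSeries ℂ) kk, dk_algebraMap, HahnSeries.algebraMap_apply',
    PowerSeries.algebraMap_apply, HahnSeries.ofPowerSeries_C, FGl.fgl_dt_C, map_zero]

/-- the pre-datum. -/
noncomputable def fgl0 : FGl0 kk where
  d := dk
  E0 := tay (G.Lc 0)
  P0 := tay (G.Lc 1)
  K0 := Set.range (algebraMap ℂ kk)

/-- the formal jets. -/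
noncomputable def fjet (i : Idx) : LaurentSeries kk :=
  shear dk i.1 (((dy dk)^[i.2.2.1]) ((dt^[i.2.2.2]) (tay (G.Lc i.2.1))))

theorem emb_Lc_analyticAt_zero (c : Fin 2) : AnalyticAt ℂ (G.Lc c) (0, 0) :=
  G.Lc_analyticAt c G.embb_zero_mem

/-- the jets are analytic where the shifted point lies in the domain of `L0`. -/
theorem emb_jet_analyticAt (i : Idx) {z : ℂ × ℂ}
    (hz : (z.1 + (i.1 : ℂ) * z.2, z.2) ∈ hstrip (2 * G.s) ×ˢ Metric.ball (0 : ℂ) G.r₁) :
    AnalyticAt ℂ (fun w => jetAt G.L0 w i) z :=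
  AnalyticAt.comp (g := pd i.2.2.1 i.2.2.2 (G.Lc i.2.1))
    (f := fun w : ℂ × ℂ => (w.1 + (i.1 : ℂ) * w.2, w.2))
    (R269.analyticAt_pd _ _ (G.Lc_analyticAt i.2.1 hz))
    ((analyticAt_fst.add (analyticAt_const.mul analyticAt_snd)).prod analyticAt_snd)

theorem emb_jet_analyticAt_zero (i : Idx) : AnalyticAt ℂ (fun w => jetAt G.L0 w i) (0, 0) :=
  G.emb_jet_analyticAt i (by simpa using G.embb_zero_mem)

/-- a polynomial in analytic functions is analytic. -/
theorem emb_eval_analyticAt (J : ℂ × ℂ → Idx → ℂ) (P : MvPolynomial Idx ℂ) {z : ℂ × ℂ}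
    (h : ∀ i ∈ P.vars, AnalyticAt ℂ (fun w => J w i) z) :
    AnalyticAt ℂ (fun w => MvPolynomial.eval (J w) P) z := by
  simp only [MvPolynomial.eval_eq]
  refine Finset.analyticAt_fun_sum _ fun d hd => analyticAt_const.mul
    (Finset.analyticAt_fun_prod _ fun i hi => (h i ?_).pow _)
  exact (MvPolynomial.mem_vars_iff_mem_support i).2 ⟨d, hd, hi⟩

theorem emb_eval_jet_analyticAt_zero (P : MvPolynomial Idx ℂ) :
    AnalyticAt ℂ (fun z => MvPolynomial.eval (jetAt G.L0 z) P) (0, 0) :=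
  emb_eval_analyticAt _ P fun i _ => G.emb_jet_analyticAt_zero i

theorem emb_tay_jet (i : Idx) : tay (fun z => jetAt G.L0 z i) = G.fjet i := by
  show tay (fun z => (pd i.2.2.1 i.2.2.2 (G.Lc i.2.1)) (z.1 + (i.1 : ℂ) * z.2, z.2)) = _
  rw [tay_shear (R269.analyticAt_pd _ _ (G.emb_Lc_analyticAt_zero _)), tay_pd (G.emb_Lc_analyticAt_zero _)]
  rfl

/-- Taylor expansion of a polynomial in the jets. -/
theorem tay_eval_jet (P : MvPolynomial Idx ℂ) :
    tay (fun z => MvPolynomial.eval (jetAt G.L0 z) P) = MvPolynomial.aeval G.fjet P := by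
  induction P using MvPolynomial.induction_on with
  | C a =>
    simp only [MvPolynomial.eval_C, MvPolynomial.aeval_C]
    exact tay_const a
  | add p q hp hq =>
    simp only [map_add]
    rw [tay_add (G.emb_eval_jet_analyticAt_zero p) (G.emb_eval_jet_analyticAt_zero q), hp, hq]
  | mul_X p i hp =>
    simp only [map_mul, MvPolynomial.eval_X, MvPolynomial.aeval_X]
    rw [tay_mul (G.emb_eval_jet_analyticAt_zero p) (G.emb_jet_analyticAt_zero i), hp, emb_tay_jet]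

/-- the shifted points of `G.dom N` stay in the domain of `L0`. -/
theorem emb_shift_mem (N : ℕ) {z : ℂ × ℂ} (hz : z ∈ G.dom N) {j : ℤ} (hj : |j| ≤ N) :
    (z.1 + (j : ℂ) * z.2, z.2) ∈ hstrip (2 * G.s) ×ˢ Metric.ball (0 : ℂ) G.r₁ := by
  have hs := G.embb_s_pos
  have h1 : |z.1.im| < G.s / 2 := hz.1
  have h2 : ‖z.2‖ < min G.r₁ (G.s / (N + 1)) := mem_ball_zero_iff.1 hz.2
  have hN : (0 : ℝ) < (N : ℝ) + 1 := by positivity
  refine ⟨?_, mem_ball_zero_iff.2 (lt_of_lt_of_le h2 (min_le_left _ _))⟩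
  show |(z.1 + (j : ℂ) * z.2).im| < 2 * G.s
  have h3 : |((j : ℂ) * z.2).im| ≤ (N : ℝ) * ‖z.2‖ := by
    refine le_trans (Complex.abs_im_le_norm _) ?_
    rw [norm_mul]
    refine mul_le_mul_of_nonneg_right ?_ (norm_nonneg _)
    rw [Complex.norm_intCast]
    exact_mod_cast hj
  have h4 : (N : ℝ) * ‖z.2‖ ≤ G.s := by
    have h5 : ‖z.2‖ ≤ G.s / (N + 1) := (lt_of_lt_of_le h2 (min_le_right _ _)).le
    calc (N : ℝ) * ‖z.2‖ ≤ (N : ℝ) * (G.s / (N + 1)) :=
          mul_le_mul_of_nonneg_left h5 (Nat.cast_nonneg N)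
      _ = G.s * ((N : ℝ) / (N + 1)) := by ring
      _ ≤ G.s * 1 := by
          refine mul_le_mul_of_nonneg_left ?_ hs.le
          rw [div_le_one hN]
          linarith
      _ = G.s := mul_one _
  rw [Complex.add_im]
  have h6 := abs_add_le z.1.im ((j : ℂ) * z.2).im
  linarith

theorem emb_convex_hstrip (s : ℝ) : Convex ℝ (hstrip s) := by
  have h : hstrip s = Complex.imCLM ⁻¹' (Set.Ioo (-s) s) := by
    ext z
    simp [hstrip, abs_lt]
  rw [h]
  exact (convex_Ioo _ _).linear_preimage Complex.imCLM.toLinearMap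

/-- a polynomial in the jets with indices `|j| ≤ N` is analytic on `G.dom N`, which is connected and contains `(0,0)`. -/
theorem eval_jet_analyticOn (P : MvPolynomial Idx ℂ) (N : ℕ) (hP : ∀ i ∈ P.vars, |i.1| ≤ N) :
    AnalyticOnNhd ℂ (fun z => MvPolynomial.eval (jetAt G.L0 z) P) (G.dom N) := by
  intro z hz
  refine emb_eval_analyticAt _ P fun i hi => G.emb_jet_analyticAt i ?_
  exact G.emb_shift_mem N hz (hP i hi)

theorem dom_isPreconnected (N : ℕ) : IsPreconnected (G.dom N) := by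
  exact ((emb_convex_hstrip _).prod (convex_ball _ _)).isPreconnected

theorem dom_isOpen (N : ℕ) : IsOpen (G.dom N) := by
  exact (embb_isOpen_hstrip _).prod Metric.isOpen_ball

theorem zero_mem_dom (N : ℕ) : ((0 : ℂ), (0 : ℂ)) ∈ G.dom N := by
  have hs := G.embb_s_pos
  exact ⟨embb_zero_mem_hstrip (half_pos hs),
    Metric.mem_ball_self (lt_min G.r₁_pos (div_pos hs (by positivity)))⟩

theorem emb_algebraMap_eq_C (a : ℂ) :
    algebraMap ℂ (LaurentSeries kk) a = HahnSeries.C (algebraMap ℂ kk a) := by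
  rw [HahnSeries.algebraMap_apply', PowerSeries.algebraMap_apply, HahnSeries.ofPowerSeries_C]

theorem emb_vars_mul {F : Set ℤ} {P Q : MvPolynomial Idx ℂ} (hP : ∀ i ∈ P.vars, i.1 ∈ F)
    (hQ : ∀ i ∈ Q.vars, i.1 ∈ F) : ∀ i ∈ (P * Q).vars, i.1 ∈ F := by
  classical
  intro i hi
  rcases Finset.mem_union.1 (MvPolynomial.vars_mul P Q hi) with h | h
  · exact hP i h
  · exact hQ i h

theorem emb_vars_add {F : Set ℤ} {P Q : MvPolynomial Idx ℂ} (hP : ∀ i ∈ P.vars, i.1 ∈ F)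
    (hQ : ∀ i ∈ Q.vars, i.1 ∈ F) : ∀ i ∈ (P + Q).vars, i.1 ∈ F := by
  classical
  intro i hi
  rcases Finset.mem_union.1 (MvPolynomial.vars_add_subset P Q hi) with h | h
  · exact hP i h
  · exact hQ i h

/-- elements of `KL F` are quotients of polynomials in the formal jets with indices in `F`. -/
theorem mem_KL_iff (F : Finset ℤ) (x : LaurentSeries kk) (hx : x ∈ G.fgl0.KL (F : Set ℤ)) :
    ∃ P Q : MvPolynomial Idx ℂ, (∀ i ∈ P.vars, i.1 ∈ F) ∧ (∀ i ∈ Q.vars, i.1 ∈ F) ∧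
      MvPolynomial.aeval G.fjet Q ≠ 0 ∧ x * MvPolynomial.aeval G.fjet Q = MvPolynomial.aeval G.fjet P := by
  have hone : ∀ i ∈ (1 : MvPolynomial Idx ℂ).vars, i.1 ∈ (F : Set ℤ) := by
    intro i hi
    rw [MvPolynomial.vars_one] at hi
    exact absurd hi (Finset.notMem_empty i)
  have key : ∃ P Q : MvPolynomial Idx ℂ, (∀ i ∈ P.vars, i.1 ∈ (F : Set ℤ)) ∧
      (∀ i ∈ Q.vars, i.1 ∈ (F : Set ℤ)) ∧
      MvPolynomial.aeval G.fjet Q ≠ 0 ∧
      x * MvPolynomial.aeval G.fjet Q = MvPolynomial.aeval G.fjet P := by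
    refine Subfield.closure_induction
      (p := fun (x : LaurentSeries kk) _ => ∃ P Q : MvPolynomial Idx ℂ,
        (∀ i ∈ P.vars, i.1 ∈ (F : Set ℤ)) ∧ (∀ i ∈ Q.vars, i.1 ∈ (F : Set ℤ)) ∧
        MvPolynomial.aeval G.fjet Q ≠ 0 ∧
        x * MvPolynomial.aeval G.fjet Q = MvPolynomial.aeval G.fjet P) ?_ ?_ ?_ ?_ ?_ ?_ hx
    · rintro x (⟨j, hj, a, b, rfl | rfl⟩ | ⟨_, ⟨c, rfl⟩, rfl⟩)
      · refine ⟨MvPolynomial.X (j, 0, a, b), 1, ?_, hone, by simp, ?_⟩
        · intro i hi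
          rw [MvPolynomial.vars_X, Finset.mem_singleton] at hi
          rw [hi]
          exact hj
        · rw [map_one, mul_one, MvPolynomial.aeval_X]
          rfl
      · refine ⟨MvPolynomial.X (j, 1, a, b), 1, ?_, hone, by simp, ?_⟩
        · intro i hi
          rw [MvPolynomial.vars_X, Finset.mem_singleton] at hi
          rw [hi]
          exact hj
        · rw [map_one, mul_one, MvPolynomial.aeval_X]
          rfl
      · refine ⟨MvPolynomial.C c, 1, ?_, hone, by simp, ?_⟩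
        · intro i hi
          rw [MvPolynomial.vars_C] at hi
          exact absurd hi (Finset.notMem_empty i)
        · rw [map_one, mul_one, MvPolynomial.aeval_C, emb_algebraMap_eq_C]
    · exact ⟨1, 1, hone, hone, by simp, by simp⟩
    · rintro x y _ _ ⟨P, Q, hP, hQ, hQ0, h⟩ ⟨P', Q', hP', hQ', hQ0', h'⟩
      refine ⟨P * Q' + P' * Q, Q * Q', emb_vars_add (emb_vars_mul hP hQ') (emb_vars_mul hP' hQ),
        emb_vars_mul hQ hQ', ?_, ?_⟩
      · rw [map_mul]
        exact mul_ne_zero hQ0 hQ0'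
      · rw [map_mul, map_add, map_mul, map_mul, ← h, ← h']
        ring
    · rintro x _ ⟨P, Q, hP, hQ, hQ0, h⟩
      refine ⟨-P, Q, ?_, hQ, hQ0, ?_⟩
      · rw [MvPolynomial.vars_neg]
        exact hP
      · rw [map_neg, ← h]
        ring
    · rintro x _ ⟨P, Q, hP, hQ, hQ0, h⟩
      by_cases hP0 : MvPolynomial.aeval G.fjet P = 0
      · have hx0 : x = 0 := by
          rw [hP0] at h
          exact (mul_eq_zero.1 h).resolve_right hQ0
        refine ⟨0, 1, ?_, hone, by simp, ?_⟩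
        · intro i hi
          rw [MvPolynomial.vars_0] at hi
          exact absurd hi (Finset.notMem_empty i)
        · rw [hx0]
          simp
      · refine ⟨Q, P, hQ, hP, hP0, ?_⟩
        have hx0 : x ≠ 0 := by
          rintro rfl
          rw [zero_mul] at h
          exact hP0 h.symm
        rw [← h]
        field_simp
    · rintro x y _ _ ⟨P, Q, hP, hQ, hQ0, h⟩ ⟨P', Q', hP', hQ', hQ0', h'⟩
      refine ⟨P * P', Q * Q', emb_vars_mul hP hP', emb_vars_mul hQ hQ', ?_, ?_⟩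
      · rw [map_mul]
        exact mul_ne_zero hQ0 hQ0'
      · rw [map_mul, map_mul, ← h, ← h']
        ring
  obtain ⟨P, Q, hP, hQ, h1, h2⟩ := key
  exact ⟨P, Q, fun i hi => Finset.mem_coe.1 (hP i hi), fun i hi => Finset.mem_coe.1 (hQ i hi), h1, h2⟩

/-- `∂_y` on the constant term in `t`. -/
theorem emb_dk_coeff_zero {u : ℂ × ℂ → ℂ} (hu : AnalyticAt ℂ u (0, 0)) :
    dk ((tay u).coeff 0) = (tay (pdy u)).coeff 0 := by
  rw [tay_pdy hu, dy_coeff]

theorem emb_coeff_zero_ne_zero {u : ℂ × ℂ → ℂ} (h : u (0, 0) ≠ 0) : (tay u).coeff 0 ≠ 0 := by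
  have h1 := tay_coeff u 0
  rw [Nat.cast_zero] at h1
  rw [h1]
  exact tayc_zero_ne_zero h

theorem emb_hE : dk ((tay (G.Lc 0)).coeff 0) ≠ 0 := by
  rw [emb_dk_coeff_zero (G.emb_Lc_analyticAt_zero 0)]
  exact emb_coeff_zero_ne_zero G.pdy_E_ne_zero

theorem emb_shift_analyticAt {u : ℂ × ℂ → ℂ} (hu : AnalyticAt ℂ u (0, 0)) :
    AnalyticAt ℂ (fun z => u (z.1 + z.2, z.2)) (0, 0) :=
  AnalyticAt.comp (g := u) (f := fun w : ℂ × ℂ => (w.1 + w.2, w.2)) (by simpa using hu)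
    ((analyticAt_fst.add analyticAt_snd).prod analyticAt_snd)

theorem emb_tay_shift {u : ℂ × ℂ → ℂ} (hu : AnalyticAt ℂ u (0, 0)) :
    tay (fun z => u (z.1 + z.2, z.2)) = Lau.shear dk 1 (tay u) := by
  have h := tay_shear hu 1
  simp only [Int.cast_one, one_mul] at h
  exact h

theorem emb_tay_two_mul {u : ℂ × ℂ → ℂ} (hu : AnalyticAt ℂ u (0, 0)) :
    tay (fun z => 2 * u z) = 2 * tay u := by
  have h := tay_mul (u := fun _ => (2 : ℂ)) analyticAt_const hu
  rw [tay_const, map_ofNat] at h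
  exact h

/-- `X_+ ∈ L_0`, formally. -/
theorem emb_inc_zero : tay G.zP + tay (G.Lc 0) * tay G.wP = 2 * tay (G.Lc 1) := by
  have h := tay_congr G.inc_zero
  have hm : AnalyticAt ℂ (fun z => G.Lc 0 z * G.wP z) (0, 0) :=
    (G.emb_Lc_analyticAt_zero 0).mul G.wP_analyticAt
  rw [tay_add G.zP_analyticAt hm, tay_mul (G.emb_Lc_analyticAt_zero 0) G.wP_analyticAt,
    emb_tay_two_mul (G.emb_Lc_analyticAt_zero 1)] at h
  exact h

/-- `X_+ ∈ L_1`, formally. -/
theorem emb_inc_one : tay G.zP + Lau.shear dk 1 (tay (G.Lc 0)) * tay G.wP =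
    2 * Lau.shear dk 1 (tay (G.Lc 1)) := by
  have h := tay_congr G.inc_one
  have h0 := emb_shift_analyticAt (G.emb_Lc_analyticAt_zero 0)
  have h1 := emb_shift_analyticAt (G.emb_Lc_analyticAt_zero 1)
  have hm : AnalyticAt ℂ (fun z => G.Lc 0 (z.1 + z.2, z.2) * G.wP z) (0, 0) := h0.mul G.wP_analyticAt
  rw [tay_add G.zP_analyticAt hm, tay_mul h0 G.wP_analyticAt, emb_tay_two_mul h1,
    emb_tay_shift (G.emb_Lc_analyticAt_zero 0), emb_tay_shift (G.emb_Lc_analyticAt_zero 1)] at h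
  exact h

theorem emb_E0_sub_ne_zero : tay (G.Lc 0) - Lau.shear dk 1 (tay (G.Lc 0)) ≠ 0 := by
  intro h
  have h1 := congrArg (fun x : LaurentSeries kk => x.coeff 1) h
  simp only [HahnSeries.coeff_sub, HahnSeries.coeff_zero] at h1
  rw [shear_coeff_one dk 1 _ (tay_nonneg _)] at h1
  apply G.emb_hE
  simp only [Int.cast_one, one_mul] at h1
  linear_combination -h1

theorem tay_wP : tay G.wP = G.fgl0.Wp := by
  have h0 := G.emb_inc_zero
  have h1 := G.emb_inc_one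
  have hne := G.emb_E0_sub_ne_zero
  show _ = 2 * (tay (G.Lc 1) - Lau.shear dk 1 (tay (G.Lc 1)))
    / (tay (G.Lc 0) - Lau.shear dk 1 (tay (G.Lc 0)))
  rw [eq_div_iff hne]
  linear_combination h0 - h1

theorem tay_zP : tay G.zP = G.fgl0.Zp := by
  have h0 := G.emb_inc_zero
  show _ = 2 * tay (G.Lc 1) - tay (G.Lc 0) * G.fgl0.Wp
  rw [← tay_wP]
  linear_combination h0

/-- identity theorem for polynomials in the jets. -/
theorem emb_eval_jet_eq_zero (T : MvPolynomial Idx ℂ) (N : ℕ) (hT : ∀ i ∈ T.vars, |i.1| ≤ N)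
    (h : MvPolynomial.aeval G.fjet T = 0) :
    ∀ z ∈ G.dom N, MvPolynomial.eval (jetAt G.L0 z) T = 0 := by
  have h1 : tay (fun z => MvPolynomial.eval (jetAt G.L0 z) T) = 0 := by rw [tay_eval_jet, h]
  have h2 := (tay_eq_zero_iff (G.emb_eval_jet_analyticAt_zero T)).1 h1
  exact fun z hz => (G.eval_jet_analyticOn T N hT).eqOn_zero_of_preconnected_of_eventuallyEq_zero
    (G.dom_isPreconnected N) (G.zero_mem_dom N) h2 hz

theorem emb_aeval_eq_zero (T : MvPolynomial Idx ℂ) (N : ℕ)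
    (h : ∀ z ∈ G.dom N, MvPolynomial.eval (jetAt G.L0 z) T = 0) :
    MvPolynomial.aeval G.fjet T = 0 := by
  rw [← tay_eval_jet, tay_eq_zero_iff (G.emb_eval_jet_analyticAt_zero T)]
  filter_upwards [(G.dom_isOpen N).mem_nhds (G.zero_mem_dom N)] with z hz
  exact h z hz

theorem emb_fjet_mem_KL (F : Set ℤ) (i : Idx) (hi : i.1 ∈ F) : G.fjet i ∈ G.fgl0.KL F := by
  obtain ⟨j, c, a, b⟩ := i
  fin_cases c
  · exact Subfield.subset_closure (Or.inl ⟨j, hi, a, b, Or.inl rfl⟩)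
  · exact Subfield.subset_closure (Or.inl ⟨j, hi, a, b, Or.inr rfl⟩)

theorem emb_aeval_mem_KL (F : Set ℤ) (P : MvPolynomial Idx ℂ) (hP : ∀ i ∈ P.vars, i.1 ∈ F) :
    MvPolynomial.aeval G.fjet P ∈ G.fgl0.KL F := by
  rw [MvPolynomial.aeval_def, MvPolynomial.eval₂_eq]
  refine sum_mem fun d hd => mul_mem ?_ (prod_mem fun i hi => pow_mem (G.emb_fjet_mem_KL F i ?_) _)
  · rw [emb_algebraMap_eq_C]
    exact Subfield.subset_closure (Or.inr ⟨_, ⟨_, rfl⟩, rfl⟩)
  · exact hP i ((MvPolynomial.mem_vars_iff_mem_support i).2 ⟨d, hd, hi⟩)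

theorem emb_shear_mem_KL (F : Set ℤ) (q : ℤ) {x : LaurentSeries kk} (hx : x ∈ G.fgl0.KL F) :
    Lau.shear dk q x ∈ G.fgl0.KL ((fun j => q + j) '' F) := by
  have h1 : (G.fgl0.KL F).map (Lau.shear dk q) ≤ G.fgl0.KL ((fun j => q + j) '' F) := by
    rw [FGl0.KL, RingHom.map_field_closure]
    refine Subfield.closure_le.2 ?_
    rintro _ ⟨x, ⟨j, hj, a, b, rfl | rfl⟩ | ⟨_, ⟨c, rfl⟩, rfl⟩, rfl⟩
    · exact Subfield.subset_closure
        (Or.inl ⟨q + j, ⟨j, hj, rfl⟩, a, b, Or.inl (shear_shear dk q j _)⟩)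
    · exact Subfield.subset_closure
        (Or.inl ⟨q + j, ⟨j, hj, rfl⟩, a, b, Or.inr (shear_shear dk q j _)⟩)
    · exact Subfield.subset_closure
        (Or.inr ⟨_, ⟨c, rfl⟩, FGl.fgl_shear_C dk q _ (emb_dk_const c)⟩)
  exact h1 (Subfield.mem_map.2 ⟨x, hx, rfl⟩)

theorem emb_jetAt_zero (c : Fin 2) (z : ℂ × ℂ) : jetAt G.L0 z (0, c, 0, 0) = crd c (G.L0 z) := by
  show crd c (G.L0 (z.1 + ((0 : ℤ) : ℂ) * z.2, z.2)) = _
  rw [Int.cast_zero, zero_mul, add_zero]

theorem emb_jetAt_one (c : Fin 2) (z : ℂ × ℂ) :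
    jetAt G.L0 z (1, c, 0, 0) = crd c (G.L0 (z.1 + z.2, z.2)) := by
  show crd c (G.L0 (z.1 + ((1 : ℤ) : ℂ) * z.2, z.2)) = _
  rw [Int.cast_one, one_mul]

theorem emb_fjet_zero (c : Fin 2) : G.fjet (0, c, 0, 0) = tay (G.Lc c) :=
  shear_zero dk _

theorem emb_lens_aux (hL : G.LensL) (a i b : ℤ) (hai : a < i) (hib : i < b) (c : Fin 2) :
    IsAlgebraic (G.fgl0.KL {a, b}) (Lau.shear dk i (tay (G.Lc c))) := by
  obtain ⟨N, hN⟩ : ∃ N : ℕ, (N : ℤ) = max |a - i| |b - i| :=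
    ⟨(max |a - i| |b - i|).toNat, Int.toNat_of_nonneg (le_max_of_le_left (abs_nonneg _))⟩
  obtain ⟨Pi, A, B, D, hPi, -, -, -, hdeg, -, ⟨z₀, hz₀, -, hlc⟩, hroot⟩ :=
    hL (a - i) (b - i) (by omega) (by omega) c N (by rw [hN]; exact le_max_left _ _)
      (by rw [hN]; exact le_max_right _ _)
  have hbound : ∀ l, ∀ j ∈ (Pi.coeff l).vars, |j.1| ≤ N := by
    intro l j hj
    rw [hN]
    rcases hPi l j hj with h | h
    · rw [h]
      exact le_max_left _ _
    · rw [h]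
      exact le_max_right _ _
  -- algebraic over `KL {a - i, b - i}`
  have h1 : IsAlgebraic (G.fgl0.KL {a - i, b - i}) (tay (G.Lc c)) := by
    rw [isAlgebraic_iff_exists_poly]
    refine ⟨Pi.map (MvPolynomial.aeval G.fjet : MvPolynomial Idx ℂ →ₐ[ℂ] LaurentSeries kk).toRingHom,
      ?_, ?_, ?_⟩
    · intro h0
      have h2 := congrArg (fun R => Polynomial.coeff R Pi.natDegree) h0
      simp only [Polynomial.coeff_map, Polynomial.coeff_zero] at h2
      exact hlc (G.emb_eval_jet_eq_zero _ N (hbound _) h2 z₀ hz₀)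
    · intro l
      rw [Polynomial.coeff_map]
      refine G.emb_aeval_mem_KL _ _ fun j hj => ?_
      rcases hPi l j hj with h | h
      · exact Or.inl h
      · exact Or.inr h
    · have h3 : MvPolynomial.aeval G.fjet (Pi.eval (MvPolynomial.X (0, c, 0, 0))) = 0 := by
        refine G.emb_aeval_eq_zero _ N fun z hz => ?_
        rw [← Polynomial.eval_map_apply, MvPolynomial.eval_X, emb_jetAt_zero]
        exact hroot z hz
      have h4 := Polynomial.eval_map_apply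
        (MvPolynomial.aeval G.fjet : MvPolynomial Idx ℂ →ₐ[ℂ] LaurentSeries kk).toRingHom
        (p := Pi) (MvPolynomial.X (0, c, 0, 0))
      have h5 : (MvPolynomial.aeval G.fjet : MvPolynomial Idx ℂ →ₐ[ℂ] LaurentSeries kk).toRingHom
          (MvPolynomial.X (0, c, 0, 0)) = tay (G.Lc c) := by
        show MvPolynomial.aeval G.fjet (MvPolynomial.X (0, c, 0, 0)) = _
        rw [MvPolynomial.aeval_X, emb_fjet_zero]
      rw [h5] at h4
      rw [h4]
      exact h3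
  refine isAlgebraic_map_of_le _ _ (Lau.shear dk i) (fun u hu => ?_) _ h1
  have h6 := G.emb_shear_mem_KL _ i hu
  rw [Set.image_pair, add_sub_cancel, add_sub_cancel] at h6
  exact h6

/-- the lens theorem in formal form. -/
theorem lens_formal (hL : G.LensL) (a i b : ℤ) (hai : a < i) (hib : i < b) :
    IsAlgebraic (G.fgl0.KL {a, b}) (G.fgl0.E i) ∧ IsAlgebraic (G.fgl0.KL {a, b}) (G.fgl0.P i) := by
  exact ⟨G.emb_lens_aux hL a i b hai hib 0, G.emb_lens_aux hL a i b hai hib 1⟩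

theorem emb_even (c : Fin 2) : rot (-1 : kkˣ) (tay (G.Lc c)) = tay (G.Lc c) := by
  rw [← tay_neg (G.emb_Lc_analyticAt_zero c)]
  exact tay_congr (G.even_fun c)

theorem emb_mul_coeff_zero (u v : ℂ × ℂ → ℂ) :
    (tay u * tay v).coeff 0 = (tay u).coeff 0 * (tay v).coeff 0 :=
  lau_mul_coeff_zero _ _ (lau_coeff_of_orderTop_nonneg _ (tay_nonneg u))
    (lau_coeff_of_orderTop_nonneg _ (tay_nonneg v))

theorem emb_hW : dk G.fgl0.WΓ ≠ 0 := by
  have hE := G.emb_hE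
  have a0 := G.emb_Lc_analyticAt_zero 0
  have a1 := G.emb_Lc_analyticAt_zero 1
  have b0 := analyticAt_pdy a0
  have b1 := analyticAt_pdy a1
  have c0 := analyticAt_pdy b0
  have c1 := analyticAt_pdy b1
  show dk (2 * dk ((tay (G.Lc 1)).coeff 0) / dk ((tay (G.Lc 0)).coeff 0)) ≠ 0
  rw [dk.map_div _ _ hE, dk.leibniz]
  have h2 : dk (2 : kk) = 0 := by
    have := dk.map_natCast 2
    exact_mod_cast this
  rw [h2, emb_dk_coeff_zero a0, emb_dk_coeff_zero a1, emb_dk_coeff_zero b0, emb_dk_coeff_zero b1]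
  rw [emb_dk_coeff_zero a0] at hE
  -- the Wronskian
  have hw : (tay (pdy (pdy (G.Lc 1)))).coeff 0 * (tay (pdy (G.Lc 0))).coeff 0
      - (tay (pdy (G.Lc 1))).coeff 0 * (tay (pdy (pdy (G.Lc 0)))).coeff 0 ≠ 0 := by
    have hm1 : AnalyticAt ℂ (fun z => pdy (pdy (G.Lc 1)) z * pdy (G.Lc 0) z) (0, 0) := c1.mul b0
    have hm2 : AnalyticAt ℂ (fun z => pdy (G.Lc 1) z * pdy (pdy (G.Lc 0)) z) (0, 0) := b1.mul c0
    have hm3 : AnalyticAt ℂ (fun z => -(pdy (G.Lc 1) z * pdy (pdy (G.Lc 0)) z)) (0, 0) := hm2.neg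
    have h3 := emb_coeff_zero_ne_zero (u := fun z => pdy (pdy (G.Lc 1)) z * pdy (G.Lc 0) z
      + -(pdy (G.Lc 1) z * pdy (pdy (G.Lc 0)) z)) (by
        have := G.wronski_ne_zero
        rwa [sub_eq_add_neg] at this)
    rw [tay_add hm1 hm3, emba_tay_neg_fun hm2, tay_mul c1 b0, tay_mul b1 c0, HahnSeries.coeff_add,
      HahnSeries.coeff_neg, emb_mul_coeff_zero, emb_mul_coeff_zero, ← sub_eq_add_neg] at h3
    exact h3
  intro hcon
  rw [div_eq_zero_iff] at hcon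
  rcases hcon with hcon | hcon
  · apply hw
    have h4 : (2 : kk) ≠ 0 := two_ne_zero
    apply mul_left_cancel₀ h4
    linear_combination hcon
  · exact hE (pow_eq_zero_iff (two_ne_zero) |>.1 hcon)

theorem emb_rank : G.fgl0.Dy G.fgl0.Zp * dt G.fgl0.Wp - dt G.fgl0.Zp * G.fgl0.Dy G.fgl0.Wp = 0 := by
  rw [← tay_wP, ← tay_zP]
  show dy dk (tay G.zP) * dt (tay G.wP) - dt (tay G.zP) * dy dk (tay G.wP) = 0
  have hz := G.zP_analyticAt
  have hw := G.wP_analyticAt
  rw [← tay_pdy hz, ← tay_pdy hw, ← tay_pdt hz, ← tay_pdt hw,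
    ← tay_mul (analyticAt_pdy hz) (analyticAt_pdt hw), ← tay_mul (analyticAt_pdt hz) (analyticAt_pdy hw),
    sub_eq_zero]
  apply tay_congr
  filter_upwards [G.rank_fun] with z h
  exact sub_eq_zero.1 h

theorem emb_refl : (G.fgl0.Dy G.fgl0.Zp) ^ 2 = G.fgl0.E0 * G.fgl0.E 1 * (G.fgl0.Dy G.fgl0.Wp) ^ 2 := by
  rw [← tay_wP, ← tay_zP]
  show (dy dk (tay G.zP)) ^ 2 = tay (G.Lc 0) * Lau.shear dk 1 (tay (G.Lc 0)) * (dy dk (tay G.wP)) ^ 2
  have hz := analyticAt_pdy G.zP_analyticAt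
  have hw := analyticAt_pdy G.wP_analyticAt
  have a0 := G.emb_Lc_analyticAt_zero 0
  have a1 := emb_shift_analyticAt a0
  have hm1 : AnalyticAt ℂ (fun z => G.Lc 0 z * G.Lc 0 (z.1 + z.2, z.2)) (0, 0) := a0.mul a1
  have hm2 : AnalyticAt ℂ (fun z => pdy G.wP z * pdy G.wP z) (0, 0) := hw.mul hw
  rw [← tay_pdy G.zP_analyticAt, ← tay_pdy G.wP_analyticAt, ← emb_tay_shift a0, pow_two, pow_two,
    ← tay_mul hz hz, ← tay_mul hw hw, ← tay_mul a0 a1, ← tay_mul hm1 hm2]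
  apply tay_congr
  filter_upwards [G.refl_fun] with z h
  rw [pow_two, pow_two] at h
  exact h

/-- the formal glancing datum of `G`. -/
noncomputable def fgl (hL : G.LensL) : FGl kk where
  toFGl0 := G.fgl0
  E0_nonneg := tay_nonneg _
  P0_nonneg := tay_nonneg _
  E0_even := G.emb_even 0
  P0_even := G.emb_even 1
  K0_const := by
    rintro _ ⟨a, rfl⟩
    exact emb_dk_const a
  hE := G.emb_hE
  hW := G.emb_hW
  rank := G.emb_rank
  refl := G.emb_refl
  lens := G.lens_formal hL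

/-- `G.LensL → G.Alg2`. -/
theorem alg2_of_lensL (hL : G.LensL) : G.Alg2 := by
  classical
  intro K c
  obtain ⟨F, hF, hE1, hP1⟩ := (G.fgl hL).alg2_formal K
  have hx : G.fjet (1, c, 0, 0) ∈ G.fgl0.KL (F : Set ℤ) := by
    fin_cases c
    · exact hE1
    · exact hP1
  obtain ⟨P, Q, hP, hQ, hQ0, h⟩ := G.mem_KL_iff F _ hx
  obtain ⟨N, hN⟩ : ∃ N : ℕ, N = F.sup (fun j => j.natAbs) + 1 := ⟨_, rfl⟩
  have hFN : ∀ j ∈ F, |j| ≤ (N : ℤ) := by
    intro j hj
    have h1 : j.natAbs ≤ F.sup (fun j => j.natAbs) := Finset.le_sup (f := fun j : ℤ => j.natAbs) hj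
    rw [Int.abs_eq_natAbs, hN]
    exact_mod_cast h1.trans (Nat.le_succ _)
  have hN1 : 1 ≤ N := by rw [hN]; exact Nat.le_add_left 1 _
  refine ⟨P, Q, N, hN1, fun i hi => ⟨hF _ (hP i hi), hFN _ (hP i hi)⟩,
    fun i hi => ⟨hF _ (hQ i hi), hFN _ (hQ i hi)⟩, ?_, ?_⟩
  · by_contra hcon
    push Not at hcon
    exact hQ0 (G.emb_aeval_eq_zero Q N hcon)
  · intro z hz
    have hT : ∀ i ∈ (MvPolynomial.X (1, c, 0, 0) * Q - P : MvPolynomial Idx ℂ).vars, |i.1| ≤ N := by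
      intro i hi
      rcases Finset.mem_union.1 (MvPolynomial.vars_sub_subset _ hi) with h1 | h1
      · rcases Finset.mem_union.1 (MvPolynomial.vars_mul _ _ h1) with h2 | h2
        · rw [MvPolynomial.vars_X, Finset.mem_singleton] at h2
          rw [h2]
          show |(1 : ℤ)| ≤ N
          rw [abs_one]
          exact_mod_cast hN1
        · exact hFN _ (hQ i h2)
      · exact hFN _ (hP i h1)
    have h0 : MvPolynomial.aeval G.fjet (MvPolynomial.X (1, c, 0, 0) * Q - P) = 0 := by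
      rw [map_sub, map_mul, MvPolynomial.aeval_X, h, sub_self]
    have h1 := G.emb_eval_jet_eq_zero _ N hT h0 z hz
    rw [map_sub, map_mul, MvPolynomial.eval_X, emb_jetAt_one] at h1
    exact sub_eq_zero.1 h1

end Glance

end Claimed.Agent.R269
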