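/-
Row 269, P1 Section 4, units 4F/4H: FROM ALGEBRAIC VALUES AT REAL POINTS TO AN ALGEBRAIC RELATION BETWEEN FUNCTIONS  ("generic point" argument at the end of the proofs of
Theorems 4.3, 4.4).   Statements: helper36.     HOST-FREE up to `ZT.rp`, `ZT.eq_zero_of_real_open`.

`W ⊆ ℂ²` connected open, `J i` (`i ∈ S`) and `x` analytic on `W`, `R` a nonempty open set of real points of `W`.
If for every `r ∈ R` the number `x(r)` is algebraic over the field generated by `I` and the numbers `J i (r)`, `i ∈ S`, then `x` is a root of a SEPARABLE polynomial with coefficients in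
`ℂ[J i : i ∈ S]`, in the explicit form used in `Glance.LensL`, `Glance.LensP`.

PROOF.  (1) `generic_point`: Baire.  For `q` in a countable family of analytic functions on `W`, if `q ≢ 0` on `W` then `{r ∈ R | q (rp r) = 0}` is relatively closed in `R` with empty
    interior (`eq_zero_of_real_open`).  `R` is a Baire space (`IsOpen.baireSpace`), so some `r* ∈ R` avoids all these sets (`dense_iInter_of_isOpen`).
(2) Let `𝒬` be the countable family of the functions `z ↦ Q(I, J(z), x(z))`, `Q` a polynomial with INTEGER coefficients in the variables `Option (Option ι)` restricted to `S`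
    (`MvPolynomial _ ℤ` is countable).   Take `r*` generic for `𝒬`, `z* = rp r*`, `K* = Subfield.closure ({I} ∪ J(z*))`.
    Every element of `K*` is a quotient of two elements of `ℤ[I, J(z*)]` (`Subfield.mem_closure_iff`, `Subring.closure` = range of `MvPolynomial.aeval`).
(3) `μ = minpoly K* (x z*)`, of degree `d ≥ 1`, separable (characteristic zero: `Irreducible.separable`, `minpoly.irreducible`), so `a μ + b μ' = 1` in `K*[T]` (`Polynomial.Separable` = `IsCoprime`).
    Clear denominators: there are `Pi, A, B ∈ ℤ[I][X_i : i ∈ S][T] ⊆ (MvPolynomial ι ℂ)[T]` and `D ∈ ℤ[I][X]`, `e ∈ ℤ[I][X]` with `e(J z*) ≠ 0`, `D (J z*) ≠ 0`,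
    `Pi(J z*) = e(J z*) μ`, `Pi = ∑_{l ≤ d} C (n_l) T^l` with `n_d = e`, so `natDegree Pi = d`, `leadingCoeff Pi = e`;   `(A Pi + B Pi' - C D)(J z*) = 0`.
(4) Each `T`-coefficient of `A Pi + B Pi' - C D`, evaluated at `J(z)`, is a member of `𝒬` vanishing at `z*`, hence `≡ 0` on `W`.  The same for `Pi(J(z))(x(z))`.
The `sorry`s are replaced IN PLACE by the owner of the package (table subtask, target row269, LF-S4-Gen).
-/
import Claimed.Agent.R269.S4.ZTayB

set_option autoImplicit false

namespace Claimed.Agent.R269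

open Polynomial ZT

/-- a point of `R` which is generic for a countable family of analytic functions. -/
theorem generic_point {κ : Type*} [Countable κ] {W : Set (ℂ × ℂ)} (hW : IsOpen W) (hc : IsPreconnected W)
    (q : κ → ℂ × ℂ → ℂ) (hq : ∀ k, AnalyticOnNhd ℂ (q k) W)
    {R : Set (ℝ × ℝ)} (hR : IsOpen R) (hne : R.Nonempty) (hRW : ∀ r ∈ R, rp r ∈ W) :
    ∃ r ∈ R, ∀ k, q k (rp r) = 0 → ∀ w ∈ W, q k w = 0 := by
  classical
  -- the dense open sets
  let O : κ → Set (ℝ × ℝ) := fun k =>
    {r | (∀ w ∈ W, q k w = 0)} ∪ ((R ∩ {r | q k (rp r) ≠ 0}) ∪ (closure R)ᶜ)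
  have hcont : ∀ k, ContinuousOn (fun r => q k (rp r)) R := fun k =>
    (hq k).continuousOn.comp continuous_rp.continuousOn hRW
  have hO : ∀ k, IsOpen (O k) := by
    intro k
    refine IsOpen.union ?_ (IsOpen.union ?_ isClosed_closure.isOpen_compl)
    · exact isOpen_const
    · exact (hcont k).isOpen_inter_preimage hR isOpen_ne
  have hD : ∀ k, Dense (O k) := by
    intro k
    by_cases h : ∀ w ∈ W, q k w = 0
    · have : O k = Set.univ := by
        apply Set.eq_univ_of_forall
        intro r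
        exact Or.inl h
      rw [this]
      exact dense_univ
    · rw [dense_iff_inter_open]
      intro V hV hVne
      by_cases hVR : (V ∩ R).Nonempty
      · by_contra hemp
        apply h
        refine eq_zero_of_real_open hW hc (hq k) (hV.inter hR) hVR (fun r hr => hRW r hr.2) ?_
        intro r hr
        by_contra hr0
        exact hemp ⟨r, hr.1, Or.inr (Or.inl ⟨hr.2, hr0⟩)⟩
      · obtain ⟨r, hr⟩ := hVne
        refine ⟨r, hr, Or.inr (Or.inr ?_)⟩
        intro hcl
        rw [mem_closure_iff] at hcl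
        exact hVR (hcl V hV hr)
  have hdense : Dense (⋂ k, O k) := dense_iInter_of_isOpen hO hD
  obtain ⟨r, hrR, hrO⟩ := hdense.inter_open_nonempty R hR hne
  refine ⟨r, hrR, fun k hk => ?_⟩
  rcases Set.mem_iInter.1 hrO k with h | h | h
  · exact h
  · exact absurd hk h.2
  · exact absurd (subset_closure hrR) h


theorem gen_countable_mv (σ : Type*) (R : Type*) [CommSemiring R] [Countable σ] [Countable R] :
    Countable (MvPolynomial σ R) := by
  rw [← Cardinal.mk_le_aleph0_iff]
  refine (MvPolynomial.cardinalMk_le_max_lift).trans ?_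
  simp [Cardinal.mk_le_aleph0]

theorem gen_countable_poly (R : Type*) [Semiring R] [Countable R] : Countable (Polynomial R) := by
  rw [← Cardinal.mk_le_aleph0_iff]
  refine (Polynomial.cardinalMk_le_max).trans ?_
  simp [Cardinal.mk_le_aleph0]

/-- the polynomials with coefficients in `ℤ[I]` and variables in `S`, as the image of a countable ring. -/
noncomputable def genΘ {ι : Type*} (S : Set ι) : MvPolynomial (Option S) ℤ →+* MvPolynomial ι ℂ :=
  MvPolynomial.eval₂Hom (Int.castRingHom _)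
    (fun o => o.elim (MvPolynomial.C Complex.I) (fun i => MvPolynomial.X (i : ι)))

theorem genΘ_C {ι : Type*} (S : Set ι) (n : ℤ) :
    genΘ S (MvPolynomial.C n) = MvPolynomial.C (n : ℂ) := by
  simp [genΘ]

theorem genΘ_X_none {ι : Type*} (S : Set ι) :
    genΘ S (MvPolynomial.X none) = MvPolynomial.C Complex.I := by
  simp [genΘ]

theorem genΘ_X_some {ι : Type*} (S : Set ι) (i : S) :
    genΘ S (MvPolynomial.X (some i)) = MvPolynomial.X (i : ι) := by
  simp [genΘ]

theorem genΘ_vars {ι : Type*} (S : Set ι) (a : MvPolynomial (Option S) ℤ) :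
    ∀ i ∈ (genΘ S a).vars, i ∈ S := by
  classical
  induction a using MvPolynomial.induction_on with
  | C n =>
    intro i hi
    rw [genΘ_C, MvPolynomial.vars_C] at hi
    exact absurd hi (Finset.notMem_empty i)
  | add p q hp hq =>
    intro i hi
    rw [map_add] at hi
    rcases Finset.mem_union.1 (MvPolynomial.vars_add_subset _ _ hi) with h | h
    · exact hp i h
    · exact hq i h
  | mul_X p o hp =>
    intro i hi
    rw [map_mul] at hi
    rcases Finset.mem_union.1 (MvPolynomial.vars_mul _ _ hi) with h | h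
    · exact hp i h
    · cases o with
      | none => rw [genΘ_X_none] at h; simp at h
      | some j =>
        rw [genΘ_X_some, MvPolynomial.vars_X, Finset.mem_singleton] at h
        rw [h]; exact j.2

theorem gen_analytic_coeff {ι : Type*} (S : Set ι) {W : Set (ℂ × ℂ)} (J : ι → ℂ × ℂ → ℂ)
    (hJ : ∀ i ∈ S, AnalyticOnNhd ℂ (J i) W) (a : MvPolynomial (Option S) ℤ) :
    AnalyticOnNhd ℂ (fun z => MvPolynomial.eval (fun i => J i z) (genΘ S a)) W := by
  induction a using MvPolynomial.induction_on with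
  | C n => simp only [genΘ_C, MvPolynomial.eval_C]; exact analyticOnNhd_const
  | add p q hp hq => simp only [map_add]; exact hp.add hq
  | mul_X p o hp =>
    simp only [map_mul]
    refine hp.mul ?_
    cases o with
    | none => simp only [genΘ_X_none, MvPolynomial.eval_C]; exact analyticOnNhd_const
    | some j => simp only [genΘ_X_some, MvPolynomial.eval_X]; exact hJ j j.2

theorem gen_analytic_poly {ι : Type*} (S : Set ι) {W : Set (ℂ × ℂ)} (J : ι → ℂ × ℂ → ℂ)
    (hJ : ∀ i ∈ S, AnalyticOnNhd ℂ (J i) W) {x : ℂ × ℂ → ℂ} (hx : AnalyticOnNhd ℂ x W)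
    (P : Polynomial (MvPolynomial (Option S) ℤ)) :
    AnalyticOnNhd ℂ (fun z => P.eval₂ ((MvPolynomial.eval (fun i => J i z)).comp (genΘ S)) (x z)) W := by
  simp only [Polynomial.eval₂_eq_sum_range, RingHom.comp_apply]
  exact Finset.analyticOnNhd_fun_sum _ fun l _ => (gen_analytic_coeff S J hJ _).mul (hx.pow l)

/-- every element of the field generated by `I` and the `J i` is a quotient of values of `genΘ`. -/
theorem gen_quot {ι : Type*} (S : Set ι) (v : ι → ℂ) (a : ℂ)
    (ha : a ∈ Subfield.closure ({Complex.I} ∪ {c : ℂ | ∃ i ∈ S, c = v i})) :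
    ∃ y z : MvPolynomial (Option S) ℤ, MvPolynomial.eval v (genΘ S z) ≠ 0 ∧
      MvPolynomial.eval v (genΘ S y) = MvPolynomial.eval v (genΘ S z) * a := by
  have hle : Subring.closure ({Complex.I} ∪ {c : ℂ | ∃ i ∈ S, c = v i})
      ≤ ((MvPolynomial.eval v).comp (genΘ S)).range := by
    rw [Subring.closure_le]
    rintro c (hc | ⟨i, hi, rfl⟩)
    · rw [Set.mem_singleton_iff] at hc
      exact ⟨MvPolynomial.X none, by simp [genΘ_X_none, hc]⟩
    · exact ⟨MvPolynomial.X (some ⟨i, hi⟩), by simp [genΘ_X_some]⟩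
  obtain ⟨y, hy, z, hz, hyz⟩ := Subfield.mem_closure_iff.1 ha
  obtain ⟨y', hy'⟩ := hle hy
  obtain ⟨z', hz'⟩ := hle hz
  simp only [RingHom.comp_apply] at hy' hz'
  by_cases hz0 : z = 0
  · refine ⟨0, 1, by simp, ?_⟩
    rw [← hyz, hz0]; simp
  · refine ⟨y', z', by rw [hz']; exact hz0, ?_⟩
    rw [hy', hz', ← hyz]
    field_simp

/-- common denominators. -/
theorem gen_denoms {A₀ : Type*} [CommRing A₀] (ε : A₀ →+* ℂ) (g : ℕ → ℂ)
    (hg : ∀ l, ∃ y z : A₀, ε z ≠ 0 ∧ ε y = ε z * g l) (N : ℕ) :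
    ∃ c : A₀, ε c ≠ 0 ∧ ∀ l < N, ∃ n : A₀, ε n = ε c * g l := by
  induction N with
  | zero => exact ⟨1, by simp, fun l hl => absurd hl (Nat.not_lt_zero l)⟩
  | succ N ih =>
    obtain ⟨c, hc, hn⟩ := ih
    obtain ⟨y, z, hz, hy⟩ := hg N
    refine ⟨c * z, by rw [map_mul]; exact mul_ne_zero hc hz, fun l hl => ?_⟩
    rcases Nat.lt_succ_iff_lt_or_eq.1 hl with h | rfl
    · obtain ⟨n, hn'⟩ := hn l h
      exact ⟨n * z, by rw [map_mul, map_mul, hn']; ring⟩
    · exact ⟨c * y, by rw [map_mul, map_mul, hy]; ring⟩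

/-- clearing the denominators of a polynomial. -/
theorem gen_clear {A₀ : Type*} [CommRing A₀] (ε : A₀ →+* ℂ) (f : Polynomial ℂ)
    (hf : ∀ l, ∃ y z : A₀, ε z ≠ 0 ∧ ε y = ε z * f.coeff l) :
    ∃ (c : A₀) (F : Polynomial A₀), ε c ≠ 0 ∧ F.natDegree ≤ f.natDegree ∧
      F.map ε = Polynomial.C (ε c) * f := by
  classical
  obtain ⟨c, hc, hn⟩ := gen_denoms ε (fun l => f.coeff l) hf (f.natDegree + 1)
  have hn' : ∀ l, ∃ n : A₀, (l < f.natDegree + 1 → ε n = ε c * f.coeff l) ∧
      (¬ l < f.natDegree + 1 → n = 0) := by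
    intro l
    by_cases hl : l < f.natDegree + 1
    · obtain ⟨n, h⟩ := hn l hl
      exact ⟨n, fun _ => h, fun h' => absurd hl h'⟩
    · exact ⟨0, fun h' => absurd h' hl, fun _ => rfl⟩
  choose n hn1 hn2 using hn'
  have hcoeff : ∀ l, (∑ k ∈ Finset.range (f.natDegree + 1), Polynomial.C (n k) * Polynomial.X ^ k).coeff l
      = n l := by
    intro l
    rw [Polynomial.finsetSum_coeff]
    simp only [Polynomial.coeff_C_mul_X_pow]
    rw [Finset.sum_ite_eq]
    split_ifs with h
    · rfl
    · exact (hn2 l (by simpa using h)).symm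
  refine ⟨c, ∑ k ∈ Finset.range (f.natDegree + 1), Polynomial.C (n k) * Polynomial.X ^ k, hc, ?_, ?_⟩
  · rw [Polynomial.natDegree_le_iff_coeff_eq_zero]
    intro l hl
    rw [hcoeff]
    exact hn2 l (by omega)
  · ext l
    rw [Polynomial.coeff_map, hcoeff, Polynomial.coeff_C_mul]
    by_cases hl : l < f.natDegree + 1
    · exact hn1 l hl
    · rw [hn2 l hl, map_zero, Polynomial.coeff_eq_zero_of_natDegree_lt (by omega), mul_zero]

theorem gen_alg {ι : Type*} [Countable ι] (S : Set ι) {W : Set (ℂ × ℂ)} (hW : IsOpen W) (hc : IsPreconnected W)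
    (J : ι → ℂ × ℂ → ℂ) (hJ : ∀ i ∈ S, AnalyticOnNhd ℂ (J i) W) (x : ℂ × ℂ → ℂ) (hx : AnalyticOnNhd ℂ x W)
    {R : Set (ℝ × ℝ)} (hR : IsOpen R) (hne : R.Nonempty) (hRW : ∀ r ∈ R, rp r ∈ W)
    (halg : ∀ r ∈ R,
      IsAlgebraic (Subfield.closure ({Complex.I} ∪ {c : ℂ | ∃ i ∈ S, c = J i (rp r)})) (x (rp r))) :
    ∃ (Pi A B : Polynomial (MvPolynomial ι ℂ)) (D : MvPolynomial ι ℂ),
      (∀ l, ∀ i ∈ (Pi.coeff l).vars, i ∈ S) ∧
      (∀ l, ∀ i ∈ (A.coeff l).vars, i ∈ S) ∧
      (∀ l, ∀ i ∈ (B.coeff l).vars, i ∈ S) ∧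
      (∀ i ∈ D.vars, i ∈ S) ∧
      1 ≤ Pi.natDegree ∧
      (∀ z ∈ W, (A * Pi + B * derivative Pi - C D).map (MvPolynomial.eval (fun i => J i z)) = 0) ∧
      (∃ z ∈ W, MvPolynomial.eval (fun i => J i z) D ≠ 0 ∧
        MvPolynomial.eval (fun i => J i z) Pi.leadingCoeff ≠ 0) ∧
      (∀ z ∈ W, (Pi.map (MvPolynomial.eval (fun i => J i z))).eval (x z) = 0) := by
  classical
  have : Countable (MvPolynomial (Option S) ℤ) := gen_countable_mv _ _
  have : Countable (Polynomial (MvPolynomial (Option S) ℤ)) := gen_countable_poly _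
  obtain ⟨ε, hε⟩ : ∃ ε : ℂ × ℂ → MvPolynomial (Option S) ℤ →+* ℂ,
      ∀ z, ε z = (MvPolynomial.eval (fun i => J i z)).comp (genΘ S) := ⟨_, fun _ => rfl⟩
  have hεa : ∀ z a, ε z a = MvPolynomial.eval (fun i => J i z) (genΘ S a) := fun z a => by
    rw [hε]; rfl
  obtain ⟨r, hrR, hgen⟩ := generic_point hW hc
    (fun P : Polynomial (MvPolynomial (Option S) ℤ) => fun z => P.eval₂ (ε z) (x z))
    (fun P => by
      simp only [hε]
      exact gen_analytic_poly S J hJ hx P) hR hne hRW
  obtain ⟨zs, hzs⟩ : ∃ zs, zs = rp r := ⟨_, rfl⟩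
  have hxa := halg r hrR
  rw [← hzs] at hgen hxa
  have hzW : zs ∈ W := by rw [hzs]; exact hRW r hrR
  obtain ⟨K, hK⟩ : ∃ K : Subfield ℂ,
      K = Subfield.closure ({Complex.I} ∪ {c : ℂ | ∃ i ∈ S, c = J i zs}) := ⟨_, rfl⟩
  rw [← hK] at hxa
  have hint : IsIntegral K (x zs) := hxa.isIntegral
  have hsep : (minpoly K (x zs)).Separable := (minpoly.irreducible hint).separable
  obtain ⟨a, b, hab⟩ := hsep
  obtain ⟨μ, hμ⟩ : ∃ μ : Polynomial ℂ, μ = (minpoly K (x zs)).map (algebraMap K ℂ) := ⟨_, rfl⟩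
  have habC : a.map (algebraMap K ℂ) * μ + b.map (algebraMap K ℂ) * derivative μ = 1 := by
    have := congrArg (Polynomial.map (algebraMap K ℂ)) hab
    rw [Polynomial.map_add, Polynomial.map_mul, Polynomial.map_mul, Polynomial.map_one,
      ← Polynomial.derivative_map, ← hμ] at this
    exact this
  have hq : ∀ f : Polynomial K, ∀ l, ∃ y z : MvPolynomial (Option S) ℤ, ε zs z ≠ 0 ∧
      ε zs y = ε zs z * (f.map (algebraMap K ℂ)).coeff l := by
    intro f l
    rw [Polynomial.coeff_map]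
    have hmem : algebraMap K ℂ (f.coeff l)
        ∈ Subfield.closure ({Complex.I} ∪ {c : ℂ | ∃ i ∈ S, c = J i zs}) := by
      rw [← hK]; exact (f.coeff l).2
    obtain ⟨y, z, h1, h2⟩ := gen_quot S (fun i => J i zs) _ hmem
    exact ⟨y, z, by rw [hεa]; exact h1, by rw [hεa, hεa]; exact h2⟩
  obtain ⟨e, M, he, hMd, hM⟩ := gen_clear (ε zs) μ (by rw [hμ]; exact hq _)
  obtain ⟨ca, A', hca, -, hA'⟩ := gen_clear (ε zs) (a.map (algebraMap K ℂ)) (hq a)
  obtain ⟨cb, B', hcb, -, hB'⟩ := gen_clear (ε zs) (b.map (algebraMap K ℂ)) (hq b)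
  obtain ⟨P₀, hP₀def⟩ : ∃ P₀ : Polynomial (MvPolynomial (Option S) ℤ),
      P₀ = C cb * A' * M + C ca * B' * derivative M - C (ca * cb * e) := ⟨_, rfl⟩
  have hP₀ : P₀.map (ε zs) = 0 := by
    rw [hP₀def]
    simp only [Polynomial.map_sub, Polynomial.map_add, Polynomial.map_mul, Polynomial.map_C,
      ← Polynomial.derivative_map, hM, hA', hB', Polynomial.derivative_C_mul, map_mul]
    linear_combination (C (ε zs ca) * C (ε zs cb) * C (ε zs e)) * habC
  have hP₀W : ∀ z ∈ W, P₀.map (ε z) = 0 := by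
    intro z hz
    ext l
    rw [Polynomial.coeff_map, Polynomial.coeff_zero]
    have h1 := hgen (C (P₀.coeff l)) (by
      simp only [Polynomial.eval₂_C]
      rw [← Polynomial.coeff_map, hP₀, Polynomial.coeff_zero]) z hz
    simpa only [Polynomial.eval₂_C] using h1
  -- the degree
  have hmonic : (minpoly K (x zs)).Monic := minpoly.monic hint
  have hdeg : μ.natDegree = (minpoly K (x zs)).natDegree := by
    rw [hμ]; exact hmonic.natDegree_map _
  have hdpos : 1 ≤ μ.natDegree := by rw [hdeg]; exact minpoly.natDegree_pos hint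
  have hlead : μ.coeff μ.natDegree = 1 := by
    have : μ.Monic := by rw [hμ]; exact hmonic.map _
    exact this
  have hMc : ε zs (M.coeff μ.natDegree) = ε zs e := by
    rw [← Polynomial.coeff_map, hM, Polynomial.coeff_C_mul, hlead, mul_one]
  have hPc : MvPolynomial.eval (fun i => J i zs) ((M.map (genΘ S)).coeff μ.natDegree) ≠ 0 := by
    rw [Polynomial.coeff_map, ← hεa, hMc]; exact he
  have hPd : (M.map (genΘ S)).natDegree = μ.natDegree := by
    apply le_antisymm
    · exact (Polynomial.natDegree_map_le).trans hMd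
    · apply Polynomial.le_natDegree_of_ne_zero
      intro h0
      rw [h0, map_zero] at hPc
      exact hPc rfl
  have hmm : ∀ (z : ℂ × ℂ) (P : Polynomial (MvPolynomial (Option S) ℤ)),
      (P.map (genΘ S)).map (MvPolynomial.eval (fun i => J i z)) = P.map (ε z) := by
    intro z P
    rw [Polynomial.map_map, hε]
  refine ⟨M.map (genΘ S), (C cb * A').map (genΘ S), (C ca * B').map (genΘ S), genΘ S (ca * cb * e),
    ?_, ?_, ?_, genΘ_vars S _, ?_, ?_, ⟨zs, hzW, ?_, ?_⟩, ?_⟩
  · intro l
    rw [Polynomial.coeff_map]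
    exact genΘ_vars S _
  · intro l
    rw [Polynomial.coeff_map]
    exact genΘ_vars S _
  · intro l
    rw [Polynomial.coeff_map]
    exact genΘ_vars S _
  · rw [hPd]; exact hdpos
  · intro z hz
    have e1 : (C cb * A').map (genΘ S) * M.map (genΘ S)
        + (C ca * B').map (genΘ S) * derivative (M.map (genΘ S)) - C (genΘ S (ca * cb * e))
        = P₀.map (genΘ S) := by
      rw [hP₀def]
      simp only [Polynomial.map_sub, Polynomial.map_add, Polynomial.map_mul, Polynomial.map_C,
        Polynomial.derivative_map]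
    rw [e1, hmm, hP₀W z hz]
  · rw [← hεa, map_mul, map_mul]
    exact mul_ne_zero (mul_ne_zero hca hcb) he
  · rw [Polynomial.leadingCoeff, hPd]
    exact hPc
  · intro z hz
    rw [hmm, Polynomial.eval_map]
    refine hgen M ?_ z hz
    show M.eval₂ (ε zs) (x zs) = 0
    rw [← Polynomial.eval_map, hM, Polynomial.eval_mul, hμ, Polynomial.eval_map_algebraMap,
      minpoly.aeval, mul_zero]

/-- the criterion for algebraicity by derivations of `ℂ` (contrapositive of `Dv.exists_dv_of_transcendental`). -/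
theorem isAlgebraic_of_dv (K : Subfield ℂ) (x : ℂ) (h : ∀ δ : Dv ℂ, (∀ a ∈ K, δ a = 0) → δ x = 0) :
    IsAlgebraic K x := by
  by_contra hx
  obtain ⟨δ, hδ, hδx⟩ := Dv.exists_dv_of_transcendental K x hx
  exact hδx (h δ hδ)

/-- it suffices to check the generators: the elements `a` with `conj a` algebraic over `K = closure s` form a subfield (`Subfield.closure_induction`, `IsAlgebraic.add`, `.mul`, `.inv`, …). -/
theorem conj_algebraic_of_gen (s : Set ℂ) (hs : ∀ a ∈ s, IsAlgebraic (Subfield.closure s) ((starRingEnd ℂ) a)) :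
    ∀ a ∈ Subfield.closure s, IsAlgebraic (Subfield.closure s) ((starRingEnd ℂ) a) := by
  intro a ha
  induction ha using Subfield.closure_induction with
  | mem x hx => exact hs x hx
  | one => rw [map_one]; exact isAlgebraic_one
  | add x y _ _ hx hy => rw [map_add]; exact hx.add hy
  | neg x _ hx => rw [map_neg]; exact hx.neg
  | inv x _ hx => rw [map_inv₀]; exact hx.inv
  | mul x y _ _ hx hy => rw [map_mul]; exact hx.mul hy

/-- the criterion for algebraicity by derivations of `ℝ`:  if `K ⊆ ℂ` is a subfield all of whose elements have conjugates algebraic over `K`, and every derivation `δ` of `ℝ` whose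
complexification kills `K` kills `x`, then `x` is algebraic over `K`.
(If not, `Dv.exists_dv_of_transcendental` gives `δ' : Dv ℂ` killing `K` with `δ' x ≠ 0`; `δ'` kills the conjugates (`Dv.eq_zero_of_isAlgebraic`), hence the real and imaginary parts of
the elements of `K` (`δ' 2 = 0`, `δ' I = 0`), so `δ'.rePart.cx` and `δ'.imPart.cx` kill `K`;  `Dv.eq_cx_add`.) -/
theorem isAlgebraic_of_real_dv (K : Subfield ℂ) (hK : ∀ a ∈ K, IsAlgebraic K ((starRingEnd ℂ) a)) (x : ℂ)
    (h : ∀ δ : Dv ℝ, (∀ a ∈ K, δ.cx a = 0) → δ.cx x = 0) : IsAlgebraic K x := by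
  by_contra hx
  obtain ⟨δ, hδ, hδx⟩ := Dv.exists_dv_of_transcendental K x hx
  have hconj : ∀ a ∈ K, δ ((starRingEnd ℂ) a) = 0 := fun a ha =>
    δ.eq_zero_of_isAlgebraic K hδ _ (hK a ha)
  have h2 : δ (2 : ℂ) = 0 := by
    have := δ.map_natCast 2
    simpa using this
  have hre : ∀ a ∈ K, δ (a.re : ℂ) = 0 := by
    intro a ha
    have e : (2 : ℂ) * (a.re : ℂ) = a + (starRingEnd ℂ) a := by
      rw [Complex.add_conj]; push_cast; ring
    have h3 : δ ((2 : ℂ) * (a.re : ℂ)) = 0 := by rw [e, map_add, hδ a ha, hconj a ha, add_zero]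
    rw [δ.leibniz, h2, mul_zero, add_zero] at h3
    exact (mul_eq_zero.1 h3).resolve_left two_ne_zero
  have him : ∀ a ∈ K, δ (a.im : ℂ) = 0 := by
    intro a ha
    have e : (2 * Complex.I) * (a.im : ℂ) = a - (starRingEnd ℂ) a := by
      rw [Complex.sub_conj]; push_cast; ring
    have h2I : δ (2 * Complex.I) = 0 := by rw [δ.leibniz, δ.map_I, h2]; ring
    have h3 : δ ((2 * Complex.I) * (a.im : ℂ)) = 0 := by
      rw [e, map_sub, hδ a ha, hconj a ha, sub_zero]
    rw [δ.leibniz, h2I, mul_zero, add_zero] at h3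
    exact (mul_eq_zero.1 h3).resolve_left (mul_ne_zero two_ne_zero Complex.I_ne_zero)
  have hR : ∀ a ∈ K, δ.rePart.cx a = 0 := by
    intro a ha
    apply Complex.ext
    · show (δ (a.re : ℂ)).re = 0
      rw [hre a ha]; rfl
    · show (δ (a.im : ℂ)).re = 0
      rw [him a ha]; rfl
  have hI : ∀ a ∈ K, δ.imPart.cx a = 0 := by
    intro a ha
    apply Complex.ext
    · show (δ (a.re : ℂ)).im = 0
      rw [hre a ha]; rfl
    · show (δ (a.im : ℂ)).im = 0
      rw [him a ha]; rfl
  apply hδx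
  rw [δ.eq_cx_add, h _ hR, h _ hI]
  ring

end Claimed.Agent.R269
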