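/-
Row 269, P1 Section 4, unit 4F (Theorem 4.3): the chain of lines `L(y + (m+j) t, t)`, `0 ≤ j ≤ n + 1`, of a `Glance`.   Statements: helper36.
PROVED (helper36): this file has nothing left open.

Fields of `cchain` (all from the fields of `Glance`; base point `(0,0)`; `S_q (y,t) = (y + q t, t)` is linear, maps `(0,0)` to `(0,0)`):
  `al_an`   `Θ_diff` on an open set, composed with `S_q`
  `h_an`    `hc_diff`, `Θ_mem`;      `al_conj`, `h_conj`:  `Θ_conj`, `hc_conj`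
  `edge`    `al j (y,0) = Θ y 0` (definitional after `mul_zero`, `add_zero`)
  `slope`   `∂_t [Θ (y + q t) t] = q ∂_yΘ + ∂_tΘ`, and `∂_tΘ (y,0) = 0` by `Θ_even`
  `φ'_pos`, `rad_pos`:  the fields of the same name at `x = 0`, resp. at the real number `Θ 0 0` (real by `Θ_conj`)
  `stat`    `refl_out` at `(y + (m+j) t, t)` and `refl_in` at `(y + (m+j+1) t, t)`: both sides equal `p (y + (m+j+1) t) t`.
-/
import Claimed.Agent.R269.S4.Chain
import Claimed.Agent.R269.S4.WidthBase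

set_option autoImplicit false
set_option linter.unusedSectionVars false

namespace Claimed.Agent.R269

open Filter Topology ZT

namespace Glance

variable (G : Glance)

/-! ### tools -/

/-- the open set of the `w` whose sheared point `(w.1 + q w.2, w.2)` lies in `hstrip σ' × ball 0 r₁`. -/
theorem s4f_shear_ev (q : ℂ) (s' : ℝ) {z : ℂ × ℂ} (h1 : z.1 + q * z.2 ∈ hstrip s')
    (h2 : z.2 ∈ Metric.ball (0 : ℂ) G.r₁) :
    ∀ᶠ w in 𝓝 z, w.1 + q * w.2 ∈ hstrip s' ∧ w.2 ∈ Metric.ball (0 : ℂ) G.r₁ := by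
  have c1 : ContinuousAt (fun w : ℂ × ℂ => w.1 + q * w.2) z := by fun_prop
  have c2 : ContinuousAt (fun w : ℂ × ℂ => w.2) z := by fun_prop
  exact (c1.eventually ((s4c_isOpen_hstrip s').mem_nhds h1)).and (c2.eventually (Metric.isOpen_ball.mem_nhds h2))

theorem s4f_an_Θq (q : ℂ) {z : ℂ × ℂ} (h1 : z.1 + q * z.2 ∈ hstrip (2 * G.s))
    (h2 : z.2 ∈ Metric.ball (0 : ℂ) G.r₁) : AnalyticAt ℂ (fun w : ℂ × ℂ => G.Θ (w.1 + q * w.2) w.2) z :=
  G.s4c_Θ_comp (a := fun w : ℂ × ℂ => w.1 + q * w.2)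
    (analyticAt_fst.add (analyticAt_const.mul analyticAt_snd)) h1 h2

theorem s4f_an_pq (q : ℂ) {z : ℂ × ℂ} (h1 : z.1 + q * z.2 ∈ hstrip (2 * G.s))
    (h2 : z.2 ∈ Metric.ball (0 : ℂ) G.r₁) : AnalyticAt ℂ (fun w : ℂ × ℂ => G.p (w.1 + q * w.2) w.2) z :=
  G.s4c_p_comp (a := fun w : ℂ × ℂ => w.1 + q * w.2)
    (analyticAt_fst.add (analyticAt_const.mul analyticAt_snd)) h1 h2

theorem s4f_zero_mem_hstrip {s' : ℝ} (hs : 0 < s') {x : ℂ} (hx : x.im = 0) : x ∈ hstrip s' := by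
  show |x.im| < s'
  rw [hx, abs_zero]
  exact hs

theorem s4f_zero_mem_ball : (0 : ℂ) ∈ Metric.ball (0 : ℂ) G.r₁ := Metric.mem_ball_self G.r₁_pos

theorem s4f_conj_q (m : ℤ) (j : ℕ) (a b : ℂ) :
    (starRingEnd ℂ) (a + ((m : ℂ) + j) * b) = (starRingEnd ℂ) a + ((m : ℂ) + j) * (starRingEnd ℂ) b := by
  simp

/-- `∂_t Θ (y,0) = 0`. -/
theorem s4f_dtΘ_zero {y : ℂ} (hy : y ∈ hstrip (2 * G.s)) : deriv (fun t => G.Θ y t) 0 = 0 := by
  have h1 : (fun t => G.Θ y (-t)) =ᶠ[𝓝 (0 : ℂ)] fun t => G.Θ y t := by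
    filter_upwards [Metric.isOpen_ball.mem_nhds G.s4f_zero_mem_ball] with t ht
    exact G.Θ_even y hy t ht
  have h2 := h1.deriv_eq
  rw [deriv_comp_neg (fun t => G.Θ y t) 0, neg_zero] at h2
  have h3 : (2 : ℂ) * deriv (fun t => G.Θ y t) 0 = 0 := by linear_combination -h2
  rcases mul_eq_zero.mp h3 with h | h
  · exact absurd h two_ne_zero
  · exact h

/-- chain rule along the shear. -/
theorem s4f_deriv_shear (q : ℂ) {y : ℂ} (hy : y ∈ hstrip (2 * G.s)) :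
    deriv (fun t => G.Θ (y + q * t) t) 0 = q * deriv (fun y' => G.Θ y' 0) y := by
  have hF : DifferentiableAt ℂ (fun z : ℂ × ℂ => G.Θ z.1 z.2) (y, 0) :=
    (G.s4c_Θ_analytic (y, 0) ⟨hy, G.s4f_zero_mem_ball⟩).differentiableAt
  have hF' := hF.hasFDerivAt
  set L := fderiv ℂ (fun z : ℂ × ℂ => G.Θ z.1 z.2) (y, 0) with hL
  have g1 : HasDerivAt (fun t : ℂ => ((y + q * t, t) : ℂ × ℂ)) (q, 1) 0 := by
    have a1 : HasDerivAt (fun t : ℂ => y + q * t) q 0 := by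
      simpa using ((hasDerivAt_id (0 : ℂ)).const_mul q).const_add y
    exact a1.prodMk (hasDerivAt_id (0 : ℂ))
  have g2 : HasDerivAt (fun y' : ℂ => ((y', 0) : ℂ × ℂ)) (1, 0) y :=
    (hasDerivAt_id y).prodMk (hasDerivAt_const y (0 : ℂ))
  have g3 : HasDerivAt (fun t : ℂ => ((y, t) : ℂ × ℂ)) (0, 1) 0 :=
    (hasDerivAt_const (0 : ℂ) y).prodMk (hasDerivAt_id (0 : ℂ))
  have e0 : ((y + q * 0, 0) : ℂ × ℂ) = (y, 0) := by simp
  have d1 : HasDerivAt (fun t : ℂ => G.Θ (y + q * t) t) (L (q, 1)) 0 :=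
    HasFDerivAt.comp_hasDerivAt (l := fun z : ℂ × ℂ => G.Θ z.1 z.2) (f := fun t : ℂ => ((y + q * t, t) : ℂ × ℂ))
      (0 : ℂ) (by rw [e0]; exact hF') g1
  have d2 : HasDerivAt (fun y' : ℂ => G.Θ y' 0) (L (1, 0)) y :=
    HasFDerivAt.comp_hasDerivAt (l := fun z : ℂ × ℂ => G.Θ z.1 z.2) (f := fun y' : ℂ => ((y', 0) : ℂ × ℂ)) y hF' g2
  have d3 : HasDerivAt (fun t : ℂ => G.Θ y t) (L (0, 1)) 0 :=
    HasFDerivAt.comp_hasDerivAt (l := fun z : ℂ × ℂ => G.Θ z.1 z.2) (f := fun t : ℂ => ((y, t) : ℂ × ℂ)) (0 : ℂ) hF' g3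
  rw [d1.deriv, d2.deriv]
  have h0 : L (0, 1) = 0 := by rw [← d3.deriv]; exact G.s4f_dtΘ_zero hy
  have hsplit : ((q, 1) : ℂ × ℂ) = q • ((1, 0) : ℂ × ℂ) + ((0, 1) : ℂ × ℂ) := by
    ext <;> simp
  rw [hsplit, map_add, map_smul, h0, add_zero, smul_eq_mul]

theorem s4f_origin_mem (q : ℂ) {s' : ℝ} (hs : 0 < s') :
    (((0 : ℝ) : ℂ), (0 : ℂ)).1 + q * (((0 : ℝ) : ℂ), (0 : ℂ)).2 ∈ hstrip s' :=
  s4f_zero_mem_hstrip hs (by simp)

theorem s4f_two_s_pos : 0 < 2 * G.s := by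
  have := G.s4c_s_pos
  linarith

theorem s4f_stat_ev (q : ℂ) {z : ℂ × ℂ} (h1 : z.1 + q * z.2 ∈ hstrip G.s)
    (h1' : z.1 + (q + 1) * z.2 ∈ hstrip G.s) (h2 : z.2 ∈ Metric.ball (0 : ℂ) G.r₁) :
    ∀ᶠ w in 𝓝 z, pOutC G.hc (G.Θ (w.1 + q * w.2) w.2) (G.Θ (w.1 + (q + 1) * w.2) w.2)
      = pInC G.hc (G.Θ (w.1 + (q + 1) * w.2) w.2) (G.Θ (w.1 + (q + 2) * w.2) w.2) := by
  filter_upwards [G.s4f_shear_ev q G.s h1 h2, G.s4f_shear_ev (q + 1) G.s h1' h2] with w hw hw'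
  have a := G.refl_out _ hw.1 _ hw.2
  have b := G.refl_in _ hw'.1 _ hw'.2
  have e1 : w.1 + q * w.2 + w.2 = w.1 + (q + 1) * w.2 := by ring
  have e2 : w.1 + (q + 1) * w.2 + w.2 = w.1 + (q + 2) * w.2 := by ring
  rw [e1] at a
  rw [e2] at b
  rw [← a, b]

/-- the chain of lines `L(y + (m + j) t, t)`, `0 ≤ j ≤ n + 1`. -/
noncomputable def cchain (m : ℤ) (n : ℕ) : CChain n where
  h := G.hc
  al := fun j w => G.Θ (w.1 + ((m : ℂ) + j) * w.2) w.2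
  y₀ := 0
  off := m
  al_an := fun j _ => G.s4f_an_Θq _ (s4f_origin_mem _ G.s4f_two_s_pos) G.s4f_zero_mem_ball
  h_an := G.s4c_hc_analytic _ (G.Θ_mem _ (s4f_origin_mem _ G.s4f_two_s_pos) _ G.s4f_zero_mem_ball)
  al_conj := by
    intro j _
    filter_upwards [G.s4f_shear_ev ((m : ℂ) + j) (2 * G.s) (s4f_origin_mem _ G.s4f_two_s_pos)
      G.s4f_zero_mem_ball] with w hw
    show G.Θ ((starRingEnd ℂ) w.1 + ((m : ℂ) + j) * (starRingEnd ℂ) w.2) ((starRingEnd ℂ) w.2) = _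
    rw [← s4f_conj_q]
    exact G.Θ_conj _ hw.1 _ hw.2
  h_conj := by
    filter_upwards [(s4c_isOpen_hstrip G.σ).mem_nhds
      (G.Θ_mem _ (s4f_origin_mem ((m : ℂ) + (0 : ℕ)) G.s4f_two_s_pos) _ G.s4f_zero_mem_ball)] with x hx
    exact G.hc_conj x hx
  edge := by
    intro j _
    refine Eventually.of_forall fun y => ?_
    simp
  slope := by
    intro j _
    have h0 : (((0 : ℝ) : ℂ)) ∈ hstrip (2 * G.s) := s4f_zero_mem_hstrip G.s4f_two_s_pos (by simp)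
    filter_upwards [(s4c_isOpen_hstrip (2 * G.s)).mem_nhds h0] with y hy
    show deriv (fun t => G.Θ (y + ((m : ℂ) + j) * t) t) 0
      = ((((m : ℤ) : ℝ) : ℂ) + j) * deriv (fun y' => G.Θ (y' + ((m : ℂ) + (0 : ℕ)) * 0) 0) y
    rw [G.s4f_deriv_shear _ hy]
    simp
  φ'_pos := by
    show 0 < (deriv (fun y' => G.Θ (y' + ((m : ℂ) + (0 : ℕ)) * 0) 0) ((0 : ℝ) : ℂ)).re
    simpa using G.φ'_pos 0
  rad_pos := by
    have hre : (G.Θ 0 0).im = 0 := by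
      have h := G.Θ_conj 0 (s4f_zero_mem_hstrip G.s4f_two_s_pos (by simp)) 0 G.s4f_zero_mem_ball
      rw [map_zero] at h
      exact Complex.conj_eq_iff_im.mp h.symm
    have hx : G.Θ 0 0 = (((G.Θ 0 0).re : ℝ) : ℂ) := by
      apply Complex.ext <;> simp [hre]
    show 0 < (G.hc (G.Θ (((0 : ℝ) : ℂ) + ((m : ℂ) + (0 : ℕ)) * 0) 0)
      + deriv (deriv G.hc) (G.Θ (((0 : ℝ) : ℂ) + ((m : ℂ) + (0 : ℕ)) * 0) 0)).re
    have e : ((0 : ℝ) : ℂ) + ((m : ℂ) + (0 : ℕ)) * 0 = 0 := by simp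
    rw [e, hx]
    exact G.rad_pos _
  stat := by
    intro j _
    have h := G.s4f_stat_ev ((m : ℂ) + j) (z := (((0 : ℝ) : ℂ), (0 : ℂ))) (s4f_origin_mem _ G.s4c_s_pos)
      (s4f_origin_mem _ G.s4c_s_pos) G.s4f_zero_mem_ball
    filter_upwards [h] with w hw
    show pOutC G.hc (G.Θ (w.1 + ((m : ℂ) + j) * w.2) w.2) (G.Θ (w.1 + ((m : ℂ) + (j + 1 : ℕ)) * w.2) w.2)
      = pInC G.hc (G.Θ (w.1 + ((m : ℂ) + (j + 1 : ℕ)) * w.2) w.2) (G.Θ (w.1 + ((m : ℂ) + (j + 2 : ℕ)) * w.2) w.2)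
    have e1 : (m : ℂ) + ((j + 1 : ℕ) : ℂ) = (m : ℂ) + j + 1 := by push_cast; ring
    have e2 : (m : ℂ) + ((j + 2 : ℕ) : ℂ) = (m : ℂ) + j + 2 := by push_cast; ring
    rw [e1, e2]
    exact hw

/-- the momentum of the `j`-th line of the chain. -/
noncomputable def pch (m : ℤ) (j : ℕ) (w : ℂ × ℂ) : ℂ := G.p (w.1 + ((m : ℂ) + j) * w.2) w.2

/-- `exp (i Θ_j)`. -/
noncomputable def ech (m : ℤ) (j : ℕ) (w : ℂ × ℂ) : ℂ :=
  Complex.exp (Complex.I * G.Θ (w.1 + ((m : ℂ) + j) * w.2) w.2)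

/-- real points `(y,t)` with `|t|` small: all shifted points stay in the domain of the reflection relations. -/
def smallR (N : ℕ) : Set (ℝ × ℝ) := {r | |r.2| < min G.r₁ (G.s / (N + 1))}

theorem rp_mem_dom (N : ℕ) {r : ℝ × ℝ} (hr : r ∈ G.smallR N) : rp r ∈ G.dom N := by
  refine ⟨s4f_zero_mem_hstrip (by have := G.s4c_s_pos; linarith) (by simp [rp]), ?_⟩
  rw [Metric.mem_ball, dist_zero_right]
  show ‖((r.2 : ℝ) : ℂ)‖ < _
  rw [Complex.norm_real]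
  exact hr

section facts

variable {G} {N : ℕ} {r : ℝ × ℝ} (hr : r ∈ G.smallR N) (m : ℤ) (n : ℕ)
include hr

theorem s4f_rp_ball : (rp r).2 ∈ Metric.ball (0 : ℂ) G.r₁ := by
  rw [Metric.mem_ball, dist_zero_right]
  show ‖((r.2 : ℝ) : ℂ)‖ < _
  rw [Complex.norm_real]
  exact lt_of_lt_of_le hr (min_le_left _ _)

omit hr in
theorem s4f_rp_strip (j : ℕ) {s' : ℝ} (hs : 0 < s') : (rp r).1 + ((m : ℂ) + j) * (rp r).2 ∈ hstrip s' := by
  apply s4f_zero_mem_hstrip hs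
  simp [rp]

theorem an_al (j : ℕ) : AnalyticAt ℂ ((G.cchain m n).al j) (rp r) :=
  G.s4f_an_Θq _ (s4f_rp_strip m j G.s4f_two_s_pos) (s4f_rp_ball hr)

theorem an_pch (j : ℕ) : AnalyticAt ℂ (G.pch m j) (rp r) :=
  G.s4f_an_pq _ (s4f_rp_strip m j G.s4f_two_s_pos) (s4f_rp_ball hr)

theorem an_ech (j : ℕ) : AnalyticAt ℂ (G.ech m j) (rp r) :=
  (analyticAt_const.mul (an_al hr m 0 j)).cexp

theorem s4f_an_ps (i : ℕ) : AnalyticAt ℂ ((G.cchain m n).ps i) (rp r) :=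
  ((an_al hr m n i).add (an_al hr m n (i + 1))).div analyticAt_const two_ne_zero

theorem s4f_an_dd (i : ℕ) : AnalyticAt ℂ ((G.cchain m n).dd i) (rp r) :=
  ((an_al hr m n (i + 1)).sub (an_al hr m n i)).div analyticAt_const two_ne_zero

theorem s4f_al_im (j : ℕ) : ((G.cchain m n).al j (rp r)).im = 0 := by
  have h := G.Θ_conj _ (s4f_rp_strip (r := r) m j G.s4f_two_s_pos) _ (s4f_rp_ball hr)
  rw [s4f_conj_q] at h
  have e1 : (starRingEnd ℂ) (rp r).1 = (rp r).1 := Complex.conj_ofReal _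
  have e2 : (starRingEnd ℂ) (rp r).2 = (rp r).2 := Complex.conj_ofReal _
  rw [e1, e2] at h
  exact Complex.conj_eq_iff_im.mp h.symm

theorem s4f_ps_mem (i : ℕ) : (G.cchain m n).ps i (rp r) ∈ hstrip G.σ := by
  apply s4f_zero_mem_hstrip G.σ_pos
  unfold CChain.ps
  have h1 := s4f_al_im hr m n i
  have h2 := s4f_al_im hr m n (i + 1)
  have e : (((G.cchain m n).al i (rp r) + (G.cchain m n).al (i + 1) (rp r)) / 2).im
      = (((G.cchain m n).al i (rp r)).im + ((G.cchain m n).al (i + 1) (rp r)).im) / 2 := by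
    simp
  rw [e, h1, h2]
  simp

theorem an_chain (i : ℕ) :
    AnalyticAt ℂ ((G.cchain m n).sd i) (rp r) ∧ AnalyticAt ℂ ((G.cchain m n).cd i) (rp r) ∧
      ∀ l, AnalyticAt ℂ ((G.cchain m n).Hh i l) (rp r) := by
  refine ⟨AnalyticAt.comp (g := Complex.sin) (f := (G.cchain m n).dd i) Complex.analyticAt_sin (s4f_an_dd hr m n i),
    AnalyticAt.comp (g := Complex.cos) (f := (G.cchain m n).dd i) Complex.analyticAt_cos (s4f_an_dd hr m n i),
    fun l => ?_⟩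
  have h1 : AnalyticAt ℂ (iteratedDeriv l G.hc) ((G.cchain m n).ps i (rp r)) := by
    rw [iteratedDeriv_eq_iterate]
    exact (G.s4c_hc_analytic _ (s4f_ps_mem hr m n i)).iterated_deriv l
  exact AnalyticAt.comp (g := iteratedDeriv l G.hc) (f := (G.cchain m n).ps i) h1 (s4f_an_ps hr m n i)

/-- `refl_in`: the momentum of the line `j` seen from the edge `j`. -/
theorem pch_eq_in (j : ℕ) : G.pch m j =ᶠ[𝓝 (rp r)] fun w =>
    (G.cchain m n).Hh j 0 w * (G.cchain m n).cd j w - (G.cchain m n).Hh j 1 w * (G.cchain m n).sd j w := by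
  filter_upwards [G.s4f_shear_ev ((m : ℂ) + j) G.s (s4f_rp_strip m j G.s4c_s_pos) (s4f_rp_ball hr)] with w hw
  have a := G.refl_in _ hw.1 _ hw.2
  have e1 : w.1 + ((m : ℂ) + j) * w.2 + w.2 = w.1 + ((m : ℂ) + (j + 1 : ℕ)) * w.2 := by push_cast; ring
  rw [e1] at a
  unfold pch
  rw [a]
  simp only [pInC, CChain.Hh, CChain.cd, CChain.sd, CChain.ps, CChain.dd, iteratedDeriv_zero, iteratedDeriv_one]
  rfl

/-- `refl_out`: the momentum of the line `j + 1` seen from the edge `j`. -/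
theorem pch_eq_out (j : ℕ) : G.pch m (j + 1) =ᶠ[𝓝 (rp r)] fun w =>
    (G.cchain m n).Hh j 0 w * (G.cchain m n).cd j w + (G.cchain m n).Hh j 1 w * (G.cchain m n).sd j w := by
  filter_upwards [G.s4f_shear_ev ((m : ℂ) + j) G.s (s4f_rp_strip m j G.s4c_s_pos) (s4f_rp_ball hr)] with w hw
  have a := G.refl_out _ hw.1 _ hw.2
  have e1 : w.1 + ((m : ℂ) + j) * w.2 + w.2 = w.1 + ((m : ℂ) + (j + 1 : ℕ)) * w.2 := by push_cast; ring
  rw [e1] at a
  unfold pch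
  rw [a]
  simp only [pOutC, CChain.Hh, CChain.cd, CChain.sd, CChain.ps, CChain.dd, iteratedDeriv_zero, iteratedDeriv_one]
  rfl

/-- `exp (i Θ_{j+1}) = exp (i Θ_j) (cos d_j + i sin d_j)²`. -/
theorem ech_succ (j : ℕ) (w : ℂ × ℂ) :
    G.ech m (j + 1) w = G.ech m j w * ((G.cchain m n).cd j w + Complex.I * (G.cchain m n).sd j w) ^ 2 := by
  have h1 : (G.cchain m n).cd j w + Complex.I * (G.cchain m n).sd j w
      = Complex.exp ((G.cchain m n).dd j w * Complex.I) := by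
    rw [Complex.exp_mul_I]
    unfold CChain.cd CChain.sd
    ring
  rw [h1, ← Complex.exp_nat_mul]
  unfold ech
  rw [← Complex.exp_add]
  congr 1
  unfold CChain.dd
  show Complex.I * (G.cchain m n).al (j + 1) w = Complex.I * (G.cchain m n).al j w + _
  push_cast
  ring

end facts

end Glance
end Claimed.Agent.R269
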