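/-
Row 269, P1 Section 4, unit 4F (Theorem 4.3): a derivation which kills the jets of the two end lines kills the end data of the chain.   Statements: helper36.
PROVED (helper36) from the statements of ZTayA/B, LensA, EmbedB (`Lc_analyticAt`): this file has nothing left open.
Derivation calculus in the field `SS` (no analysis beyond `ztay` being a differential ring homomorphism).   `z = rp r`, `Δ = DD δ`, `δ : Dv ℂ` arbitrary; note `δ I = 0`, `δ q = 0` for `q ∈ ℤ`.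

TOOL FOR ALL PROVERS WORKING IN `SS`: `DvS.add/sub/neg/mul/pow/inv/div/of_mul/of_sq` (the constants of a derivation of `SS` form a subfield).  General lemmas over an abstract field `F` must be applied
with an explicit `(F := SS)`, otherwise the unifier runs into `whnf` timeouts (the instance `Field SS` is not found inside unification problems).

(1) `DD_ztay_shear`.  With `S (y,t) = (y + q t, t)`:  `pdy (u ∘ S) = (pdy u) ∘ S`, `pdt (u ∘ S) = (pdt u + q pdy u) ∘ S` near `z`.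
(2) `line_killed`.  `E_j := (Lc 0) ∘ S_{m+j} = ech²`, `P_j := (Lc 1) ∘ S_{m+j} = pch * ech`.
(3) `endKilled_of_jets`.  `p0 = pch m 0`, `pk = pch m (n+1)` near `z` (`pch_eq_in`, `pch_eq_out`);   `rc = (ech (n+1) / ech 0 + ech 0 / ech (n+1)) / 2`,  `rs = (ech 0 / ech (n+1) - ech (n+1) / ech 0) I / 2`.
-/
import Claimed.Agent.R269.S4.LensA
import Claimed.Agent.R269.S4.EmbedB

set_option autoImplicit false
set_option linter.unusedSectionVars false

namespace Claimed.Agent.R269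

open Filter Topology ZT

/-! ### the constants of a derivation form a subfield -/

namespace DvK

variable {F : Type*} [Field F] (Δ : Dv F) {x y : F}

theorem add (hx : Δ x = 0) (hy : Δ y = 0) : Δ (x + y) = 0 := by rw [map_add, hx, hy, add_zero]

theorem sub (hx : Δ x = 0) (hy : Δ y = 0) : Δ (x - y) = 0 := by rw [map_sub, hx, hy, sub_zero]

theorem neg (hx : Δ x = 0) : Δ (-x) = 0 := by rw [map_neg, hx, neg_zero]

theorem mul (hx : Δ x = 0) (hy : Δ y = 0) : Δ (x * y) = 0 := by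
  rw [Δ.leibniz, hx, hy, mul_zero, mul_zero, add_zero]

theorem pow (hx : Δ x = 0) (n : ℕ) : Δ (x ^ n) = 0 := by rw [Δ.map_pow, hx, mul_zero]

theorem inv (hx : Δ x = 0) : Δ x⁻¹ = 0 := by rw [Δ.map_inv, hx, neg_zero, zero_div]

theorem div (hx : Δ x = 0) (hy : Δ y = 0) : Δ (x / y) = 0 := by
  rw [div_eq_mul_inv]
  exact mul Δ hx (inv Δ hy)

theorem of_mul (hx : Δ x = 0) (hx0 : x ≠ 0) (h : Δ (x * y) = 0) : Δ y = 0 := by
  rw [Δ.leibniz, hx, mul_zero, add_zero] at h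
  exact (mul_eq_zero.mp h).resolve_left hx0

theorem of_sq [CharZero F] (hx0 : x ≠ 0) (h : Δ (x ^ 2) = 0) : Δ x = 0 := by
  rw [Δ.map_pow] at h
  rcases mul_eq_zero.mp h with h1 | h1
  · exfalso
    rcases mul_eq_zero.mp h1 with h2 | h2
    · exact two_ne_zero (by exact_mod_cast h2)
    · exact pow_ne_zero _ hx0 h2
  · exact h1

end DvK

/-! the same for `SS` (stated separately: unification of the instances on `SS` is expensive). -/

namespace DvS

variable (Δ : Dv SS) {x y : SS}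

theorem add (hx : Δ x = 0) (hy : Δ y = 0) : Δ (x + y) = 0 := DvK.add (F := SS) Δ hx hy

theorem sub (hx : Δ x = 0) (hy : Δ y = 0) : Δ (x - y) = 0 := DvK.sub (F := SS) Δ hx hy

theorem neg (hx : Δ x = 0) : Δ (-x) = 0 := DvK.neg (F := SS) Δ hx

theorem mul (hx : Δ x = 0) (hy : Δ y = 0) : Δ (x * y) = 0 := DvK.mul (F := SS) Δ hx hy

theorem pow (hx : Δ x = 0) (n : ℕ) : Δ (x ^ n) = 0 := DvK.pow (F := SS) Δ hx n

theorem inv (hx : Δ x = 0) : Δ x⁻¹ = 0 := DvK.inv (F := SS) Δ hx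

theorem div (hx : Δ x = 0) (hy : Δ y = 0) : Δ (x / y) = 0 := DvK.div (F := SS) Δ hx hy

theorem of_mul (hx : Δ x = 0) (hx0 : x ≠ 0) (h : Δ (x * y) = 0) : Δ y = 0 := DvK.of_mul (F := SS) Δ hx hx0 h

theorem of_sq (hx0 : x ≠ 0) (h : Δ (x ^ 2) = 0) : Δ x = 0 := DvK.of_sq (F := SS) Δ hx0 h

end DvS

theorem ZT.DD_cst (δ : Dv ℂ) (c : ℂ) : DD δ (cst c) = cst (δ c) := by
  apply ext_cf
  intro a b
  rw [cf_DD, cf_cst, cf_cst]
  split_ifs
  · rfl
  · exact map_zero δ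

theorem ZT.DD_cst_zero (δ : Dv ℂ) {c : ℂ} (hc : δ c = 0) : DD δ (cst c) = 0 := by
  rw [ZT.DD_cst, hc, cst_zero]

/-! ### shears -/

/-- the shear `(y,t) ↦ (y + q t, t)`. -/
def shq (q : ℂ) (w : ℂ × ℂ) : ℂ × ℂ := (w.1 + q * w.2, w.2)

theorem continuous_shq (q : ℂ) : Continuous (shq q) := by
  unfold shq
  fun_prop

theorem pdy_shq (q : ℂ) (u : ℂ × ℂ → ℂ) (w : ℂ × ℂ) : pdy (fun x => u (shq q x)) w = pdy u (shq q w) := by
  show deriv (fun y => u (y + q * w.2, w.2)) w.1 = deriv (fun y => u (y, w.2)) (w.1 + q * w.2)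
  exact deriv_comp_add_const (fun y => u (y, w.2)) (q * w.2) w.1

theorem pdt_shq (q : ℂ) {u : ℂ × ℂ → ℂ} {w : ℂ × ℂ} (hu : DifferentiableAt ℂ u (shq q w)) :
    pdt (fun x => u (shq q x)) w = pdt u (shq q w) + q * pdy u (shq q w) := by
  rw [pdt_eq_fderiv hu, pdy_eq_fderiv hu]
  have g1 : HasDerivAt (fun t : ℂ => ((w.1 + q * t, t) : ℂ × ℂ)) (q, 1) w.2 := by
    have a1 : HasDerivAt (fun t : ℂ => w.1 + q * t) q w.2 := by
      simpa using ((hasDerivAt_id w.2).const_mul q).const_add w.1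
    exact a1.prodMk (hasDerivAt_id w.2)
  have d1 : HasDerivAt (fun t : ℂ => u (w.1 + q * t, t)) (fderiv ℂ u (shq q w) (q, 1)) w.2 :=
    HasFDerivAt.comp_hasDerivAt (l := u) (f := fun t : ℂ => ((w.1 + q * t, t) : ℂ × ℂ)) w.2 hu.hasFDerivAt g1
  have hsplit : ((q, 1) : ℂ × ℂ) = ((0, 1) : ℂ × ℂ) + q • ((1, 0) : ℂ × ℂ) := by
    ext <;> simp
  show deriv (fun t : ℂ => u (w.1 + q * t, t)) w.2 = _
  rw [d1.deriv, hsplit, map_add, map_smul, smul_eq_mul]

/-- analytic at `x₀`, Taylor series at `x₀` killed by `δ`. -/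
def KP (δ : Dv ℂ) (x₀ : ℂ × ℂ) (u : ℂ × ℂ → ℂ) : Prop := AnalyticAt ℂ u x₀ ∧ DD δ (ztay x₀ u) = 0

theorem KP.pdy {δ : Dv ℂ} {x₀ : ℂ × ℂ} {u : ℂ × ℂ → ℂ} (h : KP δ x₀ u) : KP δ x₀ (pdy u) :=
  ⟨analyticAt_pdy h.1, by rw [ztay_pdy h.1, DD_D1, h.2, map_zero]⟩

theorem KP.pdt {δ : Dv ℂ} {x₀ : ℂ × ℂ} {u : ℂ × ℂ → ℂ} (h : KP δ x₀ u) : KP δ x₀ (pdt u) :=
  ⟨analyticAt_pdt h.1, by rw [ztay_pdt h.1, DD_D2, h.2, map_zero]⟩

theorem KP.tq {δ : Dv ℂ} {x₀ : ℂ × ℂ} {u : ℂ × ℂ → ℂ} (h : KP δ x₀ u) {q : ℂ} (hq : δ q = 0) :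
    KP δ x₀ (fun x => R269.pdt u x + q * R269.pdy u x) := by
  have h1 := h.pdt
  have h2 := h.pdy
  have h3 : AnalyticAt ℂ (fun x => q * R269.pdy u x) x₀ := analyticAt_const.mul h2.1
  have e1 : ztay x₀ (fun x => R269.pdt u x + q * R269.pdy u x)
      = ztay x₀ (R269.pdt u) + cst q * ztay x₀ (R269.pdy u) := by
    rw [ztay_add h1.1 h3, ztay_mul (u := fun _ => q) analyticAt_const h2.1, ztay_const]
  constructor
  · exact h1.1.add h3
  · rw [e1]
    exact DvS.add _ h1.2 (DvS.mul _ (ZT.DD_cst_zero δ hq) h2.2)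

theorem KP.value {δ : Dv ℂ} {x₀ : ℂ × ℂ} {u : ℂ × ℂ → ℂ} (h : KP δ x₀ u) : δ (u x₀) = 0 := by
  have h1 : cf (DD δ (ztay x₀ u)) 0 0 = 0 := by
    rw [h.2]
    simp [cf]
  rwa [cf_DD, cf_ztay_zero] at h1

theorem shq_ev_analytic (q : ℂ) {u : ℂ × ℂ → ℂ} {z : ℂ × ℂ} (hu : AnalyticAt ℂ u (shq q z)) :
    ∀ᶠ w in 𝓝 z, AnalyticAt ℂ u (shq q w) :=
  (continuous_shq q).continuousAt.eventually hu.eventually_analyticAt

theorem KP.iter_pdt {δ : Dv ℂ} {q : ℂ} (hq : δ q = 0) {z : ℂ × ℂ} (b : ℕ) :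
    ∀ u : ℂ × ℂ → ℂ, KP δ (shq q z) u →
      ∃ v, KP δ (shq q z) v ∧ (R269.pdt^[b]) (fun x => u (shq q x)) =ᶠ[𝓝 z] fun x => v (shq q x) := by
  induction b with
  | zero => exact fun u hu => ⟨u, hu, EventuallyEq.rfl⟩
  | succ b ih =>
    intro u hu
    obtain ⟨v, hv, hev⟩ := ih u hu
    refine ⟨_, hv.tq hq, ?_⟩
    rw [Function.iterate_succ_apply']
    refine (pdt_congr_nhds' hev).trans ?_
    filter_upwards [shq_ev_analytic q hv.1] with w hw
    exact pdt_shq q hw.differentiableAt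

theorem KP.iter_pdy {δ : Dv ℂ} {q : ℂ} {z : ℂ × ℂ} (a : ℕ) (f : ℂ × ℂ → ℂ) :
    ∀ u : ℂ × ℂ → ℂ, KP δ (shq q z) u → f =ᶠ[𝓝 z] (fun x => u (shq q x)) →
      ∃ v, KP δ (shq q z) v ∧ (R269.pdy^[a]) f =ᶠ[𝓝 z] fun x => v (shq q x) := by
  induction a with
  | zero => exact fun u hu hf => ⟨u, hu, hf⟩
  | succ a ih =>
    intro u hu hf
    obtain ⟨v, hv, hev⟩ := ih u hu hf
    refine ⟨_, hv.pdy, ?_⟩
    rw [Function.iterate_succ_apply']
    refine (pdy_congr_nhds' hev).trans ?_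
    exact Eventually.of_forall fun w => pdy_shq q v w

/-- jets at the sheared point control the Taylor series of the sheared function. -/
theorem DD_ztay_shear (δ : Dv ℂ) (u : ℂ × ℂ → ℂ) (q : ℂ) (hq : δ q = 0) (z : ℂ × ℂ)
    (hu : AnalyticAt ℂ u (z.1 + q * z.2, z.2)) (h : ∀ a b : ℕ, δ (pd a b u (z.1 + q * z.2, z.2)) = 0) :
    DD δ (ztay z (fun w => u (w.1 + q * w.2, w.2))) = 0 := by
  have hK : KP δ (shq q z) u := ⟨hu, (DD_ztay_eq_zero_iff δ _ u).mpr h⟩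
  rw [DD_ztay_eq_zero_iff]
  intro a b
  obtain ⟨v, hv, hev⟩ := KP.iter_pdt hq b u hK
  obtain ⟨v', hv', hev'⟩ := KP.iter_pdy a _ v hv hev
  have : pd a b (fun w => u (w.1 + q * w.2, w.2)) z = v' (shq q z) := hev'.self_of_nhds
  rw [this]
  exact hv'.value

namespace Glance

variable {G : Glance} {N : ℕ} {r : ℝ × ℝ}

theorem s4f_dv_q (δ : Dv ℂ) (m : ℤ) (j : ℕ) : δ ((m : ℂ) + j) = 0 := by
  rw [map_add, δ.map_intCast, δ.map_natCast, add_zero]

theorem s4f_ech_ne (m : ℤ) (j : ℕ) (z : ℂ × ℂ) : ztay z (G.ech m j) ≠ 0 := by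
  apply ne_zero_of_cf
  rw [cf_ztay_zero]
  exact Complex.exp_ne_zero _

theorem s4f_cstI_ne : cst Complex.I ≠ 0 := by
  apply ne_zero_of_cf
  rw [cf_cst]
  simp

/-- `∂ exp(iΘ_j) = i exp(iΘ_j) ∂Θ_j`, on Taylor series. -/
theorem s4f_D1_ech (hr : r ∈ G.smallR N) (m : ℤ) (n : ℕ) (j : ℕ) :
    D1 (ztay (rp r) (G.ech m j)) = cst Complex.I * ztay (rp r) (G.ech m j) * ztay (rp r) (pdy ((G.cchain m n).al j)) := by
  have ha := an_al hr m n j
  have he := an_ech hr m j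
  have hf : AnalyticAt ℂ (fun x : ℂ => Complex.exp (Complex.I * x)) ((G.cchain m n).al j (rp r)) :=
    (analyticAt_const.mul analyticAt_id).cexp
  have h1 := pdy_comp ha hf
  have hd : ∀ x : ℂ, deriv (fun x : ℂ => Complex.exp (Complex.I * x)) x = Complex.I * Complex.exp (Complex.I * x) := by
    intro x
    have : HasDerivAt (fun x : ℂ => Complex.exp (Complex.I * x)) (Complex.exp (Complex.I * x) * (Complex.I * 1)) x :=
      ((hasDerivAt_id x).const_mul Complex.I).cexp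
    rw [this.deriv]
    ring
  have h2 : pdy (G.ech m j) =ᶠ[𝓝 (rp r)] fun w => (Complex.I * G.ech m j w) * pdy ((G.cchain m n).al j) w := by
    refine h1.trans (Eventually.of_forall fun w => ?_)
    show deriv (fun x : ℂ => Complex.exp (Complex.I * x)) _ * _ = _
    rw [hd]
    rfl
  have hIe : AnalyticAt ℂ (fun w => Complex.I * G.ech m j w) (rp r) := analyticAt_const.mul he
  rw [← ztay_pdy he, ztay_congr h2, ztay_mul hIe (analyticAt_pdy ha), ztay_mul (u := fun _ => Complex.I) analyticAt_const he,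
    ztay_const]

theorem s4f_D2_ech (hr : r ∈ G.smallR N) (m : ℤ) (n : ℕ) (j : ℕ) :
    D2 (ztay (rp r) (G.ech m j)) = cst Complex.I * ztay (rp r) (G.ech m j) * ztay (rp r) (pdt ((G.cchain m n).al j)) := by
  have ha := an_al hr m n j
  have he := an_ech hr m j
  have hf : AnalyticAt ℂ (fun x : ℂ => Complex.exp (Complex.I * x)) ((G.cchain m n).al j (rp r)) :=
    (analyticAt_const.mul analyticAt_id).cexp
  have h1 := pdt_comp ha hf
  have hd : ∀ x : ℂ, deriv (fun x : ℂ => Complex.exp (Complex.I * x)) x = Complex.I * Complex.exp (Complex.I * x) := by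
    intro x
    have : HasDerivAt (fun x : ℂ => Complex.exp (Complex.I * x)) (Complex.exp (Complex.I * x) * (Complex.I * 1)) x :=
      ((hasDerivAt_id x).const_mul Complex.I).cexp
    rw [this.deriv]
    ring
  have h2 : pdt (G.ech m j) =ᶠ[𝓝 (rp r)] fun w => (Complex.I * G.ech m j w) * pdt ((G.cchain m n).al j) w := by
    refine h1.trans (Eventually.of_forall fun w => ?_)
    show deriv (fun x : ℂ => Complex.exp (Complex.I * x)) _ * _ = _
    rw [hd]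
    rfl
  have hIe : AnalyticAt ℂ (fun w => Complex.I * G.ech m j w) (rp r) := analyticAt_const.mul he
  rw [← ztay_pdt he, ztay_congr h2, ztay_mul hIe (analyticAt_pdt ha), ztay_mul (u := fun _ => Complex.I) analyticAt_const he,
    ztay_const]

theorem line_killed (hr : r ∈ G.smallR N) (m : ℤ) (n : ℕ) (δ : Dv ℂ) (j : ℕ)
    (h : ∀ (c : Fin 2) (a b : ℕ), δ (jetAt G.L0 (rp r) (m + j, c, a, b)) = 0) :
    DD δ (ztay (rp r) (G.ech m j)) = 0 ∧ DD δ (ztay (rp r) (G.pch m j)) = 0 ∧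
      DD δ (ztay (rp r) (pdy ((G.cchain m n).al j))) = 0 ∧ DD δ (ztay (rp r) (pdt ((G.cchain m n).al j))) = 0 := by
  have he := an_ech hr m j
  have hp := an_pch hr m j
  have hmem : ((rp r).1 + ((m : ℂ) + j) * (rp r).2, (rp r).2) ∈ hstrip (2 * G.s) ×ˢ Metric.ball (0 : ℂ) G.r₁ :=
    ⟨s4f_rp_strip m j G.s4f_two_s_pos, s4f_rp_ball hr⟩
  have hjet : ∀ c : Fin 2, DD δ (ztay (rp r) (fun w => G.Lc c (w.1 + ((m : ℂ) + j) * w.2, w.2))) = 0 := by
    intro c
    apply DD_ztay_shear δ (G.Lc c) _ (s4f_dv_q δ m j) (rp r) (G.Lc_analyticAt c hmem)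
    intro a b
    have := h c a b
    unfold jetAt at this
    have e : (fun w => crd c (G.L0 w)) = G.Lc c := rfl
    simpa [e] using this
  have hε0 := s4f_ech_ne (G := G) m j (rp r)
  -- `E_j = ech²`
  have hE : ztay (rp r) (fun w => G.Lc 0 (w.1 + ((m : ℂ) + j) * w.2, w.2)) = ztay (rp r) (G.ech m j) ^ 2 := by
    rw [← ztay_pow he]
    congr 1
    funext w
    show Complex.exp (2 * Complex.I * G.Θ _ _) = Complex.exp (Complex.I * G.Θ _ _) ^ 2
    rw [← Complex.exp_nat_mul]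
    congr 1
    push_cast
    ring
  have hP : ztay (rp r) (fun w => G.Lc 1 (w.1 + ((m : ℂ) + j) * w.2, w.2))
      = ztay (rp r) (G.ech m j) * ztay (rp r) (G.pch m j) := by
    rw [← ztay_mul he hp]
    congr 1
    funext w
    show G.p _ _ * Complex.exp (Complex.I * G.Θ _ _) = Complex.exp (Complex.I * G.Θ _ _) * G.p _ _
    ring
  have k1 : DD δ (ztay (rp r) (G.ech m j)) = 0 := by
    apply DvS.of_sq _ hε0
    rw [← hE]
    exact hjet 0
  have k2 : DD δ (ztay (rp r) (G.pch m j)) = 0 := by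
    apply DvS.of_mul _ k1 hε0
    rw [← hP]
    exact hjet 1
  have kI : DD δ (cst Complex.I * ztay (rp r) (G.ech m j)) = 0 := DvS.mul _ (ZT.DD_cst_zero δ δ.map_I) k1
  have hI0 : cst Complex.I * ztay (rp r) (G.ech m j) ≠ 0 := mul_ne_zero s4f_cstI_ne hε0
  refine ⟨k1, k2, ?_, ?_⟩
  · apply DvS.of_mul _ kI hI0
    rw [← s4f_D1_ech hr m n j, DD_D1, k1, map_zero]
  · apply DvS.of_mul _ kI hI0
    rw [← s4f_D2_ech hr m n j, DD_D2, k1, map_zero]

theorem s4f_dv_half (δ : Dv ℂ) : δ ((2 : ℂ)⁻¹) = 0 := by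
  have h2 : δ (2 : ℂ) = 0 := by
    have := δ.map_natCast 2
    simpa using this
  rw [δ.map_inv, h2, neg_zero, zero_div]

theorem s4f_rc_eq (m : ℤ) (n : ℕ) (w : ℂ × ℂ) :
    (G.cchain m n).rc w = (2 : ℂ)⁻¹ * (G.ech m (n + 1) w / G.ech m 0 w + G.ech m 0 w / G.ech m (n + 1) w) := by
  unfold CChain.rc ech
  rw [Complex.cos, ← Complex.exp_sub, ← Complex.exp_sub]
  show (Complex.exp ((G.Θ _ _ - G.Θ _ _) * Complex.I) + Complex.exp (-(G.Θ _ _ - G.Θ _ _) * Complex.I)) / 2 = _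
  rw [div_eq_inv_mul]
  congr 2
  · congr 1
    ring
  · congr 1
    ring

theorem s4f_rs_eq (m : ℤ) (n : ℕ) (w : ℂ × ℂ) :
    (G.cchain m n).rs w
      = ((2 : ℂ)⁻¹ * Complex.I) * (G.ech m 0 w / G.ech m (n + 1) w - G.ech m (n + 1) w / G.ech m 0 w) := by
  unfold CChain.rs ech
  rw [Complex.sin, ← Complex.exp_sub, ← Complex.exp_sub]
  show (Complex.exp (-(G.Θ _ _ - G.Θ _ _) * Complex.I) - Complex.exp ((G.Θ _ _ - G.Θ _ _) * Complex.I)) * Complex.I / 2 = _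
  have e1 : ∀ x y : ℂ, -(x - y) * Complex.I = Complex.I * y - Complex.I * x := fun x y => by ring
  have e2 : ∀ x y : ℂ, (x - y) * Complex.I = Complex.I * x - Complex.I * y := fun x y => by ring
  rw [e1, e2]
  ring_nf

theorem endKilled_of_jets (hr : r ∈ G.smallR N) (m : ℤ) (n : ℕ) (δ : Dv ℂ)
    (h0 : ∀ (c : Fin 2) (a b : ℕ), δ (jetAt G.L0 (rp r) (m, c, a, b)) = 0)
    (h1 : ∀ (c : Fin 2) (a b : ℕ), δ (jetAt G.L0 (rp r) (m + n + 1, c, a, b)) = 0) :
    (G.cchain m n).EndKilled (rp r) δ := by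
  obtain ⟨a1, a2, a3, a4⟩ := line_killed hr m n δ 0 (by
    intro c a b
    have := h0 c a b
    simpa using this)
  obtain ⟨b1, b2, b3, b4⟩ := line_killed hr m n δ (n + 1) (by
    intro c a b
    have := h1 c a b
    have e : m + ((n + 1 : ℕ) : ℤ) = m + n + 1 := by push_cast; ring
    rw [e]
    exact this)
  have hea := an_ech hr m 0
  have heb := an_ech hr m (n + 1)
  have hea0 : G.ech m 0 (rp r) ≠ 0 := Complex.exp_ne_zero _
  have heb0 : G.ech m (n + 1) (rp r) ≠ 0 := Complex.exp_ne_zero _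
  have q1 : AnalyticAt ℂ (fun w => G.ech m (n + 1) w / G.ech m 0 w) (rp r) := heb.div hea hea0
  have q2 : AnalyticAt ℂ (fun w => G.ech m 0 w / G.ech m (n + 1) w) (rp r) := hea.div heb heb0
  have k1 : DD δ (ztay (rp r) (fun w => G.ech m (n + 1) w / G.ech m 0 w)) = 0 := by
    rw [ztay_div heb hea hea0]
    exact DvS.div _ b1 a1
  have k2 : DD δ (ztay (rp r) (fun w => G.ech m 0 w / G.ech m (n + 1) w)) = 0 := by
    rw [ztay_div hea heb heb0]
    exact DvS.div _ a1 b1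
  refine ⟨a3, a4, b3, b4, ?_, ?_, ?_, ?_⟩
  · have e : (G.cchain m n).p0 =ᶠ[𝓝 (rp r)] G.pch m 0 := (pch_eq_in hr m n 0).symm
    rw [ztay_congr e]
    exact a2
  · have e : (G.cchain m n).pk =ᶠ[𝓝 (rp r)] G.pch m (n + 1) := (pch_eq_out hr m n n).symm
    rw [ztay_congr e]
    exact b2
  · have e : (G.cchain m n).rc
        = fun w => (2 : ℂ)⁻¹ * (G.ech m (n + 1) w / G.ech m 0 w + G.ech m 0 w / G.ech m (n + 1) w) :=
      funext (s4f_rc_eq m n)
    have q3 : AnalyticAt ℂ (fun w => G.ech m (n + 1) w / G.ech m 0 w + G.ech m 0 w / G.ech m (n + 1) w) (rp r) :=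
      q1.add q2
    rw [e, ztay_mul (u := fun _ => (2 : ℂ)⁻¹) analyticAt_const q3, ztay_const, ztay_add q1 q2]
    exact DvS.mul _ (ZT.DD_cst_zero δ (s4f_dv_half δ)) (DvS.add _ k1 k2)
  · have e : (G.cchain m n).rs
        = fun w => ((2 : ℂ)⁻¹ * Complex.I) * (G.ech m 0 w / G.ech m (n + 1) w - G.ech m (n + 1) w / G.ech m 0 w) :=
      funext (s4f_rs_eq m n)
    have hc : δ ((2 : ℂ)⁻¹ * Complex.I) = 0 := by
      rw [δ.leibniz, δ.map_I, s4f_dv_half, mul_zero, mul_zero, add_zero]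
    have q3 : AnalyticAt ℂ (fun w => G.ech m 0 w / G.ech m (n + 1) w - G.ech m (n + 1) w / G.ech m 0 w) (rp r) :=
      q2.sub q1
    rw [e, ztay_mul (u := fun _ => (2 : ℂ)⁻¹ * Complex.I) analyticAt_const q3, ztay_const, ztay_sub q2 q1]
    exact DvS.mul _ (ZT.DD_cst_zero δ hc) (DvS.sub _ k2 k1)

end Glance

end Claimed.Agent.R269
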