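/-
Row 269, P1 Section 4, unit 4F (Theorem 4.3): from the core to the intermediate lines; conjugate jets.   Statements: helper36.
PROVED (helper36) from the statements of ZTayA/B, LensA, LensB, EmbedB (`Lc_analyticAt`): this file has nothing left open.
Derivation calculus in `SS`, as in LensB.

(1) `mid_killed`.  `Δ (ztay z (ech m 0)) = 0` (`line_killed`, `j = 0`).  By induction with `ech_succ`:  `Δ (ztay z (ech m j)) = 0` for `j ≤ n + 1`.
    `pch m j = Hh j 0 * cd j - Hh j 1 * sd j` near `z` (`pch_eq_in`), so `Δ (ztay z (pch m j)) = 0` for `j ≤ n`.    Constant terms:  `δ (ech m j z) = 0`, `δ (pch m j z) = 0`;  `L0 (S z) = (ech², pch * ech)`.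
(2) `conj_jet_killed`.  At the REAL point `z' = (r.1 + j r.2, r.2)`:   `conj (pd a b u z') = pd a b u♯ z'`, `u♯ w = conj (u (conj w))`, and near `z'`
    `(Lc 0)♯ = 1 / Lc 0`,  `(Lc 1)♯ = Lc 1 / Lc 0`  (`Θ_conj`, `p_conj`).
-/
import Claimed.Agent.R269.S4.LensB

set_option autoImplicit false
set_option linter.unusedSectionVars false

namespace Claimed.Agent.R269

open Filter Topology ZT

/-- `u♯ (w) = conj (u (conj w))`. -/
noncomputable def shp (u : ℂ × ℂ → ℂ) (w : ℂ × ℂ) : ℂ :=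
  (starRingEnd ℂ) (u ((starRingEnd ℂ) w.1, (starRingEnd ℂ) w.2))

theorem pdy_shp (u : ℂ × ℂ → ℂ) : pdy (shp u) = shp (pdy u) := by
  funext w
  show deriv ((starRingEnd ℂ) ∘ (fun y => u (y, (starRingEnd ℂ) w.2)) ∘ (starRingEnd ℂ)) w.1 = _
  rw [deriv_conj_conj]
  rfl

theorem pdt_shp (u : ℂ × ℂ → ℂ) : pdt (shp u) = shp (pdt u) := by
  funext w
  show deriv ((starRingEnd ℂ) ∘ (fun t => u ((starRingEnd ℂ) w.1, t)) ∘ (starRingEnd ℂ)) w.2 = _
  rw [deriv_conj_conj]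
  rfl

theorem pd_shp (a b : ℕ) (u : ℂ × ℂ → ℂ) : pd a b (shp u) = shp (pd a b u) := by
  have h1 : ∀ b : ℕ, (pdt^[b]) (shp u) = shp ((pdt^[b]) u) := by
    intro b
    induction b with
    | zero => rfl
    | succ b ih => rw [Function.iterate_succ_apply', Function.iterate_succ_apply', ih, pdt_shp]
  unfold pd
  rw [h1 b]
  induction a with
  | zero => rfl
  | succ a ih => rw [Function.iterate_succ_apply', Function.iterate_succ_apply', ih, pdy_shp]

namespace Glance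

variable {G : Glance} {N : ℕ} {r : ℝ × ℝ}

theorem s4f_value_killed {δ : Dv ℂ} {z : ℂ × ℂ} {u : ℂ × ℂ → ℂ} (h : DD δ (ztay z u) = 0) : δ (u z) = 0 := by
  have h1 : cf (DD δ (ztay z u)) 0 0 = 0 := by
    rw [h]
    simp [cf]
  rwa [cf_DD, cf_ztay_zero] at h1

theorem mid_killed (hr : r ∈ G.smallR N) (m : ℤ) (n : ℕ) (δ : Dv ℂ)
    (h0 : ∀ (c : Fin 2) (a b : ℕ), δ (jetAt G.L0 (rp r) (m, c, a, b)) = 0)
    (hcore : ∀ i ≤ n, DD δ (ztay (rp r) ((G.cchain m n).sd i)) = 0 ∧ DD δ (ztay (rp r) ((G.cchain m n).cd i)) = 0 ∧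
      ∀ l, DD δ (ztay (rp r) ((G.cchain m n).Hh i l)) = 0)
    (j : ℕ) (hj : j ≤ n) (c : Fin 2) :
    δ (crd c (G.L0 ((rp r).1 + ((m : ℂ) + j) * (rp r).2, (rp r).2))) = 0 := by
  have hech : ∀ j ≤ n + 1, DD δ (ztay (rp r) (G.ech m j)) = 0 := by
    intro j
    induction j with
    | zero =>
      intro _
      exact (line_killed hr m n δ 0 (by
        intro c a b
        have := h0 c a b
        simpa using this)).1
    | succ j ih =>
      intro hj
      have hk := ih (by omega)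
      obtain ⟨ks, kc, -⟩ := hcore j (by omega)
      obtain ⟨as, ac, -⟩ := an_chain hr m n j
      have he := an_ech hr m j
      have aIs : AnalyticAt ℂ (fun w => Complex.I * (G.cchain m n).sd j w) (rp r) := analyticAt_const.mul as
      have asum : AnalyticAt ℂ (fun w => (G.cchain m n).cd j w + Complex.I * (G.cchain m n).sd j w) (rp r) :=
        ac.add aIs
      have apow : AnalyticAt ℂ (fun w => ((G.cchain m n).cd j w + Complex.I * (G.cchain m n).sd j w) ^ 2) (rp r) :=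
        asum.pow 2
      have e : G.ech m (j + 1)
          = fun w => G.ech m j w * ((G.cchain m n).cd j w + Complex.I * (G.cchain m n).sd j w) ^ 2 :=
        funext (ech_succ hr m n j)
      rw [e, ztay_mul he apow, ztay_pow asum, ztay_add ac aIs, ztay_mul (u := fun _ => Complex.I) analyticAt_const as,
        ztay_const]
      exact DvS.mul _ hk (DvS.pow _ (DvS.add _ kc (DvS.mul _ (ZT.DD_cst_zero δ δ.map_I) ks)) 2)
  have hpch : DD δ (ztay (rp r) (G.pch m j)) = 0 := by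
    obtain ⟨ks, kc, kH⟩ := hcore j hj
    obtain ⟨as, ac, aH⟩ := an_chain hr m n j
    have a1 : AnalyticAt ℂ (fun w => (G.cchain m n).Hh j 0 w * (G.cchain m n).cd j w) (rp r) := (aH 0).mul ac
    have a2 : AnalyticAt ℂ (fun w => (G.cchain m n).Hh j 1 w * (G.cchain m n).sd j w) (rp r) := (aH 1).mul as
    rw [ztay_congr (pch_eq_in hr m n j), ztay_sub a1 a2, ztay_mul (aH 0) ac, ztay_mul (aH 1) as]
    exact DvS.sub _ (DvS.mul _ (kH 0) kc) (DvS.mul _ (kH 1) ks)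
  have v1 : δ (G.ech m j (rp r)) = 0 := s4f_value_killed (hech j (by omega))
  have v2 : δ (G.pch m j (rp r)) = 0 := s4f_value_killed hpch
  have hc : c = 0 ∨ c = 1 := by
    fin_cases c
    · exact Or.inl rfl
    · exact Or.inr rfl
  rcases hc with rfl | rfl
  · have e : crd 0 (G.L0 ((rp r).1 + ((m : ℂ) + j) * (rp r).2, (rp r).2)) = G.ech m j (rp r) ^ 2 := by
      show Complex.exp (2 * Complex.I * G.Θ _ _) = Complex.exp (Complex.I * G.Θ _ _) ^ 2
      rw [← Complex.exp_nat_mul]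
      congr 1
      push_cast
      ring
    rw [e]
    exact DvK.pow δ v1 2
  · have e : crd 1 (G.L0 ((rp r).1 + ((m : ℂ) + j) * (rp r).2, (rp r).2)) = G.pch m j (rp r) * G.ech m j (rp r) := rfl
    rw [e]
    exact DvK.mul δ v2 v1

theorem s4f_shp_Lc0 {z : ℂ × ℂ} (hz : z ∈ hstrip (2 * G.s) ×ˢ Metric.ball (0 : ℂ) G.r₁) :
    shp (G.Lc 0) =ᶠ[𝓝 z] fun w => (G.Lc 0 w)⁻¹ := by
  filter_upwards [((s4c_isOpen_hstrip (2 * G.s)).prod Metric.isOpen_ball).mem_nhds hz] with w hw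
  show (starRingEnd ℂ) (Complex.exp (2 * Complex.I * G.Θ ((starRingEnd ℂ) w.1) ((starRingEnd ℂ) w.2)))
    = (Complex.exp (2 * Complex.I * G.Θ w.1 w.2))⁻¹
  rw [G.Θ_conj _ hw.1 _ hw.2, ← Complex.exp_conj, ← Complex.exp_neg]
  congr 1
  rw [map_mul, map_mul, Complex.conj_conj, Complex.conj_I, map_ofNat]
  ring

theorem s4f_shp_Lc1 {z : ℂ × ℂ} (hz : z ∈ hstrip (2 * G.s) ×ˢ Metric.ball (0 : ℂ) G.r₁) :
    shp (G.Lc 1) =ᶠ[𝓝 z] fun w => G.Lc 1 w / G.Lc 0 w := by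
  filter_upwards [((s4c_isOpen_hstrip (2 * G.s)).prod Metric.isOpen_ball).mem_nhds hz] with w hw
  show (starRingEnd ℂ) (G.p ((starRingEnd ℂ) w.1) ((starRingEnd ℂ) w.2)
      * Complex.exp (Complex.I * G.Θ ((starRingEnd ℂ) w.1) ((starRingEnd ℂ) w.2)))
    = G.p w.1 w.2 * Complex.exp (Complex.I * G.Θ w.1 w.2) / Complex.exp (2 * Complex.I * G.Θ w.1 w.2)
  rw [G.Θ_conj _ hw.1 _ hw.2, G.p_conj _ hw.1 _ hw.2, map_mul, Complex.conj_conj, ← Complex.exp_conj, mul_div_assoc,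
    ← Complex.exp_sub]
  congr 2
  simp
  ring

theorem conj_jet_killed (hr : r ∈ G.smallR N) (j : ℤ) (δ : Dv ℂ)
    (h : ∀ (c : Fin 2) (a b : ℕ), δ (jetAt G.L0 (rp r) (j, c, a, b)) = 0) (c : Fin 2) (a b : ℕ) :
    δ ((starRingEnd ℂ) (jetAt G.L0 (rp r) (j, c, a, b))) = 0 := by
  set z' : ℂ × ℂ := ((rp r).1 + (j : ℂ) * (rp r).2, (rp r).2) with hz'
  have hmem : z' ∈ hstrip (2 * G.s) ×ˢ Metric.ball (0 : ℂ) G.r₁ := by
    refine ⟨s4f_zero_mem_hstrip G.s4f_two_s_pos ?_, s4f_rp_ball hr⟩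
    simp [hz', rp]
  have hreal : ((starRingEnd ℂ) z'.1, (starRingEnd ℂ) z'.2) = z' := by
    simp [hz', rp]
  have hk : ∀ c : Fin 2, DD δ (ztay z' (G.Lc c)) = 0 := by
    intro c
    rw [DD_ztay_eq_zero_iff]
    intro a b
    exact h c a b
  have e1 : (starRingEnd ℂ) (jetAt G.L0 (rp r) (j, c, a, b)) = pd a b (shp (G.Lc c)) z' := by
    rw [pd_shp]
    show _ = (starRingEnd ℂ) (pd a b (G.Lc c) ((starRingEnd ℂ) z'.1, (starRingEnd ℂ) z'.2))
    rw [hreal]
    rfl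
  rw [e1]
  have a0 := G.Lc_analyticAt 0 hmem
  have a1 := G.Lc_analyticAt 1 hmem
  have hne : G.Lc 0 z' ≠ 0 := Complex.exp_ne_zero _
  have hc : c = 0 ∨ c = 1 := by
    fin_cases c
    · exact Or.inl rfl
    · exact Or.inr rfl
  rcases hc with rfl | rfl
  · rw [(pd_congr_nhds a b (s4f_shp_Lc0 hmem)).self_of_nhds]
    have k : DD δ (ztay z' (fun w => (G.Lc 0 w)⁻¹)) = 0 := by
      rw [ztay_inv a0 hne]
      exact DvS.inv _ (hk 0)
    exact (DD_ztay_eq_zero_iff δ z' _).mp k a b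
  · rw [(pd_congr_nhds a b (s4f_shp_Lc1 hmem)).self_of_nhds]
    have k : DD δ (ztay z' (fun w => G.Lc 1 w / G.Lc 0 w)) = 0 := by
      rw [ztay_div a1 a0 hne]
      exact DvS.div _ (hk 1) (hk 0)
    exact (DD_ztay_eq_zero_iff δ z' _).mp k a b

end Glance

end Claimed.Agent.R269
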