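/-
Row 269, P1 Section 4, unit 4F:  THEOREM 4.3 (line-endpoint determination) in the form `Glance.LensL`.   Statements: helper36.

PROOF (glue).  Let `m < 0 < n'`, `c`, `N` be given; `n := (n' - m - 1).toNat` (so `m + n + 1 = n'`), `j₀ := (-m).toNat` (`1 ≤ j₀ ≤ n`, `m + j₀ = 0`), `C := G.cchain m n` (`C.y₀ = 0`), `η` from `C.core_main`.
`R := {r | |r.1| < η ∧ 0 < r.2 ∧ r.2 < η} ∩ G.smallR N`: open, nonempty, `rp r ∈ G.dom N` (`rp_mem_dom`).   `S := {i : Idx | i.1 = m ∨ i.1 = n'}`, `J i z := jetAt G.L0 z i`, `x z := crd c (G.L0 z)`, `W := G.dom N`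
(`dom_isOpen`, `dom_isPreconnected` of Embed.lean; `J i` is analytic on `W` for `|i.1| ≤ N`: `Lc_analyticAt`, `Emb.analyticAt_pd`, composition with the shear; cf. `eval_jet_analyticOn`).
`lens_values`: for `r ∈ R`, `K := Subfield.closure ({I} ∪ J(rp r))`:
   * conjugates of elements of `K` are algebraic over `K`: `conj_algebraic_of_gen`; `conj I = -I ∈ K`; for a jet use `isAlgebraic_of_dv` + `conj_jet_killed`;
   * `isAlgebraic_of_real_dv`: let `δ : Dv ℝ` with `δ.cx` killing `K`.  `endKilled_of_jets` → `C.EndKilled (rp r) δ.cx` → `core_main` → `mid_killed` with `j = j₀`:  `δ.cx (x (rp r)) = 0`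
     (`(m : ℂ) + j₀ = 0`, `zero_mul`, `add_zero`).
`gen_alg` gives `Pi, A, B, D`.
PROVED (helper36): this file has nothing left open.
-/
import Claimed.Agent.R269.S4.Core
import Claimed.Agent.R269.S4.Gen
import Claimed.Agent.R269.S4.LensC
import Claimed.Agent.R269.S4.Embed

set_option autoImplicit false

namespace Claimed.Agent.R269

open Filter Topology ZT

namespace Glance

variable (G : Glance)

/-- the values of the intermediate line at real points close to the glancing edge are algebraic over the field generated by the jets of the end lines. -/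
theorem lens_values (m n' : ℤ) (hm : m < 0) (hn : 0 < n') (c : Fin 2) (N : ℕ) :
    ∃ η : ℝ, 0 < η ∧ ∀ r : ℝ × ℝ, |r.1| < η → 0 < r.2 → r.2 < η → r ∈ G.smallR N →
      IsAlgebraic (Subfield.closure ({Complex.I} ∪
        {a : ℂ | ∃ i ∈ {i : Idx | i.1 = m ∨ i.1 = n'}, a = jetAt G.L0 (rp r) i})) (crd c (G.L0 (rp r))) := by
  obtain ⟨n, hn'⟩ : ∃ n : ℕ, m + n + 1 = n' := ⟨(n' - m - 1).toNat, by omega⟩
  obtain ⟨j₀, hj₀⟩ : ∃ j₀ : ℕ, m + j₀ = 0 := ⟨(-m).toNat, by omega⟩
  have hj₀n : j₀ ≤ n := by omega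
  obtain ⟨η, hη, hcore⟩ := (G.cchain m n).core_main
  refine ⟨η, hη, ?_⟩
  intro r hr1 hr2 hr3 hr
  set s : Set ℂ := {Complex.I} ∪
        {a : ℂ | ∃ i ∈ {i : Idx | i.1 = m ∨ i.1 = n'}, a = jetAt G.L0 (rp r) i} with hs
  have hjet : ∀ i : Idx, (i.1 = m ∨ i.1 = n') → jetAt G.L0 (rp r) i ∈ Subfield.closure s := fun i hi =>
    Subfield.subset_closure (Or.inr ⟨i, hi, rfl⟩)
  have hI : Complex.I ∈ Subfield.closure s := Subfield.subset_closure (Or.inl rfl)
  apply isAlgebraic_of_real_dv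
  · apply conj_algebraic_of_gen
    rintro a (ha | ⟨i, hi, rfl⟩)
    · rw [Set.mem_singleton_iff] at ha
      rw [ha, Complex.conj_I]
      exact isAlgebraic_algebraMap (⟨-Complex.I, neg_mem hI⟩ : Subfield.closure s)
    · apply isAlgebraic_of_dv
      intro δ hδ
      obtain ⟨j, c', a, b⟩ := i
      refine conj_jet_killed hr j δ (fun c'' a' b' => hδ _ (hjet _ ?_)) c' a b
      exact hi
  · intro δ hδ
    have h0 : ∀ (c : Fin 2) (a b : ℕ), δ.cx (jetAt G.L0 (rp r) (m, c, a, b)) = 0 := fun c a b =>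
      hδ _ (hjet _ (Or.inl rfl))
    have h1 : ∀ (c : Fin 2) (a b : ℕ), δ.cx (jetAt G.L0 (rp r) (m + n + 1, c, a, b)) = 0 := fun c a b =>
      hδ _ (hjet _ (Or.inr hn'))
    have hE := endKilled_of_jets hr m n δ.cx h0 h1
    have hr1' : |r.1 - (G.cchain m n).y₀| < η := by
      show |r.1 - 0| < η
      simpa using hr1
    have hmid := mid_killed hr m n δ.cx h0 (hcore r hr1' hr2 hr3 δ hE) j₀ hj₀n c
    have hz : ((m : ℂ) + (j₀ : ℂ)) = 0 := by exact_mod_cast hj₀
    rw [hz, zero_mul, add_zero] at hmid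
    exact hmid

theorem smallR_isOpen (N : ℕ) : IsOpen (G.smallR N) := by
  have : Continuous fun r : ℝ × ℝ => |r.2| := by fun_prop
  exact isOpen_lt this continuous_const

theorem dom_subset (N : ℕ) : G.dom N ⊆ hstrip (2 * G.s) ×ˢ Metric.ball (0 : ℂ) G.r₁ := by
  have hs : 0 < G.s := G.r₁_pos.trans G.r₁_lt
  rintro ⟨y, t⟩ ⟨hy, ht⟩
  refine ⟨?_, Metric.ball_subset_ball (min_le_left _ _) ht⟩
  have hy' : |y.im| < G.s / 2 := hy
  show |y.im| < 2 * G.s
  linarith

/-- P1 Theorem 4.3. -/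
theorem lensL : G.LensL := by
  intro m n' hm hn c N hmN hnN
  obtain ⟨η, hη, hval⟩ := G.lens_values m n' hm hn c N
  have hs : 0 < G.s := G.r₁_pos.trans G.r₁_lt
  set R : Set (ℝ × ℝ) := {r | |r.1| < η ∧ 0 < r.2 ∧ r.2 < η} ∩ G.smallR N with hR
  have hRo : IsOpen R := by
    refine IsOpen.inter ?_ (G.smallR_isOpen N)
    have h1 : IsOpen {r : ℝ × ℝ | |r.1| < η} := isOpen_lt (by fun_prop) continuous_const
    have h2 : IsOpen {r : ℝ × ℝ | 0 < r.2} := isOpen_lt continuous_const (by fun_prop)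
    have h3 : IsOpen {r : ℝ × ℝ | r.2 < η} := isOpen_lt (by fun_prop) continuous_const
    exact h1.inter (h2.inter h3)
  have hκ : 0 < min G.r₁ (G.s / (N + 1)) := lt_min G.r₁_pos (by positivity)
  have hRne : R.Nonempty := by
    refine ⟨(0, min η (min G.r₁ (G.s / (N + 1))) / 2), ⟨?_, ?_, ?_⟩, ?_⟩
    · simpa using hη
    · show 0 < min η (min G.r₁ (G.s / (N + 1))) / 2
      have := lt_min hη hκ
      linarith
    · show min η (min G.r₁ (G.s / (N + 1))) / 2 < η
      have h1 := min_le_left η (min G.r₁ (G.s / (N + 1)))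
      have := lt_min hη hκ
      linarith
    · show |min η (min G.r₁ (G.s / (N + 1))) / 2| < min G.r₁ (G.s / (N + 1))
      have h1 := min_le_right η (min G.r₁ (G.s / (N + 1)))
      have := lt_min hη hκ
      rw [abs_of_pos (by linarith)]
      linarith
  have hJ : ∀ i ∈ {i : Idx | i.1 = m ∨ i.1 = n'}, AnalyticOnNhd ℂ (fun z => jetAt G.L0 z i) (G.dom N) := by
    intro i hi
    have h := G.eval_jet_analyticOn (MvPolynomial.X i) N (by
      intro i' hi'
      rw [MvPolynomial.vars_X, Finset.mem_singleton] at hi'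
      subst hi'
      rcases hi with h | h
      · rw [h]; exact hmN
      · rw [h]; exact hnN)
    simpa using h
  have hx : AnalyticOnNhd ℂ (fun z => crd c (G.L0 z)) (G.dom N) := fun z hz =>
    G.Lc_analyticAt c (G.dom_subset N hz)
  obtain ⟨Pi, A, B, D, h1, h2, h3, h4, h5, h6, h7, h8⟩ :=
    gen_alg {i : Idx | i.1 = m ∨ i.1 = n'} (G.dom_isOpen N) (G.dom_isPreconnected N)
      (fun i z => jetAt G.L0 z i) hJ (fun z => crd c (G.L0 z)) hx hRo hRne
      (fun r hr => G.rp_mem_dom N hr.2)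
      (fun r hr => hval r hr.1.1 hr.1.2.1 hr.1.2.2 hr.2)
  exact ⟨Pi, A, B, D, h1, h2, h3, h4, h5, h6, h7, h8⟩

/-- the local algebraic statement of unit 4E. -/
theorem alg2 : G.Alg2 := G.alg2_of_lensL G.lensL

end Glance

end Claimed.Agent.R269
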