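/-
Row 269, P1 Section 4, unit 4H (Theorem 4.4): the impacts `X(y + (m+i+1/2) t, t)`, `0 ≤ i ≤ n`, of the chain `G.cchain m n` of a `Glance`; the area coefficient.   Statements: helper183.

`C = G.cchain m n` (LensA): `C.al j w = G.Θ (w.1 + (m + j) w.2) w.2`, `C.h = G.hc` (both by `rfl`), `C.ps i = (al i + al (i+1))/2`.
(1) `X0_shift`: unfold `Glance.X0`, `CChain.ps`; the two arguments agree by `ring` (`push_cast`): `w.1 + (m+i+1/2) w.2 ∓ w.2/2 = w.1 + (m+i) w.2`, `w.1 + (m+(i+1)) w.2`.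
(2) `xch_zero`, `xch_one`: unfold `suppPt`, `crd`, `CChain.Hh`, `iteratedDeriv_zero`, `iteratedDeriv_one`.
(3) analyticity at real points: `an_al` (LensA), `an_chain`, composition with `Complex.cos`, `Complex.sin` (`analyticAt_ccos`/`AnalyticAt.ccos`-type lemmas or `Complex.analyticAt_…`; `DifferentiableAt`-free: `AnalyticAt.comp`).
(4) `area_line`.  With `S (y,t) = (y + q t, t)`, `q = m + j`:  `pdy (u ∘ S) = (pdy u) ∘ S`, `pdt (u ∘ S) = (pdt u + q pdy u) ∘ S` near `z` (chain rule for the analytic functions `u = (fun z => G.p z.1 z.2)`, `(fun z => G.Θ z.1 z.2)`;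
    cf. step (1) of LensB), so the `q`-terms cancel in the determinant, and `G.area` at the point `S w` (`w` near the real point `rp r`: `S w ∈ hstrip (2 s) × ball 0 r₁`, an open condition which holds at `rp r`).
    `pdy u z = deriv (fun y => u (y, z.2)) z.1` is definitionally the derivative occurring in `G.area`.
(5) `ztay_ar0_eq`, `ztay_arn_eq`:  `C.pOF 0 =ᶠ G.pch m 1` (`pch_eq_out`, `j = 0`), `C.pIF n =ᶠ G.pch m n` (`pch_eq_in`, `j = n`).   If `u =ᶠ[𝓝 z] v` then `pdy u =ᶠ[𝓝 z] pdy v`, `pdt u =ᶠ[𝓝 z] pdt v`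
    (take an open neighbourhood on which `u = v`; `Filter.EventuallyEq.deriv_eq` on slices).   Then `ztay_congr` with `area_line`.
(6) `A_conj`: apply `G.area` at `(0, t)` and at `(0, conj t)`;  `deriv (fun y => p y (conj t)) (conj y) = conj (deriv (fun y => p y t) y)` etc. from `p_conj`, `Θ_conj` (`deriv_conj_conj`-type lemma:
    if `f (conj x) = conj (g x)` near … ; Mathlib: `HasDerivAt.conj_conj`, `deriv_conj_conj`).   `iteratedDeriv_A_real`: by induction, `iteratedDeriv b A (conj t) = conj (iteratedDeriv b A t)` on the ball; at real `t` the value is real.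
PROVED (helper127): this file has nothing left open.  (imports LensC for `shp`, `shq`.)
-/
import Claimed.Agent.R269.S4.LensA
import Claimed.Agent.R269.S4.ChainP
import Claimed.Agent.R269.S4.LensC

set_option autoImplicit false

namespace Claimed.Agent.R269

open Filter Topology ZT

namespace Glance

variable (G : Glance)

/-- the coordinates of the `i`-th impact of the chain. -/
noncomputable def xch (m : ℤ) (i : ℕ) (c : Fin 2) (w : ℂ × ℂ) : ℂ :=
  crd c (G.X0 (w.1 + ((((m + i : ℤ) : ℂ)) + 1 / 2) * w.2, w.2))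

theorem X0_shift (m : ℤ) (n i : ℕ) (w : ℂ × ℂ) :
    G.X0 (w.1 + ((((m + i : ℤ) : ℂ)) + 1 / 2) * w.2, w.2) = suppPt G.hc ((G.cchain m n).ps i w) := by
  unfold Glance.X0 CChain.ps
  show suppPt G.hc ((G.Θ (w.1 + ((((m + i : ℤ) : ℂ)) + 1 / 2) * w.2 - w.2 / 2) w.2
      + G.Θ (w.1 + ((((m + i : ℤ) : ℂ)) + 1 / 2) * w.2 + w.2 / 2) w.2) / 2)
    = suppPt G.hc ((G.Θ (w.1 + ((m : ℂ) + i) * w.2) w.2
      + G.Θ (w.1 + ((m : ℂ) + (i + 1 : ℕ)) * w.2) w.2) / 2)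
  have e1 : w.1 + ((((m + i : ℤ) : ℂ)) + 1 / 2) * w.2 - w.2 / 2 = w.1 + ((m : ℂ) + i) * w.2 := by
    push_cast; ring
  have e2 : w.1 + ((((m + i : ℤ) : ℂ)) + 1 / 2) * w.2 + w.2 / 2
      = w.1 + ((m : ℂ) + (i + 1 : ℕ)) * w.2 := by
    push_cast; ring
  rw [e1, e2]

theorem xch_zero (m : ℤ) (n i : ℕ) (w : ℂ × ℂ) :
    G.xch m i 0 w = (G.cchain m n).Hh i 0 w * Complex.cos ((G.cchain m n).ps i w)
      - (G.cchain m n).Hh i 1 w * Complex.sin ((G.cchain m n).ps i w) := by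
  unfold xch
  rw [G.X0_shift m n i w]
  simp only [suppPt, crd, CChain.Hh, iteratedDeriv_zero, iteratedDeriv_one, if_true]
  rfl

theorem xch_one (m : ℤ) (n i : ℕ) (w : ℂ × ℂ) :
    G.xch m i 1 w = (G.cchain m n).Hh i 0 w * Complex.sin ((G.cchain m n).ps i w)
      + (G.cchain m n).Hh i 1 w * Complex.cos ((G.cchain m n).ps i w) := by
  unfold xch
  rw [G.X0_shift m n i w]
  simp only [suppPt, crd, CChain.Hh, iteratedDeriv_zero, iteratedDeriv_one]
  rfl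

theorem lpa_mean_mem {a b : ℂ} {s' : ℝ} (ha : a ∈ hstrip s') (hb : b ∈ hstrip s') :
    (a + b) / 2 ∈ hstrip s' := by
  have h1 : |a.im| < s' := ha
  have h2 : |b.im| < s' := hb
  show |((a + b) / 2).im| < s'
  have e : ((a + b) / 2).im = (a.im + b.im) / 2 := by simp
  rw [e]
  rw [abs_lt] at h1 h2 ⊢
  constructor <;> linarith [h1.1, h1.2, h2.1, h2.2]

/-- `X0` is analytic where the two neighbouring lines are defined. -/
theorem X0_analyticAt (c : Fin 2) {z : ℂ × ℂ} (h1 : z.1 - z.2 / 2 ∈ hstrip (2 * G.s)) (h2 : z.1 + z.2 / 2 ∈ hstrip (2 * G.s))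
    (h3 : z.2 ∈ Metric.ball (0 : ℂ) G.r₁) : AnalyticAt ℂ (fun w => crd c (G.X0 w)) z := by
  have a1 : AnalyticAt ℂ (fun w : ℂ × ℂ => G.Θ (w.1 - w.2 / 2) w.2) z :=
    G.s4c_Θ_comp (analyticAt_fst.sub (analyticAt_snd.div analyticAt_const (by norm_num))) h1 h3
  have a2 : AnalyticAt ℂ (fun w : ℂ × ℂ => G.Θ (w.1 + w.2 / 2) w.2) z :=
    G.s4c_Θ_comp (analyticAt_fst.add (analyticAt_snd.div analyticAt_const (by norm_num))) h2 h3
  have hψ : AnalyticAt ℂ G.ψm z := (a1.add a2).div analyticAt_const (by norm_num)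
  have hm : G.ψm z ∈ hstrip G.σ := lpa_mean_mem (G.Θ_mem _ h1 _ h3) (G.Θ_mem _ h2 _ h3)
  have b1 : AnalyticAt ℂ (fun w => G.hc (G.ψm w)) z := (G.s4c_hc_analytic _ hm).comp hψ
  have b2 : AnalyticAt ℂ (fun w => deriv G.hc (G.ψm w)) z := (G.s4c_deriv_hc_analytic _ hm).comp hψ
  have hc : c = 0 ∨ c = 1 := by
    fin_cases c
    · exact Or.inl rfl
    · exact Or.inr rfl
  rcases hc with rfl | rfl
  · exact (b1.mul (Complex.analyticAt_cos.comp hψ)).sub (b2.mul (Complex.analyticAt_sin.comp hψ))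
  · exact (b1.mul (Complex.analyticAt_sin.comp hψ)).add (b2.mul (Complex.analyticAt_cos.comp hψ))

theorem A_analyticAt {t : ℂ} (ht : t ∈ Metric.ball (0 : ℂ) G.r₁) : AnalyticAt ℂ G.A t :=
  G.A_diff.analyticAt (Metric.isOpen_ball.mem_nhds ht)

/-- a function with the real symmetry near `z`: its partial derivatives at the conjugate point. -/
theorem lpa_pdy_conj {u : ℂ × ℂ → ℂ} {z : ℂ × ℂ} (h : shp u =ᶠ[𝓝 z] u) :
    pdy u ((starRingEnd ℂ) z.1, (starRingEnd ℂ) z.2) = (starRingEnd ℂ) (pdy u z) := by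
  have h1 := pdy_congr_nhds h
  rw [pdy_shp] at h1
  rw [← h1]
  unfold shp
  rw [Complex.conj_conj]

theorem lpa_pdt_conj {u : ℂ × ℂ → ℂ} {z : ℂ × ℂ} (h : shp u =ᶠ[𝓝 z] u) :
    pdt u ((starRingEnd ℂ) z.1, (starRingEnd ℂ) z.2) = (starRingEnd ℂ) (pdt u z) := by
  have h1 := pdt_congr_nhds h
  rw [pdt_shp] at h1
  rw [← h1]
  unfold shp
  rw [Complex.conj_conj]

theorem lpa_shp_p {z : ℂ × ℂ} (hz : z ∈ hstrip (2 * G.s) ×ˢ Metric.ball (0 : ℂ) G.r₁) :
    shp (fun w : ℂ × ℂ => G.p w.1 w.2) =ᶠ[𝓝 z] fun w : ℂ × ℂ => G.p w.1 w.2 := by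
  filter_upwards [((s4c_isOpen_hstrip (2 * G.s)).prod Metric.isOpen_ball).mem_nhds hz] with w hw
  show (starRingEnd ℂ) (G.p ((starRingEnd ℂ) w.1) ((starRingEnd ℂ) w.2)) = G.p w.1 w.2
  rw [G.p_conj _ hw.1 _ hw.2, Complex.conj_conj]

theorem lpa_shp_Θ {z : ℂ × ℂ} (hz : z ∈ hstrip (2 * G.s) ×ˢ Metric.ball (0 : ℂ) G.r₁) :
    shp (fun w : ℂ × ℂ => G.Θ w.1 w.2) =ᶠ[𝓝 z] fun w : ℂ × ℂ => G.Θ w.1 w.2 := by
  filter_upwards [((s4c_isOpen_hstrip (2 * G.s)).prod Metric.isOpen_ball).mem_nhds hz] with w hw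
  show (starRingEnd ℂ) (G.Θ ((starRingEnd ℂ) w.1) ((starRingEnd ℂ) w.2)) = G.Θ w.1 w.2
  rw [G.Θ_conj _ hw.1 _ hw.2, Complex.conj_conj]

/-- `G.area` in terms of `pdy`, `pdt`. -/
theorem lpa_area {z : ℂ × ℂ} (hz : z ∈ hstrip (2 * G.s) ×ˢ Metric.ball (0 : ℂ) G.r₁) :
    pdy (fun w : ℂ × ℂ => G.p w.1 w.2) z * pdt (fun w : ℂ × ℂ => G.Θ w.1 w.2) z
      - pdt (fun w : ℂ × ℂ => G.p w.1 w.2) z * pdy (fun w : ℂ × ℂ => G.Θ w.1 w.2) z = G.A z.2 :=
  G.area z.1 hz.1 z.2 hz.2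

theorem A_conj {t : ℂ} (ht : t ∈ Metric.ball (0 : ℂ) G.r₁) : G.A ((starRingEnd ℂ) t) = (starRingEnd ℂ) (G.A t) := by
  have h0 : (0 : ℂ) ∈ hstrip (2 * G.s) := s4f_zero_mem_hstrip G.s4f_two_s_pos (by simp)
  have hz : ((0, t) : ℂ × ℂ) ∈ hstrip (2 * G.s) ×ˢ Metric.ball (0 : ℂ) G.r₁ := ⟨h0, ht⟩
  have ht' : (starRingEnd ℂ) t ∈ Metric.ball (0 : ℂ) G.r₁ := by
    simpa [Metric.mem_ball, dist_zero_right] using ht
  have hz' : (((starRingEnd ℂ) (0 : ℂ), (starRingEnd ℂ) t) : ℂ × ℂ) ∈ hstrip (2 * G.s) ×ˢ Metric.ball (0 : ℂ) G.r₁ := by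
    rw [map_zero]
    exact ⟨h0, ht'⟩
  have a1 := G.lpa_area hz
  have a2 := G.lpa_area hz'
  have b1 := lpa_pdy_conj (G.lpa_shp_p hz)
  have b2 := lpa_pdt_conj (G.lpa_shp_p hz)
  have b3 := lpa_pdy_conj (G.lpa_shp_Θ hz)
  have b4 := lpa_pdt_conj (G.lpa_shp_Θ hz)
  simp only at b1 b2 b3 b4 a1 a2
  rw [b1, b2, b3, b4] at a2
  rw [← a2, ← a1]
  simp only [map_sub, map_mul]

theorem lpa_iteratedDeriv_A_conj (b : ℕ) : ∀ t ∈ Metric.ball (0 : ℂ) G.r₁,
    iteratedDeriv b G.A ((starRingEnd ℂ) t) = (starRingEnd ℂ) (iteratedDeriv b G.A t) := by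
  induction b with
  | zero =>
    intro t ht
    simpa using G.A_conj ht
  | succ b ih =>
    intro t ht
    rw [iteratedDeriv_succ]
    have h1 : ((starRingEnd ℂ) ∘ iteratedDeriv b G.A ∘ (starRingEnd ℂ)) =ᶠ[𝓝 t] iteratedDeriv b G.A := by
      filter_upwards [Metric.isOpen_ball.mem_nhds ht] with x hx
      simp only [Function.comp_apply]
      rw [ih x hx, Complex.conj_conj]
    have h2 := h1.deriv_eq
    rw [deriv_conj_conj] at h2
    simp only [Function.comp_apply] at h2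
    rw [← h2, Complex.conj_conj]

section facts

variable {G} {N : ℕ} {r : ℝ × ℝ} (hr : r ∈ G.smallR N) (m : ℤ) (n : ℕ)
include hr

theorem an_psG (i : ℕ) : AnalyticAt ℂ ((G.cchain m n).ps i) (rp r) := s4f_an_ps hr m n i

theorem an_cosps (i : ℕ) : AnalyticAt ℂ (fun w => Complex.cos ((G.cchain m n).ps i w)) (rp r) :=
  AnalyticAt.comp (g := Complex.cos) (f := (G.cchain m n).ps i) Complex.analyticAt_cos (s4f_an_ps hr m n i)

theorem an_sinps (i : ℕ) : AnalyticAt ℂ (fun w => Complex.sin ((G.cchain m n).ps i w)) (rp r) :=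
  AnalyticAt.comp (g := Complex.sin) (f := (G.cchain m n).ps i) Complex.analyticAt_sin (s4f_an_ps hr m n i)

theorem an_xch (i : ℕ) (c : Fin 2) : AnalyticAt ℂ (G.xch m i c) (rp r) := by
  obtain ⟨-, -, aH⟩ := an_chain hr m 0 i
  have hc : c = 0 ∨ c = 1 := by
    fin_cases c
    · exact Or.inl rfl
    · exact Or.inr rfl
  rcases hc with rfl | rfl
  · rw [funext (G.xch_zero m 0 i)]
    exact ((aH 0).mul (an_cosps hr m 0 i)).sub ((aH 1).mul (an_sinps hr m 0 i))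
  · rw [funext (G.xch_one m 0 i)]
    exact ((aH 0).mul (an_sinps hr m 0 i)).add ((aH 1).mul (an_cosps hr m 0 i))

theorem lpa_ps_im (i : ℕ) : ((G.cchain m n).ps i (rp r)).im = 0 := by
  unfold CChain.ps
  have h1 := s4f_al_im hr m n i
  have h2 := s4f_al_im hr m n (i + 1)
  have e : (((G.cchain m n).al i (rp r) + (G.cchain m n).al (i + 1) (rp r)) / 2).im
      = (((G.cchain m n).al i (rp r)).im + ((G.cchain m n).al (i + 1) (rp r)).im) / 2 := by
    simp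
  rw [e, h1, h2]
  simp

/-- the radius of curvature at the impacts is not zero at real points. -/
theorem rad_ne (i : ℕ) : (G.cchain m n).Hh i 0 (rp r) + (G.cchain m n).Hh i 2 (rp r) ≠ 0 := by
  have him := lpa_ps_im hr m n i
  have hx : (G.cchain m n).ps i (rp r) = ((((G.cchain m n).ps i (rp r)).re : ℝ) : ℂ) := by
    apply Complex.ext <;> simp [him]
  have h := G.rad_pos ((G.cchain m n).ps i (rp r)).re
  rw [← hx] at h
  intro h0
  have e : (G.cchain m n).Hh i 0 (rp r) + (G.cchain m n).Hh i 2 (rp r)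
      = G.hc ((G.cchain m n).ps i (rp r)) + deriv (deriv G.hc) ((G.cchain m n).ps i (rp r)) := by
    unfold CChain.Hh
    rw [iteratedDeriv_zero, iteratedDeriv_succ, iteratedDeriv_one]
    rfl
  rw [e] at h0
  rw [h0] at h
  simp at h

/-- the area coefficient of the `j`-th line of the chain is `A(t)`. -/
theorem area_line (j : ℕ) : ∀ᶠ w in 𝓝 (rp r),
    pdy (G.pch m j) w * pdt ((G.cchain m n).al j) w - pdt (G.pch m j) w * pdy ((G.cchain m n).al j) w = G.A w.2 := by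
  filter_upwards [G.s4f_shear_ev ((m : ℂ) + j) (2 * G.s) (s4f_rp_strip m j G.s4f_two_s_pos) (s4f_rp_ball hr)]
    with w hw
  have hm : shq ((m : ℂ) + j) w ∈ hstrip (2 * G.s) ×ˢ Metric.ball (0 : ℂ) G.r₁ := hw
  have e1 : pdy (G.pch m j) w = pdy (fun z : ℂ × ℂ => G.p z.1 z.2) (shq ((m : ℂ) + j) w) :=
    pdy_shq ((m : ℂ) + j) (fun z : ℂ × ℂ => G.p z.1 z.2) w
  have e2 : pdy ((G.cchain m n).al j) w = pdy (fun z : ℂ × ℂ => G.Θ z.1 z.2) (shq ((m : ℂ) + j) w) :=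
    pdy_shq ((m : ℂ) + j) (fun z : ℂ × ℂ => G.Θ z.1 z.2) w
  have e3 : pdt (G.pch m j) w = pdt (fun z : ℂ × ℂ => G.p z.1 z.2) (shq ((m : ℂ) + j) w)
      + ((m : ℂ) + j) * pdy (fun z : ℂ × ℂ => G.p z.1 z.2) (shq ((m : ℂ) + j) w) :=
    pdt_shq ((m : ℂ) + j) (u := fun z : ℂ × ℂ => G.p z.1 z.2) (G.s4c_p_analytic _ hm).differentiableAt
  have e4 : pdt ((G.cchain m n).al j) w = pdt (fun z : ℂ × ℂ => G.Θ z.1 z.2) (shq ((m : ℂ) + j) w)
      + ((m : ℂ) + j) * pdy (fun z : ℂ × ℂ => G.Θ z.1 z.2) (shq ((m : ℂ) + j) w) :=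
    pdt_shq ((m : ℂ) + j) (u := fun z : ℂ × ℂ => G.Θ z.1 z.2) (G.s4c_Θ_analytic _ hm).differentiableAt
  rw [e1, e2, e3, e4]
  have := G.lpa_area hm
  have e5 : (shq ((m : ℂ) + j) w).2 = w.2 := rfl
  rw [e5] at this
  rw [← this]
  ring

theorem ztay_ar0_eq : ztay (rp r) (G.cchain m n).ar0 = ztay (rp r) (fun w => G.A w.2) := by
  apply ztay_congr
  have e : (G.cchain m n).pOF 0 =ᶠ[𝓝 (rp r)] G.pch m 1 := (pch_eq_out hr m n 0).symm
  filter_upwards [pdy_congr_nhds' e, pdt_congr_nhds' e, area_line hr m n 1] with w a1 a2 a3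
  unfold CChain.ar0
  rw [a1, a2, a3]

theorem ztay_arn_eq : ztay (rp r) (G.cchain m n).arn = ztay (rp r) (fun w => G.A w.2) := by
  apply ztay_congr
  have e : (G.cchain m n).pIF n =ᶠ[𝓝 (rp r)] G.pch m n := (pch_eq_in hr m n n).symm
  filter_upwards [pdy_congr_nhds' e, pdt_congr_nhds' e, area_line hr m n n] with w a1 a2 a3
  unfold CChain.arn
  rw [a1, a2, a3]

theorem iteratedDeriv_A_real (b : ℕ) :
    (starRingEnd ℂ) (iteratedDeriv b G.A (rp r).2) = iteratedDeriv b G.A (rp r).2 := by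
  rw [← G.lpa_iteratedDeriv_A_conj b _ (s4f_rp_ball hr)]
  have e2 : (starRingEnd ℂ) (rp r).2 = (rp r).2 := Complex.conj_ofReal _
  rw [e2]

end facts

end Glance

end Claimed.Agent.R269
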