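/-
Row 269, P1 Section 4, unit 4H (Theorem 4.4): a derivation which kills the jets of the two end impacts and of `A(t)` kills the point end data of the chain.   Statements: helper183.
Derivation calculus in the field `SS` (no analysis beyond `ztay` being a differential ring homomorphism), as in LensB.   `z = rp r`, `Δ = DD δ`, `δ : Dv ℂ` arbitrary, `C = G.cchain m n`.

(1) `impact_killed`.  Write `ψ = C.ps i`, `x₁ = ztay z (xch m i 0)`, `x₂ = ztay z (xch m i 1)`, `κ = ztay z (cos ∘ ψ)`, `σ = ztay z (sin ∘ ψ)`, `H_l = ztay z (C.Hh i l)`, `p = ztay z (pdy ψ)`, `q = ztay z (pdt ψ)`.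
    * `Δ x₁ = Δ x₂ = 0`: `DD_ztay_shear` (LensB) with `u = fun w => crd c (G.X0 w)`, shear parameter `(m + i : ℤ) + 1/2` (killed by `δ`: `Dv.map_intCast`, `Dv.map_ratCast` or `δ (1/2) = 0` from `2 * (1/2) = 1`);
      the hypothesis is `h` (unfold `jetAtH`); analyticity: `X0_analyticAt` at the real point.
    * relations in `SS` (apply `ztay z` to identities of analytic functions; `xch_zero`, `xch_one`, `ztay_mul`, `ztay_add`, `ztay_sub`, `D1_ztay_comp`, `D2_ztay_comp`, `pdy_comp`):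
         `x₁ = H_0 κ - H_1 σ`,  `x₂ = H_0 σ + H_1 κ`,  `κ² + σ² = 1`,  `D1 κ = -σ p`,  `D1 σ = κ p`,  `D2 κ = -σ q`,  `D2 σ = κ q`,  `D1 H_l = H_{l+1} p`.
      Hence `D1 x₁ = -(H_0 + H_2) σ p`,  `D1 x₂ = (H_0 + H_2) κ p`.   Put `ϱ := (H_0 + H_2) p`;  `ϱ ≠ 0` (`ne_zero_of_cf`, `cf_mul_zero`, `cf_ztay_zero`, `rad_ne`, `hp`);  `ϱ² = (D1 x₁)² + (D1 x₂)²` is killed (`DD_D1`), so
      `2 ϱ Δ ϱ = 0`, `Δ ϱ = 0`;   `κ = D1 x₂ / ϱ`, `σ = -D1 x₁ / ϱ` are killed (`Dv.map_div`).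
    * `p = κ D1 σ - σ D1 κ`,  `q = κ D2 σ - σ D2 κ`  are killed (`DD_D1`, `DD_D2`);   `H_0 = x₁ κ + x₂ σ`,  `H_1 = -x₁ σ + x₂ κ`;   `H_{l+1} = D1 H_l / p` (`p ≠ 0`) by induction.
(2) `A_killed`:  `DD_ztay_eq_zero_iff`;  `pd a b (fun w => A w.2) z = if a = 0 then iteratedDeriv b A z.2 else 0`  (`pdt^[b] (fun w => A w.2) = fun w => iteratedDeriv b A w.2` by induction, `iteratedDeriv_succ`;
    `pdy` of a function which does not depend on `y` is `0`: `deriv_const`).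
(3) `endKilledP_of_jets`:  `impact_killed` for `i = 0` and `i = n`;   `cos (ψ_n - ψ_0) = cos ψ_n cos ψ_0 + sin ψ_n sin ψ_0`, `sin (ψ_n - ψ_0) = sin ψ_n cos ψ_0 - cos ψ_n sin ψ_0` (`Complex.cos_sub`, `Complex.sin_sub`, `ztay_mul`, …);
    `ar0`, `arn`: `ztay_ar0_eq`, `ztay_arn_eq` (LensPA) + `A_killed`.
PROVED (helper127): this file has nothing left open.  `lpb_alg` = the derivation calculus over an abstract field.
-/
import Claimed.Agent.R269.S4.LensPA
import Claimed.Agent.R269.S4.LensB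

set_option autoImplicit false
set_option linter.unusedVariables false

namespace Claimed.Agent.R269

open Filter Topology ZT

/-- the derivation calculus of `impact_killed`, over an abstract field. -/
theorem lpb_alg {F : Type*} [Field F] [CharZero F] (Δ E1 E2 : Dv F) (hc1 : ∀ x, Δ (E1 x) = E1 (Δ x))
    (hc2 : ∀ x, Δ (E2 x) = E2 (Δ x)) (x₁ x₂ κ σ p q : F) (H : ℕ → F)
    (hx₁ : x₁ = H 0 * κ - H 1 * σ) (hx₂ : x₂ = H 0 * σ + H 1 * κ) (hks : κ ^ 2 + σ ^ 2 = 1)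
    (h1κ : E1 κ = -σ * p) (h1σ : E1 σ = κ * p) (h2κ : E2 κ = -σ * q) (h2σ : E2 σ = κ * q)
    (hH : ∀ l, E1 (H l) = H (l + 1) * p) (hp : p ≠ 0) (hr : H 0 + H 2 ≠ 0)
    (k1 : Δ x₁ = 0) (k2 : Δ x₂ = 0) :
    Δ κ = 0 ∧ Δ σ = 0 ∧ Δ p = 0 ∧ Δ q = 0 ∧ ∀ l, Δ (H l) = 0 := by
  have d1 : E1 x₁ = -((H 0 + H 2) * p) * σ := by
    rw [hx₁, map_sub, E1.leibniz, E1.leibniz, hH 0, hH 1, h1κ, h1σ]
    ring
  have d2 : E1 x₂ = ((H 0 + H 2) * p) * κ := by
    rw [hx₂, map_add, E1.leibniz, E1.leibniz, hH 0, hH 1, h1κ, h1σ]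
    ring
  set ϱ := (H 0 + H 2) * p with hϱdef
  have hϱ : ϱ ≠ 0 := mul_ne_zero hr hp
  have kd1 : Δ (E1 x₁) = 0 := by rw [hc1, k1, map_zero]
  have kd2 : Δ (E1 x₂) = 0 := by rw [hc1, k2, map_zero]
  have hsq : ϱ ^ 2 = (E1 x₁) ^ 2 + (E1 x₂) ^ 2 := by
    rw [d1, d2]
    linear_combination (-ϱ ^ 2) * hks
  have kϱ : Δ ϱ = 0 := DvK.of_sq Δ hϱ (by
    rw [hsq]
    exact DvK.add Δ (DvK.pow Δ kd1 2) (DvK.pow Δ kd2 2))
  have kκ : Δ κ = 0 := DvK.of_mul Δ kϱ hϱ (by rw [← d2]; exact kd2)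
  have kσ : Δ σ = 0 := DvK.of_mul Δ kϱ hϱ (by
    have : ϱ * σ = -(E1 x₁) := by rw [d1]; ring
    rw [this]
    exact DvK.neg Δ kd1)
  have kp : Δ p = 0 := by
    have : p = κ * E1 σ - σ * E1 κ := by
      rw [h1κ, h1σ]
      linear_combination (-p) * hks
    rw [this]
    exact DvK.sub Δ (DvK.mul Δ kκ (by rw [hc1, kσ, map_zero])) (DvK.mul Δ kσ (by rw [hc1, kκ, map_zero]))
  have kq : Δ q = 0 := by
    have : q = κ * E2 σ - σ * E2 κ := by
      rw [h2κ, h2σ]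
      linear_combination (-q) * hks
    rw [this]
    exact DvK.sub Δ (DvK.mul Δ kκ (by rw [hc2, kσ, map_zero])) (DvK.mul Δ kσ (by rw [hc2, kκ, map_zero]))
  have kH0 : Δ (H 0) = 0 := by
    have : H 0 = x₁ * κ + x₂ * σ := by
      rw [hx₁, hx₂]
      linear_combination (-H 0) * hks
    rw [this]
    exact DvK.add Δ (DvK.mul Δ k1 kκ) (DvK.mul Δ k2 kσ)
  refine ⟨kκ, kσ, kp, kq, fun l => ?_⟩
  induction l with
  | zero => exact kH0
  | succ l ih =>
    refine DvK.of_mul Δ kp hp ?_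
    rw [mul_comm, ← hH l, hc1, ih, map_zero]

namespace Glance

variable {G : Glance} {N : ℕ} {r : ℝ × ℝ}

theorem lpb_dv_q (δ : Dv ℂ) (k : ℤ) : δ ((k : ℂ) + 1 / 2) = 0 := by
  rw [map_add, δ.map_intCast, one_div, s4f_dv_half, add_zero]

theorem lpb_half_mem (k : ℤ) (e : ℂ) (he : e.im = 0) {s' : ℝ} (hs : 0 < s') :
    (rp r).1 + ((k : ℂ) + 1 / 2) * (rp r).2 + e * (rp r).2 ∈ hstrip s' := by
  apply s4f_zero_mem_hstrip hs
  simp [rp, he]

/-- `X0` is analytic at the half-integer shifts of a real point. -/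
theorem lpb_X0_an (hr : r ∈ G.smallR N) (k : ℤ) (c : Fin 2) :
    AnalyticAt ℂ (fun w => crd c (G.X0 w)) ((rp r).1 + ((k : ℂ) + 1 / 2) * (rp r).2, (rp r).2) := by
  refine G.X0_analyticAt c ?_ ?_ (s4f_rp_ball hr)
  · have := lpb_half_mem (r := r) k (-(1 / 2)) (by simp) G.s4f_two_s_pos
    have e : (rp r).1 + ((k : ℂ) + 1 / 2) * (rp r).2 + -(1 / 2) * (rp r).2
        = (rp r).1 + ((k : ℂ) + 1 / 2) * (rp r).2 - (rp r).2 / 2 := by ring
    rw [e] at this
    exact this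
  · have := lpb_half_mem (r := r) k (1 / 2) (by simp) G.s4f_two_s_pos
    have e : (rp r).1 + ((k : ℂ) + 1 / 2) * (rp r).2 + 1 / 2 * (rp r).2
        = (rp r).1 + ((k : ℂ) + 1 / 2) * (rp r).2 + (rp r).2 / 2 := by ring
    rw [e] at this
    exact this

theorem lpb_D1_cos (hr : r ∈ G.smallR N) (m : ℤ) (n i : ℕ) :
    D1 (ztay (rp r) (fun w => Complex.cos ((G.cchain m n).ps i w)))
      = -ztay (rp r) (fun w => Complex.sin ((G.cchain m n).ps i w)) * ztay (rp r) (pdy ((G.cchain m n).ps i)) := by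
  have hψ := an_psG hr m n i
  have hs := an_sinps hr m n i
  have h1 := pdy_comp hψ (f := Complex.cos) Complex.analyticAt_cos
  have h2 : pdy (fun w => Complex.cos ((G.cchain m n).ps i w)) =ᶠ[𝓝 (rp r)]
      fun w => (-Complex.sin ((G.cchain m n).ps i w)) * pdy ((G.cchain m n).ps i) w := by
    refine h1.trans (Eventually.of_forall fun w => ?_)
    show deriv Complex.cos _ * _ = _
    rw [Complex.deriv_cos]
  have hn : AnalyticAt ℂ (fun w => -Complex.sin ((G.cchain m n).ps i w)) (rp r) := hs.neg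
  rw [← ztay_pdy (an_cosps hr m n i), ztay_congr h2, ztay_mul hn (analyticAt_pdy hψ), ztay_neg hs]

theorem lpb_D2_cos (hr : r ∈ G.smallR N) (m : ℤ) (n i : ℕ) :
    D2 (ztay (rp r) (fun w => Complex.cos ((G.cchain m n).ps i w)))
      = -ztay (rp r) (fun w => Complex.sin ((G.cchain m n).ps i w)) * ztay (rp r) (pdt ((G.cchain m n).ps i)) := by
  have hψ := an_psG hr m n i
  have hs := an_sinps hr m n i
  have h1 := pdt_comp hψ (f := Complex.cos) Complex.analyticAt_cos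
  have h2 : pdt (fun w => Complex.cos ((G.cchain m n).ps i w)) =ᶠ[𝓝 (rp r)]
      fun w => (-Complex.sin ((G.cchain m n).ps i w)) * pdt ((G.cchain m n).ps i) w := by
    refine h1.trans (Eventually.of_forall fun w => ?_)
    show deriv Complex.cos _ * _ = _
    rw [Complex.deriv_cos]
  have hn : AnalyticAt ℂ (fun w => -Complex.sin ((G.cchain m n).ps i w)) (rp r) := hs.neg
  rw [← ztay_pdt (an_cosps hr m n i), ztay_congr h2, ztay_mul hn (analyticAt_pdt hψ), ztay_neg hs]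

theorem lpb_D1_sin (hr : r ∈ G.smallR N) (m : ℤ) (n i : ℕ) :
    D1 (ztay (rp r) (fun w => Complex.sin ((G.cchain m n).ps i w)))
      = ztay (rp r) (fun w => Complex.cos ((G.cchain m n).ps i w)) * ztay (rp r) (pdy ((G.cchain m n).ps i)) := by
  have hψ := an_psG hr m n i
  have hc := an_cosps hr m n i
  have h1 := pdy_comp hψ (f := Complex.sin) Complex.analyticAt_sin
  have h2 : pdy (fun w => Complex.sin ((G.cchain m n).ps i w)) =ᶠ[𝓝 (rp r)]
      fun w => (Complex.cos ((G.cchain m n).ps i w)) * pdy ((G.cchain m n).ps i) w := by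
    refine h1.trans (Eventually.of_forall fun w => ?_)
    show deriv Complex.sin _ * _ = _
    rw [Complex.deriv_sin]
  rw [← ztay_pdy (an_sinps hr m n i), ztay_congr h2, ztay_mul hc (analyticAt_pdy hψ)]

theorem lpb_D2_sin (hr : r ∈ G.smallR N) (m : ℤ) (n i : ℕ) :
    D2 (ztay (rp r) (fun w => Complex.sin ((G.cchain m n).ps i w)))
      = ztay (rp r) (fun w => Complex.cos ((G.cchain m n).ps i w)) * ztay (rp r) (pdt ((G.cchain m n).ps i)) := by
  have hψ := an_psG hr m n i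
  have hc := an_cosps hr m n i
  have h1 := pdt_comp hψ (f := Complex.sin) Complex.analyticAt_sin
  have h2 : pdt (fun w => Complex.sin ((G.cchain m n).ps i w)) =ᶠ[𝓝 (rp r)]
      fun w => (Complex.cos ((G.cchain m n).ps i w)) * pdt ((G.cchain m n).ps i) w := by
    refine h1.trans (Eventually.of_forall fun w => ?_)
    show deriv Complex.sin _ * _ = _
    rw [Complex.deriv_sin]
  rw [← ztay_pdt (an_sinps hr m n i), ztay_congr h2, ztay_mul hc (analyticAt_pdt hψ)]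

theorem lpb_cos_sq (hr : r ∈ G.smallR N) (m : ℤ) (n i : ℕ) :
    ztay (rp r) (fun w => Complex.cos ((G.cchain m n).ps i w)) ^ 2
      + ztay (rp r) (fun w => Complex.sin ((G.cchain m n).ps i w)) ^ 2 = 1 := by
  have hc := an_cosps hr m n i
  have hs := an_sinps hr m n i
  have hc2 : AnalyticAt ℂ (fun w => Complex.cos ((G.cchain m n).ps i w) ^ 2) (rp r) := hc.pow 2
  have hs2 : AnalyticAt ℂ (fun w => Complex.sin ((G.cchain m n).ps i w) ^ 2) (rp r) := hs.pow 2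
  rw [← ztay_pow hc, ← ztay_pow hs, ← ztay_add hc2 hs2, ← cst_one, ← ztay_const (rp r)]
  congr 1
  funext w
  exact Complex.cos_sq_add_sin_sq _

theorem impact_killed (hr : r ∈ G.smallR N) (m : ℤ) (n : ℕ) (δ : Dv ℂ) (i : ℕ)
    (hp : pdy ((G.cchain m n).ps i) (rp r) ≠ 0)
    (h : ∀ (c : Fin 2) (a b : ℕ), δ (jetAtH G.X0 (rp r) (m + i, c, a, b)) = 0) :
    DD δ (ztay (rp r) (fun w => Complex.cos ((G.cchain m n).ps i w))) = 0 ∧
    DD δ (ztay (rp r) (fun w => Complex.sin ((G.cchain m n).ps i w))) = 0 ∧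
    DD δ (ztay (rp r) (pdy ((G.cchain m n).ps i))) = 0 ∧ DD δ (ztay (rp r) (pdt ((G.cchain m n).ps i))) = 0 ∧
    ∀ l, DD δ (ztay (rp r) ((G.cchain m n).Hh i l)) = 0 := by
  have hψ := an_psG hr m n i
  have hc := an_cosps hr m n i
  have hs := an_sinps hr m n i
  obtain ⟨-, -, aH⟩ := an_chain hr m n i
  have hx : ∀ c : Fin 2, DD δ (ztay (rp r) (G.xch m i c)) = 0 := by
    intro c
    exact DD_ztay_shear δ (fun w => crd c (G.X0 w)) _ (lpb_dv_q δ (m + i)) (rp r) (lpb_X0_an hr (m + i) c)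
      (fun a b => h c a b)
  have hx₁ : ztay (rp r) (G.xch m i 0) = ztay (rp r) ((G.cchain m n).Hh i 0)
        * ztay (rp r) (fun w => Complex.cos ((G.cchain m n).ps i w))
      - ztay (rp r) ((G.cchain m n).Hh i 1) * ztay (rp r) (fun w => Complex.sin ((G.cchain m n).ps i w)) := by
    have b1 : AnalyticAt ℂ (fun w => (G.cchain m n).Hh i 0 w * Complex.cos ((G.cchain m n).ps i w)) (rp r) :=
      (aH 0).mul hc
    have b2 : AnalyticAt ℂ (fun w => (G.cchain m n).Hh i 1 w * Complex.sin ((G.cchain m n).ps i w)) (rp r) :=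
      (aH 1).mul hs
    rw [funext (G.xch_zero m n i), ztay_sub b1 b2, ztay_mul (aH 0) hc, ztay_mul (aH 1) hs]
  have hx₂ : ztay (rp r) (G.xch m i 1) = ztay (rp r) ((G.cchain m n).Hh i 0)
        * ztay (rp r) (fun w => Complex.sin ((G.cchain m n).ps i w))
      + ztay (rp r) ((G.cchain m n).Hh i 1) * ztay (rp r) (fun w => Complex.cos ((G.cchain m n).ps i w)) := by
    have b1 : AnalyticAt ℂ (fun w => (G.cchain m n).Hh i 0 w * Complex.sin ((G.cchain m n).ps i w)) (rp r) :=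
      (aH 0).mul hs
    have b2 : AnalyticAt ℂ (fun w => (G.cchain m n).Hh i 1 w * Complex.cos ((G.cchain m n).ps i w)) (rp r) :=
      (aH 1).mul hc
    rw [funext (G.xch_one m n i), ztay_add b1 b2, ztay_mul (aH 0) hs, ztay_mul (aH 1) hc]
  have hH : ∀ l, D1 (ztay (rp r) ((G.cchain m n).Hh i l))
      = ztay (rp r) ((G.cchain m n).Hh i (l + 1)) * ztay (rp r) (pdy ((G.cchain m n).ps i)) := fun l =>
    D1_ztay_comp hψ (f := G.hc) (G.s4c_hc_analytic _ (s4f_ps_mem hr m n i)) l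
  have hp0 : ztay (rp r) (pdy ((G.cchain m n).ps i)) ≠ 0 := by
    apply ne_zero_of_cf
    rw [cf_ztay_zero]
    exact hp
  have hr0 : ztay (rp r) ((G.cchain m n).Hh i 0) + ztay (rp r) ((G.cchain m n).Hh i 2) ≠ 0 := by
    rw [← ztay_add (aH 0) (aH 2)]
    apply ne_zero_of_cf
    rw [cf_ztay_zero]
    exact rad_ne hr m n i
  exact lpb_alg (F := SS) (DD δ) D1 D2 (DD_D1 δ) (DD_D2 δ) _ _ _ _ _ _
    (fun l => ztay (rp r) ((G.cchain m n).Hh i l)) hx₁ hx₂ (lpb_cos_sq hr m n i)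
    (lpb_D1_cos hr m n i) (lpb_D1_sin hr m n i) (lpb_D2_cos hr m n i) (lpb_D2_sin hr m n i) hH hp0 hr0 (hx 0) (hx 1)

theorem lpb_pd_snd (f : ℂ → ℂ) (a b : ℕ) (z : ℂ × ℂ) :
    pd a b (fun w : ℂ × ℂ => f w.2) z = if a = 0 then iteratedDeriv b f z.2 else 0 := by
  have h1 : (pdt^[b]) (fun w : ℂ × ℂ => f w.2) = fun w : ℂ × ℂ => iteratedDeriv b f w.2 := by
    funext w
    exact pdt_iterate_eq (fun w : ℂ × ℂ => f w.2) b w.1 w.2
  unfold pd
  rw [h1]
  have h2 := pdy_iterate_eq (fun w : ℂ × ℂ => iteratedDeriv b f w.2) a z.1 z.2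
  rw [show ((z.1, z.2) : ℂ × ℂ) = z from rfl] at h2
  rw [h2]
  cases a with
  | zero => simp
  | succ a =>
    rw [if_neg (Nat.succ_ne_zero a)]
    simp only
    rw [iteratedDeriv_succ']
    simp

theorem A_killed (hr : r ∈ G.smallR N) (δ : Dv ℂ) (hA : ∀ b : ℕ, δ (iteratedDeriv b G.A (rp r).2) = 0) :
    DD δ (ztay (rp r) (fun w => G.A w.2)) = 0 := by
  rw [DD_ztay_eq_zero_iff]
  intro a b
  rw [lpb_pd_snd]
  split_ifs
  · exact hA b
  · exact map_zero δ

theorem endKilledP_of_jets (hr : r ∈ G.smallR N) (m : ℤ) (n : ℕ) (δ : Dv ℂ)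
    (hp0 : pdy ((G.cchain m n).ps 0) (rp r) ≠ 0) (hpn : pdy ((G.cchain m n).ps n) (rp r) ≠ 0)
    (h0 : ∀ (c : Fin 2) (a b : ℕ), δ (jetAtH G.X0 (rp r) (m, c, a, b)) = 0)
    (h1 : ∀ (c : Fin 2) (a b : ℕ), δ (jetAtH G.X0 (rp r) (m + n, c, a, b)) = 0)
    (hA : ∀ b : ℕ, δ (iteratedDeriv b G.A (rp r).2) = 0) :
    (G.cchain m n).EndKilledP (rp r) δ := by
  obtain ⟨c0, s0, p01, p02, H0⟩ := impact_killed hr m n δ 0 hp0 (by
    intro c a b
    have := h0 c a b
    simpa using this)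
  obtain ⟨cn, sn, pn1, pn2, Hn⟩ := impact_killed hr m n δ n hpn h1
  have ac0 := an_cosps hr m n 0
  have as0 := an_sinps hr m n 0
  have acn := an_cosps hr m n n
  have asn := an_sinps hr m n n
  refine ⟨H0, Hn, p01, p02, pn1, pn2, ?_, ?_, ?_, ?_⟩
  · have e : (fun w => Complex.cos ((G.cchain m n).ps n w - (G.cchain m n).ps 0 w))
        = fun w => Complex.cos ((G.cchain m n).ps n w) * Complex.cos ((G.cchain m n).ps 0 w)
          + Complex.sin ((G.cchain m n).ps n w) * Complex.sin ((G.cchain m n).ps 0 w) :=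
      funext fun w => Complex.cos_sub _ _
    have b1 : AnalyticAt ℂ (fun w => Complex.cos ((G.cchain m n).ps n w) * Complex.cos ((G.cchain m n).ps 0 w))
      (rp r) := acn.mul ac0
    have b2 : AnalyticAt ℂ (fun w => Complex.sin ((G.cchain m n).ps n w) * Complex.sin ((G.cchain m n).ps 0 w))
      (rp r) := asn.mul as0
    rw [e, ztay_add b1 b2, ztay_mul acn ac0, ztay_mul asn as0]
    exact DvS.add _ (DvS.mul _ cn c0) (DvS.mul _ sn s0)
  · have e : (fun w => Complex.sin ((G.cchain m n).ps n w - (G.cchain m n).ps 0 w))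
        = fun w => Complex.sin ((G.cchain m n).ps n w) * Complex.cos ((G.cchain m n).ps 0 w)
          - Complex.cos ((G.cchain m n).ps n w) * Complex.sin ((G.cchain m n).ps 0 w) :=
      funext fun w => Complex.sin_sub _ _
    have b1 : AnalyticAt ℂ (fun w => Complex.sin ((G.cchain m n).ps n w) * Complex.cos ((G.cchain m n).ps 0 w))
      (rp r) := asn.mul ac0
    have b2 : AnalyticAt ℂ (fun w => Complex.cos ((G.cchain m n).ps n w) * Complex.sin ((G.cchain m n).ps 0 w))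
      (rp r) := acn.mul as0
    rw [e, ztay_sub b1 b2, ztay_mul asn ac0, ztay_mul acn as0]
    exact DvS.sub _ (DvS.mul _ sn c0) (DvS.mul _ cn s0)
  · rw [ztay_ar0_eq hr m n]
    exact A_killed hr δ hA
  · rw [ztay_arn_eq hr m n]
    exact A_killed hr δ hA

end Glance

end Claimed.Agent.R269
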