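/-
Row 269, P1 Section 4, unit 4H (Theorem 4.4): from the core to the edges of the chain; the jets of `X` at real points are real.   Statements: helper183.
Derivation calculus in `SS`, as in LensC.

(1) `mid_killedP`.  `ech m 1 = exp (i al 1) = exp (i ps 0) exp (i dd 0) = (cos (ps 0) + i sin (ps 0)) (cd 0 + i sd 0)` (`al 1 = ps 0 + dd 0`, `Complex.exp_add`, `Complex.exp_mul_I`), so `Δ (ztay z (ech m 1)) = 0`
    (`ztay_mul`, `ztay_add`, `ztay_const`; `Δ (cst I) = 0` since `δ I = 0`).   By induction with `ech_succ` (LensA):  `Δ (ztay z (ech m j)) = 0` for `1 ≤ j ≤ n + 1`.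
    `pch m j = Hh j 0 * cd j - Hh j 1 * sd j` near `z` (`pch_eq_in`), so `Δ (ztay z (pch m j)) = 0` for `j ≤ n`.    Constant terms (`cf_DD`, `cf_ztay_zero`):  `δ (ech m j z) = 0`, `δ (pch m j z) = 0`;
    `L0 (S z) = (ech², pch * ech)`  (`Complex.exp_add`: `exp (2 i Θ) = exp (i Θ)²`).
(2) `conj_jetH`.  At the REAL point `z' = (r.1 + (j + 1/2) r.2, r.2)`:   `conj (pd a b u z') = pd a b u♯ z'`, `u♯ w = conj (u (conj w))` (as in LensC (2)), and `u♯ = u` near `z'` for `u = crd c ∘ X0`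
    (`Θ_conj`, `hc_conj`, and `deriv hc (conj x) = conj (deriv hc x)`; `Complex.cos_conj`, `Complex.sin_conj`).
PROVED (helper127): this file has nothing left open.
-/
import Claimed.Agent.R269.S4.LensPB

set_option autoImplicit false

namespace Claimed.Agent.R269

open Filter Topology ZT

namespace Glance

variable {G : Glance} {N : ℕ} {r : ℝ × ℝ}

/-- `exp (i al_1) = (cos ps_0 + i sin ps_0) (cos dd_0 + i sin dd_0)`. -/
theorem lpc_ech_one (m : ℤ) (n : ℕ) (w : ℂ × ℂ) :
    G.ech m 1 w = (Complex.cos ((G.cchain m n).ps 0 w) + Complex.I * Complex.sin ((G.cchain m n).ps 0 w))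
      * ((G.cchain m n).cd 0 w + Complex.I * (G.cchain m n).sd 0 w) := by
  have h1 : (G.cchain m n).cd 0 w + Complex.I * (G.cchain m n).sd 0 w
      = Complex.exp ((G.cchain m n).dd 0 w * Complex.I) := by
    rw [Complex.exp_mul_I]
    unfold CChain.cd CChain.sd
    ring
  have h2 : Complex.cos ((G.cchain m n).ps 0 w) + Complex.I * Complex.sin ((G.cchain m n).ps 0 w)
      = Complex.exp ((G.cchain m n).ps 0 w * Complex.I) := by
    rw [Complex.exp_mul_I]
    ring
  rw [h1, h2, ← Complex.exp_add]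
  unfold ech
  congr 1
  unfold CChain.dd CChain.ps
  show Complex.I * (G.cchain m n).al 1 w = _
  ring

theorem mid_killedP (hr : r ∈ G.smallR N) (m : ℤ) (n : ℕ) (δ : Dv ℂ)
    (hc0 : DD δ (ztay (rp r) (fun w => Complex.cos ((G.cchain m n).ps 0 w))) = 0)
    (hs0 : DD δ (ztay (rp r) (fun w => Complex.sin ((G.cchain m n).ps 0 w))) = 0)
    (hcore : ∀ i ≤ n, DD δ (ztay (rp r) ((G.cchain m n).sd i)) = 0 ∧ DD δ (ztay (rp r) ((G.cchain m n).cd i)) = 0 ∧
      ∀ l, DD δ (ztay (rp r) ((G.cchain m n).Hh i l)) = 0)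
    (j : ℕ) (hj1 : 1 ≤ j) (hj : j ≤ n) (c : Fin 2) :
    δ (crd c (G.L0 ((rp r).1 + ((m : ℂ) + j) * (rp r).2, (rp r).2))) = 0 := by
  have hech : ∀ j, 1 ≤ j → j ≤ n + 1 → DD δ (ztay (rp r) (G.ech m j)) = 0 := by
    intro j hj1
    induction j, hj1 using Nat.le_induction with
    | base =>
      intro _
      obtain ⟨ks, kc, -⟩ := hcore 0 (by omega)
      obtain ⟨as, ac, -⟩ := an_chain hr m n 0
      have ac0 := an_cosps hr m n 0
      have as0 := an_sinps hr m n 0
      have aIs : AnalyticAt ℂ (fun w => Complex.I * (G.cchain m n).sd 0 w) (rp r) := analyticAt_const.mul as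
      have asum : AnalyticAt ℂ (fun w => (G.cchain m n).cd 0 w + Complex.I * (G.cchain m n).sd 0 w) (rp r) :=
        ac.add aIs
      have aIs0 : AnalyticAt ℂ (fun w => Complex.I * Complex.sin ((G.cchain m n).ps 0 w)) (rp r) :=
        analyticAt_const.mul as0
      have asum0 : AnalyticAt ℂ (fun w => Complex.cos ((G.cchain m n).ps 0 w)
          + Complex.I * Complex.sin ((G.cchain m n).ps 0 w)) (rp r) := ac0.add aIs0
      rw [funext (lpc_ech_one m n), ztay_mul asum0 asum, ztay_add ac0 aIs0, ztay_add ac aIs,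
        ztay_mul (u := fun _ => Complex.I) analyticAt_const as0, ztay_mul (u := fun _ => Complex.I) analyticAt_const as,
        ztay_const]
      exact DvS.mul _ (DvS.add _ hc0 (DvS.mul _ (ZT.DD_cst_zero δ δ.map_I) hs0))
        (DvS.add _ kc (DvS.mul _ (ZT.DD_cst_zero δ δ.map_I) ks))
    | succ j hj1 ih =>
      intro hj
      have hk := ih (by omega)
      obtain ⟨ks, kc, -⟩ := hcore j (by omega)
      obtain ⟨as, ac, -⟩ := an_chain hr m n j
      have he := an_ech hr m j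
      have aIs : AnalyticAt ℂ (fun w => Complex.I * (G.cchain m n).sd j w) (rp r) := analyticAt_const.mul as
      have asum : AnalyticAt ℂ (fun w => (G.cchain m n).cd j w + Complex.I * (G.cchain m n).sd j w) (rp r) :=
        ac.add aIs
      have apow : AnalyticAt ℂ (fun w => ((G.cchain m n).cd j w + Complex.I * (G.cchain m n).sd j w) ^ 2) (rp r) :=
        asum.pow 2
      have e : G.ech m (j + 1)
          = fun w => G.ech m j w * ((G.cchain m n).cd j w + Complex.I * (G.cchain m n).sd j w) ^ 2 :=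
        funext (ech_succ hr m n j)
      rw [e, ztay_mul he apow, ztay_pow asum, ztay_add ac aIs, ztay_mul (u := fun _ => Complex.I) analyticAt_const as,
        ztay_const]
      exact DvS.mul _ hk (DvS.pow _ (DvS.add _ kc (DvS.mul _ (ZT.DD_cst_zero δ δ.map_I) ks)) 2)
  have hpch : DD δ (ztay (rp r) (G.pch m j)) = 0 := by
    obtain ⟨ks, kc, kH⟩ := hcore j hj
    obtain ⟨as, ac, aH⟩ := an_chain hr m n j
    have a1 : AnalyticAt ℂ (fun w => (G.cchain m n).Hh j 0 w * (G.cchain m n).cd j w) (rp r) := (aH 0).mul ac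
    have a2 : AnalyticAt ℂ (fun w => (G.cchain m n).Hh j 1 w * (G.cchain m n).sd j w) (rp r) := (aH 1).mul as
    rw [ztay_congr (pch_eq_in hr m n j), ztay_sub a1 a2, ztay_mul (aH 0) ac, ztay_mul (aH 1) as]
    exact DvS.sub _ (DvS.mul _ (kH 0) kc) (DvS.mul _ (kH 1) ks)
  have v1 : δ (G.ech m j (rp r)) = 0 := s4f_value_killed (hech j hj1 (by omega))
  have v2 : δ (G.pch m j (rp r)) = 0 := s4f_value_killed hpch
  have hc : c = 0 ∨ c = 1 := by
    fin_cases c
    · exact Or.inl rfl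
    · exact Or.inr rfl
  rcases hc with rfl | rfl
  · have e : crd 0 (G.L0 ((rp r).1 + ((m : ℂ) + j) * (rp r).2, (rp r).2)) = G.ech m j (rp r) ^ 2 := by
      show Complex.exp (2 * Complex.I * G.Θ _ _) = Complex.exp (Complex.I * G.Θ _ _) ^ 2
      rw [← Complex.exp_nat_mul]
      congr 1
      push_cast
      ring
    rw [e]
    exact DvK.pow δ v1 2
  · have e : crd 1 (G.L0 ((rp r).1 + ((m : ℂ) + j) * (rp r).2, (rp r).2)) = G.pch m j (rp r) * G.ech m j (rp r) := rfl
    rw [e]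
    exact DvK.mul δ v2 v1

theorem lpc_shp_X0 (c : Fin 2) {z : ℂ × ℂ} (hz : z ∈ G.ini) :
    shp (fun w => crd c (G.X0 w)) =ᶠ[𝓝 z] fun w => crd c (G.X0 w) := by
  filter_upwards [G.s4c_isOpen_ini.mem_nhds hz] with w hw
  show (starRingEnd ℂ) (crd c (G.X0 ((starRingEnd ℂ) w.1, (starRingEnd ℂ) w.2))) = crd c (G.X0 w)
  rw [G.s4c_X0_conj hw]
  unfold crd
  split_ifs <;> simp

theorem conj_jetH (hr : r ∈ G.smallR N) (i : Idx) :
    (starRingEnd ℂ) (jetAtH G.X0 (rp r) i) = jetAtH G.X0 (rp r) i := by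
  obtain ⟨k, c, a, b⟩ := i
  set z' : ℂ × ℂ := ((rp r).1 + ((k : ℂ) + 1 / 2) * (rp r).2, (rp r).2) with hz'
  have hmem : z' ∈ G.ini := by
    refine ⟨s4f_zero_mem_hstrip (by have := G.s4c_s_pos; linarith) ?_, s4f_rp_ball hr⟩
    simp [hz', rp]
  have hreal : ((starRingEnd ℂ) z'.1, (starRingEnd ℂ) z'.2) = z' := by
    have h2 : (starRingEnd ℂ) (2 : ℂ) = 2 := map_ofNat _ 2
    simp [hz', rp, h2]
  have e1 : (starRingEnd ℂ) (jetAtH G.X0 (rp r) (k, c, a, b)) = pd a b (shp (fun w => crd c (G.X0 w))) z' := by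
    rw [pd_shp]
    show _ = (starRingEnd ℂ) (pd a b (fun w => crd c (G.X0 w)) ((starRingEnd ℂ) z'.1, (starRingEnd ℂ) z'.2))
    rw [hreal]
    rfl
  rw [e1, (pd_congr_nhds a b (lpc_shp_X0 c hmem)).self_of_nhds]
  rfl

end Glance

end Claimed.Agent.R269
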