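/-
Row 269, P1 Section 4, unit 4H:  THEOREM 4.4 (point-endpoint determination) in the form `Glance.LensP`.   helper183.   (Model: LensL of unit 4F.)

PROOF (glue).  Let `m ≤ -1`, `0 ≤ n'`, `c`, `N` be given; `n := (n' - m).toNat ≥ 1` (so `m + n = n'`), `j₀ := (-m).toNat` (`1 ≤ j₀ ≤ n`, `m + j₀ = 0`), `C := G.cchain m n` (`C.y₀ = 0`), `η` from `C.core_mainP`.
The impacts of `C` are `X(y + (m+i+1/2) t, t)`, `0 ≤ i ≤ n`; the end impacts have the indices `m`, `n'`; the line `al j₀` is `L(y,t)`.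
`R := {r | |r.1| < η ∧ 0 < r.2 ∧ r.2 < η} ∩ G.smallR N`: open, nonempty, `rp r ∈ G.dom N` (`rp_mem_dom`).   `S := lensPS m n'`, `J i z := jetAtHA G.X0 G.A z i`, `x z := crd c (G.L0 z)`, `W := G.dom N`.
`lens_valuesP`: for `r ∈ R`, `K := Subfield.closure ({I} ∪ J(rp r))`:
   * conjugates of elements of `K` are algebraic over `K`: `conj_algebraic_of_gen`; `conj I = -I ∈ K`; the jets are real (`conj_jetH`, `iteratedDeriv_A_real`);
   * `isAlgebraic_of_real_dv`: let `δ : Dv ℝ` with `δ.cx` killing `K`.  `endKilledP_of_jets` → `C.EndKilledP (rp r) δ.cx` → `core_mainP` → `mid_killedP` with `j = j₀` (and `impact_killed`, `i = 0`):  `δ.cx (x (rp r)) = 0`.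
`gen_alg` gives `Pi, A, B, D`.
-/
import Claimed.Agent.R269.S4.CoreP
import Claimed.Agent.R269.S4.Gen
import Claimed.Agent.R269.S4.LensPC
import Claimed.Agent.R269.S4.Embed

set_option autoImplicit false

namespace Claimed.Agent.R269

open Filter Topology ZT

/-- the admissible jet variables: jets of `X` at the two end impacts, jets of `A`. -/
def lensPS (m n' : ℤ) : Set (Idx ⊕ ℕ) := {x | ∀ i : Idx, x = Sum.inl i → i.1 = m ∨ i.1 = n'}

namespace Glance

variable (G : Glance)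

theorem lpl_mem_ball {N : ℕ} {z : ℂ × ℂ} (hz : z ∈ G.dom N) : z.2 ∈ Metric.ball (0 : ℂ) G.r₁ :=
  Metric.ball_subset_ball (min_le_left _ _) hz.2

/-- strip arithmetic: `|Im (z.1 + k z.2)| < 2 s` for `|k| ≤ N`. -/
theorem lpl_mem_hstrip {N : ℕ} {z : ℂ × ℂ} (hz : z ∈ G.dom N) (k : ℤ) (hk : |k| ≤ N) :
    z.1 + (k : ℂ) * z.2 ∈ hstrip (2 * G.s) := by
  have hs : 0 < G.s := G.r₁_pos.trans G.r₁_lt
  have h1 : |z.1.im| < G.s / 2 := hz.1
  have h2 : ‖z.2‖ < G.s / (N + 1) := by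
    have := Metric.ball_subset_ball (min_le_right _ _) hz.2
    rwa [Metric.mem_ball, dist_zero_right] at this
  have hN : (0 : ℝ) < (N : ℝ) + 1 := by positivity
  have h3 : |((k : ℂ) * z.2).im| ≤ (N : ℝ) * ‖z.2‖ := by
    calc |((k : ℂ) * z.2).im| ≤ ‖(k : ℂ) * z.2‖ := Complex.abs_im_le_norm _
      _ = |(k : ℝ)| * ‖z.2‖ := by rw [norm_mul, Complex.norm_intCast]
      _ ≤ (N : ℝ) * ‖z.2‖ := by
        refine mul_le_mul_of_nonneg_right ?_ (norm_nonneg _)
        exact_mod_cast hk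
  have h4 : (N : ℝ) * ‖z.2‖ ≤ G.s := by
    have h5 : ((N : ℝ) + 1) * ‖z.2‖ < G.s := by
      rw [lt_div_iff₀ hN] at h2
      linarith
    nlinarith [norm_nonneg z.2]
  show |(z.1 + (k : ℂ) * z.2).im| < 2 * G.s
  rw [Complex.add_im]
  calc |z.1.im + ((k : ℂ) * z.2).im| ≤ |z.1.im| + |((k : ℂ) * z.2).im| := abs_add_le _ _
    _ < 2 * G.s := by linarith

/-- the jets of the end impacts and of `A` are analytic on the initial domain.
(`X0_analyticAt` at `(z.1 + (j + 1/2) z.2, z.2)`: for `z ∈ G.dom N`, `|j| + 1 ≤ N`: `|Im (z.1 + (j + 1/2 ± 1/2) z.2)| < s/2 + (|j| + 1) s/(N+1) < 2 s`;  `Emb.analyticAt_pd`, composition with the shear;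
`A_analyticAt`, `AnalyticAt.iteratedDeriv`, composition with `Prod.snd`.) -/
theorem jetHA_analyticOn (m n' : ℤ) (N : ℕ) (hm : |m| + 1 ≤ N) (hn : |n'| + 1 ≤ N) (i : Idx ⊕ ℕ) (hi : i ∈ lensPS m n') :
    AnalyticOnNhd ℂ (fun z => jetAtHA G.X0 G.A z i) (G.dom N) := by
  intro z hz
  rcases i with ⟨j, c, a, b⟩ | b
  · have hj : |j| + 1 ≤ N := by
      rcases hi (j, c, a, b) rfl with h | h
      · rw [show j = m from h]; exact hm
      · rw [show j = n' from h]; exact hn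
    have hΦ : AnalyticAt ℂ (fun w : ℂ × ℂ => ((w.1 + ((j : ℂ) + 1 / 2) * w.2, w.2) : ℂ × ℂ)) z :=
      (analyticAt_fst.add (analyticAt_const.mul analyticAt_snd)).prod analyticAt_snd
    have hX : AnalyticAt ℂ (fun w => crd c (G.X0 w)) (z.1 + ((j : ℂ) + 1 / 2) * z.2, z.2) := by
      have hb : z.2 ∈ Metric.ball (0 : ℂ) G.r₁ := G.lpl_mem_ball hz
      refine G.X0_analyticAt c ?_ ?_ hb
      · have := G.lpl_mem_hstrip hz j (by omega)
        have e : z.1 + ((j : ℂ) + 1 / 2) * z.2 - z.2 / 2 = z.1 + (j : ℂ) * z.2 := by ring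
        show z.1 + ((j : ℂ) + 1 / 2) * z.2 - z.2 / 2 ∈ _
        rw [e]; exact this
      · have h1 : |j + 1| ≤ (N : ℤ) := (abs_add_le j 1).trans (by simpa using hj)
        have := G.lpl_mem_hstrip hz (j + 1) h1
        have e : z.1 + ((j : ℂ) + 1 / 2) * z.2 + z.2 / 2 = z.1 + ((j + 1 : ℤ) : ℂ) * z.2 := by
          push_cast; ring
        show z.1 + ((j : ℂ) + 1 / 2) * z.2 + z.2 / 2 ∈ _
        rw [e]; exact this
    exact AnalyticAt.comp (g := pd a b (fun w => crd c (G.X0 w)))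
      (f := fun w : ℂ × ℂ => ((w.1 + ((j : ℂ) + 1 / 2) * w.2, w.2) : ℂ × ℂ))
      (Claimed.Agent.R269.analyticAt_pd a b hX) hΦ
  · have hA := analyticAt_iteratedDeriv (G.A_analyticAt (G.lpl_mem_ball hz)) b
    exact AnalyticAt.comp (g := iteratedDeriv b G.A) (f := fun w : ℂ × ℂ => w.2) hA analyticAt_snd

/-- (`Lc_analyticAt` of EmbedB; `G.dom N ⊆ hstrip (2 s) × ball 0 r₁`.) -/
theorem L0_analyticOn (c : Fin 2) (N : ℕ) : AnalyticOnNhd ℂ (fun z => crd c (G.L0 z)) (G.dom N) := by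
  intro z hz
  have hs : 0 < G.s := G.r₁_pos.trans G.r₁_lt
  refine G.Lc_analyticAt c ⟨?_, G.lpl_mem_ball hz⟩
  have h1 : |z.1.im| < G.s / 2 := hz.1
  show |z.1.im| < 2 * G.s
  linarith

/-- the values of the edge `L(y,t)` at real points close to the glancing edge are algebraic over the field generated by the jets of the end impacts and of `A`. -/
theorem lens_valuesP (m n' : ℤ) (hm : m ≤ -1) (hn : 0 ≤ n') (c : Fin 2) (N : ℕ) :
    ∃ η : ℝ, 0 < η ∧ ∀ r : ℝ × ℝ, |r.1| < η → 0 < r.2 → r.2 < η → r ∈ G.smallR N →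
      IsAlgebraic (Subfield.closure ({Complex.I} ∪
        {a : ℂ | ∃ i ∈ lensPS m n', a = jetAtHA G.X0 G.A (rp r) i})) (crd c (G.L0 (rp r))) := by
  obtain ⟨n, hn1, hmn⟩ : ∃ n : ℕ, 1 ≤ n ∧ m + (n : ℤ) = n' := ⟨(n' - m).toNat, by omega, by omega⟩
  obtain ⟨j₀, hj1, hj2, hj0⟩ : ∃ j₀ : ℕ, 1 ≤ j₀ ∧ j₀ ≤ n ∧ m + (j₀ : ℤ) = 0 := ⟨(-m).toNat, by omega, by omega, by omega⟩
  obtain ⟨η, hη, hcore⟩ := (G.cchain m n).core_mainP hn1
  refine ⟨η, hη, ?_⟩
  intro r hr1 hr2 hr3 hrN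
  have hy0 : (G.cchain m n).y₀ = 0 := rfl
  obtain ⟨hps, hcore⟩ := hcore r (by rw [hy0, sub_zero]; exact hr1) hr2 hr3
  set s : Set ℂ := {Complex.I} ∪ {a : ℂ | ∃ i ∈ lensPS m n', a = jetAtHA G.X0 G.A (rp r) i} with hs
  have hmem : ∀ i ∈ lensPS m n', jetAtHA G.X0 G.A (rp r) i ∈ Subfield.closure s :=
    fun i hi => Subfield.subset_closure (Or.inr ⟨i, hi, rfl⟩)
  apply isAlgebraic_of_real_dv
  · apply conj_algebraic_of_gen
    intro a ha
    have hin : (starRingEnd ℂ) a ∈ Subfield.closure s := by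
      rcases ha with ha | ⟨i, hi, rfl⟩
      · rw [Set.mem_singleton_iff.mp ha, Complex.conj_I]
        exact neg_mem (Subfield.subset_closure (Or.inl rfl))
      · rcases i with i | b
        · have : (starRingEnd ℂ) (jetAtHA G.X0 G.A (rp r) (Sum.inl i)) = jetAtHA G.X0 G.A (rp r) (Sum.inl i) :=
            conj_jetH hrN i
          rw [this]
          exact hmem _ hi
        · have : (starRingEnd ℂ) (jetAtHA G.X0 G.A (rp r) (Sum.inr b)) = jetAtHA G.X0 G.A (rp r) (Sum.inr b) :=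
            iteratedDeriv_A_real hrN b
          rw [this]
          exact hmem _ hi
    exact isAlgebraic_algebraMap (⟨_, hin⟩ : Subfield.closure s)
  · intro δ hδ
    have h0 : ∀ (c : Fin 2) (a b : ℕ), δ.cx (jetAtH G.X0 (rp r) (m, c, a, b)) = 0 := by
      intro c a b
      refine hδ _ (hmem (Sum.inl (m, c, a, b)) ?_)
      intro i hi
      rw [← Sum.inl.inj hi]
      exact Or.inl rfl
    have h1 : ∀ (c : Fin 2) (a b : ℕ), δ.cx (jetAtH G.X0 (rp r) (m + n, c, a, b)) = 0 := by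
      intro c a b
      refine hδ _ (hmem (Sum.inl (m + n, c, a, b)) ?_)
      intro i hi
      rw [← Sum.inl.inj hi]
      exact Or.inr hmn
    have hA : ∀ b : ℕ, δ.cx (iteratedDeriv b G.A (rp r).2) = 0 := by
      intro b
      refine hδ _ (hmem (Sum.inr b) ?_)
      intro i hi
      exact absurd hi (by simp)
    have hE := endKilledP_of_jets hrN m n δ.cx (hps 0 (Nat.zero_le n)) (hps n le_rfl) h0 h1 hA
    have h0' : ∀ (c : Fin 2) (a b : ℕ), δ.cx (jetAtH G.X0 (rp r) (m + (0 : ℕ), c, a, b)) = 0 := by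
      intro c a b
      simpa using h0 c a b
    obtain ⟨hc0, hs0, -, -, -⟩ := impact_killed hrN m n δ.cx 0 (hps 0 (Nat.zero_le n)) h0'
    have := mid_killedP hrN m n δ.cx hc0 hs0 (hcore δ hE) j₀ hj1 hj2 c
    have hz : ((m : ℂ) + (j₀ : ℂ)) = 0 := by exact_mod_cast hj0
    rw [hz, zero_mul, add_zero] at this
    exact this

/-- P1 Theorem 4.4. -/
theorem lensP : G.LensP := by
  intro m n' hm hn c N hmN hnN
  obtain ⟨η, hη, hval⟩ := G.lens_valuesP m n' hm hn c N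
  have hpos : 0 < min G.r₁ (G.s / (N + 1)) :=
    lt_min G.r₁_pos (div_pos (G.r₁_pos.trans G.r₁_lt) (by positivity))
  set R : Set (ℝ × ℝ) := {r | |r.1| < η ∧ 0 < r.2 ∧ r.2 < η} ∩ G.smallR N with hR
  have hRo : IsOpen R := by
    apply IsOpen.inter
    · have h1 : IsOpen {r : ℝ × ℝ | |r.1| < η} := isOpen_lt (continuous_abs.comp continuous_fst) continuous_const
      have h2 : IsOpen {r : ℝ × ℝ | 0 < r.2} := isOpen_lt continuous_const continuous_snd
      have h3 : IsOpen {r : ℝ × ℝ | r.2 < η} := isOpen_lt continuous_snd continuous_const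
      exact h1.inter (h2.inter h3)
    · exact isOpen_lt (continuous_abs.comp continuous_snd) continuous_const
  have hRne : R.Nonempty := by
    refine ⟨(0, min η (min G.r₁ (G.s / (N + 1))) / 2), ⟨?_, ?_, ?_⟩, ?_⟩
    · simpa using hη
    · show 0 < min η (min G.r₁ (G.s / (N + 1))) / 2
      have := lt_min hη hpos
      linarith
    · show min η (min G.r₁ (G.s / (N + 1))) / 2 < η
      have h1 := lt_min hη hpos
      have h2 := min_le_left η (min G.r₁ (G.s / (N + 1)))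
      linarith
    · show |min η (min G.r₁ (G.s / (N + 1))) / 2| < min G.r₁ (G.s / (N + 1))
      have h1 := lt_min hη hpos
      have h2 := min_le_right η (min G.r₁ (G.s / (N + 1)))
      rw [abs_of_pos (by linarith)]
      linarith
  obtain ⟨Pi, A, B, D, h1, h2, h3, h4, h5, h6, h7, h8⟩ :=
    gen_alg (lensPS m n') (G.dom_isOpen N) (G.dom_isPreconnected N) (fun i z => jetAtHA G.X0 G.A z i)
      (fun i hi => G.jetHA_analyticOn m n' N hmN hnN i hi) (fun z => crd c (G.L0 z)) (G.L0_analyticOn c N)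
      hRo hRne (fun r hr => G.rp_mem_dom N hr.2)
      (fun r hr => hval r hr.1.1 hr.1.2.1 hr.1.2.2 hr.2)
  exact ⟨Pi, A, B, D, fun l i hi => h1 l _ hi i rfl, fun l i hi => h2 l _ hi i rfl, fun l i hi => h3 l _ hi i rfl,
    fun i hi => h4 _ hi i rfl, h5, h6, h7, h8⟩

end Glance

end Claimed.Agent.R269
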