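/-
Row 269, P1 Section 4, unit 4L = Corollary 4.9 (natural boundary of the shape).  DEFINITIONS.   Architect: helper3.  Prefix `s4l_`.

ROUTE (differs from the paper; all steps re-derived).  Only the impact map `X` is used (no lines, no angles, no logarithms, no square
roots, no normalisation constant).
  * complex Euclidean plane: `nbDot`, `nbDet` (bilinear!), reflection form `nbRfl A B C τ` (`= 0` iff the chord `C - B` is parallel to
    the mirror image of the chord `B - A` in the direction `τ`);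
  * two differential-algebraic identities of `X`, transported from the real collar by the identity theorem:
      `nbJac X = 0`  (rank one),      `nbRflX X = 0`  (reflection law for `X(y-t,t), X(y,t), X(y+t,t)` at the tangent `∂_y X(y,t)`);
  * a hypothetical continuation patch `P` of `Γ = X(.,0)` is, near a well chosen edge point `c`, a regular arc (`NbArc`);
  * local reflection map `b = β(u,a)` of the arc (`nbRflD P u a b = 0`, divided form), implicit function theorem;
  * on a thin slab below the edge `X = P ∘ ℓ`, `ℓ(y,t) = y + O(t)`, `ℓ(y+t,t) = ℓ + β(ℓ, ℓ - ℓ(y-t,t))`; this EXACT solution gives the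
    cubic accuracy `β(u,a) = a + O(a³)` on the slab, hence (identity theorem in `u`) on the whole arc: no Taylor computation;
  * propagation in steep directions `Im t > (2/5)|t|` by iteration of `β` (`N = O(1/|t|)` steps);
  * quadratic discs `t = r₀ ζ`, `y = w - i η ζ²` = ONE Hartogs figure in the coordinates `(w,ζ)`; `levi_mero`;
  * joint patch of `X` at `(c,0)`: contradiction with `no_patch_X` at `t₀ = 0`.
-/
import Claimed.Agent.R269.S4.Defs

set_option autoImplicit false

namespace Claimed.Agent.R269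

open Complex Filter Topology Set Metric

/-- the bilinear Euclidean product of `ℂ²`. -/
def nbDot (v w : ℂ × ℂ) : ℂ := v.1 * w.1 + v.2 * w.2

/-- the determinant of two vectors of `ℂ²`. -/
def nbDet (v w : ℂ × ℂ) : ℂ := v.1 * w.2 - v.2 * w.1

/-- the reflection form: `det (C - B, 2 ((B - A)·τ) τ - (τ·τ) (B - A))`. -/
def nbRfl (A B C τ : ℂ × ℂ) : ℂ :=
  nbDet (C - B) ((2 * nbDot (B - A) τ) • τ - nbDot τ τ • (B - A))

/-- the Jacobian determinant of `X : ℂ² → ℂ²` (by components, with the partial derivatives of `S4/Defs.lean`). -/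
noncomputable def nbJac (X : ℂ × ℂ → ℂ × ℂ) (z : ℂ × ℂ) : ℂ :=
  pdy (fun w => (X w).1) z * pdt (fun w => (X w).2) z - pdy (fun w => (X w).2) z * pdt (fun w => (X w).1) z

/-- the tangent `∂_y X`. -/
noncomputable def nbTan (X : ℂ × ℂ → ℂ × ℂ) (z : ℂ × ℂ) : ℂ × ℂ :=
  (pdy (fun w => (X w).1) z, pdy (fun w => (X w).2) z)

/-- the reflection law for the three consecutive impacts `X(y-t,t), X(y,t), X(y+t,t)`. -/
noncomputable def nbRflX (X : ℂ × ℂ → ℂ × ℂ) (z : ℂ × ℂ) : ℂ :=
  nbRfl (X (z.1 - z.2, z.2)) (X z) (X (z.1 + z.2, z.2)) (nbTan X z)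

/-- the open rectangle `|Re y - x| < w`, `a < Im y < b`. -/
def nbRect (x w a b : ℝ) : Set ℂ := {y | |y.re - x| < w ∧ a < y.im ∧ y.im < b}

/-- the closed rectangle. -/
def nbCRect (x w a b : ℝ) : Set ℂ := {y | |y.re - x| ≤ w ∧ a ≤ y.im ∧ y.im ≤ b}

/-- the steep sector `Im t > (2/5) |t|`, `|t| < r` (open, convex, does not contain `0`). -/
def nbSteep (r : ℝ) : Set ℂ := {t | 2 / 5 * ‖t‖ < t.im ∧ ‖t‖ < r}

/-- a regular, nonisotropic analytic arc with nonvanishing curvature determinant, parametrised by `ball c ε`. -/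
structure NbArc (P : ℂ → ℂ × ℂ) (c : ℂ) (ε : ℝ) : Prop where
  pos : 0 < ε
  an : AnalyticOnNhd ℂ P (ball c ε)
  q_ne : ∀ u ∈ ball c ε, nbDot (deriv P u) (deriv P u) ≠ 0
  k_ne : ∀ u ∈ ball c ε, nbDet (deriv P u) (deriv (deriv P) u) ≠ 0

/-- divided difference in increment form: `(P (u + b) - P u) / b`, `= P' u` for `b = 0`. -/
noncomputable def nbDdq (P : ℂ → ℂ × ℂ) (z : ℂ × ℂ) : ℂ × ℂ :=
  if z.2 = 0 then deriv P z.1 else (z.2)⁻¹ • (P (z.1 + z.2) - P z.1)

/-- the reflection law of the arc `P` at the node `u`, backward increment `a`, forward increment `b`, DIVIDED by `a b`. -/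
noncomputable def nbRflD (P : ℂ → ℂ × ℂ) (u a b : ℂ) : ℂ :=
  nbDet (nbDdq P (u, b))
    ((2 * nbDot (nbDdq P (u, -a)) (deriv P u)) • deriv P u - nbDot (deriv P u) (deriv P u) • nbDdq P (u, -a))

/-- What the propagation uses of the joint impact map on a thin slab `nbRect x w a b × ball 0 r` below the edge. -/
structure NbSlab (P : ℂ → ℂ × ℂ) (Xs : ℂ × ℂ → ℂ × ℂ) (x w a b r : ℝ) : Prop where
  an : AnalyticOnNhd ℂ Xs (nbRect x w a b ×ˢ ball (0 : ℂ) r)
  zero : ∀ y ∈ nbRect x w a b, Xs (y, 0) = P y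
  rank : ∀ z ∈ nbRect x w a b ×ˢ ball (0 : ℂ) r, nbJac Xs z = 0
  refl : ∀ z ∈ nbRect x w a b ×ˢ ball (0 : ℂ) r, z.1 - z.2 ∈ nbRect x w a b → z.1 + z.2 ∈ nbRect x w a b →
    nbRflX Xs z = 0

/-- generates the equation lemmas of the definitions above in this file (rule 6: unique names). -/
theorem s4l_defs_eqns_cite : True := by
  have := @nbDot.eq_1
  have := @nbDet.eq_1
  have := @nbRfl.eq_1
  have := @nbJac.eq_1
  have := @nbTan.eq_1
  have := @nbRflX.eq_1
  have := @nbRect.eq_1
  have := @nbCRect.eq_1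
  have := @nbSteep.eq_1
  have := @nbDdq.eq_1
  have := @nbRflD.eq_1
  trivial

end Claimed.Agent.R269
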