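/-
Row 269, unit 4L (Cor 4.9), LEAF LF-S4-4L-alg (EASY, host-free).  Statements: helper3.  The owner of the leaf owns this file:
replace the sorries in place, keep names and statements.

Algebra of `nbDot`, `nbDet`, `nbRfl`; elementary facts on the regions `nbRect`, `nbCRect`, `nbSteep`.
All algebraic identities: `unfold`, `Prod` components (`Prod.fst_sub`, `Prod.smul_fst`, ..), `ring`.
`convex_nbSteep`: `t ↦ t.im - (2/5) ‖t‖` is concave (triangle inequality), `ball` is convex.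
-/
import Claimed.Agent.R269.S4.NatDefs

set_option autoImplicit false

namespace Claimed.Agent.R269

open Complex Filter Topology Set Metric

/-- the reflection law is reversible. -/
theorem s4l_rfl_swap (A B C τ : ℂ × ℂ) : nbRfl C B A τ = nbRfl A B C τ := by
  obtain ⟨a1, a2⟩ := A; obtain ⟨b1, b2⟩ := B; obtain ⟨c1, c2⟩ := C; obtain ⟨t1, t2⟩ := τ
  simp only [nbRfl, nbDet, nbDot, smul_eq_mul, Prod.mk_sub_mk, Prod.smul_mk]
  ring

/-- homogeneity of degree two in the mirror direction. -/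
theorem s4l_rfl_smul (A B C τ : ℂ × ℂ) (k : ℂ) : nbRfl A B C (k • τ) = k ^ 2 * nbRfl A B C τ := by
  obtain ⟨a1, a2⟩ := A; obtain ⟨b1, b2⟩ := B; obtain ⟨c1, c2⟩ := C; obtain ⟨t1, t2⟩ := τ
  simp only [nbRfl, nbDet, nbDot, smul_eq_mul, Prod.mk_sub_mk, Prod.smul_mk]
  ring

theorem s4l_ddq_smul (P : ℂ → ℂ × ℂ) (z : ℂ × ℂ) : z.2 • nbDdq P z = P (z.1 + z.2) - P z.1 := by
  unfold nbDdq
  by_cases h : z.2 = 0
  · simp [h]
  · rw [if_neg h, smul_smul, mul_inv_cancel₀ h, one_smul]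

theorem s4l_ddq_zero (P : ℂ → ℂ × ℂ) (u : ℂ) : nbDdq P (u, 0) = deriv P u := by
  simp [nbDdq]

/-- the undivided reflection law of an arc is `a b` times the divided one. -/
theorem s4l_rfl_arc (P : ℂ → ℂ × ℂ) (u a b : ℂ) :
    nbRfl (P (u - a)) (P u) (P (u + b)) (deriv P u) = a * b * nbRflD P u a b := by
  have h1 : P (u + b) - P u = b • nbDdq P (u, b) := (s4l_ddq_smul P (u, b)).symm
  have h2 : P u - P (u - a) = a • nbDdq P (u, -a) := by
    have := s4l_ddq_smul P (u, -a)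
    simp only [← sub_eq_add_neg] at this
    rw [neg_smul] at this
    rw [← neg_sub, ← this, neg_neg]
  unfold nbRfl nbRflD
  rw [h1, h2]
  generalize nbDdq P (u, b) = B
  generalize nbDdq P (u, -a) = A
  generalize deriv P u = τ
  obtain ⟨a1, a2⟩ := A; obtain ⟨b1, b2⟩ := B; obtain ⟨t1, t2⟩ := τ
  simp only [nbDet, nbDot, smul_eq_mul, Prod.mk_sub_mk, Prod.smul_mk]
  ring

theorem s4l_rflD_zero (P : ℂ → ℂ × ℂ) (u : ℂ) : nbRflD P u 0 0 = 0 := by
  unfold nbRflD
  rw [neg_zero, s4l_ddq_zero]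
  generalize deriv P u = τ
  obtain ⟨t1, t2⟩ := τ
  simp only [nbDet, nbDot, smul_eq_mul, Prod.mk_sub_mk, Prod.smul_mk]
  ring

theorem s4l_cvx_lt {a p q s t : ℝ} (hp : a < p) (hq : a < q) (hs : 0 ≤ s) (ht : 0 ≤ t)
    (hst : s + t = 1) : a < s * p + t * q := by
  rcases hs.eq_or_lt with h | h
  · have ht1 : t = 1 := by linarith
    rw [← h, ht1]
    linarith
  · have h1 : s * a < s * p := mul_lt_mul_of_pos_left hp h
    have h2 : t * a ≤ t * q := mul_le_mul_of_nonneg_left hq.le ht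
    have h3 : a = s * a + t * a := by rw [← add_mul, hst, one_mul]
    linarith

theorem s4l_cvx_gt {a p q s t : ℝ} (hp : p < a) (hq : q < a) (hs : 0 ≤ s) (ht : 0 ≤ t)
    (hst : s + t = 1) : s * p + t * q < a := by
  have := s4l_cvx_lt (neg_lt_neg hp) (neg_lt_neg hq) hs ht hst
  linarith

theorem isOpen_nbRect (x w a b : ℝ) : IsOpen (nbRect x w a b) := by
  have h1 : IsOpen {y : ℂ | |y.re - x| < w} :=
    isOpen_lt (by fun_prop) continuous_const
  have h2 : IsOpen {y : ℂ | a < y.im} := isOpen_lt continuous_const Complex.continuous_im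
  have h3 : IsOpen {y : ℂ | y.im < b} := isOpen_lt Complex.continuous_im continuous_const
  exact h1.inter (h2.inter h3)

theorem convex_nbRect (x w a b : ℝ) : Convex ℝ (nbRect x w a b) := by
  intro y hy z hz s t hs ht hst
  obtain ⟨hy1, hy2, hy3⟩ := hy
  obtain ⟨hz1, hz2, hz3⟩ := hz
  rw [abs_lt] at hy1 hz1
  have hre : (s • y + t • z).re = s * y.re + t * z.re := by simp
  have him : (s • y + t • z).im = s * y.im + t * z.im := by simp
  refine ⟨?_, ?_, ?_⟩
  · rw [hre, abs_lt]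
    constructor
    · have := s4l_cvx_lt (a := x - w) (p := y.re) (q := z.re) (by linarith) (by linarith) hs ht hst
      linarith
    · have := s4l_cvx_gt (a := x + w) (p := y.re) (q := z.re) (by linarith) (by linarith) hs ht hst
      linarith
  · rw [him]; exact s4l_cvx_lt hy2 hz2 hs ht hst
  · rw [him]; exact s4l_cvx_gt hy3 hz3 hs ht hst

theorem isCompact_nbCRect (x w a b : ℝ) : IsCompact (nbCRect x w a b) := by
  have h : nbCRect x w a b = Icc (x - w) (x + w) ×ℂ Icc a b := by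
    ext y
    simp only [nbCRect, Complex.mem_reProdIm, mem_Icc, abs_le]
    constructor
    · rintro ⟨⟨h1, h2⟩, h3, h4⟩
      exact ⟨⟨by linarith, by linarith⟩, h3, h4⟩
    · rintro ⟨⟨h1, h2⟩, h3, h4⟩
      exact ⟨⟨by linarith, by linarith⟩, h3, h4⟩
  rw [h]
  exact isCompact_Icc.reProdIm isCompact_Icc

theorem convex_nbCRect (x w a b : ℝ) : Convex ℝ (nbCRect x w a b) := by
  intro y hy z hz s t hs ht hst
  obtain ⟨hy1, hy2, hy3⟩ := hy
  obtain ⟨hz1, hz2, hz3⟩ := hz
  rw [abs_le] at hy1 hz1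
  have hre : (s • y + t • z).re = s * y.re + t * z.re := by simp
  have him : (s • y + t • z).im = s * y.im + t * z.im := by simp
  have hs' : s = 1 - t := by linarith
  subst hs'
  refine ⟨?_, ?_, ?_⟩
  · rw [hre, abs_le]
    constructor <;> nlinarith
  · rw [him]; nlinarith
  · rw [him]; nlinarith

theorem nbRect_subset_nbCRect (x w a b : ℝ) : nbRect x w a b ⊆ nbCRect x w a b :=
  fun _ hy => ⟨hy.1.le, hy.2.1.le, hy.2.2.le⟩

theorem nbCRect_subset_nbRect {x w a b w' a' b' : ℝ} (hw : w' < w) (ha : a < a') (hb : b' < b) :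
    nbCRect x w' a' b' ⊆ nbRect x w a b :=
  fun _ hy => ⟨hy.1.trans_lt hw, ha.trans_le hy.2.1, hy.2.2.trans_lt hb⟩

theorem nbRect_mono {x w a b w' a' b' : ℝ} (hw : w' ≤ w) (ha : a ≤ a') (hb : b' ≤ b) :
    nbRect x w' a' b' ⊆ nbRect x w a b :=
  fun _ hy => ⟨hy.1.trans_le hw, ha.trans_lt hy.2.1, hy.2.2.trans_le hb⟩

/-- a rectangle lies in the ball about `c` whose radius dominates half width plus heights. -/
theorem nbRect_subset_ball {c : ℂ} {w a b R : ℝ} (h1 : w + (c.im - a) ≤ R) (h2 : w + (b - c.im) ≤ R) :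
    nbRect c.re w a b ⊆ ball c R := by
  intro y hy
  obtain ⟨hy1, hy2, hy3⟩ := hy
  rw [mem_ball, dist_eq_norm]
  have h3 := Complex.norm_le_abs_re_add_abs_im (y - c)
  rw [Complex.sub_re, Complex.sub_im] at h3
  have h4 : |y.im - c.im| < max (c.im - a) (b - c.im) := by
    rw [abs_lt, lt_max_iff]
    constructor
    · have := le_max_left (c.im - a) (b - c.im)
      linarith
    · right; linarith
  have h5 : max (c.im - a) (b - c.im) ≤ R - w := max_le (by linarith) (by linarith)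
  linarith

theorem isOpen_nbSteep (r : ℝ) : IsOpen (nbSteep r) := by
  have h1 : IsOpen {t : ℂ | 2 / 5 * ‖t‖ < t.im} :=
    isOpen_lt (by fun_prop) Complex.continuous_im
  have h2 : IsOpen {t : ℂ | ‖t‖ < r} := isOpen_lt continuous_norm continuous_const
  exact h1.inter h2

theorem convex_nbSteep (r : ℝ) : Convex ℝ (nbSteep r) := by
  intro y hy z hz s t hs ht hst
  obtain ⟨hy1, hy2⟩ := hy
  obtain ⟨hz1, hz2⟩ := hz
  have him : (s • y + t • z).im = s * y.im + t * z.im := by simp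
  have hn : ‖s • y + t • z‖ ≤ s * ‖y‖ + t * ‖z‖ := by
    refine (norm_add_le _ _).trans ?_
    rw [norm_smul, norm_smul, Real.norm_of_nonneg hs, Real.norm_of_nonneg ht]
  refine ⟨?_, ?_⟩
  · rw [him]
    have := s4l_cvx_lt (a := 0) (p := y.im - 2 / 5 * ‖y‖) (q := z.im - 2 / 5 * ‖z‖) (by linarith)
      (by linarith) hs ht hst
    nlinarith
  · exact hn.trans_lt (s4l_cvx_gt hy2 hz2 hs ht hst)

theorem nbSteep_nonempty {r : ℝ} (hr : 0 < r) : (nbSteep r).Nonempty := by
  refine ⟨((r / 2 : ℝ) : ℂ) * I, ?_, ?_⟩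
  · have h1 : ‖((r / 2 : ℝ) : ℂ) * I‖ = r / 2 := by
      rw [norm_mul, Complex.norm_I, mul_one, Complex.norm_real, Real.norm_of_nonneg (by linarith)]
    rw [h1]
    simp only [Complex.mul_im, Complex.ofReal_re, Complex.I_im, Complex.ofReal_im, Complex.I_re]
    linarith
  · have h1 : ‖((r / 2 : ℝ) : ℂ) * I‖ = r / 2 := by
      rw [norm_mul, Complex.norm_I, mul_one, Complex.norm_real, Real.norm_of_nonneg (by linarith)]
    rw [h1]
    linarith

theorem nbSteep_mono {r r' : ℝ} (h : r' ≤ r) : nbSteep r' ⊆ nbSteep r :=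
  fun _ ht => ⟨ht.1, ht.2.trans_le h⟩

theorem nbSteep_subset_ball (r : ℝ) : nbSteep r ⊆ ball (0 : ℂ) r :=
  fun t ht => by simpa using ht.2

/-- in the steep sector `0 < Im t` and `|t| < (5/2) Im t`. -/
theorem nbSteep_im_pos {r : ℝ} {t : ℂ} (ht : t ∈ nbSteep r) : 0 < t.im ∧ ‖t‖ < 5 / 2 * t.im := by
  have h1 := ht.1
  have h2 := norm_nonneg t
  constructor <;> linarith

/-- restriction of slab data to a smaller slab. -/
theorem NbSlab.mono {P : ℂ → ℂ × ℂ} {Xs : ℂ × ℂ → ℂ × ℂ} {x w a b r w' a' b' r' : ℝ}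
    (h : NbSlab P Xs x w a b r) (hw : w' ≤ w) (ha : a ≤ a') (hb : b' ≤ b) (hr : r' ≤ r) :
    NbSlab P Xs x w' a' b' r' := by
  have hR : nbRect x w' a' b' ⊆ nbRect x w a b := nbRect_mono hw ha hb
  have hB : ball (0 : ℂ) r' ⊆ ball (0 : ℂ) r := ball_subset_ball hr
  exact
    { an := h.an.mono (prod_mono hR hB)
      zero := fun y hy => h.zero y (hR hy)
      rank := fun z hz => h.rank z ⟨hR hz.1, hB hz.2⟩
      refl := fun z hz h1 h2 => h.refl z ⟨hR hz.1, hB hz.2⟩ (hR h1) (hR h2) }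

/-- slab data for the reversed parameter `t ↦ -t` (`s4l_rfl_swap`; `pdt` changes sign, `pdy` does not). -/
theorem NbSlab.neg {P : ℂ → ℂ × ℂ} {Xs : ℂ × ℂ → ℂ × ℂ} {x w a b r : ℝ} (h : NbSlab P Xs x w a b r) :
    NbSlab P (fun z => Xs (z.1, -z.2)) x w a b r := by
  have hmem : ∀ z ∈ nbRect x w a b ×ˢ ball (0 : ℂ) r,
      ((z.1, -z.2) : ℂ × ℂ) ∈ nbRect x w a b ×ˢ ball (0 : ℂ) r := by
    intro z hz
    refine ⟨hz.1, ?_⟩
    have := hz.2
    simp only [mem_ball, dist_zero_right, norm_neg] at this ⊢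
    exact this
  have hpdy : ∀ (u : ℂ × ℂ → ℂ) (z : ℂ × ℂ),
      pdy (fun w => u (w.1, -w.2)) z = pdy u (z.1, -z.2) := fun u z => rfl
  have hpdt : ∀ (u : ℂ × ℂ → ℂ) (z : ℂ × ℂ),
      pdt (fun w => u (w.1, -w.2)) z = -pdt u (z.1, -z.2) := by
    intro u z
    unfold pdt
    exact deriv_comp_neg (fun t => u (z.1, t)) z.2
  refine
    { an := ?_
      zero := ?_
      rank := ?_
      refl := ?_ }
  · intro z hz
    exact AnalyticAt.comp (g := Xs) (f := fun z : ℂ × ℂ => ((z.1, -z.2) : ℂ × ℂ)) (h.an _ (hmem z hz))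
      (analyticAt_fst.prod analyticAt_snd.neg)
  · intro y hy
    simpa using h.zero y hy
  · intro z hz
    have h1 := h.rank _ (hmem z hz)
    unfold nbJac at h1 ⊢
    rw [hpdy (fun w => (Xs w).1), hpdy (fun w => (Xs w).2), hpdt (fun w => (Xs w).1),
      hpdt (fun w => (Xs w).2)]
    linear_combination -h1
  · intro z hz h1 h2
    have h3 := h.refl _ (hmem z hz) (by simpa [sub_neg_eq_add] using h2)
      (by simpa [← sub_eq_add_neg] using h1)
    unfold nbRflX nbTan at h3 ⊢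
    rw [hpdy (fun w => (Xs w).1), hpdy (fun w => (Xs w).2)]
    simp only [sub_neg_eq_add, ← sub_eq_add_neg] at h3
    rw [s4l_rfl_swap]
    exact h3

end Claimed.Agent.R269
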