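/-
Row 269, unit 4L (Cor 4.9): THE HARTOGS FIGURE OF QUADRATIC DISCS, definitions.  Architect: helper3.

`F` = one component of the joint impact map, known (meromorphic) below the height `H` for small `t` (the radius depends on the height), `Ep`, `Em` = its analytic continuations for steep
`t` (`Im t > (2/5)|t|`, resp. `-t` steep) over the rectangle `nbRect x e a₀ (H+e)`, attached to `F` on the slab `nbRect x e a₀ a₁`.
Discs (P1 (4.31)):  `t = r' ζ`, `y = w - i η ζ²`, `η = e/8`;   `nbSh η r' (w,ζ) = (y,t)` is a polynomial automorphism of `ℂ²` (a `shear` of `Lib/Mero2.lean`), inverse `nbShInv`.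
In the coordinates `(w,ζ)`:   parameter domain `nbW = nbRect x (e/64) (H - e/4 - e/64) (H + e/64)`, seed `nbW₀` (bottom part), collar `annulus 0 (19/20) (21/20)`.
NUMBERS (`|ζ| < 21/20`, `w ∈ nbW`):  `|y - w| ≤ η |ζ|² < 0.138 e`;  `Im y = Im w - η Re ζ²`;
  near-real arcs `|Im ζ| < (9/20)|ζ|`, `|ζ| > 19/20`:  `Re ζ² = |ζ|² - 2 (Im ζ)² > 0.595 |ζ|² > 0.536`, so `Im y < H + e/64 - 0.536 e/8 < H - e/32`;
  seed `Im w < H - e/4 + e/64`:  `Im y < H - e/4 + e/64 + 0.138 e < H - e/32`.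
-/
import Claimed.Agent.R269.S4.NatAlg
import Claimed.Agent.R269.Lib.Levi

set_option autoImplicit false

namespace Claimed.Agent.R269

open Complex Filter Topology Set Metric

/-- the family of quadratic discs `(w,ζ) ↦ (w - i η ζ², r ζ)`. -/
noncomputable def nbSh (η r : ℝ) : ℂ × ℂ → ℂ × ℂ := shear (fun ζ => -(I * η * ζ ^ 2)) 0 r

/-- the same with `t ↦ -t`: `(w,ζ) ↦ (w - i η ζ², - r ζ)`. -/
noncomputable def nbShN (η r : ℝ) : ℂ × ℂ → ℂ × ℂ := shear (fun ζ => -(I * η * ζ ^ 2)) 0 (-(r : ℂ))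

/-- the inverse of `nbSh η r`: `(y,t) ↦ (y + i η (t/r)², t/r)`. -/
noncomputable def nbShInv (η r : ℝ) : ℂ × ℂ → ℂ × ℂ :=
  shear (fun t => I * η * (t / r) ^ 2) 0 ((r : ℂ)⁻¹)

/-- the parameter domain of the Hartogs figure. -/
def nbW (x H e : ℝ) : Set ℂ := nbRect x (e / 64) (H - e / 4 - e / 64) (H + e / 64)

/-- the seed. -/
def nbW₀ (x H e : ℝ) : Set ℂ := nbRect x (e / 64) (H - e / 4 - e / 64) (H - e / 4 + e / 64)

/-- the data of the Hartogs figure. -/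
structure NbFig (x H e a₀ a₁ r₀ : ℝ) (F Ep Em : ℂ × ℂ → ℂ) : Prop where
  e_pos : 0 < e
  a₀_lt : a₀ < a₁
  a₀_le : a₀ ≤ H - e
  r₀_pos : 0 < r₀
  F_mero : ∀ b : ℝ, b < H → ∃ r : ℝ, 0 < r ∧ Mero2On F (nbRect x e a₀ b ×ˢ ball (0 : ℂ) r)
  Ep_an : AnalyticOnNhd ℂ Ep (nbRect x e a₀ (H + e) ×ˢ nbSteep r₀)
  Ep_eq : ∀ z ∈ nbRect x e a₀ a₁ ×ˢ nbSteep r₀, Ep z = F z
  Em_an : AnalyticOnNhd ℂ Em (nbRect x e a₀ (H + e) ×ˢ nbSteep r₀)
  Em_eq : ∀ z ∈ nbRect x e a₀ a₁ ×ˢ nbSteep r₀, Em z = F (z.1, -z.2)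

theorem s4l_figdefs_eqns_cite : True := by
  have := @nbSh.eq_1
  have := @nbShN.eq_1
  have := @nbShInv.eq_1
  have := @nbW.eq_1
  have := @nbW₀.eq_1
  trivial

end Claimed.Agent.R269
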