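/-
Row 269, unit 4L (Cor 4.9), LEAF LF-S4-4L-figA.  Statements: helper3.  The owner of the leaf owns this file.

(1) GEOMETRY of the quadratic discs: elementary inequalities, numbers in the header of `NatFigDefs.lean`.   `(nbSh η r z).1 = z.1 - I η z.2²`, `(nbSh η r z).2 = r z.2` (`unfold nbSh shear; simp`).
    `Re (I η ζ²) = - η Im ζ² `, `|Im ζ²| ≤ |ζ|²`;  `Im (I η ζ²) = η Re ζ² = η (|ζ|² - 2 (Im ζ)²)`  (`Complex.sq_norm`, `Complex.normSq_apply`, `ζ = ⟨a,b⟩`, `nlinarith`).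
(2) ATTACHMENT `s4l_fig_att`: identity theorem `Mero2On.eqAt_of_isPreconnected` on `nbRect x e a₀ b ×ˢ nbSteep r` (open, convex ⇒ preconnected: `Convex.prod`, `Convex.isPreconnected`); `Ep` is analytic there
    (`AnalyticOnNhd.mero2On`), `F` meromorphic (`nbSteep r ⊆ ball 0 r`); base point `z₀ ∈ nbRect x e a₀ (min a₁ b) ×ˢ nbSteep r` (nonempty if `a₀ < b`; if `b ≤ a₀` the rectangle is empty): `Ep = F` near `z₀`
    (`NbFig.Ep_eq`), `Mero2At.eqAt_of_eventuallyEq`.   For `Em`: the same with `fun w => F (w.1, -w.2) = F ∘ shear 0 0 (-1)` (`Mero2At.comp_shear`).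
-/
import Claimed.Agent.R269.S4.NatFigDefs

set_option autoImplicit false

namespace Claimed.Agent.R269

open Complex Filter Topology Set Metric

theorem s4l_sh_apply (η r : ℝ) (z : ℂ × ℂ) : nbSh η r z = (z.1 - I * η * z.2 ^ 2, r * z.2) := by
  simp [nbSh, shear, sub_eq_add_neg]

theorem s4l_shN_apply (η r : ℝ) (z : ℂ × ℂ) : nbShN η r z = ((nbSh η r z).1, -(nbSh η r z).2) := by
  simp [nbSh, nbShN, shear]

theorem s4l_shInv_apply (η r : ℝ) (z : ℂ × ℂ) :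
    nbShInv η r z = (z.1 + I * η * (z.2 / r) ^ 2, z.2 / r) := by
  simp [nbShInv, shear, div_eq_inv_mul]

theorem s4l_sh_inv {η r : ℝ} (hr : r ≠ 0) (z : ℂ × ℂ) : nbSh η r (nbShInv η r z) = z := by
  rw [s4l_sh_apply, s4l_shInv_apply]
  have hr' : (r : ℂ) ≠ 0 := by exact_mod_cast hr
  refine Prod.ext ?_ ?_
  · simp
  · simp only
    field_simp

theorem s4l_Iηsq_re (η : ℝ) (ζ : ℂ) : (I * η * ζ ^ 2).re = -(η * (2 * ζ.re * ζ.im)) := by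
  simp only [pow_two, Complex.mul_re, Complex.mul_im, Complex.I_re, Complex.I_im, Complex.ofReal_re,
    Complex.ofReal_im]
  ring

theorem s4l_Iηsq_im (η : ℝ) (ζ : ℂ) : (I * η * ζ ^ 2).im = η * (ζ.re ^ 2 - ζ.im ^ 2) := by
  simp [pow_two]

theorem s4l_norm_sq (ζ : ℂ) : ‖ζ‖ ^ 2 = ζ.re ^ 2 + ζ.im ^ 2 := by
  rw [Complex.sq_norm, Complex.normSq_apply]
  ring

/-- all discs lie over the rectangle. -/
theorem s4l_geo_rect {x H e r : ℝ} (he : 0 < e) {z : ℂ × ℂ}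
    (hz : z ∈ nbW x H e ×ˢ ball (0 : ℂ) (21 / 20)) :
    (nbSh (e / 8) r z).1 ∈ nbRect x e (H - e) (H + e) := by
  obtain ⟨⟨h1, h2, h3⟩, h4⟩ := hz
  have h4' : ‖z.2‖ < 21 / 20 := by simpa using h4
  have hN : z.2.re ^ 2 + z.2.im ^ 2 < 441 / 400 := by
    rw [← s4l_norm_sq]
    nlinarith [norm_nonneg z.2]
  rw [s4l_sh_apply]
  rw [abs_lt] at h1
  have e1 : (2 * z.2.re * z.2.im) ≤ z.2.re ^ 2 + z.2.im ^ 2 := by nlinarith [sq_nonneg (z.2.re - z.2.im)]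
  have e2 : -(z.2.re ^ 2 + z.2.im ^ 2) ≤ (2 * z.2.re * z.2.im) := by
    nlinarith [sq_nonneg (z.2.re + z.2.im)]
  have e3 : z.2.re ^ 2 - z.2.im ^ 2 ≤ z.2.re ^ 2 + z.2.im ^ 2 := by nlinarith [sq_nonneg z.2.im]
  have e4 : -(z.2.re ^ 2 + z.2.im ^ 2) ≤ z.2.re ^ 2 - z.2.im ^ 2 := by nlinarith [sq_nonneg z.2.re]
  have hcast : ((e / 8 : ℝ) : ℂ) = ((e / 8 : ℝ) : ℂ) := rfl
  refine ⟨?_, ?_, ?_⟩
  · show |(z.1 - I * ((e / 8 : ℝ) : ℂ) * z.2 ^ 2).re - x| < e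
    rw [Complex.sub_re, s4l_Iηsq_re, abs_lt]
    constructor <;> nlinarith
  · show H - e < (z.1 - I * ((e / 8 : ℝ) : ℂ) * z.2 ^ 2).im
    rw [Complex.sub_im, s4l_Iηsq_im]
    nlinarith
  · show (z.1 - I * ((e / 8 : ℝ) : ℂ) * z.2 ^ 2).im < H + e
    rw [Complex.sub_im, s4l_Iηsq_im]
    nlinarith

/-- the near-real arcs of the collar lie below `H - e/32`. -/
theorem s4l_geo_real {x H e r : ℝ} (he : 0 < e) {z : ℂ × ℂ}
    (hz : z ∈ nbW x H e ×ˢ annulus 0 (19 / 20) (21 / 20)) (h : |z.2.im| < 9 / 20 * ‖z.2‖) :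
    (nbSh (e / 8) r z).1.im < H - e / 32 := by
  obtain ⟨⟨h1, h2, h3⟩, h4, h5⟩ := hz
  rw [sub_zero] at h4 h5
  have hN : 361 / 400 < ‖z.2‖ ^ 2 := by nlinarith [norm_nonneg z.2]
  have hq : z.2.im ^ 2 < 81 / 400 * ‖z.2‖ ^ 2 := by
    have h6 : z.2.im ^ 2 = |z.2.im| ^ 2 := (sq_abs _).symm
    rw [h6]
    nlinarith [abs_nonneg z.2.im, norm_nonneg z.2]
  have hN' := s4l_norm_sq z.2
  rw [s4l_sh_apply]
  show (z.1 - I * ((e / 8 : ℝ) : ℂ) * z.2 ^ 2).im < H - e / 32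
  rw [Complex.sub_im, s4l_Iηsq_im]
  have h7 : 361 / 400 * (238 / 400) < z.2.re ^ 2 - z.2.im ^ 2 := by nlinarith
  nlinarith

/-- the seed discs lie below `H - e/32`. -/
theorem s4l_geo_seed {x H e r : ℝ} (he : 0 < e) {z : ℂ × ℂ}
    (hz : z ∈ nbW₀ x H e ×ˢ ball (0 : ℂ) (21 / 20)) :
    (nbSh (e / 8) r z).1.im < H - e / 32 := by
  obtain ⟨⟨h1, h2, h3⟩, h4⟩ := hz
  have h4' : ‖z.2‖ < 21 / 20 := by simpa using h4
  have hN : z.2.re ^ 2 + z.2.im ^ 2 < 441 / 400 := by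
    rw [← s4l_norm_sq]
    nlinarith [norm_nonneg z.2]
  have e4 : -(z.2.re ^ 2 + z.2.im ^ 2) ≤ z.2.re ^ 2 - z.2.im ^ 2 := by nlinarith [sq_nonneg z.2.re]
  rw [s4l_sh_apply]
  show (z.1 - I * ((e / 8 : ℝ) : ℂ) * z.2 ^ 2).im < H - e / 32
  rw [Complex.sub_im, s4l_Iηsq_im]
  nlinarith

theorem s4l_geo_ball {η r : ℝ} (hr : 0 < r) {z : ℂ × ℂ} {R : ℝ} (hz : z.2 ∈ ball (0 : ℂ) R) :
    (nbSh η r z).2 ∈ ball (0 : ℂ) (R * r) := by
  have hz' : ‖z.2‖ < R := by simpa using hz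
  rw [s4l_sh_apply, mem_ball, dist_zero_right, norm_mul, Complex.norm_real,
    Real.norm_of_nonneg hr.le]
  nlinarith

theorem s4l_geo_steep {η r : ℝ} (hr : 0 < r) {z : ℂ × ℂ} {R : ℝ} (hz : z.2 ∈ ball (0 : ℂ) R)
    (h : 2 / 5 * ‖z.2‖ < z.2.im) : (nbSh η r z).2 ∈ nbSteep (R * r) := by
  have hz' : ‖z.2‖ < R := by simpa using hz
  rw [s4l_sh_apply]
  have hn : ‖(r : ℂ) * z.2‖ = r * ‖z.2‖ := by
    rw [norm_mul, Complex.norm_real, Real.norm_of_nonneg hr.le]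
  have him : ((r : ℂ) * z.2).im = r * z.2.im := by simp
  refine ⟨?_, ?_⟩
  · show 2 / 5 * ‖(r : ℂ) * z.2‖ < ((r : ℂ) * z.2).im
    rw [hn, him]
    nlinarith
  · show ‖(r : ℂ) * z.2‖ < R * r
    rw [hn]
    nlinarith

theorem s4l_geo_steepN {η r : ℝ} (hr : 0 < r) {z : ℂ × ℂ} {R : ℝ} (hz : z.2 ∈ ball (0 : ℂ) R)
    (h : z.2.im < -(2 / 5 * ‖z.2‖)) : (nbShN η r z).2 ∈ nbSteep (R * r) := by
  have hz' : ‖z.2‖ < R := by simpa using hz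
  rw [s4l_shN_apply, s4l_sh_apply]
  have hn : ‖-((r : ℂ) * z.2)‖ = r * ‖z.2‖ := by
    rw [norm_neg, norm_mul, Complex.norm_real, Real.norm_of_nonneg hr.le]
  have him : (-((r : ℂ) * z.2)).im = -(r * z.2.im) := by simp
  refine ⟨?_, ?_⟩
  · show 2 / 5 * ‖-((r : ℂ) * z.2)‖ < (-((r : ℂ) * z.2)).im
    rw [hn, him]
    nlinarith
  · show ‖-((r : ℂ) * z.2)‖ < R * r
    rw [hn]
    nlinarith

/-- small bidiscs about the edge point are covered by the discs with small `ζ`. -/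
theorem s4l_geo_inv {x H e r : ℝ} (he : 0 < e) (hr : 0 < r) {z : ℂ × ℂ}
    (h1 : z.1 ∈ ball ((x : ℂ) + H * I) (e / 128)) (h2 : z.2 ∈ ball (0 : ℂ) (r / 4)) :
    nbShInv (e / 8) r z ∈ nbW x H e ×ˢ ball (0 : ℂ) (1 / 4) := by
  have h2' : ‖z.2‖ < r / 4 := by simpa using h2
  have hζ : ‖z.2 / (r : ℂ)‖ < 1 / 4 := by
    rw [norm_div, Complex.norm_real, Real.norm_of_nonneg hr.le, div_lt_iff₀ hr]
    linarith
  set ζ : ℂ := z.2 / (r : ℂ) with hζdef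
  have hN : ζ.re ^ 2 + ζ.im ^ 2 < 1 / 16 := by
    rw [← s4l_norm_sq]
    nlinarith [norm_nonneg ζ]
  have e1 : (2 * ζ.re * ζ.im) ≤ ζ.re ^ 2 + ζ.im ^ 2 := by nlinarith [sq_nonneg (ζ.re - ζ.im)]
  have e2 : -(ζ.re ^ 2 + ζ.im ^ 2) ≤ (2 * ζ.re * ζ.im) := by nlinarith [sq_nonneg (ζ.re + ζ.im)]
  have e3 : ζ.re ^ 2 - ζ.im ^ 2 ≤ ζ.re ^ 2 + ζ.im ^ 2 := by nlinarith [sq_nonneg ζ.im]
  have e4 : -(ζ.re ^ 2 + ζ.im ^ 2) ≤ ζ.re ^ 2 - ζ.im ^ 2 := by nlinarith [sq_nonneg ζ.re]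
  have h1' : ‖z.1 - ((x : ℂ) + H * I)‖ < e / 128 := by simpa [dist_eq_norm] using h1
  have hre := abs_le.1 ((Complex.abs_re_le_norm _).trans h1'.le)
  have him := abs_le.1 ((Complex.abs_im_le_norm _).trans h1'.le)
  have hre' : (z.1 - ((x : ℂ) + H * I)).re = z.1.re - x := by simp
  have him' : (z.1 - ((x : ℂ) + H * I)).im = z.1.im - H := by simp
  rw [hre'] at hre
  rw [him'] at him
  rw [s4l_shInv_apply]
  refine ⟨⟨?_, ?_, ?_⟩, ?_⟩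
  rotate_left 3
  · show ζ ∈ ball (0 : ℂ) (1 / 4)
    rw [mem_ball, dist_zero_right]
    exact hζ
  · show |(z.1 + I * ((e / 8 : ℝ) : ℂ) * ζ ^ 2).re - x| < e / 64
    rw [Complex.add_re, s4l_Iηsq_re, abs_lt]
    constructor <;> nlinarith [hre.1, hre.2]
  · show H - e / 4 - e / 64 < (z.1 + I * ((e / 8 : ℝ) : ℂ) * ζ ^ 2).im
    rw [Complex.add_im, s4l_Iηsq_im]
    nlinarith [him.1, him.2]
  · show (z.1 + I * ((e / 8 : ℝ) : ℂ) * ζ ^ 2).im < H + e / 64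
    rw [Complex.add_im, s4l_Iηsq_im]
    nlinarith [him.1, him.2]

theorem s4l_mero_neg {F : ℂ × ℂ → ℂ} {z : ℂ × ℂ} (h : Mero2At F (z.1, -z.2)) :
    Mero2At (fun w => F (w.1, -w.2)) z := by
  have h1 : shear (fun _ => 0) 0 (-1) z = (z.1, -z.2) := by simp [shear]
  have h2 := Mero2At.comp_shear (F := F) (a := fun _ => 0) (t₀ := 0) (r := -1) (z := z)
    (by rw [h1]; exact h) analyticAt_const (by norm_num)
  have h3 : (fun w => F (shear (fun _ => 0) 0 (-1) w)) = fun w => F (w.1, -w.2) := by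
    funext w
    simp [shear]
  rwa [h3] at h2

/-- attachment of the steep continuations to `F` at every height below `H`. -/
theorem s4l_fig_att {x H e a₀ a₁ r₀ : ℝ} {F Ep Em : ℂ × ℂ → ℂ} (h : NbFig x H e a₀ a₁ r₀ F Ep Em)
    {b r : ℝ} (hb : b < H) (hr : 0 < r) (hr₀ : r ≤ r₀)
    (hF : Mero2On F (nbRect x e a₀ b ×ˢ ball (0 : ℂ) r)) :
    (∀ z ∈ nbRect x e a₀ b ×ˢ nbSteep r, Mero2EqAt Ep F z) ∧
      ∀ z ∈ nbRect x e a₀ b ×ˢ nbSteep r, Mero2EqAt Em (fun w => F (w.1, -w.2)) z := by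
  have he := h.e_pos
  have hpre : IsPreconnected (nbRect x e a₀ b ×ˢ nbSteep r) :=
    ((convex_nbRect _ _ _ _).prod (convex_nbSteep r)).isPreconnected
  have hsub : nbRect x e a₀ b ×ˢ nbSteep r ⊆ nbRect x e a₀ (H + e) ×ˢ nbSteep r₀ :=
    prod_mono (nbRect_mono le_rfl le_rfl (by linarith)) (nbSteep_mono hr₀)
  have hopen : IsOpen (nbRect x e a₀ a₁ ×ˢ nbSteep r₀) :=
    (isOpen_nbRect _ _ _ _).prod (isOpen_nbSteep r₀)
  obtain ⟨t₀, ht₀⟩ := nbSteep_nonempty hr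
  -- base point
  have hbase : ∀ z ∈ nbRect x e a₀ b ×ˢ nbSteep r,
      ∃ z₀ ∈ nbRect x e a₀ b ×ˢ nbSteep r, z₀ ∈ nbRect x e a₀ a₁ ×ˢ nbSteep r₀ := by
    intro z hz
    have hab : a₀ < b := hz.1.2.1.trans hz.1.2.2
    have hm : a₀ < min a₁ b := lt_min h.a₀_lt hab
    have hy : ∀ b', min a₁ b ≤ b' → (⟨x, (a₀ + min a₁ b) / 2⟩ : ℂ) ∈ nbRect x e a₀ b' := by
      intro b' hb'
      refine ⟨by simpa using he, ?_, ?_⟩
      · show a₀ < (a₀ + min a₁ b) / 2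
        linarith
      · show (a₀ + min a₁ b) / 2 < b'
        linarith
    exact ⟨(⟨x, (a₀ + min a₁ b) / 2⟩, t₀), ⟨hy b (min_le_right _ _), ht₀⟩,
      ⟨hy a₁ (min_le_left _ _), nbSteep_mono hr₀ ht₀⟩⟩
  constructor
  · intro z hz
    obtain ⟨z₀, hz₀, hz₀'⟩ := hbase z hz
    refine Mero2On.eqAt_of_isPreconnected hpre (h.Ep_an.mono hsub).mero2On
      (fun w hw => hF w ⟨hw.1, nbSteep_subset_ball r hw.2⟩) hz₀ ?_ z hz
    refine (h.Ep_an z₀ (hsub hz₀)).mero2At.eqAt_of_eventuallyEq ?_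
    filter_upwards [hopen.mem_nhds hz₀'] with w hw using h.Ep_eq w hw
  · intro z hz
    obtain ⟨z₀, hz₀, hz₀'⟩ := hbase z hz
    refine Mero2On.eqAt_of_isPreconnected hpre (h.Em_an.mono hsub).mero2On
      (fun w hw => s4l_mero_neg (hF _ ⟨hw.1, ?_⟩)) hz₀ ?_ z hz
    · have := nbSteep_subset_ball r hw.2
      simpa using this
    · refine (h.Em_an z₀ (hsub hz₀)).mero2At.eqAt_of_eventuallyEq ?_
      filter_upwards [hopen.mem_nhds hz₀'] with w hw using h.Em_eq w hw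

end Claimed.Agent.R269
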