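/-
Row 269, unit 4L (Cor 4.9), LEAF LF-S4-4L-figB.  Statements: helper3.  The owner of the leaf owns this file.

THE COLLAR FUNCTION.  `A := annulus 0 (19/20) (21/20)`, `Sh := nbSh (e/8) r'`, `ShN := nbShN (e/8) r'`, `b₂ := H - e/32`.  Three open pieces of `nbW ×ˢ A`:
   `U₁ = {|Im ζ| < (9/20)|ζ|}`, `F₁ = F ∘ Sh`;      `U₂ = {(2/5)|ζ| < Im ζ}`, `F₂ = Ep ∘ Sh`;      `U₃ = {Im ζ < -(2/5)|ζ|}`, `F₃ = Em ∘ ShN`.
They cover `nbW ×ˢ A` (`ζ ≠ 0` there).   `Mero2.exists_glue` with `ι = Fin 3` (or `exists_glue₂` twice).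
 * meromorphy: `Mero2At.comp_shear` (`nbSh`, `nbShN` are `shear`s, `r' ≠ 0`, the polynomial `ζ ↦ -(I η ζ²)` is analytic); `Sh z ∈ nbRect x e a₀ b₂ ×ˢ ball 0 ((21/20) r')` on `U₁` (`s4l_geo_rect`, `NbFig.a₀_le`, `s4l_geo_real`,
   `s4l_geo_ball`); `Sh z ∈ nbRect x e a₀ (H+e) ×ˢ nbSteep r₀` on `U₂` (`s4l_geo_steep`, `nbSteep_mono`), `ShN z ∈ ..` on `U₃` (`s4l_geo_steepN`).
 * compatibility on `U₁ ∩ U₂`: `s4l_fig_att` at the height `b₂`, radius `(21/20) r'`, at the point `Sh z`, then `Mero2EqAt.comp_shear`.   On `U₁ ∩ U₃`: the same at `ShN z`; `(fun w => F (w.1,-w.2)) ∘ ShN = F ∘ Sh` (`s4l_shN_apply`, `neg_neg`).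
   `U₂ ∩ U₃ = ∅`.
 * second assertion: `z ∈ U_i` for some `i`; `Fc ~ F_i` at `z`; `F_i ~ F ∘ Sh` at `z` as above, because `(Sh z).1 ∈ nbRect x e a₀ b₂`.
-/
import Claimed.Agent.R269.S4.NatFigA

set_option autoImplicit false

namespace Claimed.Agent.R269

open Complex Filter Topology Set Metric

theorem s4l_sq_analyticAt (k : ℂ) (ζ : ℂ) : AnalyticAt ℂ (fun ζ : ℂ => -(I * k * ζ ^ 2)) ζ :=
  (analyticAt_const.mul (analyticAt_id.pow 2)).neg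

theorem s4l_mero_sh {F : ℂ × ℂ → ℂ} {η r : ℝ} (hr : r ≠ 0) {z : ℂ × ℂ}
    (h : Mero2At F (nbSh η r z)) : Mero2At (fun w => F (nbSh η r w)) z :=
  Mero2At.comp_shear (a := fun ζ => -(I * η * ζ ^ 2)) (t₀ := 0) (r := r) h (s4l_sq_analyticAt _ _)
    (by exact_mod_cast hr)

theorem s4l_meroEq_sh {F P : ℂ × ℂ → ℂ} {η r : ℝ} (hr : r ≠ 0) {z : ℂ × ℂ}
    (h : Mero2EqAt F P (nbSh η r z)) :
    Mero2EqAt (fun w => F (nbSh η r w)) (fun w => P (nbSh η r w)) z :=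
  Mero2EqAt.comp_shear (a := fun ζ => -(I * η * ζ ^ 2)) (t₀ := 0) (r := r) h (s4l_sq_analyticAt _ _)
    (by exact_mod_cast hr)

theorem s4l_mero_shN {F : ℂ × ℂ → ℂ} {η r : ℝ} (hr : r ≠ 0) {z : ℂ × ℂ}
    (h : Mero2At F (nbShN η r z)) : Mero2At (fun w => F (nbShN η r w)) z :=
  Mero2At.comp_shear (a := fun ζ => -(I * η * ζ ^ 2)) (t₀ := 0) (r := -(r : ℂ)) h
    (s4l_sq_analyticAt _ _) (neg_ne_zero.2 (by exact_mod_cast hr))

theorem s4l_meroEq_shN {F P : ℂ × ℂ → ℂ} {η r : ℝ} (hr : r ≠ 0) {z : ℂ × ℂ}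
    (h : Mero2EqAt F P (nbShN η r z)) :
    Mero2EqAt (fun w => F (nbShN η r w)) (fun w => P (nbShN η r w)) z :=
  Mero2EqAt.comp_shear (a := fun ζ => -(I * η * ζ ^ 2)) (t₀ := 0) (r := -(r : ℂ)) h
    (s4l_sq_analyticAt _ _) (neg_ne_zero.2 (by exact_mod_cast hr))

theorem s4l_fig_collar {x H e a₀ a₁ r₀ : ℝ} {F Ep Em : ℂ × ℂ → ℂ}
    (h : NbFig x H e a₀ a₁ r₀ F Ep Em) {r' : ℝ} (hr' : 0 < r') (hr'₀ : 21 / 20 * r' ≤ r₀)
    (hF : Mero2On F (nbRect x e a₀ (H - e / 32) ×ˢ ball (0 : ℂ) (21 / 20 * r'))) :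
    ∃ Fc : ℂ × ℂ → ℂ, Mero2On Fc (nbW x H e ×ˢ annulus 0 (19 / 20) (21 / 20)) ∧
      ∀ z ∈ nbW x H e ×ˢ annulus 0 (19 / 20) (21 / 20), (nbSh (e / 8) r' z).1.im < H - e / 32 →
        Mero2EqAt Fc (fun w => F (nbSh (e / 8) r' w)) z := by
  have he := h.e_pos
  have ha₀ := h.a₀_le
  have hr'ne : r' ≠ 0 := hr'.ne'
  set Ω : Set (ℂ × ℂ) := nbW x H e ×ˢ annulus 0 (19 / 20) (21 / 20) with hΩ
  have hΩo : IsOpen Ω := (isOpen_nbRect _ _ _ _).prod (isOpen_annulus _ _ _)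
  have hΩball : ∀ z ∈ Ω, z ∈ nbW x H e ×ˢ ball (0 : ℂ) (21 / 20) := by
    intro z hz
    refine ⟨hz.1, ?_⟩
    have := hz.2.2
    simpa using this
  set U₁ : Set (ℂ × ℂ) := Ω ∩ {z | |z.2.im| < 9 / 20 * ‖z.2‖} with hU₁
  set U₂ : Set (ℂ × ℂ) := Ω ∩ {z | 2 / 5 * ‖z.2‖ < z.2.im} with hU₂
  set U₃ : Set (ℂ × ℂ) := Ω ∩ {z | z.2.im < -(2 / 5 * ‖z.2‖)} with hU₃
  have hU₁o : IsOpen U₁ := hΩo.inter (isOpen_lt (by fun_prop) (by fun_prop))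
  have hU₂o : IsOpen U₂ := hΩo.inter (isOpen_lt (by fun_prop) (by fun_prop))
  have hU₃o : IsOpen U₃ := hΩo.inter (isOpen_lt (by fun_prop) (by fun_prop))
  obtain ⟨hattp, hattm⟩ := s4l_fig_att h (b := H - e / 32) (r := 21 / 20 * r') (by linarith)
    (by positivity) hr'₀ hF
  -- position of the images
  have hrect : ∀ z ∈ Ω, (nbSh (e / 8) r' z).1 ∈ nbRect x e a₀ (H + e) := fun z hz =>
    nbRect_mono le_rfl ha₀ le_rfl (s4l_geo_rect he (hΩball z hz))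
  have hrect' : ∀ z ∈ Ω, (nbSh (e / 8) r' z).1.im < H - e / 32 →
      (nbSh (e / 8) r' z).1 ∈ nbRect x e a₀ (H - e / 32) := fun z hz hlt =>
    ⟨(hrect z hz).1, (hrect z hz).2.1, hlt⟩
  have hst : ∀ z ∈ U₂, (nbSh (e / 8) r' z).2 ∈ nbSteep (21 / 20 * r') := fun z hz =>
    s4l_geo_steep hr' (hΩball z hz.1).2 hz.2
  have hstN : ∀ z ∈ U₃, (nbShN (e / 8) r' z).2 ∈ nbSteep (21 / 20 * r') := fun z hz =>
    s4l_geo_steepN hr' (hΩball z hz.1).2 hz.2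
  have hN1 : ∀ z, (nbShN (e / 8) r' z).1 = (nbSh (e / 8) r' z).1 := fun z => by
    rw [s4l_shN_apply]
  -- the three pieces
  have m1 : Mero2On (fun w => F (nbSh (e / 8) r' w)) U₁ := by
    intro z hz
    refine s4l_mero_sh hr'ne (hF _ ⟨hrect' z hz.1 (s4l_geo_real he hz.1 hz.2), ?_⟩)
    exact s4l_geo_ball hr' (hΩball z hz.1).2
  have m2 : Mero2On (fun w => Ep (nbSh (e / 8) r' w)) U₂ := by
    intro z hz
    exact s4l_mero_sh hr'ne (h.Ep_an _ ⟨hrect z hz.1, nbSteep_mono hr'₀ (hst z hz)⟩).mero2At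
  have m3 : Mero2On (fun w => Em (nbShN (e / 8) r' w)) U₃ := by
    intro z hz
    refine s4l_mero_shN hr'ne (h.Em_an _ ⟨?_, nbSteep_mono hr'₀ (hstN z hz)⟩).mero2At
    rw [hN1]
    exact hrect z hz.1
  -- comparison with `F ∘ Sh`
  have c2 : ∀ z ∈ U₂, (nbSh (e / 8) r' z).1.im < H - e / 32 →
      Mero2EqAt (fun w => Ep (nbSh (e / 8) r' w)) (fun w => F (nbSh (e / 8) r' w)) z := fun z hz hlt =>
    s4l_meroEq_sh hr'ne (hattp _ ⟨hrect' z hz.1 hlt, hst z hz⟩)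
  have c3 : ∀ z ∈ U₃, (nbSh (e / 8) r' z).1.im < H - e / 32 →
      Mero2EqAt (fun w => Em (nbShN (e / 8) r' w)) (fun w => F (nbSh (e / 8) r' w)) z := by
    intro z hz hlt
    have h1 := s4l_meroEq_shN hr'ne (hattm (nbShN (e / 8) r' z)
      ⟨by rw [hN1]; exact hrect' z hz.1 hlt, hstN z hz⟩)
    have h2 : (fun w => (fun w : ℂ × ℂ => F (w.1, -w.2)) (nbShN (e / 8) r' w))
        = fun w => F (nbSh (e / 8) r' w) := by
      funext w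
      simp only [s4l_shN_apply, neg_neg]
    rwa [h2] at h1
  -- gluing
  obtain ⟨G, hG, hG2, hG3⟩ := Mero2.exists_glue₂ hU₂o hU₃o m2 m3 (by
    rintro z ⟨h2, h3⟩
    have a1 : 2 / 5 * ‖z.2‖ < z.2.im := h2.2
    have a2 : z.2.im < -(2 / 5 * ‖z.2‖) := h3.2
    have := norm_nonneg z.2
    linarith)
  obtain ⟨Fc, hFc, hFc1, hFcG⟩ := Mero2.exists_glue₂ hU₁o (hU₂o.union hU₃o) m1 hG (by
    rintro z ⟨h1, h23⟩
    have hlt := s4l_geo_real (r := r') he h1.1 h1.2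
    rcases h23 with h2 | h3
    · exact ((hG2 z h2).trans (c2 z h2 hlt)).symm
    · exact ((hG3 z h3).trans (c3 z h3 hlt)).symm)
  have hcover : ∀ z ∈ Ω, z ∈ U₁ ∨ z ∈ U₂ ∨ z ∈ U₃ := by
    intro z hz
    have hpos : 0 < ‖z.2‖ := by
      have := hz.2.1
      rw [sub_zero] at this
      linarith
    by_cases h1 : |z.2.im| < 9 / 20 * ‖z.2‖
    · exact Or.inl ⟨hz, h1⟩
    · rw [not_lt] at h1
      rcases le_total 0 z.2.im with h0 | h0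
      · rw [abs_of_nonneg h0] at h1
        exact Or.inr (Or.inl ⟨hz, by show 2 / 5 * ‖z.2‖ < z.2.im; linarith⟩)
      · rw [abs_of_nonpos h0] at h1
        exact Or.inr (Or.inr ⟨hz, by show z.2.im < -(2 / 5 * ‖z.2‖); linarith⟩)
  refine ⟨Fc, ?_, ?_⟩
  · intro z hz
    rcases hcover z hz with h1 | h2 | h3
    · exact hFc z (Or.inl h1)
    · exact hFc z (Or.inr (Or.inl h2))
    · exact hFc z (Or.inr (Or.inr h3))
  · intro z hz hlt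
    rcases hcover z hz with h1 | h2 | h3
    · exact hFc1 z h1
    · exact ((hFcG z (Or.inl h2)).trans (hG2 z h2)).trans (c2 z h2 hlt)
    · exact ((hFcG z (Or.inr h3)).trans (hG3 z h3)).trans (c3 z h3 hlt)

end Claimed.Agent.R269
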