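/-
Row 269, unit 4L (Cor 4.9), LEAF LF-S4-4L-figC.  Statements: helper3.  The owner of the leaf owns this file.

FILLING THE HARTOGS FIGURE AND THE PATCH.
`s4l_fig_fill`:  `levi_mero` (Lib/Levi.lean) with `D = nbW`, `D₀ = nbW₀` (open, convex, nonempty, `nbW₀ ⊆ nbW`), `c = 0`, `ρ = 19/20`, `R = 21/20`, `F := Fc` of `s4l_fig_collar`, `Ft := F ∘ Sh`
   (meromorphic on `nbW₀ ×ˢ ball 0 (21/20)`: `s4l_geo_rect`, `s4l_geo_seed`, `s4l_geo_ball`, `Mero2At.comp_shear`); `heq` = second assertion of `s4l_fig_collar` + `s4l_geo_seed`, `.symm`.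
`s4l_fig`:  `b₂ := H - e/32`, `r₂` from `NbFig.F_mero b₂`, `r' := min r₀ r₂ / 2` (so `(21/20) r' ≤ min r₀ r₂`), `Fh` from `s4l_fig_fill`.   `ε := min (e/128) (r'/4)`, `Pt := Fh ∘ nbShInv (e/8) r'`.
 * `Pt` is meromorphic on the bidisc: `s4l_geo_inv`, `Mero2At.comp_shear` (`nbShInv` is a `shear`).
 * agreement.  Let `b < H`; wlog `H - e/128 ≤ b` (replace `b` by `max b (H - e/128)`).  `b₃ := (b+H)/2`, `r₃` from `F_mero b₃`, `κ := min (1/4) (min (r₃/r') (2 (H-b)/e))` (so `(e/8) κ² ≤ (e/8) κ ≤ (H-b)/4`), `r := r' κ`.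
   `Ω := nbRect x (e/64) (H - e/4 - e/64) (min (H + e/64) (b + (H-b)/4)) ×ˢ ball 0 κ` is open, convex, `⊆ nbW ×ˢ ball 0 (21/20)`, contains `nbW₀ ×ˢ ball 0 κ`;  `F ∘ Sh` is meromorphic on `Ω`
   (`Im (Sh z).1 = Im w - (e/8) Re ζ² < b + (H-b)/4 + (e/8) κ² ≤ b₃`, `|r' ζ| < r₃`);  `Fh ~ F ∘ Sh` at a point of `nbW₀ ×ˢ ball 0 κ`, hence on `Ω` (`Mero2On.eqAt_of_isPreconnected`).
   For `z ∈ (ball c ε ∩ {Im < b}) ×ˢ ball 0 r`:  `nbShInv z ∈ Ω` (`s4l_geo_inv`; `Im w = Im y + (e/8) Re ζ² < b + (H-b)/4`);  `Mero2EqAt.comp_shear`;  `F ∘ Sh ∘ nbShInv = F` (`s4l_sh_inv`).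
-/
import Claimed.Agent.R269.S4.NatFigB

set_option autoImplicit false

namespace Claimed.Agent.R269

open Complex Filter Topology Set Metric

theorem s4l_sqInv_analyticAt (k r : ℂ) (t : ℂ) : AnalyticAt ℂ (fun t : ℂ => I * k * (t / r) ^ 2) t :=
  analyticAt_const.mul ((analyticAt_id.div_const).pow 2)

theorem s4l_mero_shInv {F : ℂ × ℂ → ℂ} {η r : ℝ} (hr : r ≠ 0) {z : ℂ × ℂ}
    (h : Mero2At F (nbShInv η r z)) : Mero2At (fun w => F (nbShInv η r w)) z :=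
  Mero2At.comp_shear (a := fun t => I * η * (t / r) ^ 2) (t₀ := 0) (r := (r : ℂ)⁻¹) h
    (s4l_sqInv_analyticAt _ _ _) (inv_ne_zero (by exact_mod_cast hr))

theorem s4l_meroEq_shInv {F P : ℂ × ℂ → ℂ} {η r : ℝ} (hr : r ≠ 0) {z : ℂ × ℂ}
    (h : Mero2EqAt F P (nbShInv η r z)) :
    Mero2EqAt (fun w => F (nbShInv η r w)) (fun w => P (nbShInv η r w)) z :=
  Mero2EqAt.comp_shear (a := fun t => I * η * (t / r) ^ 2) (t₀ := 0) (r := (r : ℂ)⁻¹) h
    (s4l_sqInv_analyticAt _ _ _) (inv_ne_zero (by exact_mod_cast hr))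

theorem s4l_W₀_subset (x H e : ℝ) (he : 0 < e) : nbW₀ x H e ⊆ nbW x H e :=
  nbRect_mono le_rfl le_rfl (by linarith)

theorem s4l_fig_fill {x H e a₀ a₁ r₀ : ℝ} {F Ep Em : ℂ × ℂ → ℂ}
    (h : NbFig x H e a₀ a₁ r₀ F Ep Em) {r' : ℝ} (hr' : 0 < r') (hr'₀ : 21 / 20 * r' ≤ r₀)
    (hF : Mero2On F (nbRect x e a₀ (H - e / 32) ×ˢ ball (0 : ℂ) (21 / 20 * r'))) :
    ∃ Fh : ℂ × ℂ → ℂ, Mero2On Fh (nbW x H e ×ˢ ball (0 : ℂ) (21 / 20)) ∧
      ∀ z ∈ nbW₀ x H e ×ˢ ball (0 : ℂ) (21 / 20), Mero2EqAt Fh (fun w => F (nbSh (e / 8) r' w)) z := by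
  have he := h.e_pos
  have ha₀ := h.a₀_le
  obtain ⟨Fc, hFc, hFc'⟩ := s4l_fig_collar h hr' hr'₀ hF
  have hsub := s4l_W₀_subset x H e he
  have hFt : Mero2On (fun w => F (nbSh (e / 8) r' w)) (nbW₀ x H e ×ˢ ball (0 : ℂ) (21 / 20)) := by
    intro z hz
    have h1 := s4l_geo_rect (r := r') he (z := z) ⟨hsub hz.1, hz.2⟩
    refine s4l_mero_sh hr'.ne' (hF _ ⟨⟨h1.1, by linarith [h1.2.1], s4l_geo_seed he hz⟩, ?_⟩)
    exact s4l_geo_ball hr' hz.2
  obtain ⟨Fh, hFh, -, hFh'⟩ := levi_mero (D := nbW x H e) (D₀ := nbW₀ x H e) (isOpen_nbRect _ _ _ _)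
    (convex_nbRect _ _ _ _).isPreconnected (isOpen_nbRect _ _ _ _) hsub
    ⟨⟨x, H - e / 4⟩, by simpa using (by positivity : 0 < e / 64), by
      show H - e / 4 - e / 64 < H - e / 4
      linarith, by
      show H - e / 4 < H - e / 4 + e / 64
      linarith⟩
    (c := 0) (ρ := 19 / 20) (R := 21 / 20) (by norm_num) (by norm_num) hFc hFt (by
      intro z hz
      have hz' : z ∈ nbW₀ x H e ×ˢ ball (0 : ℂ) (21 / 20) := by
        refine ⟨hz.1, ?_⟩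
        have := hz.2.2
        simpa using this
      exact (hFc' z ⟨hsub hz.1, hz.2⟩ (s4l_geo_seed he hz')).symm)
  exact ⟨Fh, hFh, hFh'⟩

theorem s4l_re_sq_le (ζ : ℂ) : |ζ.re ^ 2 - ζ.im ^ 2| ≤ ‖ζ‖ ^ 2 := by
  rw [s4l_norm_sq, abs_le]
  constructor <;> nlinarith [sq_nonneg ζ.re, sq_nonneg ζ.im]

/-- **The patch.** -/
theorem s4l_fig {x H e a₀ a₁ r₀ : ℝ} {F Ep Em : ℂ × ℂ → ℂ} (h : NbFig x H e a₀ a₁ r₀ F Ep Em) :
    ∃ ε : ℝ, 0 < ε ∧ ∃ Pt : ℂ × ℂ → ℂ,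
      Mero2On Pt (ball ((x : ℂ) + H * I) ε ×ˢ ball (0 : ℂ) ε) ∧
      ∀ b : ℝ, b < H → ∃ r : ℝ, 0 < r ∧
        ∀ z ∈ (ball ((x : ℂ) + H * I) ε ∩ {y : ℂ | y.im < b}) ×ˢ ball (0 : ℂ) r, Mero2EqAt Pt F z := by
  have he := h.e_pos
  have ha₀ := h.a₀_le
  obtain ⟨r₂, hr₂, hF₂⟩ := h.F_mero (H - e / 32) (by linarith)
  set r' : ℝ := min r₀ r₂ / 2 with hr'def
  have hmin : 0 < min r₀ r₂ := lt_min h.r₀_pos hr₂
  have hr' : 0 < r' := by rw [hr'def]; linarith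
  have hr'₀ : 21 / 20 * r' ≤ r₀ := by
    have := min_le_left r₀ r₂
    rw [hr'def]; linarith
  have hr'₂ : 21 / 20 * r' ≤ r₂ := by
    have := min_le_right r₀ r₂
    rw [hr'def]; linarith
  obtain ⟨Fh, hFh, hFh'⟩ := s4l_fig_fill h hr' hr'₀
    (fun z hz => hF₂ z ⟨hz.1, ball_subset_ball hr'₂ hz.2⟩)
  have hε1 : min (e / 128) (r' / 4) ≤ e / 128 := min_le_left _ _
  have hε2 : min (e / 128) (r' / 4) ≤ r' / 4 := min_le_right _ _
  refine ⟨min (e / 128) (r' / 4), lt_min (by positivity) (by positivity),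
    fun z => Fh (nbShInv (e / 8) r' z), ?_, ?_⟩
  · intro z hz
    have h1 := s4l_geo_inv he hr' (ball_subset_ball hε1 hz.1) (ball_subset_ball hε2 hz.2)
    exact s4l_mero_shInv hr'.ne' (hFh _ ⟨h1.1, ball_subset_ball (by norm_num) h1.2⟩)
  · intro b hb
    set b' : ℝ := max b (H - e / 128) with hb'def
    have hb'H : b' < H := max_lt hb (by linarith)
    have hbb' : b ≤ b' := le_max_left _ _
    have hb'l : H - e / 128 ≤ b' := le_max_right _ _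
    obtain ⟨r₃, hr₃, hF₃⟩ := h.F_mero ((b' + H) / 2) (by linarith)
    set κ : ℝ := min (1 / 4) (min (r₃ / r') (2 * (H - b') / e)) with hκdef
    have hκ : 0 < κ :=
      lt_min (by norm_num) (lt_min (by positivity) (div_pos (by linarith) he))
    have hκ1 : κ ≤ 1 / 4 := min_le_left _ _
    have hκ2 : r' * κ ≤ r₃ := by
      have : κ ≤ r₃ / r' := (min_le_right _ _).trans (min_le_left _ _)
      rw [le_div_iff₀ hr'] at this
      linarith
    have hκ3 : e / 8 * κ ^ 2 ≤ (H - b') / 4 := by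
      have h1 : κ ≤ 2 * (H - b') / e := (min_le_right _ _).trans (min_le_right _ _)
      rw [le_div_iff₀ he] at h1
      nlinarith
    set Ω : Set (ℂ × ℂ) := nbRect x (e / 64) (H - e / 4 - e / 64)
      (min (H + e / 64) (b' + (H - b') / 4)) ×ˢ ball (0 : ℂ) κ with hΩ
    have hΩsub : Ω ⊆ nbW x H e ×ˢ ball (0 : ℂ) (21 / 20) :=
      prod_mono (nbRect_mono le_rfl le_rfl (min_le_left _ _)) (ball_subset_ball (by linarith))
    have hΩpre : IsPreconnected Ω :=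
      ((convex_nbRect _ _ _ _).prod (convex_ball _ _)).isPreconnected
    have hsq : ∀ ζ : ℂ, ‖ζ‖ < κ → e / 8 * |ζ.re ^ 2 - ζ.im ^ 2| ≤ (H - b') / 4 := by
      intro ζ hζ
      have h1 := s4l_re_sq_le ζ
      have h2 : ‖ζ‖ ^ 2 ≤ κ ^ 2 := pow_le_pow_left₀ (norm_nonneg _) hζ.le 2
      have h3 : e / 8 * |ζ.re ^ 2 - ζ.im ^ 2| ≤ e / 8 * κ ^ 2 :=
        mul_le_mul_of_nonneg_left (h1.trans h2) (by positivity)
      linarith
    have hFSh : Mero2On (fun w => F (nbSh (e / 8) r' w)) Ω := by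
      intro z hz
      have h1 := s4l_geo_rect (r := r') he (hΩsub hz)
      have hζ : ‖z.2‖ < κ := by simpa using hz.2
      refine s4l_mero_sh hr'.ne' (hF₃ _ ⟨⟨h1.1, by linarith [h1.2.1], ?_⟩, ?_⟩)
      · have h2 : z.1.im < b' + (H - b') / 4 := hz.1.2.2.trans_le (min_le_right _ _)
        have h3 := hsq z.2 hζ
        have h4 := neg_abs_le (z.2.re ^ 2 - z.2.im ^ 2)
        rw [s4l_sh_apply]
        show (z.1 - I * ((e / 8 : ℝ) : ℂ) * z.2 ^ 2).im < (b' + H) / 2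
        rw [Complex.sub_im, s4l_Iηsq_im]
        have h8 := mul_le_mul_of_nonneg_left h4 (by positivity : (0 : ℝ) ≤ e / 8)
        linarith
      · have := s4l_geo_ball (η := e / 8) hr' hz.2
        exact ball_subset_ball (by linarith) this
    have hz₀ : ((⟨x, H - e / 4⟩, 0) : ℂ × ℂ) ∈ Ω := by
      refine ⟨⟨by simpa using (by positivity : 0 < e / 64), ?_, ?_⟩, mem_ball_self hκ⟩
      · show H - e / 4 - e / 64 < H - e / 4
        linarith
      · show H - e / 4 < min (H + e / 64) (b' + (H - b') / 4)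
        exact lt_min (by linarith) (by linarith)
    have hz₀' : ((⟨x, H - e / 4⟩, 0) : ℂ × ℂ) ∈ nbW₀ x H e ×ˢ ball (0 : ℂ) (21 / 20) := by
      refine ⟨⟨by simpa using (by positivity : 0 < e / 64), ?_, ?_⟩, mem_ball_self (by norm_num)⟩
      · show H - e / 4 - e / 64 < H - e / 4
        linarith
      · show H - e / 4 < H - e / 4 + e / 64
        linarith
    have hEq := Mero2On.eqAt_of_isPreconnected hΩpre (fun z hz => hFh z (hΩsub hz)) hFSh hz₀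
      (hFh' _ hz₀')
    refine ⟨r' * κ, by positivity, fun z hz => ?_⟩
    have hz2 : ‖z.2‖ < r' * κ := by simpa using hz.2
    have hz2' : z.2 ∈ ball (0 : ℂ) (r' / 4) := by
      rw [mem_ball, dist_zero_right]
      nlinarith
    have h1 := s4l_geo_inv he hr' (ball_subset_ball hε1 hz.1.1) hz2'
    have hζ : ‖z.2 / (r' : ℂ)‖ < κ := by
      rw [norm_div, Complex.norm_real, Real.norm_of_nonneg hr'.le, div_lt_iff₀ hr']
      linarith
    have hmem : nbShInv (e / 8) r' z ∈ Ω := by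
      refine ⟨⟨h1.1.1, h1.1.2.1, lt_min h1.1.2.2 ?_⟩, ?_⟩
      · have h3 := hsq _ hζ
        have h4 := le_abs_self ((z.2 / (r' : ℂ)).re ^ 2 - (z.2 / (r' : ℂ)).im ^ 2)
        have h5 : z.1.im < b := hz.1.2
        rw [s4l_shInv_apply]
        show (z.1 + I * ((e / 8 : ℝ) : ℂ) * (z.2 / (r' : ℂ)) ^ 2).im < b' + (H - b') / 4
        rw [Complex.add_im, s4l_Iηsq_im]
        have h8 := mul_le_mul_of_nonneg_left h4 (by positivity : (0 : ℝ) ≤ e / 8)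
        linarith
      · rw [s4l_shInv_apply]
        show z.2 / (r' : ℂ) ∈ ball (0 : ℂ) κ
        rw [mem_ball, dist_zero_right]
        exact hζ
    have h6 := s4l_meroEq_shInv hr'.ne' (hEq _ hmem)
    have h7 : (fun w => (fun w => F (nbSh (e / 8) r' w)) (nbShInv (e / 8) r' w)) = F := by
      funext w
      simp only [s4l_sh_inv hr'.ne']
    rwa [h7] at h6

end Claimed.Agent.R269
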