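/-
Row 269, unit 4L (Cor 4.9): DIVISION BY THE SECOND VARIABLE on a product domain (global form of `SCV.exists_eq_mul_of_vanishing_linear`).   helper3.   No `sorry`.
-/
import Claimed.Agent.R269.Lib.SCVa

set_option autoImplicit false

namespace Claimed.Agent.R269

open Complex Filter Topology Set Metric

/-- `H` analytic on `B × ball 0 δ`, `H (u,0) = 0`:  `H (u,a) = a H₁ (u,a)` with `H₁` analytic on the same domain. -/
theorem s4l_div {B : Set ℂ} (hB : IsOpen B) {δ : ℝ} {H : ℂ × ℂ → ℂ}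
    (hH : AnalyticOnNhd ℂ H (B ×ˢ ball (0 : ℂ) δ)) (h0 : ∀ u ∈ B, H (u, 0) = 0) :
    ∃ H₁ : ℂ × ℂ → ℂ, AnalyticOnNhd ℂ H₁ (B ×ˢ ball (0 : ℂ) δ) ∧
      ∀ z ∈ B ×ˢ ball (0 : ℂ) δ, H z = z.2 * H₁ z := by
  refine ⟨fun z => dslope (fun a => H (z.1, a)) 0 z.2, ?_, ?_⟩
  · rintro ⟨u₀, a₀⟩ ⟨hu₀, ha₀⟩
    have eB : ∀ᶠ w in 𝓝 ((u₀, a₀) : ℂ × ℂ), w.1 ∈ B :=
      continuousAt_fst.eventually_mem (hB.mem_nhds hu₀)
    by_cases ha : a₀ = 0
    · subst ha
      obtain ⟨Q, hQ, hHQ⟩ := SCV.exists_eq_mul_of_vanishing_linear (H := H) (y := (u₀, (0 : ℂ)))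
        (v := ((0 : ℂ), (1 : ℂ))) (ContinuousLinearMap.snd ℂ ℂ ℂ) (by simp) (hH _ ⟨hu₀, ha₀⟩) (by
          filter_upwards [eB] with w hw hw2
          have hw2' : w.2 = 0 := by simpa using hw2
          have : w = (w.1, 0) := Prod.ext rfl hw2'
          rw [this]
          exact h0 _ hw)
      have hHQ' : ∀ᶠ w in 𝓝 ((u₀, 0) : ℂ × ℂ), H w = w.2 * Q w := by
        filter_upwards [hHQ] with w hw
        simpa using hw
      refine hQ.congr ?_
      filter_upwards [hQ.eventually_analyticAt, eventually_eventually_nhds.2 hHQ', eB]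
        with w h1 h2 h3
      by_cases hw : w.2 = 0
      · have hw' : w = (w.1, 0) := Prod.ext rfl hw
        show Q w = dslope (fun a => H (w.1, a)) 0 w.2
        rw [hw, dslope_same]
        have hc : ContinuousAt (fun a : ℂ => ((w.1, a) : ℂ × ℂ)) 0 := by fun_prop
        have hev : (fun a => H (w.1, a)) =ᶠ[𝓝 0] fun a => a * Q (w.1, a) := by
          refine hc.eventually (p := fun w' : ℂ × ℂ => H w' = w'.2 * Q w') ?_
          show ∀ᶠ y in 𝓝 ((w.1, 0) : ℂ × ℂ), H y = y.2 * Q y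
          rw [← hw']
          exact h2
        rw [hev.deriv_eq]
        have hQd : DifferentiableAt ℂ (fun a => Q (w.1, a)) 0 := by
          have h1' : AnalyticAt ℂ Q (w.1, 0) := by rw [← hw']; exact h1
          exact (h1'.differentiableAt).comp (0 : ℂ) (f := fun a : ℂ => ((w.1, a) : ℂ × ℂ))
            (by fun_prop)
        have h4 := ((hasDerivAt_id (0 : ℂ)).mul hQd.hasDerivAt).deriv
        simp only [id_eq, one_mul, zero_mul, add_zero] at h4
        rw [hw']
        exact h4.symm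
      · show Q w = dslope (fun a => H (w.1, a)) 0 w.2
        rw [dslope_of_ne _ hw, slope_def_field, h0 _ h3]
        have h5 : H (w.1, w.2) = w.2 * Q w := h2.self_of_nhds
        rw [h5]
        field_simp
        ring
    · have h1 : AnalyticAt ℂ (fun w : ℂ × ℂ => H w / w.2) (u₀, a₀) :=
        (hH _ ⟨hu₀, ha₀⟩).div analyticAt_snd ha
      refine h1.congr ?_
      filter_upwards [continuousAt_snd.eventually_ne (show ((u₀, a₀) : ℂ × ℂ).2 ≠ 0 from ha), eB]
        with w hw h3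
      show H w / w.2 = dslope (fun a => H (w.1, a)) 0 w.2
      rw [dslope_of_ne _ hw, slope_def_field, h0 _ h3]
      simp
  · intro z hz
    have h1 := sub_smul_dslope (fun a => H (z.1, a)) 0 z.2
    simp only [sub_zero, smul_eq_mul, h0 z.1 hz.1] at h1
    exact h1.symm

end Claimed.Agent.R269
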