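/-
Row 269, unit 4L (Cor 4.9), LEAF LF-S4-4L-ddq (host-free).  Statements: helper3.  The owner of the leaf owns this file.

Joint analyticity of the divided difference `nbDdq P (u,b) = (P (u+b) - P u)/b` (`= P' u` at `b = 0`).
PROOF of `s4l_ddq_analyticAt`.  If `z.2 ≠ 0`: quotient of analytic functions near `z` (`nbDdq` equals the quotient on the open set `b ≠ 0`).
If `z.2 = 0`: choose `closedBall z.1 (2ρ) ⊆ ball c ε`.  For `|u - z.1| < ρ/2`, `|b| < ρ/2` Cauchy's formula on the circle `C(z.1, ρ)` gives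
`nbDdq P (u,b) = (2πi)⁻¹ ∮ (w-u)⁻¹ (w-u-b)⁻¹ • P w dw` (for `b ≠ 0`: partial fractions; for `b = 0`: Cauchy formula for the derivative,
`Complex.two_pi_I_inv_smul_circleIntegral_sub_sq_inv_smul_of_differentiable`), and the integral is analytic in `(u,b)`:
`SCV.analyticAt_circleIntegral` of `Lib/SCVa.lean` (sorry-free).   ALTERNATIVES: `SCV.exists_eq_mul_of_vanishing_linear` (division of
`P (u+b) - P u` by the linear form `b`), by components; or `nbDdq P (u,b) = ∫₀¹ P' (u + s b) ds` + `osgood` (Lib/SCV.lean).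
`s4l_ddq_deriv`: `P (u+b) = P u + b P' u + b²/2 P'' u + o(b²)`, i.e. `HasDerivAt (fun b => nbDdq P (u,b)) (P''(u)/2) 0`; e.g. from the power series of `P` at `u`,
or: `b ↦ nbDdq P (u,b) = dslope P u (u + b)`, and `dslope (dslope P u) u u = P''(u)/2`.
-/
import Claimed.Agent.R269.S4.NatAlg
import Claimed.Agent.R269.S4.NatDiv

set_option autoImplicit false

namespace Claimed.Agent.R269

open Complex Filter Topology Set Metric

/-- division by the second variable, for pairs. -/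
theorem s4l_div₂ {B : Set ℂ} (hB : IsOpen B) {δ : ℝ} {H : ℂ × ℂ → ℂ × ℂ}
    (hH : AnalyticOnNhd ℂ H (B ×ˢ ball (0 : ℂ) δ)) (h0 : ∀ u ∈ B, H (u, 0) = 0) :
    ∃ H₁ : ℂ × ℂ → ℂ × ℂ, AnalyticOnNhd ℂ H₁ (B ×ˢ ball (0 : ℂ) δ) ∧
      ∀ z ∈ B ×ˢ ball (0 : ℂ) δ, H z = z.2 • H₁ z := by
  obtain ⟨A, hA, hA'⟩ := s4l_div hB (H := fun z => (H z).1)
    (fun z hz => analyticAt_fst.comp (hH z hz)) (fun u hu => by rw [h0 u hu]; rfl)
  obtain ⟨C, hC, hC'⟩ := s4l_div hB (H := fun z => (H z).2)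
    (fun z hz => analyticAt_snd.comp (hH z hz)) (fun u hu => by rw [h0 u hu]; rfl)
  refine ⟨fun z => (A z, C z), fun z hz => (hA z hz).prod (hC z hz), fun z hz => ?_⟩
  exact Prod.ext (hA' z hz) (hC' z hz)

theorem s4l_ddq_analyticAt {P : ℂ → ℂ × ℂ} {c : ℂ} {ε : ℝ} (hP : AnalyticOnNhd ℂ P (ball c ε))
    {z : ℂ × ℂ} (h1 : z.1 ∈ ball c ε) (h2 : z.1 + z.2 ∈ ball c ε) : AnalyticAt ℂ (nbDdq P) z := by
  by_cases hz : z.2 = 0
  · set ρ : ℝ := (ε - dist z.1 c) / 2 with hρ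
    have hρpos : 0 < ρ := by
      have : dist z.1 c < ε := h1
      rw [hρ]; linarith
    have hsub : ∀ u ∈ ball z.1 ρ, ∀ b ∈ ball (0 : ℂ) ρ, u + b ∈ ball c ε := by
      intro u hu b hb
      rw [mem_ball] at hu ⊢
      rw [mem_ball, dist_zero_right] at hb
      have e1 : dist (u + b) c ≤ dist (u + b) u + dist u z.1 + dist z.1 c := dist_triangle4 _ _ _ _
      have e2 : dist (u + b) u = ‖b‖ := by rw [dist_eq_norm]; congr 1; ring
      rw [hρ] at hu hb
      linarith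
    have hsub0 : ∀ u ∈ ball z.1 ρ, u ∈ ball c ε := by
      intro u hu
      simpa using hsub u hu 0 (mem_ball_self hρpos)
    obtain ⟨H₁, hH₁, hfac⟩ := s4l_div₂ (B := ball z.1 ρ) isOpen_ball (δ := ρ)
      (H := fun w => P (w.1 + w.2) - P w.1) (by
        intro w hw
        refine AnalyticAt.sub ?_ ?_
        · exact AnalyticAt.comp (g := P) (f := fun w : ℂ × ℂ => w.1 + w.2) (hP _ (hsub _ hw.1 _ hw.2))
            (analyticAt_fst.add analyticAt_snd)
        · exact AnalyticAt.comp (g := P) (f := fun w : ℂ × ℂ => w.1) (hP _ (hsub0 _ hw.1))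
            analyticAt_fst) (fun u _ => by simp)
    have hzmem : z ∈ ball z.1 ρ ×ˢ ball (0 : ℂ) ρ := ⟨mem_ball_self hρpos, by rw [hz]; exact mem_ball_self hρpos⟩
    refine (hH₁ z hzmem).congr ?_
    filter_upwards [(isOpen_ball.prod isOpen_ball).mem_nhds hzmem] with w hw
    by_cases hw2 : w.2 = 0
    · have hw' : w = (w.1, 0) := Prod.ext rfl hw2
      have hd : HasDerivAt P (H₁ (w.1, 0)) w.1 := by
        rw [hasDerivAt_iff_tendsto_slope_zero]
        have hc : ContinuousAt (fun t : ℂ => H₁ (w.1, t)) 0 :=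
          ContinuousAt.comp (g := H₁) (f := fun t : ℂ => ((w.1, t) : ℂ × ℂ))
            (hH₁ (w.1, 0) ⟨hw.1, mem_ball_self hρpos⟩).continuousAt (by fun_prop)
        refine (hc.tendsto.mono_left nhdsWithin_le_nhds).congr' ?_
        have e1 : ∀ᶠ t in 𝓝[≠] (0 : ℂ), t ∈ ball (0 : ℂ) ρ :=
          nhdsWithin_le_nhds (isOpen_ball.mem_nhds (mem_ball_self hρpos))
        filter_upwards [e1, self_mem_nhdsWithin] with t ht ht0
        have := hfac (w.1, t) ⟨hw.1, ht⟩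
        simp only at this
        rw [this, smul_smul, inv_mul_cancel₀ ht0, one_smul]
      rw [hw', s4l_ddq_zero, hd.deriv]
    · have := hfac w hw
      unfold nbDdq
      rw [if_neg hw2, this, smul_smul, inv_mul_cancel₀ hw2, one_smul]
  · have ha : AnalyticAt ℂ (fun w : ℂ × ℂ => (w.2)⁻¹ • (P (w.1 + w.2) - P w.1)) z := by
      refine AnalyticAt.smul (analyticAt_snd.inv hz) (AnalyticAt.sub ?_ ?_)
      · exact AnalyticAt.comp (g := P) (f := fun w : ℂ × ℂ => w.1 + w.2) (hP _ h2)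
          (analyticAt_fst.add analyticAt_snd)
      · exact AnalyticAt.comp (g := P) (f := fun w : ℂ × ℂ => w.1) (hP _ h1) analyticAt_fst
    refine ha.congr ?_
    filter_upwards [continuousAt_snd.eventually_ne hz] with w hw
    unfold nbDdq
    rw [if_neg hw]

theorem s4l_ddq_deriv {P : ℂ → ℂ × ℂ} {c : ℂ} {ε : ℝ} (hP : AnalyticOnNhd ℂ P (ball c ε)) {u : ℂ}
    (hu : u ∈ ball c ε) : deriv (fun b => nbDdq P (u, b)) 0 = (1 / 2 : ℂ) • deriv (deriv P) u := by
  set f : ℂ → ℂ × ℂ := fun b => nbDdq P (u, b) with hf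
  have hfa : AnalyticAt ℂ f 0 :=
    (s4l_ddq_analyticAt hP (z := (u, 0)) hu (by simpa using hu)).curry_right
  have hG : (fun b : ℂ => b • f b) = fun b => P (u + b) - P u :=
    funext fun b => s4l_ddq_smul P (u, b)
  have hmem : ∀ᶠ b in 𝓝 (0 : ℂ), u + b ∈ ball c ε := by
    have hc : ContinuousAt (fun b : ℂ => u + b) 0 := by fun_prop
    exact hc.eventually_mem (isOpen_ball.mem_nhds (by simpa using hu))
  have e1 : (fun b : ℂ => deriv P (u + b)) =ᶠ[𝓝 0] fun b => f b + b • deriv f b := by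
    filter_upwards [hfa.eventually_analyticAt, hmem] with b hb hb'
    have d1 : HasDerivAt (fun b : ℂ => b • f b) (b • deriv f b + (1 : ℂ) • f b) b :=
      (hasDerivAt_id b).smul hb.differentiableAt.hasDerivAt
    have d2 : HasDerivAt (fun b : ℂ => P (u + b) - P u) (deriv P (u + b)) b := by
      have h3 : HasDerivAt P (deriv P (u + b)) (u + b) := (hP _ hb').differentiableAt.hasDerivAt
      exact (h3.comp_const_add u b).sub_const _
    rw [hG] at d1
    rw [d2.unique d1, one_smul, add_comm]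
  have d3 : HasDerivAt (fun b : ℂ => f b + b • deriv f b)
      (deriv f 0 + ((0 : ℂ) • deriv (deriv f) 0 + (1 : ℂ) • deriv f 0)) 0 :=
    hfa.differentiableAt.hasDerivAt.add
      ((hasDerivAt_id (0 : ℂ)).smul hfa.deriv.differentiableAt.hasDerivAt)
  have e2 : deriv (fun b : ℂ => deriv P (u + b)) 0 = deriv (deriv P) u := by
    rw [deriv_comp_const_add, add_zero]
  rw [← e2, e1.deriv_eq, d3.deriv, zero_smul, zero_add, one_smul, ← two_smul ℂ, smul_smul]
  norm_num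

theorem s4l_analyticAt_nbDot {E : Type*} [NormedAddCommGroup E] [NormedSpace ℂ E] {f g : E → ℂ × ℂ}
    {x : E} (hf : AnalyticAt ℂ f x) (hg : AnalyticAt ℂ g x) :
    AnalyticAt ℂ (fun q => nbDot (f q) (g q)) x := by
  unfold nbDot
  exact ((analyticAt_fst.comp hf).mul (analyticAt_fst.comp hg)).add
    ((analyticAt_snd.comp hf).mul (analyticAt_snd.comp hg))

theorem s4l_analyticAt_nbDet {E : Type*} [NormedAddCommGroup E] [NormedSpace ℂ E] {f g : E → ℂ × ℂ}
    {x : E} (hf : AnalyticAt ℂ f x) (hg : AnalyticAt ℂ g x) :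
    AnalyticAt ℂ (fun q => nbDet (f q) (g q)) x := by
  unfold nbDet
  exact ((analyticAt_fst.comp hf).mul (analyticAt_snd.comp hg)).sub
    ((analyticAt_snd.comp hf).mul (analyticAt_fst.comp hg))

/-- joint analyticity of the divided reflection law. -/
theorem s4l_rflD_analyticAt {P : ℂ → ℂ × ℂ} {c : ℂ} {ε : ℝ} (hP : AnalyticOnNhd ℂ P (ball c ε))
    {p : ℂ × ℂ × ℂ} (h1 : p.1 ∈ ball c ε) (h2 : p.1 - p.2.1 ∈ ball c ε) (h3 : p.1 + p.2.2 ∈ ball c ε) :
    AnalyticAt ℂ (fun q : ℂ × ℂ × ℂ => nbRflD P q.1 q.2.1 q.2.2) p := by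
  have a1 : AnalyticAt ℂ (fun q : ℂ × ℂ × ℂ => nbDdq P (q.1, q.2.2)) p :=
    AnalyticAt.comp (g := nbDdq P) (f := fun q : ℂ × ℂ × ℂ => ((q.1, q.2.2) : ℂ × ℂ))
      (s4l_ddq_analyticAt hP (z := (p.1, p.2.2)) h1 h3)
      (analyticAt_fst.prod (analyticAt_snd.comp analyticAt_snd))
  have a2 : AnalyticAt ℂ (fun q : ℂ × ℂ × ℂ => nbDdq P (q.1, -q.2.1)) p :=
    AnalyticAt.comp (g := nbDdq P) (f := fun q : ℂ × ℂ × ℂ => ((q.1, -q.2.1) : ℂ × ℂ))
      (s4l_ddq_analyticAt hP (z := (p.1, -p.2.1)) h1 (by simpa [← sub_eq_add_neg] using h2))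
      (analyticAt_fst.prod (analyticAt_fst.comp analyticAt_snd).neg)
  have a3 : AnalyticAt ℂ (fun q : ℂ × ℂ × ℂ => deriv P q.1) p :=
    AnalyticAt.comp (g := deriv P) (f := fun q : ℂ × ℂ × ℂ => q.1) (hP _ h1).deriv analyticAt_fst
  unfold nbRflD
  exact s4l_analyticAt_nbDet a1
    (((analyticAt_const.mul (s4l_analyticAt_nbDot a2 a3)).smul a3).sub
      ((s4l_analyticAt_nbDot a3 a3).smul a2))

/-- `∂_b` of the divided reflection law on the diagonal: `-(τ·τ) det(τ, P'')/2`. -/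
theorem s4l_rflD_deriv {P : ℂ → ℂ × ℂ} {c : ℂ} {ε : ℝ} (hP : AnalyticOnNhd ℂ P (ball c ε)) {u : ℂ}
    (hu : u ∈ ball c ε) :
    deriv (fun b => nbRflD P u 0 b) 0
      = -(nbDot (deriv P u) (deriv P u) * nbDet (deriv P u) (deriv (deriv P) u)) / 2 := by
  have hfa : AnalyticAt ℂ (fun b => nbDdq P (u, b)) 0 :=
    (s4l_ddq_analyticAt hP (z := (u, 0)) hu (by simpa using hu)).curry_right
  have hd : HasDerivAt (fun b => nbDdq P (u, b)) ((1 / 2 : ℂ) • deriv (deriv P) u) 0 := by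
    rw [← s4l_ddq_deriv hP hu]
    exact hfa.differentiableAt.hasDerivAt
  have hd1 : HasDerivAt (fun b => (nbDdq P (u, b)).1) ((1 / 2 : ℂ) • deriv (deriv P) u).1 0 :=
    (ContinuousLinearMap.fst ℂ ℂ ℂ).hasFDerivAt.comp_hasDerivAt 0 hd
  have hd2 : HasDerivAt (fun b => (nbDdq P (u, b)).2) ((1 / 2 : ℂ) • deriv (deriv P) u).2 0 :=
    (ContinuousLinearMap.snd ℂ ℂ ℂ).hasFDerivAt.comp_hasDerivAt 0 hd
  have hfun : (fun b => nbRflD P u 0 b) = fun b =>
      nbDot (deriv P u) (deriv P u) *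
        ((nbDdq P (u, b)).1 * (deriv P u).2 - (nbDdq P (u, b)).2 * (deriv P u).1) := by
    funext b
    unfold nbRflD
    rw [neg_zero, s4l_ddq_zero]
    generalize nbDdq P (u, b) = B
    generalize deriv P u = τ
    obtain ⟨b1, b2⟩ := B; obtain ⟨t1, t2⟩ := τ
    simp only [nbDet, nbDot, smul_eq_mul, Prod.mk_sub_mk, Prod.smul_mk]
    ring
  have hd3 : HasDerivAt (fun b => nbDot (deriv P u) (deriv P u) *
        ((nbDdq P (u, b)).1 * (deriv P u).2 - (nbDdq P (u, b)).2 * (deriv P u).1))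
      (nbDot (deriv P u) (deriv P u) * (((1 / 2 : ℂ) • deriv (deriv P) u).1 * (deriv P u).2
        - ((1 / 2 : ℂ) • deriv (deriv P) u).2 * (deriv P u).1)) 0 :=
    ((hd1.mul_const _).sub (hd2.mul_const _)).const_mul _
  rw [hfun, hd3.deriv]
  generalize deriv (deriv P) u = κ
  generalize deriv P u = τ
  obtain ⟨k1, k2⟩ := κ; obtain ⟨t1, t2⟩ := τ
  simp only [nbDet, nbDot, smul_eq_mul, Prod.smul_mk]
  ring

end Claimed.Agent.R269
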