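/-
Row 269, unit 4L (Cor 4.9): small calculus lemmas for pairs (components of derivatives, chain rule for `nbTan`).   helper3.   No `sorry`.
-/
import Claimed.Agent.R269.S4.NatAlg
import Claimed.Agent.R269.Lib.Mero2b

set_option autoImplicit false

namespace Claimed.Agent.R269

open Complex Filter Topology Set Metric

theorem s4l_hasDerivAt_fst {P : ℂ → ℂ × ℂ} {P' : ℂ × ℂ} {y : ℂ} (h : HasDerivAt P P' y) :
    HasDerivAt (fun y => (P y).1) P'.1 y :=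
  (ContinuousLinearMap.fst ℂ ℂ ℂ).hasFDerivAt.comp_hasDerivAt y h

theorem s4l_hasDerivAt_snd {P : ℂ → ℂ × ℂ} {P' : ℂ × ℂ} {y : ℂ} (h : HasDerivAt P P' y) :
    HasDerivAt (fun y => (P y).2) P'.2 y :=
  (ContinuousLinearMap.snd ℂ ℂ ℂ).hasFDerivAt.comp_hasDerivAt y h

theorem s4l_nbDot_zero_left (v : ℂ × ℂ) : nbDot 0 v = 0 := by simp [nbDot]

/-- `nbTan` only depends on the horizontal slice. -/
theorem s4l_nbTan_of_slice {X : ℂ × ℂ → ℂ × ℂ} {Q : ℂ → ℂ × ℂ} {z : ℂ × ℂ} {Q' : ℂ × ℂ}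
    (h : ∀ᶠ y in 𝓝 z.1, X (y, z.2) = Q y) (hQ : HasDerivAt Q Q' z.1) : nbTan X z = Q' := by
  unfold nbTan pdy
  have h1 : (fun y => (X (y, z.2)).1) =ᶠ[𝓝 z.1] fun y => (Q y).1 :=
    h.mono fun y hy => congrArg Prod.fst hy
  have h2 : (fun y => (X (y, z.2)).2) =ᶠ[𝓝 z.1] fun y => (Q y).2 :=
    h.mono fun y hy => congrArg Prod.snd hy
  rw [h1.deriv_eq, h2.deriv_eq, (s4l_hasDerivAt_fst hQ).deriv, (s4l_hasDerivAt_snd hQ).deriv]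

/-- chain rule: `X = P ∘ ℓ` near `z`  ⇒  `∂_y X = ∂_y ℓ • P' (ℓ)`. -/
theorem s4l_nbTan_comp {X : ℂ × ℂ → ℂ × ℂ} {P : ℂ → ℂ × ℂ} {ℓ : ℂ × ℂ → ℂ} {z : ℂ × ℂ}
    (h : ∀ᶠ w in 𝓝 z, X w = P (ℓ w)) (hℓ : AnalyticAt ℂ ℓ z) (hP : AnalyticAt ℂ P (ℓ z)) :
    nbTan X z = pdy ℓ z • deriv P (ℓ z) := by
  have hc : ContinuousAt (fun y : ℂ => ((y, z.2) : ℂ × ℂ)) z.1 := by fun_prop
  refine s4l_nbTan_of_slice (Q := fun y => P (ℓ (y, z.2))) (hc.eventually (p := fun w => X w = P (ℓ w)) h) ?_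
  have d1 : HasDerivAt (fun y => ℓ (y, z.2)) (pdy ℓ z) z.1 :=
    hℓ.curry_left.differentiableAt.hasDerivAt
  have d2 : HasDerivAt P (deriv P (ℓ z)) (ℓ (z.1, z.2)) := hP.differentiableAt.hasDerivAt
  exact d2.scomp z.1 d1

end Claimed.Agent.R269
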