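/-
Row 269, unit 4L (Cor 4.9): strips and bands are open and convex.   helper3.   No `sorry`.
-/
import Claimed.Agent.R269.S4.NatAlg

set_option autoImplicit false

namespace Claimed.Agent.R269

open Complex Filter Topology Set Metric
open scoped ENNReal

theorem s4l_isOpen_hstrip (s : ℝ) : IsOpen (hstrip s) :=
  isOpen_lt (by fun_prop) continuous_const

theorem s4l_convex_hstrip (s : ℝ) : Convex ℝ (hstrip s) := by
  intro y hy z hz a b ha hb hab
  have hy' : |y.im| < s := hy
  have hz' : |z.im| < s := hz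
  rw [abs_lt] at hy' hz'
  have him : (a • y + b • z).im = a * y.im + b * z.im := by simp
  show |(a • y + b • z).im| < s
  rw [him, abs_lt]
  exact ⟨s4l_cvx_lt hy'.1 hz'.1 ha hb hab, s4l_cvx_gt hy'.2 hz'.2 ha hb hab⟩

theorem s4l_convex_hband (p q : ℝ) : Convex ℝ (hband p q) := by
  intro y hy z hz a b ha hb hab
  have him : (a • y + b • z).im = a * y.im + b * z.im := by simp
  refine ⟨?_, ?_⟩
  · rw [him]; exact s4l_cvx_lt hy.1 hz.1 ha hb hab
  · rw [him]; exact s4l_cvx_gt hy.2 hz.2 ha hb hab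

theorem s4l_isOpen_hband (p q : ℝ) : IsOpen (hband p q) :=
  (isOpen_lt continuous_const Complex.continuous_im).inter
    (isOpen_lt Complex.continuous_im continuous_const)

theorem s4l_isOpen_estrip (H : ℝ≥0∞) : IsOpen (estrip H) :=
  isOpen_lt (ENNReal.continuous_ofReal.comp (by fun_prop)) continuous_const

theorem s4l_estrip_eq {H : ℝ≥0∞} (hH : H ≠ ⊤) : estrip H = hstrip H.toReal := by
  ext y
  exact ENNReal.ofReal_lt_iff_lt_toReal (abs_nonneg _) hH

theorem s4l_convex_estrip (H : ℝ≥0∞) : Convex ℝ (estrip H) := by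
  by_cases hH : H = ⊤
  · have : estrip H = univ := by
      ext y
      simp only [mem_univ, iff_true]
      show ENNReal.ofReal |y.im| < H
      rw [hH]
      exact ENNReal.ofReal_lt_top
    rw [this]
    exact convex_univ
  · rw [s4l_estrip_eq hH]
    exact s4l_convex_hstrip _

/-- the set of `(y,t)` such that `(y,t)`, `(y ± t,t)` lie over a convex set. -/
theorem s4l_convex_triple {R V : Set ℂ} (hR : Convex ℝ R) (hV : Convex ℝ V) :
    Convex ℝ {z : ℂ × ℂ | z ∈ R ×ˢ V ∧ z.1 - z.2 ∈ R ∧ z.1 + z.2 ∈ R} := by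
  intro z hz z' hz' s t hs ht hst
  refine ⟨(hR.prod hV) hz.1 hz'.1 hs ht hst, ?_, ?_⟩
  · have := hR hz.2.1 hz'.2.1 hs ht hst
    have e : (s • z + t • z').1 - (s • z + t • z').2 = s • (z.1 - z.2) + t • (z'.1 - z'.2) := by
      simp only [Prod.fst_add, Prod.snd_add, Prod.smul_fst, Prod.smul_snd, smul_sub]
      ring
    rw [e]
    exact this
  · have := hR hz.2.2 hz'.2.2 hs ht hst
    have e : (s • z + t • z').1 + (s • z + t • z').2 = s • (z.1 + z.2) + t • (z'.1 + z'.2) := by
      simp only [Prod.fst_add, Prod.snd_add, Prod.smul_fst, Prod.smul_snd, smul_add]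
      ring
    rw [e]
    exact this

end Claimed.Agent.R269
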