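/-
Row 269, unit 4L (Cor 4.9), LEAF LF-S4-4L-hostA (uses only `Glance`, `Cplx.lean`).  Statements: helper3.  The owner of the leaf owns this file.

THE TWO IDENTITIES ON THE INITIAL DOMAIN.   `X0 (y,t) = S (ψ (y,t))`, `S := suppPt hc`, `ψ (y,t) := (Θ (y - t/2, t) + Θ (y + t/2, t))/2`.
 * `ψ` is analytic on `hstrip s ×ˢ ball 0 r₁` with values in `hstrip σ` (`Θ_diff`, `Θ_mem`, `|Im (y ∓ t/2)| < s + r₁/2 < 2s`; `hstrip σ` is convex; `SCV.analyticOnNhd_of_differentiableOn`, Lib/SCV0);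
   `hc` analytic on `hstrip σ` (open; `DifferentiableOn.analyticOnNhd`), so are `deriv hc`, `S`;  `S' ψ = (hc ψ + hc'' ψ) • (-sin ψ, cos ψ) =: r(ψ) e_ψ`.
 * chain rule: `pdy X0_i = (S_i)'(ψ) pdy ψ`, `pdt X0_i = (S_i)'(ψ) pdt ψ`: `nbJac X0 = 0`;   `nbTan X0 z = (r(ψ) pdy ψ) • e_ψ`.
 * reflection.  `θ₀, θ₁, θ₂, θ₃ := Θ (y - 3t/2, t), Θ (y - t/2, t), Θ (y + t/2, t), Θ (y + 3t/2, t)`;  `A, B, C := X0 (y-t,t), X0 (y,t), X0 (y+t,t) = S ((θ₀+θ₁)/2), S ((θ₁+θ₂)/2), S ((θ₂+θ₃)/2)`.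
   With `n_θ := (cos θ, sin θ)`, `e_θ := (-sin θ, cos θ)`:  `nbDot n_θ (S ψ) = hc ψ cos (θ-ψ) + hc' ψ sin (θ-ψ)`.   Hence `nbDot n_{θ₁} A = pOutC hc θ₀ θ₁`, `nbDot n_{θ₁} B = pInC hc θ₁ θ₂`, both `= p (y - t/2, t)`
   (`refl_out` at `y - 3t/2`, `refl_in` at `y - t/2`);  `nbDot n_{θ₂} B = pOutC hc θ₁ θ₂ = p (y + t/2, t) = pInC hc θ₂ θ₃ = nbDot n_{θ₂} C`.   A vector `v` with `nbDot n_θ v = 0` is `(nbDot e_θ v) • e_θ` (`cos² + sin² = 1`).
   So `B - A = λ • e_{θ₁}`, `C - B = μ • e_{θ₂}`, `τ = κ • e_ψ`, `ψ = (θ₁+θ₂)/2`;  `2 (e_{θ₁}·e_ψ) e_ψ - e_{θ₁} = e_{2ψ-θ₁} = e_{θ₂}` (addition theorems), `e_ψ·e_ψ = 1`:  `nbRfl A B C τ = μ λ κ² det (e_{θ₂}, e_{θ₂}) = 0`.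
   Domain: `|Im y| < s/4`, `|t| < s/4` give `|Im (y ± 3t/2)| < s`.
-/
import Claimed.Agent.R269.S4.NatSets
import Claimed.Agent.R269.S4.NatCalc
import Claimed.Agent.R269.Lib.SCV0

set_option autoImplicit false

namespace Claimed.Agent.R269

open Complex ComplexConjugate Filter Topology Set Metric

/-! ### the support point map -/

theorem s4l_suppPt_analyticAt {h : ℂ → ℂ} {ψ : ℂ} (hh : AnalyticAt ℂ h ψ) :
    AnalyticAt ℂ (suppPt h) ψ :=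
  ((hh.mul analyticAt_cos).sub (hh.deriv.mul analyticAt_sin)).prod
    ((hh.mul analyticAt_sin).add (hh.deriv.mul analyticAt_cos))

theorem s4l_suppPt_hasDerivAt {h : ℂ → ℂ} {ψ : ℂ} (hh : AnalyticAt ℂ h ψ) :
    HasDerivAt (suppPt h) ((h ψ + deriv (deriv h) ψ) • (-Complex.sin ψ, Complex.cos ψ)) ψ := by
  have d0 : HasDerivAt h (deriv h ψ) ψ := hh.differentiableAt.hasDerivAt
  have d1 : HasDerivAt (deriv h) (deriv (deriv h) ψ) ψ := hh.deriv.differentiableAt.hasDerivAt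
  have dc := Complex.hasDerivAt_cos ψ
  have ds := Complex.hasDerivAt_sin ψ
  have e1 : HasDerivAt (fun ψ => h ψ * Complex.cos ψ - deriv h ψ * Complex.sin ψ) _ ψ :=
    (d0.mul dc).sub (d1.mul ds)
  have e2 : HasDerivAt (fun ψ => h ψ * Complex.sin ψ + deriv h ψ * Complex.cos ψ) _ ψ :=
    (d0.mul ds).add (d1.mul dc)
  have e3 := e1.prodMk e2
  refine e3.congr_deriv ?_
  refine Prod.ext ?_ ?_
  · simp only [Prod.smul_mk, smul_eq_mul]
    ring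
  · simp only [Prod.smul_mk, smul_eq_mul]
    ring

theorem s4l_n_dot_supp (h : ℂ → ℂ) (θ ψ : ℂ) :
    Complex.cos θ * (suppPt h ψ).1 + Complex.sin θ * (suppPt h ψ).2
      = h ψ * Complex.cos (θ - ψ) + deriv h ψ * Complex.sin (θ - ψ) := by
  simp only [suppPt, Complex.cos_sub, Complex.sin_sub]
  ring

theorem s4l_n_dot_out (h : ℂ → ℂ) (θ θ' : ℂ) :
    Complex.cos θ' * (suppPt h ((θ + θ') / 2)).1 + Complex.sin θ' * (suppPt h ((θ + θ') / 2)).2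
      = pOutC h θ θ' := by
  rw [s4l_n_dot_supp]
  have : θ' - (θ + θ') / 2 = (θ' - θ) / 2 := by ring
  rw [this]
  rfl

theorem s4l_n_dot_in (h : ℂ → ℂ) (θ θ' : ℂ) :
    Complex.cos θ * (suppPt h ((θ + θ') / 2)).1 + Complex.sin θ * (suppPt h ((θ + θ') / 2)).2
      = pInC h θ θ' := by
  rw [s4l_n_dot_supp]
  have : θ - (θ + θ') / 2 = -((θ' - θ) / 2) := by ring
  rw [this, Complex.cos_neg, Complex.sin_neg]
  unfold pInC
  ring

/-- the algebra of the reflection law. -/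
theorem s4l_rfl_alg (c1 s1 c2 s2 cp sp v1 v2 w1 w2 : ℂ) (h1 : c1 ^ 2 + s1 ^ 2 = 1)
    (hc2 : c2 = (cp ^ 2 - sp ^ 2) * c1 + 2 * sp * cp * s1)
    (hs2 : s2 = 2 * sp * cp * c1 - (cp ^ 2 - sp ^ 2) * s1) (hv : c1 * v1 + s1 * v2 = 0)
    (hw : c2 * w1 + s2 * w2 = 0) :
    nbDet (w1, w2) ((2 * nbDot (v1, v2) (-sp, cp)) • (-sp, cp) - nbDot (-sp, cp) (-sp, cp) • (v1, v2))
      = 0 := by
  obtain ⟨L, hv1, hv2⟩ : ∃ L, v1 = -(L * s1) ∧ v2 = L * c1 :=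
    ⟨-s1 * v1 + c1 * v2, by linear_combination c1 * hv - v1 * h1,
      by linear_combination s1 * hv - v2 * h1⟩
  subst hv1 hv2 hc2 hs2
  simp only [nbDet, nbDot, smul_eq_mul, Prod.mk_sub_mk, Prod.smul_mk]
  linear_combination L * hw

/-! ### the mean angle -/

/-- the mean of the two line angles. -/
noncomputable def nbPsi (G : Glance) (z : ℂ × ℂ) : ℂ :=
  (G.Θ (z.1 - z.2 / 2) z.2 + G.Θ (z.1 + z.2 / 2) z.2) / 2

theorem s4l_X0_eq (G : Glance) (z : ℂ × ℂ) : G.X0 z = suppPt G.hc (nbPsi G z) := rfl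

theorem s4l_hc_analytic (G : Glance) : AnalyticOnNhd ℂ G.hc (hstrip G.σ) :=
  G.hc_diff.analyticOnNhd (s4l_isOpen_hstrip _)

theorem s4l_Θ_analytic (G : Glance) :
    AnalyticOnNhd ℂ (fun z : ℂ × ℂ => G.Θ z.1 z.2) (hstrip (2 * G.s) ×ˢ ball (0 : ℂ) G.r₁) :=
  SCV.analyticOnNhd_of_differentiableOn ((s4l_isOpen_hstrip _).prod isOpen_ball) G.Θ_diff

theorem s4l_half_mem (G : Glance) {z : ℂ × ℂ} (hz : z ∈ hstrip G.s ×ˢ ball (0 : ℂ) G.r₁) :
    z.1 - z.2 / 2 ∈ hstrip (2 * G.s) ∧ z.1 + z.2 / 2 ∈ hstrip (2 * G.s) := by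
  have h1 : |z.1.im| < G.s := hz.1
  have h2 : ‖z.2‖ < G.r₁ := by simpa using hz.2
  have h3 := G.r₁_lt
  have him := abs_le.1 (Complex.abs_im_le_norm z.2)
  rw [abs_lt] at h1
  constructor
  · show |(z.1 - z.2 / 2).im| < 2 * G.s
    have : (z.1 - z.2 / 2).im = z.1.im - z.2.im / 2 := by simp
    rw [this, abs_lt]
    constructor <;> linarith [him.1, him.2]
  · show |(z.1 + z.2 / 2).im| < 2 * G.s
    have : (z.1 + z.2 / 2).im = z.1.im + z.2.im / 2 := by simp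
    rw [this, abs_lt]
    constructor <;> linarith [him.1, him.2]

theorem s4l_Psi_analytic (G : Glance) :
    AnalyticOnNhd ℂ (nbPsi G) (hstrip G.s ×ˢ ball (0 : ℂ) G.r₁) := by
  intro z hz
  obtain ⟨h1, h2⟩ := s4l_half_mem G hz
  have a1 : AnalyticAt ℂ (fun z : ℂ × ℂ => G.Θ (z.1 - z.2 / 2) z.2) z :=
    AnalyticAt.comp (g := fun z : ℂ × ℂ => G.Θ z.1 z.2)
      (f := fun z : ℂ × ℂ => ((z.1 - z.2 / 2, z.2) : ℂ × ℂ)) (s4l_Θ_analytic G _ ⟨h1, hz.2⟩)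
      ((analyticAt_fst.sub (analyticAt_snd.div_const)).prod analyticAt_snd)
  have a2 : AnalyticAt ℂ (fun z : ℂ × ℂ => G.Θ (z.1 + z.2 / 2) z.2) z :=
    AnalyticAt.comp (g := fun z : ℂ × ℂ => G.Θ z.1 z.2)
      (f := fun z : ℂ × ℂ => ((z.1 + z.2 / 2, z.2) : ℂ × ℂ)) (s4l_Θ_analytic G _ ⟨h2, hz.2⟩)
      ((analyticAt_fst.add (analyticAt_snd.div_const)).prod analyticAt_snd)
  exact (a1.add a2).div_const

theorem s4l_Psi_mem (G : Glance) {z : ℂ × ℂ} (hz : z ∈ hstrip G.s ×ˢ ball (0 : ℂ) G.r₁) :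
    nbPsi G z ∈ hstrip G.σ := by
  obtain ⟨h1, h2⟩ := s4l_half_mem G hz
  have m1 : |(G.Θ (z.1 - z.2 / 2) z.2).im| < G.σ := G.Θ_mem _ h1 _ hz.2
  have m2 : |(G.Θ (z.1 + z.2 / 2) z.2).im| < G.σ := G.Θ_mem _ h2 _ hz.2
  rw [abs_lt] at m1 m2
  show |(nbPsi G z).im| < G.σ
  have : (nbPsi G z).im = ((G.Θ (z.1 - z.2 / 2) z.2).im + (G.Θ (z.1 + z.2 / 2) z.2).im) / 2 := by
    simp [nbPsi]
  rw [this, abs_lt]
  constructor <;> linarith

theorem s4l_X0_analytic (G : Glance) : AnalyticOnNhd ℂ G.X0 (hstrip G.s ×ˢ ball (0 : ℂ) G.r₁) := by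
  intro z hz
  exact AnalyticAt.comp (g := suppPt G.hc) (f := nbPsi G)
    (s4l_suppPt_analyticAt (s4l_hc_analytic G _ (s4l_Psi_mem G hz))) (s4l_Psi_analytic G z hz)

theorem s4l_pdy_comp {f : ℂ → ℂ} {ψ : ℂ × ℂ → ℂ} {z : ℂ × ℂ} (hf : DifferentiableAt ℂ f (ψ z))
    (hψ : AnalyticAt ℂ ψ z) : pdy (fun w => f (ψ w)) z = deriv f (ψ z) * pdy ψ z :=
  (HasDerivAt.comp (h₂ := f) (h := fun y => ψ (y, z.2)) z.1 hf.hasDerivAt
    hψ.curry_left.differentiableAt.hasDerivAt).deriv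

theorem s4l_pdt_comp {f : ℂ → ℂ} {ψ : ℂ × ℂ → ℂ} {z : ℂ × ℂ} (hf : DifferentiableAt ℂ f (ψ z))
    (hψ : AnalyticAt ℂ ψ z) : pdt (fun w => f (ψ w)) z = deriv f (ψ z) * pdt ψ z :=
  (HasDerivAt.comp (h₂ := f) (h := fun t => ψ (z.1, t)) z.2 hf.hasDerivAt
    hψ.curry_right.differentiableAt.hasDerivAt).deriv

theorem s4l_X0_jac (G : Glance) : ∀ z ∈ hstrip G.s ×ˢ ball (0 : ℂ) G.r₁, nbJac G.X0 z = 0 := by
  intro z hz
  have hS := s4l_suppPt_analyticAt (s4l_hc_analytic G _ (s4l_Psi_mem G hz))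
  have hψ := s4l_Psi_analytic G z hz
  have d1 : DifferentiableAt ℂ (fun ψ => (suppPt G.hc ψ).1) (nbPsi G z) :=
    (analyticAt_fst.comp hS).differentiableAt
  have d2 : DifferentiableAt ℂ (fun ψ => (suppPt G.hc ψ).2) (nbPsi G z) :=
    (analyticAt_snd.comp hS).differentiableAt
  unfold nbJac
  have e1 : pdy (fun w => (G.X0 w).1) z = _ := s4l_pdy_comp (f := fun ψ => (suppPt G.hc ψ).1) d1 hψ
  have e2 : pdy (fun w => (G.X0 w).2) z = _ := s4l_pdy_comp (f := fun ψ => (suppPt G.hc ψ).2) d2 hψ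
  have e3 : pdt (fun w => (G.X0 w).1) z = _ := s4l_pdt_comp (f := fun ψ => (suppPt G.hc ψ).1) d1 hψ
  have e4 : pdt (fun w => (G.X0 w).2) z = _ := s4l_pdt_comp (f := fun ψ => (suppPt G.hc ψ).2) d2 hψ
  rw [e1, e2, e3, e4]
  ring

theorem s4l_X0_rfl (G : Glance) :
    ∀ z ∈ hstrip (G.s / 4) ×ˢ ball (0 : ℂ) (min G.r₁ (G.s / 4)), nbRflX G.X0 z = 0 := by
  intro z hz
  have hs : 0 < G.s := G.r₁_pos.trans G.r₁_lt
  have hy : |z.1.im| < G.s / 4 := hz.1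
  have ht : ‖z.2‖ < min G.r₁ (G.s / 4) := by simpa using hz.2
  have ht1 : z.2 ∈ ball (0 : ℂ) G.r₁ := by simpa using ht.trans_le (min_le_left _ _)
  have ht2 : ‖z.2‖ < G.s / 4 := ht.trans_le (min_le_right _ _)
  have him := abs_le.1 (Complex.abs_im_le_norm z.2)
  rw [abs_lt] at hy
  set y := z.1 with hydef
  set t := z.2 with htdef
  have hz' : z ∈ hstrip G.s ×ˢ ball (0 : ℂ) G.r₁ :=
    ⟨by show |z.1.im| < G.s; rw [abs_lt]; constructor <;> linarith, ht1⟩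
  -- the four nodes
  have m0 : y - t - t / 2 ∈ hstrip G.s := by
    show |(y - t - t / 2).im| < G.s
    have : (y - t - t / 2).im = y.im - t.im - t.im / 2 := by simp
    rw [this, abs_lt]
    constructor <;> linarith [him.1, him.2]
  have m1 : y - t / 2 ∈ hstrip G.s := by
    show |(y - t / 2).im| < G.s
    have : (y - t / 2).im = y.im - t.im / 2 := by simp
    rw [this, abs_lt]
    constructor <;> linarith [him.1, him.2]
  have m2 : y + t / 2 ∈ hstrip G.s := by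
    show |(y + t / 2).im| < G.s
    have : (y + t / 2).im = y.im + t.im / 2 := by simp
    rw [this, abs_lt]
    constructor <;> linarith [him.1, him.2]
  have u01 : y - t - t / 2 + t = y - t / 2 := by ring
  have u12 : y - t / 2 + t = y + t / 2 := by ring
  have u23 : y + t / 2 + t = y + t + t / 2 := by ring
  have r1 := G.refl_out _ m0 t ht1
  have r2 := G.refl_in _ m1 t ht1
  have r3 := G.refl_out _ m1 t ht1
  have r4 := G.refl_in _ m2 t ht1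
  rw [u01] at r1
  rw [u12] at r2 r3
  rw [u23] at r4
  set θ₀ := G.Θ (y - t - t / 2) t with hθ₀
  set θ₁ := G.Θ (y - t / 2) t with hθ₁
  set θ₂ := G.Θ (y + t / 2) t with hθ₂
  set θ₃ := G.Θ (y + t + t / 2) t with hθ₃
  have hA : G.X0 (y - t, t) = suppPt G.hc ((θ₀ + θ₁) / 2) := by
    have e : y - t + t / 2 = y - t / 2 := by ring
    show suppPt G.hc ((G.Θ (y - t - t / 2) t + G.Θ (y - t + t / 2) t) / 2) = _
    rw [e]
  have hB : G.X0 z = suppPt G.hc ((θ₁ + θ₂) / 2) := rfl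
  have hC : G.X0 (y + t, t) = suppPt G.hc ((θ₂ + θ₃) / 2) := by
    have e : y + t - t / 2 = y + t / 2 := by ring
    show suppPt G.hc ((G.Θ (y + t - t / 2) t + G.Θ (y + t + t / 2) t) / 2) = _
    rw [e]
  have hψ : nbPsi G z = (θ₁ + θ₂) / 2 := rfl
  -- the tangent
  have hSa := s4l_suppPt_analyticAt (s4l_hc_analytic G _ (s4l_Psi_mem G hz'))
  have htan : nbTan G.X0 z = pdy (nbPsi G) z • deriv (suppPt G.hc) (nbPsi G z) :=
    s4l_nbTan_comp (Eventually.of_forall fun w => s4l_X0_eq G w) (s4l_Psi_analytic G z hz') hSa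
  rw [(s4l_suppPt_hasDerivAt (s4l_hc_analytic G _ (s4l_Psi_mem G hz'))).deriv, smul_smul, hψ] at htan
  unfold nbRflX
  rw [htan, s4l_rfl_smul, hA, hB, hC]
  refine mul_eq_zero_of_right _ ?_
  set ψ := (θ₁ + θ₂) / 2 with hψdef
  have hθ₂' : θ₂ = ψ + ψ - θ₁ := by rw [hψdef]; ring
  have hv : Complex.cos θ₁ * ((suppPt G.hc ψ).1 - (suppPt G.hc ((θ₀ + θ₁) / 2)).1)
      + Complex.sin θ₁ * ((suppPt G.hc ψ).2 - (suppPt G.hc ((θ₀ + θ₁) / 2)).2) = 0 := by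
    have a := s4l_n_dot_out G.hc θ₀ θ₁
    have b := s4l_n_dot_in G.hc θ₁ θ₂
    rw [← hψdef] at b
    linear_combination b - a + r1 - r2
  have hw : Complex.cos θ₂ * ((suppPt G.hc ((θ₂ + θ₃) / 2)).1 - (suppPt G.hc ψ).1)
      + Complex.sin θ₂ * ((suppPt G.hc ((θ₂ + θ₃) / 2)).2 - (suppPt G.hc ψ).2) = 0 := by
    have a := s4l_n_dot_out G.hc θ₁ θ₂
    have b := s4l_n_dot_in G.hc θ₂ θ₃
    rw [← hψdef] at a
    linear_combination b - a + r3 - r4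
  exact s4l_rfl_alg (Complex.cos θ₁) (Complex.sin θ₁) (Complex.cos θ₂) (Complex.sin θ₂)
    (Complex.cos ψ) (Complex.sin ψ) _ _ _ _ (Complex.cos_sq_add_sin_sq θ₁)
    (by rw [hθ₂', Complex.cos_sub, Complex.cos_add, Complex.sin_add]; ring)
    (by rw [hθ₂', Complex.sin_sub, Complex.cos_add, Complex.sin_add]; ring) hv hw

theorem s4l_Γ0_eq (G : Glance) (y : ℂ) : G.Γ0 y = suppPt G.hc (G.Θ y 0) := by
  show suppPt G.hc ((G.Θ (y - 0 / 2) 0 + G.Θ (y + 0 / 2) 0) / 2) = _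
  rw [zero_div, sub_zero, add_zero]
  congr 1
  ring

theorem s4l_φ_analytic (G : Glance) : AnalyticOnNhd ℂ (fun y => G.Θ y 0) (hstrip (2 * G.s)) :=
  fun y hy => (s4l_Θ_analytic G (y, 0) ⟨hy, mem_ball_self G.r₁_pos⟩).curry_left

theorem s4l_Γ0_hasDerivAt (G : Glance) {y : ℂ} (hy : y ∈ hstrip (2 * G.s)) :
    HasDerivAt G.Γ0 ((deriv (fun y => G.Θ y 0) y *
      (G.hc (G.Θ y 0) + deriv (deriv G.hc) (G.Θ y 0))) •
        (-Complex.sin (G.Θ y 0), Complex.cos (G.Θ y 0))) y := by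
  have h1 := s4l_suppPt_hasDerivAt
    (s4l_hc_analytic G _ (G.Θ_mem y hy 0 (mem_ball_self G.r₁_pos)))
  have h2 : HasDerivAt (fun y => G.Θ y 0) (deriv (fun y => G.Θ y 0) y) y :=
    (s4l_φ_analytic G y hy).differentiableAt.hasDerivAt
  have h3 := h1.scomp y h2
  rw [smul_smul] at h3
  have h4 : G.Γ0 = suppPt G.hc ∘ fun y => G.Θ y 0 := funext fun y => s4l_Γ0_eq G y
  rw [h4]
  exact h3

/-- the real arc is regular: `q = (r φ')² ≠ 0`, `k = r² φ'³ ≠ 0` (use `Glance.normalised`, `c_pos`). -/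
theorem s4l_Γ0_regular (G : Glance) (x : ℝ) :
    nbDot (deriv G.Γ0 x) (deriv G.Γ0 x) ≠ 0 ∧ nbDet (deriv G.Γ0 x) (deriv (deriv G.Γ0) x) ≠ 0 := by
  have hs : 0 < G.s := G.r₁_pos.trans G.r₁_lt
  have hx : (x : ℂ) ∈ hstrip (2 * G.s) := by
    show |(x : ℂ).im| < 2 * G.s
    simpa using hs
  set φ : ℂ → ℂ := fun y => G.Θ y 0 with hφ
  set r : ℂ → ℂ := fun ψ => G.hc ψ + deriv (deriv G.hc) ψ with hr
  have hφa := s4l_φ_analytic G x hx
  have hφm : φ x ∈ hstrip G.σ := G.Θ_mem x hx 0 (mem_ball_self G.r₁_pos)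
  have hha := s4l_hc_analytic G _ hφm
  have hra : AnalyticAt ℂ r (φ x) := hha.add hha.deriv.deriv
  have hnorm : r (φ x) * deriv φ x ^ 3 = G.c := G.normalised x
  have hc0 : (G.c : ℂ) ≠ 0 := by exact_mod_cast G.c_pos.ne'
  have hr0 : r (φ x) ≠ 0 := by
    intro h
    rw [h, zero_mul] at hnorm
    exact hc0 hnorm.symm
  have hφ0 : deriv φ x ≠ 0 := by
    intro h
    rw [h] at hnorm
    simp at hnorm
    exact hc0 hnorm.symm
  set κ : ℂ → ℂ := fun y => deriv φ y * r (φ y) with hκ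
  have hκ0 : κ x ≠ 0 := mul_ne_zero hφ0 hr0
  have hκd : HasDerivAt κ (deriv κ x) x :=
    (hφa.deriv.mul (AnalyticAt.comp (g := r) (f := φ) hra hφa)).differentiableAt.hasDerivAt
  have hd1 : deriv G.Γ0 x = κ x • (-Complex.sin (φ x), Complex.cos (φ x)) :=
    (s4l_Γ0_hasDerivAt G hx).deriv
  have hev : deriv G.Γ0 =ᶠ[𝓝 (x : ℂ)] fun y => κ y • (-Complex.sin (φ y), Complex.cos (φ y)) := by
    filter_upwards [(s4l_isOpen_hstrip _).mem_nhds hx] with y hy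
    exact (s4l_Γ0_hasDerivAt G hy).deriv
  have hφd : HasDerivAt φ (deriv φ x) x := hφa.differentiableAt.hasDerivAt
  have he : HasDerivAt (fun y => ((-Complex.sin (φ y), Complex.cos (φ y)) : ℂ × ℂ))
      (-(Complex.cos (φ x) * deriv φ x), -Complex.sin (φ x) * deriv φ x) x :=
    (hφd.csin.neg).prodMk hφd.ccos
  have hd2 : deriv (deriv G.Γ0) x = κ x • (-(Complex.cos (φ x) * deriv φ x),
      -Complex.sin (φ x) * deriv φ x) + deriv κ x • (-Complex.sin (φ x), Complex.cos (φ x)) := by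
    rw [hev.deriv_eq]
    exact (hκd.smul he).deriv
  have hcs := Complex.cos_sq_add_sin_sq (φ x)
  rw [hd2, hd1]
  constructor
  · have : nbDot (κ x • (-Complex.sin (φ x), Complex.cos (φ x)))
        (κ x • (-Complex.sin (φ x), Complex.cos (φ x))) = κ x ^ 2 := by
      simp only [nbDot, Prod.smul_mk, smul_eq_mul]
      linear_combination κ x ^ 2 * hcs
    rw [this]
    exact pow_ne_zero 2 hκ0
  · have : nbDet (κ x • (-Complex.sin (φ x), Complex.cos (φ x)))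
        (κ x • (-(Complex.cos (φ x) * deriv φ x), -Complex.sin (φ x) * deriv φ x)
          + deriv κ x • (-Complex.sin (φ x), Complex.cos (φ x))) = κ x ^ 2 * deriv φ x := by
      simp only [nbDet, Prod.smul_mk, smul_eq_mul, Prod.mk_add_mk]
      linear_combination κ x ^ 2 * deriv φ x * hcs
    rw [this]
    exact mul_ne_zero (pow_ne_zero 2 hκ0) hφ0

theorem s4l_conj_mem_hstrip {a : ℝ} {z : ℂ} (hz : z ∈ hstrip a) : conj z ∈ hstrip a := by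
  show |(conj z).im| < a
  rw [Complex.conj_im, abs_neg]
  exact hz

theorem s4l_deriv_hc_conj (G : Glance) {ψ : ℂ} (hψ : ψ ∈ hstrip G.σ) :
    deriv G.hc (conj ψ) = conj (deriv G.hc ψ) := by
  have hev : G.hc =ᶠ[𝓝 (conj ψ)] (conj ∘ G.hc ∘ conj) := by
    filter_upwards [(s4l_isOpen_hstrip _).mem_nhds (s4l_conj_mem_hstrip hψ)] with z hz
    simp only [Function.comp_apply]
    rw [G.hc_conj z hz, Complex.conj_conj]
  rw [hev.deriv_eq, deriv_conj_conj]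
  simp

/-- real symmetry of the initial curve (`hc_conj`, `Θ_conj`; `deriv hc (conj z) = conj (deriv hc z)`). -/
theorem s4l_Γ0_conj (G : Glance) : ∀ y ∈ hstrip G.s,
    G.Γ0 (conj y) = (conj (G.Γ0 y).1, conj (G.Γ0 y).2) := by
  intro y hy
  have hs : 0 < G.s := G.r₁_pos.trans G.r₁_lt
  have hy2 : y ∈ hstrip (2 * G.s) := by
    have : |y.im| < G.s := hy
    show |y.im| < 2 * G.s
    linarith
  have h0 : (0 : ℂ) ∈ ball (0 : ℂ) G.r₁ := mem_ball_self G.r₁_pos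
  have h1 : G.Θ (conj y) 0 = conj (G.Θ y 0) := by
    have := G.Θ_conj y hy2 0 h0
    rwa [map_zero] at this
  have hm := G.Θ_mem y hy2 0 h0
  rw [s4l_Γ0_eq, s4l_Γ0_eq, h1]
  simp only [suppPt, G.hc_conj _ hm, s4l_deriv_hc_conj G hm, map_sub, map_add, map_mul,
    Complex.cos_conj, Complex.sin_conj]

theorem s4l_hostA_eqns_cite : True := by
  have := @nbPsi.eq_1
  trivial

end Claimed.Agent.R269
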