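/-
Row 269, unit 4L (Cor 4.9): the HOST part, definitions.  Architect: helper3.

`NbCtx G ρ X`   everything unit 4L uses of units 4A-4C: `X` is the maximal primary extension of the impact map (fields of `Sec4`), `h_X` is lower semicontinuous, `h_X(0) > s/2`.
`NbPatch`       a meromorphic continuation patch of the zero slice `Γ = X(.,0)` (the body of the field `nat_bdry` of `Sec4`).
-/
import Claimed.Agent.R269.S4.NatDefs
import Claimed.Agent.R269.Lib.Mero2b

set_option autoImplicit false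

namespace Claimed.Agent.R269

open Complex ComplexConjugate Filter Topology Set Metric
open scoped ENNReal

/-- the context of unit 4L. -/
structure NbCtx (G : Glance) (ρ : ℝ) (X : ℂ × ℂ → ℂ × ℂ) : Prop where
  ρ_pos : 0 < ρ
  ρ_le : ρ ≤ G.r₁
  lsc : LowerSemicontinuousOn G.hX (ball 0 ρ)
  low : ENNReal.ofReal (G.s / 2) < G.hX 0
  mero₁ : SliceMero (fun z => (X z).1) (G.tube ρ)
  mero₂ : SliceMero (fun z => (X z).2) (G.tube ρ)
  base : ∀ z ∈ hstrip (G.s / 2) ×ˢ ball (0 : ℂ) ρ, X z = G.X0 z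

/-- a meromorphic continuation patch of `Γ = X(.,0)` on `ball s₀ ε`. -/
def NbPatch (G : Glance) (X : ℂ × ℂ → ℂ × ℂ) (s₀ : ℂ) (ε : ℝ) (P : ℂ → ℂ × ℂ) : Prop :=
  0 < ε ∧ MeromorphicOn (fun s => (P s).1) (ball s₀ ε) ∧ MeromorphicOn (fun s => (P s).2) (ball s₀ ε) ∧
    ∀ s ∈ ball s₀ ε ∩ estrip G.Hs, P =ᶠ[𝓝[≠] s] fun s' => X (s', 0)

theorem s4l_hostdefs_eqns_cite : True := by
  have := @NbPatch.eq_1
  trivial

end Claimed.Agent.R269
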