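/-
Row 269, unit 4L (Cor 4.9), LEAF LF-S4-4L-hostC.  Statements: helper3.  The owner of the leaf owns this file.

TRANSPORT OF THE TWO IDENTITIES by the identity theorem for jointly meromorphic functions (`Lib/Mero2.lean`, `Lib/Mero2b.lean`).
`B := hband (-(s/2)) b`, `V := ball 0 r`, `B ×ˢ V ⊆ tube`, so `X₁, X₂` are `Mero2On (B ×ˢ V)` (`SliceMero.mero2On`, `.mono`).
 * `jac_zero`: `nbJac X = pdy X₁ * pdt X₂ - pdy X₂ * pdt X₁` is `Mero2On (B ×ˢ V)` (`Mero2At.pdy`, `.pdt`, `.mul`, `.sub`); `B ×ˢ V` is open and convex, contains `(0,0)` (`0 < b`, `0 < s`).  Near `(0,0)`: `X = X0` (`base`), so `nbJac X = nbJac X0 = 0`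
   (`pdy_congr_nhds`, `pdt_congr_nhds`, `s4l_X0_jac`).  `Mero2On.eventually_eq_zero_of_isPreconnected`: `nbJac X = 0` generically at `z`.  `X` analytic at `z` ⇒ `nbJac X` analytic at `z` (`analyticAt_pdy`, `analyticAt_pdt` for the components)
   ⇒ `nbJac X = 0` near `z` (`eventuallyEq_nhds_of_genF`).
 * `rfl_zero`: the same on `W₂ := {z | z.2 ∈ V ∧ z.1.im + |z.2.im| < b ∧ -(s/2) < z.1.im - |z.2.im|}` (open, CONVEX, contains `(0,0)`; `z ∈ W₂` iff the three points `(z.1,z.2)`, `(z.1 ± z.2, z.2)` are in `B ×ˢ V`).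
   `w ↦ X_i (w.1 ± w.2, w.2) = X_i ∘ shear (fun ζ => ± ζ) 0 1` (`Mero2At.comp_shear`).  `nbRflX X` unfolds to a polynomial in the eight functions `X_i (w.1 - w.2, w.2)`, `X_i w`, `X_i (w.1 + w.2, w.2)`, `pdy X_i w`.
   Near `(0,0)` it equals `nbRflX X0 = 0` (`s4l_X0_rfl`).
-/
import Claimed.Agent.R269.S4.NatHostA
import Claimed.Agent.R269.S4.NatHostDefs
import Claimed.Agent.R269.S4.NatSets
import Claimed.Agent.R269.S4.NatDdq

set_option autoImplicit false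

namespace Claimed.Agent.R269

open Complex ComplexConjugate Filter Topology Set Metric
open scoped ENNReal

variable {G : Glance} {ρ : ℝ} {X : ℂ × ℂ → ℂ × ℂ}

/-- transport of an identity by the identity theorem. -/
theorem s4l_transport {J : ℂ × ℂ → ℂ} {W : Set (ℂ × ℂ)} (hW : IsPreconnected W) (hJ : Mero2On J W)
    {z₀ : ℂ × ℂ} (hz₀ : z₀ ∈ W) (h0 : ∀ᶠ w in 𝓝 z₀, J w = 0) {z : ℂ × ℂ} (hz : z ∈ W)
    (ha : AnalyticAt ℂ J z) : J z = 0 := by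
  have h1 := Mero2On.eventually_eq_zero_of_isPreconnected hW hJ hz₀ h0.genF z hz
  have h2 := eventuallyEq_nhds_of_genF (H' := fun _ => 0) ha analyticAt_const h1
  exact h2.self_of_nhds

theorem s4l_mero_minus {F : ℂ × ℂ → ℂ} {z : ℂ × ℂ} (h : Mero2At F (z.1 - z.2, z.2)) :
    Mero2At (fun w => F (w.1 - w.2, w.2)) z := by
  have h1 : shear (fun ζ => -ζ) 0 1 z = (z.1 - z.2, z.2) := by simp [shear, sub_eq_add_neg]
  have h2 := Mero2At.comp_shear (F := F) (a := fun ζ => -ζ) (t₀ := 0) (r := 1) (z := z)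
    (by rw [h1]; exact h) analyticAt_id.neg one_ne_zero
  have h3 : (fun w => F (shear (fun ζ => -ζ) 0 1 w)) = fun w => F (w.1 - w.2, w.2) := by
    funext w
    simp [shear, sub_eq_add_neg]
  rwa [h3] at h2

theorem s4l_mero_plus {F : ℂ × ℂ → ℂ} {z : ℂ × ℂ} (h : Mero2At F (z.1 + z.2, z.2)) :
    Mero2At (fun w => F (w.1 + w.2, w.2)) z := by
  have h1 : shear (fun ζ => ζ) 0 1 z = (z.1 + z.2, z.2) := by simp [shear]
  have h2 := Mero2At.comp_shear (F := F) (a := fun ζ => ζ) (t₀ := 0) (r := 1) (z := z)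
    (by rw [h1]; exact h) analyticAt_id one_ne_zero
  have h3 : (fun w => F (shear (fun ζ => ζ) 0 1 w)) = fun w => F (w.1 + w.2, w.2) := by
    funext w
    simp [shear]
  rwa [h3] at h2

theorem s4l_mero_rfl {a1 a2 b1 b2 c1 c2 t1 t2 : ℂ × ℂ → ℂ} {z : ℂ × ℂ} (ha1 : Mero2At a1 z)
    (ha2 : Mero2At a2 z) (hb1 : Mero2At b1 z) (hb2 : Mero2At b2 z) (hc1 : Mero2At c1 z)
    (hc2 : Mero2At c2 z) (ht1 : Mero2At t1 z) (ht2 : Mero2At t2 z) :
    Mero2At (fun w => nbRfl (a1 w, a2 w) (b1 w, b2 w) (c1 w, c2 w) (t1 w, t2 w)) z := by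
  have hd := ((hb1.sub ha1).mul ht1).add ((hb2.sub ha2).mul ht2)
  have hq := (ht1.mul ht1).add (ht2.mul ht2)
  have h2d := (mero2At_const 2 z).mul hd
  exact ((hc1.sub hb1).mul ((h2d.mul ht2).sub (hq.mul (hb2.sub ha2)))).sub
    ((hc2.sub hb2).mul ((h2d.mul ht1).sub (hq.mul (hb1.sub ha1))))

theorem s4l_analyticAt_rfl {A B C T : ℂ × ℂ → ℂ × ℂ} {z : ℂ × ℂ} (hA : AnalyticAt ℂ A z)
    (hB : AnalyticAt ℂ B z) (hC : AnalyticAt ℂ C z) (hT : AnalyticAt ℂ T z) :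
    AnalyticAt ℂ (fun w => nbRfl (A w) (B w) (C w) (T w)) z := by
  unfold nbRfl
  exact s4l_analyticAt_nbDet (hC.sub hB)
    (((analyticAt_const.mul (s4l_analyticAt_nbDot (hB.sub hA) hT)).smul hT).sub
      ((s4l_analyticAt_nbDot hT hT).smul (hB.sub hA)))

/-- near a point of the initial domain `X` and `X0` have the same `y`-derivative. -/
theorem NbCtx.eventuallyEq_X0 (h : NbCtx G ρ X) {w : ℂ × ℂ}
    (hw : w ∈ hstrip (G.s / 2) ×ˢ ball (0 : ℂ) ρ) : X =ᶠ[𝓝 w] G.X0 := by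
  filter_upwards [((s4l_isOpen_hstrip _).prod isOpen_ball).mem_nhds hw] with w' hw'
  exact h.base w' hw'

theorem NbCtx.jac_zero (h : NbCtx G ρ X) {b r : ℝ} (hb : 0 < b) (hr : 0 < r) (hrρ : r ≤ ρ)
    (hbox : hband (-(G.s / 2)) b ×ˢ ball (0 : ℂ) r ⊆ G.tube ρ) {z : ℂ × ℂ}
    (hz : z ∈ hband (-(G.s / 2)) b ×ˢ ball (0 : ℂ) r) (ha : AnalyticAt ℂ X z) : nbJac X z = 0 := by
  have hs : 0 < G.s := G.r₁_pos.trans G.r₁_lt
  have hm₁ : Mero2On (fun w => (X w).1) (hband (-(G.s / 2)) b ×ˢ ball (0 : ℂ) r) := fun z hz =>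
    h.mero₁.mero2On z (hbox hz)
  have hm₂ : Mero2On (fun w => (X w).2) (hband (-(G.s / 2)) b ×ˢ ball (0 : ℂ) r) := fun z hz =>
    h.mero₂.mero2On z (hbox hz)
  have a1 : AnalyticAt ℂ (fun w => (X w).1) z := analyticAt_fst.comp ha
  have a2 : AnalyticAt ℂ (fun w => (X w).2) z := analyticAt_snd.comp ha
  refine s4l_transport (W := hband (-(G.s / 2)) b ×ˢ ball (0 : ℂ) r)
    ((s4l_convex_hband _ _).prod (convex_ball _ _)).isPreconnected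
    (fun z hz => ((hm₁ z hz).pdy.mul (hm₂ z hz).pdt).sub ((hm₂ z hz).pdy.mul (hm₁ z hz).pdt))
    (z₀ := (0, 0)) ⟨⟨by simpa using hs, by simpa using hb⟩, mem_ball_self hr⟩ ?_ hz
    (((analyticAt_pdy a1).mul (analyticAt_pdt a2)).sub ((analyticAt_pdy a2).mul (analyticAt_pdt a1)))
  have h00 : ((0, 0) : ℂ × ℂ) ∈ hstrip (G.s / 2) ×ˢ ball (0 : ℂ) ρ :=
    ⟨by show |(0 : ℂ).im| < G.s / 2; simpa using hs, mem_ball_self h.ρ_pos⟩
  filter_upwards [((s4l_isOpen_hstrip _).prod isOpen_ball).mem_nhds h00] with w hw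
  have he := h.eventuallyEq_X0 hw
  have e1 : (fun w => (X w).1) =ᶠ[𝓝 w] fun w => (G.X0 w).1 := he.mono fun _ h => congrArg Prod.fst h
  have e2 : (fun w => (X w).2) =ᶠ[𝓝 w] fun w => (G.X0 w).2 := he.mono fun _ h => congrArg Prod.snd h
  have h0 := s4l_X0_jac G w ⟨by
    have : |w.1.im| < G.s / 2 := hw.1
    show |w.1.im| < G.s
    linarith, ball_subset_ball h.ρ_le hw.2⟩
  unfold nbJac at h0
  rw [pdy_congr_nhds e1, pdy_congr_nhds e2, pdt_congr_nhds e1, pdt_congr_nhds e2]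
  exact h0

theorem NbCtx.rfl_zero (h : NbCtx G ρ X) {b r : ℝ} (hb : 0 < b) (hr : 0 < r) (hrρ : r ≤ ρ)
    (hbox : hband (-(G.s / 2)) b ×ˢ ball (0 : ℂ) r ⊆ G.tube ρ) {z : ℂ × ℂ}
    (hz : z ∈ hband (-(G.s / 2)) b ×ˢ ball (0 : ℂ) r)
    (hz₁ : z.1 - z.2 ∈ hband (-(G.s / 2)) b) (hz₂ : z.1 + z.2 ∈ hband (-(G.s / 2)) b)
    (ha : AnalyticAt ℂ X z) (ha₁ : AnalyticAt ℂ X (z.1 - z.2, z.2))
    (ha₂ : AnalyticAt ℂ X (z.1 + z.2, z.2)) : nbRflX X z = 0 := by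
  have hs : 0 < G.s := G.r₁_pos.trans G.r₁_lt
  set B : Set ℂ := hband (-(G.s / 2)) b with hB
  set W : Set (ℂ × ℂ) := {z | z ∈ B ×ˢ ball (0 : ℂ) r ∧ z.1 - z.2 ∈ B ∧ z.1 + z.2 ∈ B} with hW
  have hm₁ : Mero2On (fun w => (X w).1) (B ×ˢ ball (0 : ℂ) r) := fun z hz =>
    h.mero₁.mero2On z (hbox hz)
  have hm₂ : Mero2On (fun w => (X w).2) (B ×ˢ ball (0 : ℂ) r) := fun z hz =>
    h.mero₂.mero2On z (hbox hz)
  have a1 : AnalyticAt ℂ (fun w => (X w).1) z := analyticAt_fst.comp ha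
  have a2 : AnalyticAt ℂ (fun w => (X w).2) z := analyticAt_snd.comp ha
  have h0B : (0 : ℂ) ∈ B := ⟨by simpa using hs, by simpa using hb⟩
  refine s4l_transport (W := W) (s4l_convex_triple (s4l_convex_hband _ _) (convex_ball _ _)).isPreconnected
    (fun w hw => s4l_mero_rfl
      (s4l_mero_minus (F := fun w => (X w).1) (hm₁ _ ⟨hw.2.1, hw.1.2⟩))
      (s4l_mero_minus (F := fun w => (X w).2) (hm₂ _ ⟨hw.2.1, hw.1.2⟩))
      (hm₁ w hw.1) (hm₂ w hw.1)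
      (s4l_mero_plus (F := fun w => (X w).1) (hm₁ _ ⟨hw.2.2, hw.1.2⟩))
      (s4l_mero_plus (F := fun w => (X w).2) (hm₂ _ ⟨hw.2.2, hw.1.2⟩))
      (hm₁ w hw.1).pdy (hm₂ w hw.1).pdy)
    (z₀ := (0, 0)) ⟨⟨h0B, mem_ball_self hr⟩, by simpa using h0B, by simpa using h0B⟩ ?_
    ⟨hz, hz₁, hz₂⟩
    (s4l_analyticAt_rfl
      (AnalyticAt.comp (g := X) (f := fun w : ℂ × ℂ => ((w.1 - w.2, w.2) : ℂ × ℂ)) ha₁
        ((analyticAt_fst.sub analyticAt_snd).prod analyticAt_snd)) ha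
      (AnalyticAt.comp (g := X) (f := fun w : ℂ × ℂ => ((w.1 + w.2, w.2) : ℂ × ℂ)) ha₂
        ((analyticAt_fst.add analyticAt_snd).prod analyticAt_snd))
      ((analyticAt_pdy a1).prod (analyticAt_pdy a2)))
  have h00 : ((0, 0) : ℂ × ℂ) ∈ hstrip (G.s / 4) ×ˢ ball (0 : ℂ) (min ρ (G.s / 4)) :=
    ⟨by show |(0 : ℂ).im| < G.s / 4; simpa using hs, mem_ball_self (lt_min h.ρ_pos (by linarith))⟩
  filter_upwards [((s4l_isOpen_hstrip _).prod isOpen_ball).mem_nhds h00] with w hw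
  have hw1 : |w.1.im| < G.s / 4 := hw.1
  have hw2 : ‖w.2‖ < min ρ (G.s / 4) := by simpa using hw.2
  have hw2ρ : w.2 ∈ ball (0 : ℂ) ρ := by simpa using hw2.trans_le (min_le_left _ _)
  have hw2s : ‖w.2‖ < G.s / 4 := hw2.trans_le (min_le_right _ _)
  have him := abs_le.1 (Complex.abs_im_le_norm w.2)
  rw [abs_lt] at hw1
  have m0 : w ∈ hstrip (G.s / 2) ×ˢ ball (0 : ℂ) ρ :=
    ⟨by show |w.1.im| < G.s / 2; rw [abs_lt]; constructor <;> linarith, hw2ρ⟩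
  have mm : ((w.1 - w.2, w.2) : ℂ × ℂ) ∈ hstrip (G.s / 2) ×ˢ ball (0 : ℂ) ρ :=
    ⟨by
      show |(w.1 - w.2).im| < G.s / 2
      rw [Complex.sub_im, abs_lt]
      constructor <;> linarith [him.1, him.2], hw2ρ⟩
  have mp : ((w.1 + w.2, w.2) : ℂ × ℂ) ∈ hstrip (G.s / 2) ×ˢ ball (0 : ℂ) ρ :=
    ⟨by
      show |(w.1 + w.2).im| < G.s / 2
      rw [Complex.add_im, abs_lt]
      constructor <;> linarith [him.1, him.2], hw2ρ⟩
  have he := h.eventuallyEq_X0 m0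
  have e1 : (fun w => (X w).1) =ᶠ[𝓝 w] fun w => (G.X0 w).1 := he.mono fun _ h => congrArg Prod.fst h
  have e2 : (fun w => (X w).2) =ᶠ[𝓝 w] fun w => (G.X0 w).2 := he.mono fun _ h => congrArg Prod.snd h
  have h0 := s4l_X0_rfl G w ⟨by show |w.1.im| < G.s / 4; rw [abs_lt]; exact hw1, by
    have : ‖w.2‖ < min G.r₁ (G.s / 4) := lt_min ((hw2.trans_le (min_le_left _ _)).trans_le h.ρ_le) hw2s
    simpa using this⟩
  unfold nbRflX nbTan at h0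
  show nbRfl ((X (w.1 - w.2, w.2)).1, (X (w.1 - w.2, w.2)).2) ((X w).1, (X w).2)
    ((X (w.1 + w.2, w.2)).1, (X (w.1 + w.2, w.2)).2)
    (pdy (fun w => (X w).1) w, pdy (fun w => (X w).2) w) = 0
  rw [pdy_congr_nhds e1, pdy_congr_nhds e2, h.base _ m0, h.base _ mm, h.base _ mp]
  exact h0

end Claimed.Agent.R269
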