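/-
Row 269, unit 4L (Cor 4.9), LEAF LF-S4-4L-ifk (host-free).  Statements: helper3.  The owner of the leaf owns this file.

IMPLICIT FUNCTION THEOREM NEAR A COMPACT CONVEX FAMILY OF SOLUTIONS, with uniform domains and uniqueness:
`G (x, s, v)`, `x` near `K`, small parameter `s`, scalar unknown `v`; `G (x,0,0) = 0`, `∂_v G (x,0,0) ≠ 0`.

PROOF (one possibility).  `m x := ∂_v G (x,0,0)`, `n x := ∂_s G (x,0,0)` are analytic near `K`, `m ≠ 0` near `K`.  Put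
`Φ (x,s,v) := (x, s, G (x,s,v) / m x - (n x / m x) * s)`.  Then `Φ` is analytic near `K × 0 × 0` and `DΦ (x,0,0) = id` for `x` near `K`
(`∂_x` vanishes because `G (x',0,0) = 0` near `x`).  By continuity of `DΦ` and compactness (`generalized_tube_lemma`/`IsCompact.exists_thickening_subset_open`) there is `δ'` with
`‖DΦ - id‖ ≤ 1/2` on the CONVEX open set `S := thickening δ' K ×ˢ ball 0 δ' ×ˢ ball 0 δ'`; the mean value inequality for `Φ - id` gives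
`ApproximatesLinearOn Φ (ContinuousLinearEquiv.refl ..) S (1/2)`.  So `Φ` is injective on `S` (uniqueness), an open partial homeomorphism
(`ApproximatesLinearOn.toOpenPartialHomeomorph`), `Φ '' closedBall p ε ⊇ closedBall (Φ p) (ε/2)` (`ApproximatesLinearOn.surjOn_closedBall_of_nonlinearRightInverse`),
its inverse is differentiable (`OpenPartialHomeomorph.hasFDerivAt_symm` / `HasStrictFDerivAt.to_localInverse`), hence analytic (`SCV.analyticOnNhd_of_differentiableOn`, Lib/SCV0.lean,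
sorry-free; or `OpenPartialHomeomorph.analyticAt_symm'`).  `v (x,s) :=` third component of `Φ⁻¹ (x, s, -(n x / m x) * s)`.
ALTERNATIVE: local implicit function theorem at every `(x,0,0)`, uniqueness, Lebesgue number.
-/
import Claimed.Agent.R269.Lib.SCVb

set_option autoImplicit false

namespace Claimed.Agent.R269

open Complex Filter Topology Set Metric

/-- tube lemma in "eventually" form. -/
theorem s4l_ifk_tube {K : Set ℂ} (hK : IsCompact K) {F : Type*} [PseudoMetricSpace F] (a : F)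
    {p : ℂ × F → Prop} (h : ∀ x ∈ K, ∀ᶠ q in 𝓝 (x, a), p q) :
    ∃ δ : ℝ, 0 < δ ∧ ∀ x ∈ thickening δ K, ∀ y ∈ ball a δ, p (x, y) := by
  have hO : IsOpen {q : ℂ × F | ∀ᶠ q' in 𝓝 q, p q'} := isOpen_setOfPred_eventually_nhds
  have hsub : K ×ˢ {a} ⊆ {q : ℂ × F | ∀ᶠ q' in 𝓝 q, p q'} := by
    rintro ⟨x, y⟩ ⟨hx, hy⟩
    have hy' : y = a := hy
    subst hy'
    exact h x hx
  obtain ⟨δ, hδ, hsub'⟩ := (hK.prod isCompact_singleton).exists_thickening_subset_open hO hsub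
  refine ⟨δ, hδ, fun x hx y hy => ?_⟩
  obtain ⟨x₀, hx₀, hd⟩ := mem_thickening_iff.1 hx
  have hmem : (x, y) ∈ thickening δ (K ×ˢ {a}) :=
    mem_thickening_iff.2 ⟨(x₀, a), ⟨hx₀, rfl⟩, by rw [Prod.dist_eq]; exact max_lt hd hy⟩
  exact (hsub' hmem).self_of_nhds

/-- the fibre problem: one root, and only one, in the ball. -/
theorem s4l_ifk_fiber {g g' : ℂ → ℂ} {m : ℂ} {R : ℝ} (hR : 0 < R)
    (hg : ∀ v ∈ ball (0 : ℂ) R, HasDerivAt g (g' v) v)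
    (hm : ∀ v ∈ ball (0 : ℂ) R, ‖g' v - m‖ ≤ ‖m‖ / 2) (hm0 : m ≠ 0)
    (h0 : ‖g 0‖ < ‖m‖ * R / 4) :
    (∃ v ∈ ball (0 : ℂ) R, g v = 0) ∧
      ∀ v ∈ ball (0 : ℂ) R, ∀ v' ∈ ball (0 : ℂ) R, g v = 0 → g v' = 0 → v = v' := by
  have hmpos : 0 < ‖m‖ := norm_pos_iff.2 hm0
  have hLip : ∀ v ∈ ball (0 : ℂ) R, ∀ v' ∈ ball (0 : ℂ) R,
      ‖(g v - m * v) - (g v' - m * v')‖ ≤ ‖m‖ / 2 * ‖v - v'‖ := by
    intro v hv v' hv'
    refine Convex.norm_image_sub_le_of_norm_hasDerivWithin_le (f := fun v => g v - m * v)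
      (f' := fun v => g' v - m) (s := ball (0 : ℂ) R) ?_ hm (convex_ball _ _) hv' hv
    intro x hx
    have h1 : HasDerivAt (fun v : ℂ => m * v) m x := by
      simpa using (hasDerivAt_id x).const_mul m
    exact ((hg x hx).sub h1).hasDerivWithinAt
  constructor
  · have happ : ApproximatesLinearOn (fun v => g v / m) (ContinuousLinearMap.id ℂ ℂ) (ball (0 : ℂ) R)
        (1 / 2 : NNReal) := by
      intro x hx y hy
      have h1 : g x / m - g y / m - (ContinuousLinearMap.id ℂ ℂ) (x - y)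
          = ((g x - m * x) - (g y - m * y)) / m := by
        simp only [ContinuousLinearMap.coe_id', id_eq]
        field_simp
        ring
      rw [h1, norm_div, div_le_iff₀ hmpos]
      have h2 := hLip x hx y hy
      have h3 : ((1 / 2 : NNReal) : ℝ) = 1 / 2 := by norm_num
      rw [h3]
      linarith
    let inv : (ContinuousLinearMap.id ℂ ℂ).NonlinearRightInverse :=
      { toFun := id
        nnnorm := 1
        bound' := fun y => by simp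
        right_inv' := fun y => rfl }
    have hs := happ.surjOn_closedBall_of_nonlinearRightInverse inv (ε := R / 2) (b := 0)
      (by linarith) (closedBall_subset_ball (by linarith))
    have hmem : (0 : ℂ) ∈ closedBall (g 0 / m) ((((inv.nnnorm : NNReal) : ℝ)⁻¹ - ((1 / 2 : NNReal) : ℝ)) * (R / 2)) := by
      have h3 : ((1 / 2 : NNReal) : ℝ) = 1 / 2 := by norm_num
      have h4 : ((inv.nnnorm : NNReal) : ℝ) = 1 := rfl
      rw [h3, h4, mem_closedBall, dist_comm, dist_zero_right, norm_div, div_le_iff₀ hmpos]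
      nlinarith
    obtain ⟨v, hv, hv0⟩ := hs hmem
    refine ⟨v, closedBall_subset_ball (by linarith) hv, ?_⟩
    have : g v / m = 0 := hv0
    rcases div_eq_zero_iff.1 this with h | h
    · exact h
    · exact absurd h hm0
  · intro v hv v' hv' h1 h2
    have h3 := hLip v hv v' hv'
    rw [h1, h2] at h3
    have h4 : (0 - m * v) - (0 - m * v') = -(m * (v - v')) := by ring
    rw [h4, norm_neg, norm_mul] at h3
    have h5 : ‖v - v'‖ ≤ 0 := by nlinarith [norm_nonneg (v - v')]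
    exact sub_eq_zero.1 (norm_le_zero_iff.1 h5)

theorem s4l_ifk {K : Set ℂ} (hK : IsCompact K) (hKc : Convex ℝ K) {G : ℂ × ℂ × ℂ → ℂ}
    (hG : ∀ x ∈ K, AnalyticAt ℂ G (x, 0, 0)) (h0 : ∀ x ∈ K, ∀ᶠ x' in 𝓝 x, G (x', 0, 0) = 0)
    (h1 : ∀ x ∈ K, deriv (fun v => G (x, 0, v)) 0 ≠ 0) {η₀ : ℝ} (hη₀ : 0 < η₀) :
    ∃ δ δ₁ : ℝ, 0 < δ ∧ δ ≤ η₀ ∧ 0 < δ₁ ∧ δ₁ ≤ η₀ ∧ ∃ v : ℂ × ℂ → ℂ,
      AnalyticOnNhd ℂ v (thickening δ K ×ˢ ball (0 : ℂ) δ) ∧
      (∀ x ∈ thickening δ K, v (x, 0) = 0) ∧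
      (∀ p ∈ thickening δ K ×ˢ ball (0 : ℂ) δ, ‖v p‖ < δ₁ ∧ G (p.1, p.2, v p) = 0) ∧
      (∀ p ∈ thickening δ K ×ˢ ball (0 : ℂ) δ, ∀ b : ℂ, ‖b‖ < δ₁ → G (p.1, p.2, b) = 0 → b = v p) := by
  classical
  set D : ℂ × ℂ × ℂ → ℂ := fun q => fderiv ℂ G q (0, 0, 1) with hD
  have hDder : ∀ q : ℂ × ℂ × ℂ, AnalyticAt ℂ G q →
      HasDerivAt (fun v => G (q.1, q.2.1, v)) (D q) q.2.2 := by
    intro q hq
    have h1 : HasDerivAt (fun v : ℂ => ((q.1, q.2.1, v) : ℂ × ℂ × ℂ)) (0, 0, 1) q.2.2 :=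
      (hasDerivAt_const _ _).prodMk ((hasDerivAt_const _ _).prodMk (hasDerivAt_id _))
    have h2 : HasFDerivAt G (fderiv ℂ G q) (q.1, q.2.1, q.2.2) := hq.differentiableAt.hasFDerivAt
    exact h2.comp_hasDerivAt q.2.2 h1
  have hDc : ∀ q, AnalyticAt ℂ G q → ContinuousAt D q := fun q hq =>
    (hq.fderiv.continuousAt).clm_apply continuousAt_const
  have hD0 : ∀ x ∈ K, D (x, 0, 0) ≠ 0 := by
    intro x hx
    have := (hDder (x, 0, 0) (hG x hx)).deriv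
    rw [← this]
    exact h1 x hx
  -- first tube
  have hπ : Continuous (fun q : ℂ × ℂ × ℂ => ((q.1, q.2.1, 0) : ℂ × ℂ × ℂ)) := by fun_prop
  obtain ⟨δ', hδ', hP1⟩ := s4l_ifk_tube hK ((0 : ℂ), (0 : ℂ))
    (p := fun q => AnalyticAt ℂ G q ∧ AnalyticAt ℂ G (q.1, q.2.1, 0) ∧
      ‖D q - D (q.1, q.2.1, 0)‖ < ‖D (q.1, q.2.1, 0)‖ / 2) (by
    intro x hx
    have e1 : ∀ᶠ q in 𝓝 ((x, 0, 0) : ℂ × ℂ × ℂ), AnalyticAt ℂ G q := (hG x hx).eventually_analyticAt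
    have hπt : Tendsto (fun q : ℂ × ℂ × ℂ => ((q.1, q.2.1, 0) : ℂ × ℂ × ℂ)) (𝓝 (x, 0, 0))
        (𝓝 (x, 0, 0)) := hπ.tendsto (x, 0, 0)
    have e2 := hπt.eventually e1
    have hc1 : ContinuousAt D (x, 0, 0) := hDc _ (hG x hx)
    have hc2 : ContinuousAt (fun q : ℂ × ℂ × ℂ => D (q.1, q.2.1, 0)) (x, 0, 0) :=
      ContinuousAt.comp (f := fun q : ℂ × ℂ × ℂ => ((q.1, q.2.1, 0) : ℂ × ℂ × ℂ)) (g := D) hc1
        hπ.continuousAt
    have e3 : ∀ᶠ q in 𝓝 ((x, 0, 0) : ℂ × ℂ × ℂ),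
        ‖D q - D (q.1, q.2.1, 0)‖ < ‖D (q.1, q.2.1, 0)‖ / 2 := by
      refine ContinuousAt.eventually_lt (hc1.sub hc2).norm (hc2.norm.div_const 2) ?_
      simp only [sub_self, norm_zero]
      have := norm_pos_iff.2 (hD0 x hx)
      linarith
    filter_upwards [e1, e2, e3] with q a b c using ⟨a, b, c⟩)
  set δ₁ : ℝ := min δ' η₀ with hδ₁
  have hδ₁pos : 0 < δ₁ := lt_min hδ' hη₀
  -- second tube
  obtain ⟨δ'', hδ'', hP2⟩ := s4l_ifk_tube hK (0 : ℂ)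
    (p := fun q => ‖G (q.1, q.2, 0)‖ < ‖D (q.1, q.2, 0)‖ * δ₁ / 4 ∧ G (q.1, 0, 0) = 0) (by
    intro x hx
    have hι : Continuous (fun q : ℂ × ℂ => ((q.1, q.2, 0) : ℂ × ℂ × ℂ)) := by fun_prop
    have hc1 : ContinuousAt (fun q : ℂ × ℂ => D (q.1, q.2, 0)) (x, 0) :=
      ContinuousAt.comp (f := fun q : ℂ × ℂ => ((q.1, q.2, 0) : ℂ × ℂ × ℂ)) (g := D)
        (hDc _ (hG x hx)) hι.continuousAt
    have hc2 : ContinuousAt (fun q : ℂ × ℂ => G (q.1, q.2, 0)) (x, 0) :=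
      ContinuousAt.comp (f := fun q : ℂ × ℂ => ((q.1, q.2, 0) : ℂ × ℂ × ℂ)) (g := G)
        (hG x hx).continuousAt hι.continuousAt
    have e1 : ∀ᶠ q in 𝓝 ((x, 0) : ℂ × ℂ), ‖G (q.1, q.2, 0)‖ < ‖D (q.1, q.2, 0)‖ * δ₁ / 4 := by
      refine ContinuousAt.eventually_lt hc2.norm ((hc1.norm.mul_const δ₁).div_const 4) ?_
      have h00 : G (x, 0, 0) = 0 := (h0 x hx).self_of_nhds
      simp only [h00, norm_zero]
      have := norm_pos_iff.2 (hD0 x hx)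
      positivity
    have e2 : ∀ᶠ q in 𝓝 ((x, 0) : ℂ × ℂ), G (q.1, 0, 0) = 0 :=
      (continuous_fst.tendsto ((x, 0) : ℂ × ℂ)).eventually (h0 x hx)
    filter_upwards [e1, e2] with q a b using ⟨a, b⟩)
  set δ : ℝ := min δ'' δ₁ with hδ
  have hδpos : 0 < δ := lt_min hδ'' hδ₁pos
  have hδδ'' : δ ≤ δ'' := min_le_left _ _
  have hδδ₁ : δ ≤ δ₁ := min_le_right _ _
  have hδ₁δ' : δ₁ ≤ δ' := min_le_left _ _
  have hδ₁η : δ₁ ≤ η₀ := min_le_right _ _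
  -- the fibre statement
  have hP1' : ∀ p ∈ thickening δ K ×ˢ ball (0 : ℂ) δ, ∀ b ∈ ball (0 : ℂ) δ₁,
      AnalyticAt ℂ G (p.1, p.2, b) ∧ AnalyticAt ℂ G (p.1, p.2, 0) ∧
        ‖D (p.1, p.2, b) - D (p.1, p.2, 0)‖ < ‖D (p.1, p.2, 0)‖ / 2 := by
    intro p hp b hb
    refine hP1 p.1 (thickening_mono (hδδ₁.trans hδ₁δ') K hp.1) (p.2, b) ?_
    rw [← ball_prod_same]
    exact ⟨ball_subset_ball (hδδ₁.trans hδ₁δ') hp.2, ball_subset_ball hδ₁δ' hb⟩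
  have hfib : ∀ p ∈ thickening δ K ×ˢ ball (0 : ℂ) δ,
      (∃ b ∈ ball (0 : ℂ) δ₁, G (p.1, p.2, b) = 0) ∧
        ∀ b ∈ ball (0 : ℂ) δ₁, ∀ b' ∈ ball (0 : ℂ) δ₁, G (p.1, p.2, b) = 0 →
          G (p.1, p.2, b') = 0 → b = b' := by
    intro p hp
    have hm0 : D (p.1, p.2, 0) ≠ 0 := by
      have := (hP1' p hp 0 (mem_ball_self hδ₁pos)).2.2
      rw [sub_self, norm_zero] at this
      exact norm_pos_iff.1 (by linarith)
    exact s4l_ifk_fiber (g := fun b => G (p.1, p.2, b)) (g' := fun b => D (p.1, p.2, b))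
      (m := D (p.1, p.2, 0)) hδ₁pos (fun b hb => hDder (p.1, p.2, b) (hP1' p hp b hb).1)
      (fun b hb => (hP1' p hp b hb).2.2.le) hm0
      (hP2 p.1 (thickening_mono hδδ'' K hp.1) p.2 (ball_subset_ball hδδ'' hp.2)).1
  set v : ℂ × ℂ → ℂ := fun p =>
    if h : ∃ b ∈ ball (0 : ℂ) δ₁, G (p.1, p.2, b) = 0 then h.choose else 0 with hv
  have hvspec : ∀ p ∈ thickening δ K ×ˢ ball (0 : ℂ) δ,
      v p ∈ ball (0 : ℂ) δ₁ ∧ G (p.1, p.2, v p) = 0 := by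
    intro p hp
    have h := (hfib p hp).1
    simp only [hv, dif_pos h]
    exact h.choose_spec
  have huniq : ∀ p ∈ thickening δ K ×ˢ ball (0 : ℂ) δ, ∀ b : ℂ, ‖b‖ < δ₁ →
      G (p.1, p.2, b) = 0 → b = v p := by
    intro p hp b hb hb0
    exact (hfib p hp).2 b (by simpa using hb) (v p) (hvspec p hp).1 hb0 (hvspec p hp).2
  refine ⟨δ, δ₁, hδpos, hδδ₁.trans hδ₁η, hδ₁pos, hδ₁η, v, ?_, ?_, ?_, huniq⟩
  · intro p₀ hp₀
    obtain ⟨hv₀, hv₀0⟩ := hvspec p₀ hp₀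
    obtain ⟨ha, -, hlt⟩ := hP1' p₀ hp₀ (v p₀) hv₀
    have hDne : D (p₀.1, p₀.2, v p₀) ≠ 0 := by
      intro h
      rw [h, zero_sub, norm_neg] at hlt
      have := norm_nonneg (D (p₀.1, p₀.2, 0))
      linarith
    have hΦ : AnalyticAt ℂ (fun u : (ℂ × ℂ) × ℂ => G (u.1.1, u.1.2, u.2)) (p₀, v p₀) :=
      AnalyticAt.comp (f := fun u : (ℂ × ℂ) × ℂ => ((u.1.1, u.1.2, u.2) : ℂ × ℂ × ℂ)) (g := G) ha
        (((ContinuousLinearMap.fst ℂ ℂ ℂ ∘L ContinuousLinearMap.fst ℂ (ℂ × ℂ) ℂ).prod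
          ((ContinuousLinearMap.snd ℂ ℂ ℂ ∘L ContinuousLinearMap.fst ℂ (ℂ × ℂ) ℂ).prod
            (ContinuousLinearMap.snd ℂ (ℂ × ℂ) ℂ))).analyticAt _)
    have hd : deriv (fun x => (fun u : (ℂ × ℂ) × ℂ => G (u.1.1, u.1.2, u.2)) ((p₀, v p₀).1, x))
        (p₀, v p₀).2 ≠ 0 := by
      have := (hDder (p₀.1, p₀.2, v p₀) ha).deriv
      simp only at this ⊢
      rw [this]
      exact hDne
    obtain ⟨ψ, hψa, hψ0, hψe, -⟩ := exists_implicit hΦ hd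
    simp only at hψa hψ0 hψe
    have e1 : ∀ᶠ w in 𝓝 p₀, ‖ψ w‖ < δ₁ := by
      refine ContinuousAt.eventually_lt hψa.continuousAt.norm continuousAt_const ?_
      rw [hψ0]
      simpa using hv₀
    have e2 : ∀ᶠ w in 𝓝 p₀, w ∈ thickening δ K ×ˢ ball (0 : ℂ) δ :=
      (isOpen_thickening.prod isOpen_ball).mem_nhds hp₀
    refine hψa.congr ?_
    filter_upwards [e1, e2, hψe] with w h1 h2 h3
    exact huniq w h2 (ψ w) h1 (by rw [h3, hv₀0])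
  · intro x hx
    have hp : (x, (0 : ℂ)) ∈ thickening δ K ×ˢ ball (0 : ℂ) δ := ⟨hx, mem_ball_self hδpos⟩
    exact (huniq _ hp 0 (by simpa using hδ₁pos)
      (hP2 x (thickening_mono hδδ'' K hx) 0 (mem_ball_self hδ'')).2).symm
  · intro p hp
    exact ⟨by simpa using (hvspec p hp).1, (hvspec p hp).2⟩

end Claimed.Agent.R269
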