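/-
Row 269, unit 4L (Cor 4.9), LEAF LF-S4-4L-hostB.  Statements: helper3.  The owner of the leaf owns this file.

BOXES IN THE TUBE, ANALYTIC ROWS.
 * `NbCtx.Hs_pos`, `NbCtx.box`: `G.Hs = G.hX 0`.  `b' := max b (s/2)`, `ofReal b' < hX 0` (`low`); lower semicontinuity at `0` gives `r ≤ ρ` with `ofReal b' < hX t` on `ball 0 r`; `conj t ∈ ball 0 r`;
   for `y ∈ hband (-(s/2)) b`: `ofReal y.im ≤ ofReal b'`, `ofReal (-y.im) ≤ ofReal (s/2) ≤ ofReal b'`.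
 * `NbCtx.primary`: fields of `IsPrimaryExt` from `SliceMero.mero2On`, `base`.
 * `NbCtx.eventually_analyticAt`: `SliceMero` at `(y₀,0)`: `X_i = g/k` where `k ≠ 0`, `k (.,0)` not identically `0` near `y₀`, so `k (y,0) ≠ 0` on a punctured neighbourhood (`AnalyticAt.eventually_eq_zero_or_eventually_ne_zero`);
   at such `(y,0)` (close to `(y₀,0)`) `g, k` are analytic, `k ≠ 0` nearby, `X_i = g/k` nearby.  Pairs: `AnalyticAt.prodMk` (`X = fun z => ((X z).1, (X z).2)`).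
 * `NbCtx.exists_row`: the closed rectangle `Q := nbCRect c.re (17e) (H-2e) (H-e)` (`H = c.im`) is compact and `Q ×ˢ {0} ⊆ tube`; the set `Bad := {y ∈ Q | ¬ AnalyticAt ℂ X (y,0)}` is finite (every point of `Q` has a neighbourhood containing at most
   one bad point; finite subcover).  Choose `b₀ ∈ (H-2e, H-e)` different from the finitely many `Im y`, `y ∈ Bad`.  The segment `nbCRect c.re (16e) b₀ b₀` is compact and `X` is analytic at `(y,0)` for all its points: the set of analyticity is open, tube lemma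
   (`generalized_tube_lemma` / `IsCompact.exists_thickening_subset_open`) gives `c₂`, `r`.
-/
import Claimed.Agent.R269.S4.NatAlg
import Claimed.Agent.R269.S4.NatHostDefs
import Claimed.Agent.R269.S4.NatIfk

set_option autoImplicit false

namespace Claimed.Agent.R269

open Complex ComplexConjugate Filter Topology Set Metric
open scoped ENNReal

variable {G : Glance} {ρ : ℝ} {X : ℂ × ℂ → ℂ × ℂ}

theorem NbCtx.s_pos (G : Glance) : 0 < G.s := G.r₁_pos.trans G.r₁_lt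

theorem NbCtx.box (h : NbCtx G ρ X) {b : ℝ} (hb : ENNReal.ofReal b < G.Hs) :
    ∃ r : ℝ, 0 < r ∧ r ≤ ρ ∧ hband (-(G.s / 2)) b ×ˢ ball (0 : ℂ) r ⊆ G.tube ρ := by
  have hb' : ENNReal.ofReal (max b (G.s / 2)) < G.hX 0 := by
    rcases le_total b (G.s / 2) with h1 | h1
    · rw [max_eq_right h1]; exact h.low
    · rw [max_eq_left h1]; exact hb
  have h0 : (0 : ℂ) ∈ ball (0 : ℂ) ρ := mem_ball_self h.ρ_pos
  have hev : ∀ᶠ t in 𝓝 (0 : ℂ), ENNReal.ofReal (max b (G.s / 2)) < G.hX t := by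
    have := h.lsc 0 h0 _ hb'
    rwa [isOpen_ball.nhdsWithin_eq h0] at this
  obtain ⟨r₀, hr₀, hball⟩ := Metric.eventually_nhds_iff_ball.1 hev
  refine ⟨min r₀ ρ, lt_min hr₀ h.ρ_pos, min_le_right _ _, ?_⟩
  rintro z ⟨hz1, hz2⟩
  have hz2' : z.2 ∈ ball (0 : ℂ) r₀ := ball_subset_ball (min_le_left _ _) hz2
  have hz2c : conj z.2 ∈ ball (0 : ℂ) r₀ := by
    rw [mem_ball, dist_zero_right] at hz2' ⊢
    rwa [RCLike.norm_conj]
  refine ⟨ball_subset_ball (min_le_right _ _) hz2, ?_, ?_⟩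
  · exact (ENNReal.ofReal_le_ofReal (hz1.2.le.trans (le_max_left _ _))).trans_lt (hball _ hz2')
  · refine (ENNReal.ofReal_le_ofReal ?_).trans_lt (hball _ hz2c)
    have := hz1.1
    exact le_trans (by linarith) (le_max_right _ _)

theorem NbCtx.primary (h : NbCtx G ρ X) {b r : ℝ} (hr : r ≤ ρ)
    (hbox : hband (-(G.s / 2)) b ×ˢ ball (0 : ℂ) r ⊆ G.tube ρ) :
    G.IsPrimaryExt G.X0 b (ball (0 : ℂ) r) X where
  isOpen := isOpen_ball
  sub := ball_subset_ball (hr.trans h.ρ_le)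
  mero := ⟨fun z hz => h.mero₁.mero2On z (hbox hz), fun z hz => h.mero₂.mero2On z (hbox hz)⟩
  agrees := fun z hz => h.base z ⟨hz.1, ball_subset_ball hr hz.2⟩

theorem NbCtx.mem_tube (h : NbCtx G ρ X) {y : ℂ} (hy : y ∈ estrip G.Hs) : (y, (0 : ℂ)) ∈ G.tube ρ := by
  have hy' : ENNReal.ofReal |y.im| < G.hX 0 := hy
  refine ⟨mem_ball_self h.ρ_pos, ?_, ?_⟩
  · exact (ENNReal.ofReal_le_ofReal (le_abs_self _)).trans_lt hy'
  · show ENNReal.ofReal (-y.im) < G.hX (conj (0 : ℂ))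
    rw [map_zero]
    exact (ENNReal.ofReal_le_ofReal (neg_le_abs _)).trans_lt hy'

/-- a slice-meromorphic function is analytic at the points of a punctured horizontal neighbourhood. -/
theorem s4l_slice_analytic {F : ℂ × ℂ → ℂ} {W : Set (ℂ × ℂ)} (hF : SliceMero F W) {y₀ t₀ : ℂ}
    (hz : (y₀, t₀) ∈ W) : ∀ᶠ y in 𝓝[≠] y₀, AnalyticAt ℂ F (y, t₀) := by
  obtain ⟨g, k, hg, hk, hk0, hFgk⟩ := hF _ hz
  simp only at hk0
  have hι : Continuous (fun y : ℂ => ((y, t₀) : ℂ × ℂ)) := by fun_prop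
  have hks : AnalyticAt ℂ (fun y => k (y, t₀)) y₀ := hk.curry_left
  have hne : ∀ᶠ y in 𝓝[≠] y₀, k (y, t₀) ≠ 0 :=
    hks.eventually_eq_zero_or_eventually_ne_zero.resolve_left hk0
  have e1 : ∀ᶠ y in 𝓝[≠] y₀, AnalyticAt ℂ g (y, t₀) :=
    ((hι.tendsto y₀).eventually hg.eventually_analyticAt).filter_mono nhdsWithin_le_nhds
  have e2 : ∀ᶠ y in 𝓝[≠] y₀, AnalyticAt ℂ k (y, t₀) :=
    ((hι.tendsto y₀).eventually hk.eventually_analyticAt).filter_mono nhdsWithin_le_nhds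
  have e3 : ∀ᶠ y in 𝓝[≠] y₀, ∀ᶠ w in 𝓝 ((y, t₀) : ℂ × ℂ), k w ≠ 0 → F w = g w / k w :=
    ((hι.tendsto y₀).eventually (eventually_eventually_nhds.2 hFgk)).filter_mono nhdsWithin_le_nhds
  filter_upwards [hne, e1, e2, e3] with y h1 h2 h3 h4
  refine (h2.div h3 h1).congr ?_
  filter_upwards [h3.continuousAt.eventually_ne h1, h4] with w hw1 hw2
  exact (hw2 hw1).symm

theorem NbCtx.eventually_analyticAt (h : NbCtx G ρ X) {y₀ : ℂ} (hy₀ : y₀ ∈ estrip G.Hs) :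
    ∀ᶠ y in 𝓝[≠] y₀, AnalyticAt ℂ X (y, 0) := by
  filter_upwards [s4l_slice_analytic h.mero₁ (h.mem_tube hy₀),
    s4l_slice_analytic h.mero₂ (h.mem_tube hy₀)] with y h1 h2
  exact h1.prod h2

theorem NbCtx.exists_row (h : NbCtx G ρ X) {c : ℂ} (hc : ENNReal.ofReal c.im = G.Hs) {e : ℝ}
    (he : 0 < e) (hec : 25 * e < c.im) :
    ∃ b₀ c₂ r : ℝ, c.im - 2 * e < b₀ ∧ b₀ < c.im - e ∧ 0 < c₂ ∧ c₂ ≤ e / 8 ∧ 0 < r ∧
      AnalyticOnNhd ℂ X (nbRect c.re (16 * e) (b₀ - 2 * c₂) (b₀ + 2 * c₂) ×ˢ ball (0 : ℂ) r) := by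
  have hcpos : 0 < c.im := by linarith
  set Q : Set ℂ := nbCRect c.re (17 * e) (c.im - 2 * e) (c.im - e) with hQ
  have hQc : IsCompact Q := isCompact_nbCRect _ _ _ _
  have hQs : Q ⊆ estrip G.Hs := by
    intro y hy
    show ENNReal.ofReal |y.im| < G.Hs
    rw [← hc, ENNReal.ofReal_lt_ofReal_iff hcpos, abs_lt]
    constructor <;> linarith [hy.2.1, hy.2.2]
  obtain ⟨T, -, hT⟩ := hQc.elim_nhds_subcover (fun y₀ => {y | y ≠ y₀ → AnalyticAt ℂ X (y, 0)})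
    (fun y₀ hy₀ => eventually_nhdsWithin_iff.1 (h.eventually_analyticAt (hQs hy₀)))
  have hgood : ∀ y ∈ Q, y ∉ T → AnalyticAt ℂ X (y, 0) := by
    intro y hy hyT
    obtain ⟨y₀, hy₀, hyU⟩ := mem_iUnion₂.1 (hT hy)
    exact hyU (fun h => hyT (h ▸ hy₀))
  obtain ⟨b₀, hb₀, hb₀T⟩ := (Ioo_infinite (show c.im - 2 * e < c.im - e by linarith)).exists_notMem_finset
    (T.image Complex.im)
  set S : Set ℂ := nbCRect c.re (16 * e) b₀ b₀ with hS
  obtain ⟨δ, hδ, htube⟩ := s4l_ifk_tube (K := S) (isCompact_nbCRect _ _ _ _) (0 : ℂ)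
    (p := fun q => AnalyticAt ℂ X q) (by
      intro y hy
      have hyim : y.im = b₀ := le_antisymm hy.2.2 hy.2.1
      refine (hgood y ⟨hy.1.trans (by linarith), ?_, ?_⟩ ?_).eventually_analyticAt
      · rw [hyim]; exact hb₀.1.le
      · rw [hyim]; exact hb₀.2.le
      · intro hyT
        exact hb₀T (Finset.mem_image.2 ⟨y, hyT, hyim⟩))
  refine ⟨b₀, min (e / 8) (δ / 4), δ, hb₀.1, hb₀.2, lt_min (by positivity) (by positivity),
    min_le_left _ _, hδ, ?_⟩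
  rintro z ⟨hz1, hz2⟩
  have hc₂ : min (e / 8) (δ / 4) ≤ δ / 4 := min_le_right _ _
  refine htube z.1 (mem_thickening_iff.2 ⟨⟨z.1.re, b₀⟩, ⟨hz1.1.le, le_rfl, le_rfl⟩, ?_⟩) z.2 hz2
  have h1 : z.1 - ⟨z.1.re, b₀⟩ = ((z.1.im - b₀ : ℝ) : ℂ) * I := by
    apply Complex.ext <;> simp
  rw [dist_eq_norm, h1, norm_mul, Complex.norm_I, mul_one, Complex.norm_real, Real.norm_eq_abs,
    abs_lt]
  constructor <;> linarith [hz1.2.1, hz1.2.2]

end Claimed.Agent.R269
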