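/-
Row 269, unit 4L (Cor 4.9), LEAF LF-S4-4L-hostD (one complex variable).  Statements: helper3.  The owner of the leaf owns this file.

THE ZERO SLICE: regular edge point, real symmetry.     `Γ s := X (s,0)`, `D := estrip G.Hs` (open, convex strip `|Im s| < H`).
 * `NbCtx.slice_mero`: `SliceMero.meromorphicOn` at `t = 0` + `NbCtx.mem_tube`.      `NbCtx.slice_base`: `Γ = Γ0` on `hstrip (s/2)` (`base`; `Γ0 y = X0 (y,0)` by definition).
 * `NbCtx.exists_regular`.  `q_P := (P₁')² + (P₂')²`, `k_P := P₁' P₂'' - P₂' P₁''` are meromorphic on `ball s₀ ε` (`MeromorphicOn.deriv`/`MeromorphicAt.deriv`, `.mul`, `.add`, `.sub`).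
   (a) they are not locally zero: let `q_Γ, k_Γ` be the same expressions for `Γ`, meromorphic on `D`.  At a real point `x` they are analytic and `≠ 0` (`slice_base`, `s4l_Γ0_regular`): order `≠ ⊤` at `x`, hence at every point of the connected set `D`
       (`MeromorphicOn.exists_meromorphicOrderAt_ne_top_iff_forall` or the current Mathlib name).  At `s₂ ∈ ball s₀ ε ∩ D` (nonempty: `s₀ - i ε/2`, note `0 < s₀.im`), `P = Γ` on a punctured neighbourhood, which is open, so the derivatives agree there: same orders.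
       Connectedness of the ball: order `≠ ⊤` everywhere in `ball s₀ ε`.
   (b) the set of `s ∈ ball s₀ ε` where `P₁` or `P₂` is not analytic, or `q_P s = 0`, or `k_P s = 0` is countable (it has no accumulation point in the ball: `MeromorphicAt.eventually_analyticAt`, `eventually_ne_zero`; a subset of `ℂ` all of whose points are isolated in it … is countable;
       Mathlib: `MeromorphicOn.countable_compl_analyticAt_inter`, `Filter.codiscreteWithin`, `Set.Countable`); the edge segment `{x + i s₀.im : |x - s₀.re| < ε}` is uncountable.  Choose `c` on it outside the bad set.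
   (c) `P` analytic at `c`, `q_P c ≠ 0`, `k_P c ≠ 0`: all three persist on a small ball; `deriv P u = (P₁' u, P₂' u)` where `P` is analytic (`HasDerivAt.prodMk`).  Choose `e` with `ball c (25e) ⊆ ball s₀ ε`, `25 e < c.im`, inside that ball.   Points `s` of `ball c (25e)` with `s.im < c.im` satisfy `0 < s.im < H`: `s ∈ D`.
 * `NbCtx.patch_conj`: `Γ^*(s) := conj (Γ (conj s))` is meromorphic on `D` (conjugate of a meromorphic function: if `f =ᶠ (z-a)^{-n} g`, `g` analytic, then `conj ∘ f ∘ conj =ᶠ (z - conj a)^{-n} conj ∘ g ∘ conj`; analyticity of `conj ∘ g ∘ conj`: differentiable on an open set),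
   equals `Γ` on `hstrip (s/2)` (`s4l_Γ0_conj`), hence `Γ^* = Γ` on punctured neighbourhoods of all points of `D` (identity theorem for meromorphic functions on the connected `D`: apply (a)-type argument to `Γ^* - Γ`).  `D` and the pair (`ball s₀ ε`, `ball (conj s₀) ε`) are exchanged by `conj`; `conj` is a homeomorphism mapping `𝓝[≠] s` to `𝓝[≠] (conj s)`.
-/
import Claimed.Agent.R269.S4.NatHostA
import Claimed.Agent.R269.S4.NatHostB
import Claimed.Agent.R269.S4.NatSets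
import Claimed.Agent.R269.S4.NatCalc

set_option autoImplicit false

namespace Claimed.Agent.R269

open Complex ComplexConjugate Filter Topology Set Metric
open scoped ENNReal

variable {G : Glance} {ρ : ℝ} {X : ℂ × ℂ → ℂ × ℂ}

/-! ### identity theorem for meromorphic functions of one variable, in "eventually" form -/

theorem s4l_mero_nz_prop {f : ℂ → ℂ} {U : Set ℂ} (hf : MeromorphicOn f U) (hU : IsPreconnected U)
    {x y : ℂ} (hx : x ∈ U) (hy : y ∈ U) (h : ¬ ∀ᶠ z in 𝓝[≠] x, f z = 0) :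
    ∀ᶠ z in 𝓝[≠] y, f z ≠ 0 := by
  have h1 : meromorphicOrderAt f x ≠ ⊤ := fun h' => h (meromorphicOrderAt_eq_top_iff.1 h')
  have h2 := hf.meromorphicOrderAt_ne_top_of_isPreconnected hU hx hy h1
  exact ((hf y hy).eventually_eq_zero_or_eventually_ne_zero).resolve_left
    (fun h' => h2 (meromorphicOrderAt_eq_top_iff.2 h'))

theorem s4l_mero_zero_prop {f : ℂ → ℂ} {U : Set ℂ} (hf : MeromorphicOn f U) (hU : IsPreconnected U)
    {x y : ℂ} (hx : x ∈ U) (hy : y ∈ U) (h : ∀ᶠ z in 𝓝[≠] x, f z = 0) :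
    ∀ᶠ z in 𝓝[≠] y, f z = 0 := by
  by_contra hc
  obtain ⟨z, h1, h2⟩ := (h.and (s4l_mero_nz_prop hf hU hy hx hc)).exists
  exact h2 h1

/-! ### the two differential expressions -/

/-- `(f₁')² + (f₂')²`. -/
noncomputable def nbQ (f₁ f₂ : ℂ → ℂ) (s : ℂ) : ℂ := deriv f₁ s ^ 2 + deriv f₂ s ^ 2

/-- `f₁' f₂'' - f₂' f₁''`. -/
noncomputable def nbK (f₁ f₂ : ℂ → ℂ) (s : ℂ) : ℂ :=
  deriv f₁ s * deriv (deriv f₂) s - deriv f₂ s * deriv (deriv f₁) s

theorem s4l_Q_mero {f₁ f₂ : ℂ → ℂ} {s : ℂ} (h1 : MeromorphicAt f₁ s) (h2 : MeromorphicAt f₂ s) :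
    MeromorphicAt (nbQ f₁ f₂) s :=
  (h1.deriv.pow 2).add (h2.deriv.pow 2)

theorem s4l_K_mero {f₁ f₂ : ℂ → ℂ} {s : ℂ} (h1 : MeromorphicAt f₁ s) (h2 : MeromorphicAt f₂ s) :
    MeromorphicAt (nbK f₁ f₂) s :=
  (h1.deriv.mul h2.deriv.deriv).sub (h2.deriv.mul h1.deriv.deriv)

theorem s4l_Q_analytic {f₁ f₂ : ℂ → ℂ} {s : ℂ} (h1 : AnalyticAt ℂ f₁ s) (h2 : AnalyticAt ℂ f₂ s) :
    AnalyticAt ℂ (nbQ f₁ f₂) s :=
  (h1.deriv.pow 2).add (h2.deriv.pow 2)

theorem s4l_K_analytic {f₁ f₂ : ℂ → ℂ} {s : ℂ} (h1 : AnalyticAt ℂ f₁ s) (h2 : AnalyticAt ℂ f₂ s) :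
    AnalyticAt ℂ (nbK f₁ f₂) s :=
  (h1.deriv.mul h2.deriv.deriv).sub (h2.deriv.mul h1.deriv.deriv)

theorem s4l_Q_congr {f₁ f₂ g₁ g₂ : ℂ → ℂ} {s : ℂ} (h1 : f₁ =ᶠ[𝓝[≠] s] g₁) (h2 : f₂ =ᶠ[𝓝[≠] s] g₂) :
    nbQ f₁ f₂ =ᶠ[𝓝[≠] s] nbQ g₁ g₂ := by
  filter_upwards [h1.nhdsNE_deriv, h2.nhdsNE_deriv] with z a b
  simp only [nbQ, a, b]

theorem s4l_K_congr {f₁ f₂ g₁ g₂ : ℂ → ℂ} {s : ℂ} (h1 : f₁ =ᶠ[𝓝[≠] s] g₁) (h2 : f₂ =ᶠ[𝓝[≠] s] g₂) :
    nbK f₁ f₂ =ᶠ[𝓝[≠] s] nbK g₁ g₂ := by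
  filter_upwards [h1.nhdsNE_deriv, h2.nhdsNE_deriv, h1.nhdsNE_deriv.nhdsNE_deriv,
    h2.nhdsNE_deriv.nhdsNE_deriv] with z a b c d
  simp only [nbK, a, b, c, d]

theorem s4l_deriv_pair {Z : ℂ → ℂ × ℂ} {u : ℂ} (hZ : AnalyticAt ℂ Z u) :
    deriv Z u = (deriv (fun s => (Z s).1) u, deriv (fun s => (Z s).2) u) := by
  have h := hZ.differentiableAt.hasDerivAt
  rw [(s4l_hasDerivAt_fst h).deriv, (s4l_hasDerivAt_snd h).deriv]

theorem s4l_deriv2_pair {Z : ℂ → ℂ × ℂ} {u : ℂ} (hZ : AnalyticAt ℂ Z u) :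
    deriv (deriv Z) u
      = (deriv (deriv (fun s => (Z s).1)) u, deriv (deriv (fun s => (Z s).2)) u) := by
  have hev : deriv Z =ᶠ[𝓝 u] fun y => (deriv (fun s => (Z s).1) y, deriv (fun s => (Z s).2) y) :=
    hZ.eventually_analyticAt.mono fun y hy => s4l_deriv_pair hy
  have a1 : AnalyticAt ℂ (fun s => (Z s).1) u := analyticAt_fst.comp hZ
  have a2 : AnalyticAt ℂ (fun s => (Z s).2) u := analyticAt_snd.comp hZ
  rw [hev.deriv_eq]
  exact (a1.deriv.differentiableAt.hasDerivAt.prodMk a2.deriv.differentiableAt.hasDerivAt).deriv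

theorem s4l_q_eq {Z : ℂ → ℂ × ℂ} {u : ℂ} (hZ : AnalyticAt ℂ Z u) :
    nbDot (deriv Z u) (deriv Z u) = nbQ (fun s => (Z s).1) (fun s => (Z s).2) u := by
  rw [s4l_deriv_pair hZ]
  simp only [nbDot, nbQ]
  ring

theorem s4l_k_eq {Z : ℂ → ℂ × ℂ} {u : ℂ} (hZ : AnalyticAt ℂ Z u) :
    nbDet (deriv Z u) (deriv (deriv Z) u) = nbK (fun s => (Z s).1) (fun s => (Z s).2) u := by
  rw [s4l_deriv_pair hZ, s4l_deriv2_pair hZ]
  simp only [nbDet, nbK]

/-! ### the zero slice -/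

theorem NbCtx.slice_mero (h : NbCtx G ρ X) :
    MeromorphicOn (fun s => (X (s, 0)).1) (estrip G.Hs) ∧
      MeromorphicOn (fun s => (X (s, 0)).2) (estrip G.Hs) :=
  ⟨fun y hy => h.mero₁.meromorphicOn 0 y (h.mem_tube hy),
    fun y hy => h.mero₂.meromorphicOn 0 y (h.mem_tube hy)⟩

theorem NbCtx.slice_base (h : NbCtx G ρ X) : ∀ y ∈ hstrip (G.s / 2), X (y, 0) = G.Γ0 y :=
  fun y hy => h.base (y, 0) ⟨hy, mem_ball_self h.ρ_pos⟩

theorem NbCtx.Hs_pos (h : NbCtx G ρ X) : 0 < G.Hs := lt_of_le_of_lt zero_le h.low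

theorem NbCtx.zero_mem (h : NbCtx G ρ X) : (0 : ℂ) ∈ estrip G.Hs := by
  show ENNReal.ofReal |(0 : ℂ).im| < G.Hs
  simpa using h.Hs_pos

theorem s4l_Γ0_analyticAt (G : Glance) : AnalyticAt ℂ G.Γ0 0 := by
  have hs : 0 < G.s := G.r₁_pos.trans G.r₁_lt
  exact (s4l_X0_analytic G (0, 0)
    ⟨by show |(0 : ℂ).im| < G.s; simpa using hs, mem_ball_self G.r₁_pos⟩).curry_left

/-- near `0` the slice is the initial curve. -/
theorem NbCtx.slice_eventuallyEq (h : NbCtx G ρ X) : (fun s => X (s, 0)) =ᶠ[𝓝 (0 : ℂ)] G.Γ0 := by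
  have hs : 0 < G.s := G.r₁_pos.trans G.r₁_lt
  have h0 : (0 : ℂ) ∈ hstrip (G.s / 2) := by
    show |(0 : ℂ).im| < G.s / 2
    simpa using hs
  filter_upwards [(s4l_isOpen_hstrip _).mem_nhds h0] with y hy using h.slice_base y hy

theorem NbCtx.slice_nz (h : NbCtx G ρ X) :
    (¬ ∀ᶠ z in 𝓝[≠] (0 : ℂ), nbQ (fun s => (X (s, 0)).1) (fun s => (X (s, 0)).2) z = 0) ∧
      ¬ ∀ᶠ z in 𝓝[≠] (0 : ℂ), nbK (fun s => (X (s, 0)).1) (fun s => (X (s, 0)).2) z = 0 := by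
  have hΓ := s4l_Γ0_analyticAt G
  have a1 : AnalyticAt ℂ (fun s => (G.Γ0 s).1) 0 := analyticAt_fst.comp hΓ
  have a2 : AnalyticAt ℂ (fun s => (G.Γ0 s).2) 0 := analyticAt_snd.comp hΓ
  have he := h.slice_eventuallyEq
  have e1 : (fun s => (X (s, 0)).1) =ᶠ[𝓝[≠] (0 : ℂ)] fun s => (G.Γ0 s).1 :=
    (he.mono fun _ h => congrArg Prod.fst h).filter_mono nhdsWithin_le_nhds
  have e2 : (fun s => (X (s, 0)).2) =ᶠ[𝓝[≠] (0 : ℂ)] fun s => (G.Γ0 s).2 :=
    (he.mono fun _ h => congrArg Prod.snd h).filter_mono nhdsWithin_le_nhds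
  obtain ⟨hq, hk⟩ := s4l_Γ0_regular G 0
  rw [Complex.ofReal_zero, s4l_q_eq hΓ] at hq
  rw [Complex.ofReal_zero, s4l_k_eq hΓ] at hk
  constructor
  · intro hz
    have n1 : ∀ᶠ z in 𝓝[≠] (0 : ℂ), nbQ (fun s => (G.Γ0 s).1) (fun s => (G.Γ0 s).2) z ≠ 0 :=
      ((s4l_Q_analytic a1 a2).continuousAt.eventually_ne hq).filter_mono nhdsWithin_le_nhds
    obtain ⟨z, h1, h2, h3⟩ := (hz.and (n1.and (s4l_Q_congr e1 e2))).exists
    exact h2 (h3 ▸ h1)
  · intro hz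
    have n1 : ∀ᶠ z in 𝓝[≠] (0 : ℂ), nbK (fun s => (G.Γ0 s).1) (fun s => (G.Γ0 s).2) z ≠ 0 :=
      ((s4l_K_analytic a1 a2).continuousAt.eventually_ne hk).filter_mono nhdsWithin_le_nhds
    obtain ⟨z, h1, h2, h3⟩ := (hz.and (n1.and (s4l_K_congr e1 e2))).exists
    exact h2 (h3 ▸ h1)

/-- the good points of a patch: everything is analytic and regular. -/
theorem NbCtx.patch_good (h : NbCtx G ρ X) {s₀ : ℂ} (hs₀ : ENNReal.ofReal s₀.im = G.Hs) {ε : ℝ}
    {P : ℂ → ℂ × ℂ} (hP : NbPatch G X s₀ ε P) :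
    ∀ s₁ ∈ ball s₀ ε, ∀ᶠ z in 𝓝[≠] s₁,
      AnalyticAt ℂ (fun s => (P s).1) z ∧ AnalyticAt ℂ (fun s => (P s).2) z ∧
        nbQ (fun s => (P s).1) (fun s => (P s).2) z ≠ 0 ∧
        nbK (fun s => (P s).1) (fun s => (P s).2) z ≠ 0 := by
  obtain ⟨hε, hm1, hm2, hag⟩ := hP
  have him : 0 < s₀.im := by
    by_contra hc
    have h0 : ENNReal.ofReal s₀.im = 0 := ENNReal.ofReal_eq_zero.2 (not_lt.1 hc)
    exact absurd h.Hs_pos (by rw [← hs₀, h0]; exact lt_irrefl _)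
  -- the auxiliary point
  set d : ℝ := min (ε / 2) (s₀.im / 2) with hd
  have hd0 : 0 < d := lt_min (by positivity) (by positivity)
  have hd1 : d ≤ ε / 2 := min_le_left _ _
  have hd2 : d ≤ s₀.im / 2 := min_le_right _ _
  set s₂ : ℂ := ⟨s₀.re, s₀.im - d⟩ with hs₂
  have hs₂b : s₂ ∈ ball s₀ ε := by
    have h1 : s₂ - s₀ = ((-d : ℝ) : ℂ) * I := by
      apply Complex.ext <;> simp [hs₂]
    rw [mem_ball, dist_eq_norm, h1, norm_mul, Complex.norm_I, mul_one, Complex.norm_real,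
      Real.norm_eq_abs, abs_neg, abs_of_pos hd0]
    linarith
  have hs₂D : s₂ ∈ estrip G.Hs := by
    show ENNReal.ofReal |s₂.im| < G.Hs
    rw [← hs₀, ENNReal.ofReal_lt_ofReal_iff him, abs_lt]
    constructor <;> simp only [hs₂] <;> linarith
  have hDc : IsPreconnected (estrip G.Hs) := (s4l_convex_estrip _).isPreconnected
  have hBc : IsPreconnected (ball s₀ ε) := (convex_ball _ _).isPreconnected
  obtain ⟨hΓ1, hΓ2⟩ := h.slice_mero
  obtain ⟨hnq, hnk⟩ := h.slice_nz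
  have hq2 := s4l_mero_nz_prop (fun y hy => s4l_Q_mero (hΓ1 y hy) (hΓ2 y hy)) hDc h.zero_mem hs₂D hnq
  have hk2 := s4l_mero_nz_prop (fun y hy => s4l_K_mero (hΓ1 y hy) (hΓ2 y hy)) hDc h.zero_mem hs₂D hnk
  have he := hag s₂ ⟨hs₂b, hs₂D⟩
  have e1 : (fun s => (P s).1) =ᶠ[𝓝[≠] s₂] fun s => (X (s, 0)).1 :=
    he.mono fun _ h => congrArg Prod.fst h
  have e2 : (fun s => (P s).2) =ᶠ[𝓝[≠] s₂] fun s => (X (s, 0)).2 :=
    he.mono fun _ h => congrArg Prod.snd h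
  have hPq : ¬ ∀ᶠ z in 𝓝[≠] s₂, nbQ (fun s => (P s).1) (fun s => (P s).2) z = 0 := by
    intro hz
    obtain ⟨z, h1, h2, h3⟩ := (hz.and (hq2.and (s4l_Q_congr e1 e2))).exists
    exact h2 (h3 ▸ h1)
  have hPk : ¬ ∀ᶠ z in 𝓝[≠] s₂, nbK (fun s => (P s).1) (fun s => (P s).2) z = 0 := by
    intro hz
    obtain ⟨z, h1, h2, h3⟩ := (hz.and (hk2.and (s4l_K_congr e1 e2))).exists
    exact h2 (h3 ▸ h1)
  intro s₁ hs₁
  have g1 := (hm1 s₁ hs₁).eventually_analyticAt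
  have g2 := (hm2 s₁ hs₁).eventually_analyticAt
  have g3 := s4l_mero_nz_prop (fun y hy => s4l_Q_mero (hm1 y hy) (hm2 y hy)) hBc hs₂b hs₁ hPq
  have g4 := s4l_mero_nz_prop (fun y hy => s4l_K_mero (hm1 y hy) (hm2 y hy)) hBc hs₂b hs₁ hPk
  filter_upwards [g1, g2, g3, g4] with z a b c d using ⟨a, b, c, d⟩

theorem NbCtx.exists_regular (h : NbCtx G ρ X) {s₀ : ℂ} (hs₀ : ENNReal.ofReal s₀.im = G.Hs) {ε : ℝ}
    {P : ℂ → ℂ × ℂ} (hP : NbPatch G X s₀ ε P) :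
    ∃ (c : ℂ) (e : ℝ), c.im = s₀.im ∧ 0 < e ∧ 25 * e < c.im ∧ NbArc P c (25 * e) ∧
      ∀ s ∈ ball c (25 * e), s.im < c.im → P =ᶠ[𝓝[≠] s] fun s' => X (s', 0) := by
  have hgood := h.patch_good hs₀ hP
  obtain ⟨hε, hm1, hm2, hag⟩ := hP
  have him : 0 < s₀.im := by
    by_contra hc
    have h0 : ENNReal.ofReal s₀.im = 0 := ENNReal.ofReal_eq_zero.2 (not_lt.1 hc)
    exact absurd h.Hs_pos (by rw [← hs₀, h0]; exact lt_irrefl _)
  set Good : ℂ → Prop := fun z => AnalyticAt ℂ (fun s => (P s).1) z ∧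
    AnalyticAt ℂ (fun s => (P s).2) z ∧ nbQ (fun s => (P s).1) (fun s => (P s).2) z ≠ 0 ∧
      nbK (fun s => (P s).1) (fun s => (P s).2) z ≠ 0 with hGood
  set Q : Set ℂ := nbCRect s₀.re (ε / 2) s₀.im s₀.im with hQ
  have hdist : ∀ y : ℂ, y.im = s₀.im → dist y s₀ = |y.re - s₀.re| := by
    intro y hy
    have h1 : y - s₀ = ((y.re - s₀.re : ℝ) : ℂ) := by
      apply Complex.ext <;> simp [hy]
    rw [dist_eq_norm, h1, Complex.norm_real, Real.norm_eq_abs]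
  have hQb : Q ⊆ ball s₀ ε := by
    intro y hy
    have hyim : y.im = s₀.im := le_antisymm hy.2.2 hy.2.1
    rw [mem_ball, hdist y hyim]
    exact hy.1.trans_lt (by linarith)
  obtain ⟨T, -, hT⟩ := (isCompact_nbCRect s₀.re (ε / 2) s₀.im s₀.im).elim_nhds_subcover
    (fun y₀ => {y | y ≠ y₀ → Good y})
    (fun y₀ hy₀ => eventually_nhdsWithin_iff.1 (hgood y₀ (hQb hy₀)))
  obtain ⟨x, hx, hxT⟩ := (Ioo_infinite (show s₀.re - ε / 2 < s₀.re + ε / 2 by linarith)).exists_notMem_finset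
    (T.image Complex.re)
  set c : ℂ := ⟨x, s₀.im⟩ with hc
  have hcQ : c ∈ Q := ⟨by
    show |x - s₀.re| ≤ ε / 2
    rw [abs_le]; constructor <;> linarith [hx.1, hx.2], le_rfl, le_rfl⟩
  have hcG : Good c := by
    obtain ⟨y₀, hy₀, hyU⟩ := mem_iUnion₂.1 (hT hcQ)
    exact hyU (fun h' => hxT (Finset.mem_image.2 ⟨y₀, hy₀, by rw [← h']⟩))
  obtain ⟨a1, a2, q0, k0⟩ := hcG
  have hev : ∀ᶠ z in 𝓝 c, Good z := by
    filter_upwards [a1.eventually_analyticAt, a2.eventually_analyticAt,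
      (s4l_Q_analytic a1 a2).continuousAt.eventually_ne q0,
      (s4l_K_analytic a1 a2).continuousAt.eventually_ne k0] with z b1 b2 b3 b4
      using ⟨b1, b2, b3, b4⟩
  obtain ⟨ρ₁, hρ₁, hball⟩ := Metric.eventually_nhds_iff_ball.1 hev
  set m : ℝ := min ρ₁ (min (ε / 2) s₀.im) with hm
  have hm0 : 0 < m := lt_min hρ₁ (lt_min (by positivity) him)
  have hm1' : m ≤ ρ₁ := min_le_left _ _
  have hm2' : m ≤ ε / 2 := (min_le_right _ _).trans (min_le_left _ _)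
  have hm3' : m ≤ s₀.im := (min_le_right _ _).trans (min_le_right _ _)
  have hPan : ∀ u ∈ ball c (25 * (m / 26)), AnalyticAt ℂ P u ∧ Good u := by
    intro u hu
    have hu' : Good u := hball u (ball_subset_ball (by linarith) hu)
    exact ⟨hu'.1.prod hu'.2.1, hu'⟩
  refine ⟨c, m / 26, rfl, by positivity, ?_, ⟨by positivity, fun u hu => (hPan u hu).1, ?_, ?_⟩, ?_⟩
  · show 25 * (m / 26) < s₀.im
    linarith
  · intro u hu
    rw [s4l_q_eq (hPan u hu).1]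
    exact (hPan u hu).2.2.2.1
  · intro u hu
    rw [s4l_k_eq (hPan u hu).1]
    exact (hPan u hu).2.2.2.2
  · intro s hs hsim
    have hsim' : s.im < s₀.im := hsim
    have hsc : dist s c < 25 * (m / 26) := hs
    have hcs₀ : dist c s₀ ≤ ε / 2 := by
      rw [hdist c rfl]; exact hcQ.1
    refine hag s ⟨?_, ?_⟩
    · rw [mem_ball]
      calc dist s s₀ ≤ dist s c + dist c s₀ := dist_triangle _ _ _
        _ < ε := by linarith
    · show ENNReal.ofReal |s.im| < G.Hs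
      rw [← hs₀, ENNReal.ofReal_lt_ofReal_iff him, abs_lt]
      have h2 : |(s - c).im| ≤ ‖s - c‖ := Complex.abs_im_le_norm _
      rw [← dist_eq_norm, Complex.sub_im] at h2
      have h3 := (abs_le.1 h2).1
      have h4 : c.im = s₀.im := rfl
      constructor <;> linarith

/-! ### conjugation -/

theorem s4l_tendsto_conj_nhds (s : ℂ) : Tendsto (fun z : ℂ => conj z) (𝓝 s) (𝓝 (conj s)) :=
  Complex.continuous_conj.continuousAt

theorem s4l_tendsto_conj_nhdsNE (s : ℂ) : Tendsto (fun z : ℂ => conj z) (𝓝[≠] s) (𝓝[≠] (conj s)) := by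
  refine tendsto_nhdsWithin_iff.2 ⟨(s4l_tendsto_conj_nhds s).mono_left nhdsWithin_le_nhds, ?_⟩
  filter_upwards [self_mem_nhdsWithin] with z hz
  intro h'
  exact hz ((starRingEnd ℂ).injective h')

theorem s4l_analyticAt_conj1 {f : ℂ → ℂ} {s : ℂ} (hf : AnalyticAt ℂ f (conj s)) :
    AnalyticAt ℂ (fun z => conj (f (conj z))) s := by
  rw [Complex.analyticAt_iff_eventually_differentiableAt] at hf ⊢
  filter_upwards [(s4l_tendsto_conj_nhds s).eventually hf] with z hz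
  have := hz.conj_conj
  rwa [Complex.conj_conj] at this

theorem s4l_mero_conj1 {f : ℂ → ℂ} {s : ℂ} (hf : MeromorphicAt f (conj s)) :
    MeromorphicAt (fun z => conj (f (conj z))) s := by
  obtain ⟨n, hn⟩ := hf
  refine ⟨n, ?_⟩
  have := s4l_analyticAt_conj1 hn
  refine this.congr (Eventually.of_forall fun z => ?_)
  simp only [smul_eq_mul, map_mul, map_pow, map_sub, Complex.conj_conj]

theorem s4l_conj_mem_estrip {H : ℝ≥0∞} {z : ℂ} (hz : z ∈ estrip H) : conj z ∈ estrip H := by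
  show ENNReal.ofReal |(conj z).im| < H
  rw [Complex.conj_im, abs_neg]
  exact hz

theorem s4l_conj_mem_ball {s₀ z : ℂ} {ε : ℝ} (hz : z ∈ ball (conj s₀) ε) : conj z ∈ ball s₀ ε := by
  rw [mem_ball] at hz ⊢
  rwa [← Complex.dist_conj_conj, Complex.conj_conj]

/-- real symmetry of the zero slice, on punctured neighbourhoods. -/
theorem NbCtx.slice_conj (h : NbCtx G ρ X) {s : ℂ} (hs : s ∈ estrip G.Hs) :
    ∀ᶠ z in 𝓝[≠] s, (conj (X (conj z, 0)).1, conj (X (conj z, 0)).2) = X (z, 0) := by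
  obtain ⟨hΓ1, hΓ2⟩ := h.slice_mero
  have hDc : IsPreconnected (estrip G.Hs) := (s4l_convex_estrip _).isPreconnected
  have hs0 : 0 < G.s := G.r₁_pos.trans G.r₁_lt
  have h0 : (0 : ℂ) ∈ hstrip (G.s / 2) := by
    show |(0 : ℂ).im| < G.s / 2
    simpa using hs0
  have hbase : ∀ᶠ z in 𝓝[≠] (0 : ℂ),
      (conj (X (conj z, 0)).1, conj (X (conj z, 0)).2) = X (z, 0) := by
    refine Filter.Eventually.filter_mono nhdsWithin_le_nhds ?_
    filter_upwards [(s4l_isOpen_hstrip _).mem_nhds h0] with y hy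
    have hy' : y ∈ hstrip G.s := by
      have : |y.im| < G.s / 2 := hy
      show |y.im| < G.s
      linarith
    rw [h.slice_base y hy, h.slice_base _ (s4l_conj_mem_hstrip hy), s4l_Γ0_conj G y hy']
    simp only [Complex.conj_conj]
  have m1 : MeromorphicOn (fun z => conj (X (conj z, 0)).1 - (X (z, 0)).1) (estrip G.Hs) :=
    fun y hy => (s4l_mero_conj1 (f := fun s => (X (s, 0)).1) (hΓ1 _ (s4l_conj_mem_estrip hy))).sub
      (hΓ1 y hy)
  have m2 : MeromorphicOn (fun z => conj (X (conj z, 0)).2 - (X (z, 0)).2) (estrip G.Hs) :=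
    fun y hy => (s4l_mero_conj1 (f := fun s => (X (s, 0)).2) (hΓ2 _ (s4l_conj_mem_estrip hy))).sub
      (hΓ2 y hy)
  have z1 := s4l_mero_zero_prop m1 hDc h.zero_mem hs
    (hbase.mono fun z hz => sub_eq_zero.2 (congrArg Prod.fst hz))
  have z2 := s4l_mero_zero_prop m2 hDc h.zero_mem hs
    (hbase.mono fun z hz => sub_eq_zero.2 (congrArg Prod.snd hz))
  filter_upwards [z1, z2] with z a b
  exact Prod.ext (sub_eq_zero.1 a) (sub_eq_zero.1 b)

theorem NbCtx.patch_conj (h : NbCtx G ρ X) {s₀ : ℂ} {ε : ℝ} {P : ℂ → ℂ × ℂ}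
    (hP : NbPatch G X s₀ ε P) :
    NbPatch G X (conj s₀) ε (fun s => (conj (P (conj s)).1, conj (P (conj s)).2)) := by
  obtain ⟨hε, hm1, hm2, hag⟩ := hP
  refine ⟨hε, fun y hy => s4l_mero_conj1 (f := fun s => (P s).1) (hm1 _ (s4l_conj_mem_ball hy)),
    fun y hy => s4l_mero_conj1 (f := fun s => (P s).2) (hm2 _ (s4l_conj_mem_ball hy)), ?_⟩
  rintro s ⟨hsb, hsD⟩
  have h1 := (s4l_tendsto_conj_nhdsNE s).eventually
    (hag (conj s) ⟨s4l_conj_mem_ball hsb, s4l_conj_mem_estrip hsD⟩)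
  filter_upwards [h1, h.slice_conj hsD] with z a b
  show (conj (P (conj z)).1, conj (P (conj z)).2) = X (z, 0)
  rw [a]
  exact b

theorem s4l_hostD_eqns_cite : True := by
  have := @nbQ.eq_1
  have := @nbK.eq_1
  trivial

end Claimed.Agent.R269
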