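/-
Row 269, unit 4L (Cor 4.9), LEAF LF-S4-4L-acc (host-free).  Statements: helper3.  The owner of the leaf owns this file.

CUBIC ACCURACY OF A RECURRENCE THAT HAS ONE EXACT "ROTATION" SOLUTION.   `β` analytic on `ball c ε × ball 0 δ`.  Near ONE point `(y₀,0)` there is an analytic `ℓ (y,t)`,
`ℓ (y,0) = y`, with `ℓ (y+t,t) = ℓ (y,t) + β (ℓ (y,t), ℓ (y,t) - ℓ (y-t,t))`.  Then `β (u,a) = a + O(a³)` uniformly on compact subsets of the WHOLE domain.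

PROOF AS FORMALISED: successive division `g = a g₁ = a² g₂ = a³ g₃` (`s4l_div`, NatDiv.lean), `g_k (y,0) = 0` by the limit `t → 0` of `α^k g_k (U,A) = (b/t) t^(2-k)`, where `ℓ = y + t m`, `A = t α`, `S = t b`.
ORIGINAL PLAN.  `g (u,a) := β (u,a) - a`, `g_i u := ∂_a^i g (u,0)` (`i = 0,1,2`), analytic on `ball c ε` (`pdt` of an analytic function is analytic: `fderiv` applied to `(0,1)`).
(1) `g_i = 0` near `y₀`.  Put `U := ℓ (y,t)`, `A := ℓ (y,t) - ℓ (y-t,t)`, `S := ℓ (y+t,t) - 2 ℓ (y,t) + ℓ (y-t,t)`; the recurrence says `g (U,A) = S`.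
    For fixed `y` near `y₀`, as `t → 0`:  `U → y`, `A = t + O(t²)` (`∂_t A (y,0) = ∂_y ℓ (y,0) = 1`), `S = O(t³)`:  `S` is analytic in `t` with `S(0) = 0`, `S'(0) = 0`,
    `S''(0) = 2 ∂_y² ℓ (y,0) = 0`  [write `ℓ (y,t) = y + t m (y,t)`: `S = t (m (y+t,t) - 2 m (y,t) + m (y-t,t))`, and the second difference of an analytic function is `O(t²)`].
    `t = 0`: `g_0 y = 0` for all `y` near `y₀`.  Then `g (U,A) = g_1(U) A + O(A²)`, divide by `t`, `t → 0`: `g_1 y = 0` for all `y` near `y₀`.  Then `g (U,A) = g_2(U) A²/2 + O(A³)`,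
    divide by `t²`: `g_2 y = 0`.      (Taylor with remainder in `a`, uniform in `u` near `y₀`: `s4l_schwarz` applied to `a ↦ g (u,a) - ∑_{i<k} g_i u a^i / i!`.)
(2) identity theorem on the ball (`AnalyticOnNhd.eqOn_zero_of_preconnected_of_eventuallyEq_zero`): `g_i = 0` on `ball c ε`.
(3) `δ' < δ'' < δ`, `M := sup ‖g‖` on `closedBall c ε' ×ˢ closedBall 0 δ''` (compact, `g` continuous); `s4l_schwarz` with `k = 3` on `ball 0 δ''`: `‖g (u,a)‖ ≤ M (‖a‖/δ'')³`.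
    (If `ε' ≤ 0` or `δ' ≤ 0` the statement is empty.)
-/
import Claimed.Agent.R269.S4.NatDiv

set_option autoImplicit false

namespace Claimed.Agent.R269

open Complex Filter Topology Set Metric

/-- one step: if `g = a^k g_k`, `k ≤ 2`, then `g_k (.,0) = 0`. -/
theorem s4l_acc_step {c : ℂ} {ε δ : ℝ} {g gk : ℂ × ℂ → ℂ} (hδ : 0 < δ) {y₀ : ℂ} (hy₀ : y₀ ∈ ball c ε)
    {ℓ : ℂ × ℂ → ℂ} (hℓ : AnalyticAt ℂ ℓ (y₀, 0)) (hℓ0 : ∀ᶠ y in 𝓝 y₀, ℓ (y, 0) = y)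
    (hrec : ∀ᶠ z in 𝓝 (y₀, (0 : ℂ)),
      g (ℓ z, ℓ z - ℓ (z.1 - z.2, z.2)) = ℓ (z.1 + z.2, z.2) - 2 * ℓ z + ℓ (z.1 - z.2, z.2))
    (hgk : AnalyticOnNhd ℂ gk (ball c ε ×ˢ ball (0 : ℂ) δ)) {k : ℕ} (hk : k ≤ 2)
    (hfac : ∀ z ∈ ball c ε ×ˢ ball (0 : ℂ) δ, g z = z.2 ^ k * gk z) :
    ∀ u ∈ ball c ε, gk (u, 0) = 0 := by
  -- `ℓ = y + t m`
  obtain ⟨m, hm, hℓm⟩ := SCV.exists_eq_mul_of_vanishing_linear (H := fun z : ℂ × ℂ => ℓ z - z.1)
    (y := (y₀, (0 : ℂ))) (v := ((0 : ℂ), (1 : ℂ))) (ContinuousLinearMap.snd ℂ ℂ ℂ) (by simp)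
    (hℓ.sub analyticAt_fst) (by
      have e1 : ∀ᶠ w in 𝓝 ((y₀, 0) : ℂ × ℂ), ℓ (w.1, 0) = w.1 :=
        (continuous_fst.tendsto ((y₀, 0) : ℂ × ℂ)).eventually hℓ0
      filter_upwards [e1] with w hw hw2
      have hw2' : w.2 = 0 := by simpa using hw2
      have : w = (w.1, 0) := Prod.ext rfl hw2'
      rw [this]
      simp only
      rw [hw, sub_self])
  have hE : ∀ᶠ z in 𝓝 ((y₀, 0) : ℂ × ℂ), ℓ z = z.1 + z.2 * m z := by
    filter_upwards [hℓm] with z hz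
    have : ℓ z - z.1 = z.2 * m z := by simpa using hz
    linear_combination this
  have hσp : Tendsto (fun z : ℂ × ℂ => ((z.1 + z.2, z.2) : ℂ × ℂ)) (𝓝 (y₀, 0)) (𝓝 (y₀, 0)) := by
    have hc : Continuous (fun z : ℂ × ℂ => ((z.1 + z.2, z.2) : ℂ × ℂ)) := by fun_prop
    have := hc.tendsto (y₀, 0)
    simpa using this
  have hσm : Tendsto (fun z : ℂ × ℂ => ((z.1 - z.2, z.2) : ℂ × ℂ)) (𝓝 (y₀, 0)) (𝓝 (y₀, 0)) := by
    have hc : Continuous (fun z : ℂ × ℂ => ((z.1 - z.2, z.2) : ℂ × ℂ)) := by fun_prop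
    have := hc.tendsto (y₀, 0)
    simpa using this
  have hP : ∀ᶠ z in 𝓝 ((y₀, 0) : ℂ × ℂ),
      g (z.1 + z.2 * m z, z.2 * (1 + m z - m (z.1 - z.2, z.2)))
        = z.2 * (m (z.1 + z.2, z.2) - 2 * m z + m (z.1 - z.2, z.2)) := by
    filter_upwards [hE, hσp.eventually hE, hσm.eventually hE, hrec] with z h1 h2 h3 h4
    rw [h1, h2, h3] at h4
    have e1 : z.1 + z.2 * m z - (z.1 - z.2 + z.2 * m (z.1 - z.2, z.2))
        = z.2 * (1 + m z - m (z.1 - z.2, z.2)) := by ring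
    rw [e1] at h4
    rw [h4]
    ring
  have hma : ∀ᶠ y in 𝓝 y₀, AnalyticAt ℂ m (y, 0) := by
    have hc : Continuous (fun y : ℂ => ((y, 0) : ℂ × ℂ)) := by fun_prop
    exact (hc.tendsto y₀).eventually hm.eventually_analyticAt
  -- the slice vanishes near `y₀`
  have hloc : ∀ᶠ y in 𝓝 y₀, gk (y, 0) = 0 := by
    filter_upwards [hP.curry_nhds, hma, isOpen_ball.mem_nhds hy₀] with y hPy hmy hyB
    have hmc : ContinuousAt m (y, 0) := hmy.continuousAt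
    have hc0 : ContinuousAt (fun t : ℂ => m (y, t)) 0 :=
      ContinuousAt.comp (f := fun t : ℂ => ((y, t) : ℂ × ℂ)) (g := m) hmc (by fun_prop)
    have hcm : ContinuousAt (fun t : ℂ => m (y - t, t)) 0 :=
      ContinuousAt.comp (f := fun t : ℂ => ((y - t, t) : ℂ × ℂ)) (g := m) (by simpa using hmc)
        (by fun_prop)
    -- the three curves
    have hU : ContinuousAt (fun t : ℂ => y + t * m (y, t)) 0 :=
      continuousAt_const.add (continuousAt_id.mul hc0)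
    have hα : ContinuousAt (fun t : ℂ => 1 + m (y, t) - m (y - t, t)) 0 :=
      (continuousAt_const.add hc0).sub hcm
    have hA : ContinuousAt (fun t : ℂ => t * (1 + m (y, t) - m (y - t, t))) 0 :=
      continuousAt_id.mul hα
    have hUA : ContinuousAt
        (fun t : ℂ => ((y + t * m (y, t), t * (1 + m (y, t) - m (y - t, t))) : ℂ × ℂ)) 0 :=
      hU.prodMk hA
    have hval : ((y + 0 * m (y, 0), 0 * (1 + m (y, 0) - m (y - 0, 0))) : ℂ × ℂ) = (y, 0) := by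
      simp
    have hmem : ∀ᶠ t in 𝓝 (0 : ℂ),
        ((y + t * m (y, t), t * (1 + m (y, t) - m (y - t, t))) : ℂ × ℂ)
          ∈ ball c ε ×ˢ ball (0 : ℂ) δ := by
      refine hUA.eventually_mem ((isOpen_ball.prod isOpen_ball).mem_nhds ?_)
      rw [hval]
      exact ⟨hyB, mem_ball_self hδ⟩
    have hgc : ContinuousAt
        (fun t : ℂ => gk (y + t * m (y, t), t * (1 + m (y, t) - m (y - t, t)))) 0 := by
      refine ContinuousAt.comp (g := gk)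
        (f := fun t : ℂ => ((y + t * m (y, t), t * (1 + m (y, t) - m (y - t, t))) : ℂ × ℂ)) ?_ hUA
      rw [hval]
      exact (hgk _ ⟨hyB, mem_ball_self hδ⟩).continuousAt
    -- the second difference
    set L := fderiv ℂ m (y, 0) with hL
    have hmd : HasFDerivAt m L (y, 0) := hmy.differentiableAt.hasFDerivAt
    have d1 : HasDerivAt (fun t : ℂ => m (y + t, t)) (L (1, 1)) 0 :=
      hmd.comp_hasDerivAt_of_eq (f := fun t : ℂ => ((y + t, t) : ℂ × ℂ)) 0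
        (((hasDerivAt_id (0 : ℂ)).const_add y).prodMk (hasDerivAt_id (0 : ℂ))) (by simp)
    have d2 : HasDerivAt (fun t : ℂ => m (y, t)) (L (0, 1)) 0 :=
      hmd.comp_hasDerivAt_of_eq (f := fun t : ℂ => ((y, t) : ℂ × ℂ)) 0
        ((hasDerivAt_const (0 : ℂ) y).prodMk (hasDerivAt_id (0 : ℂ))) (by simp)
    have d3 : HasDerivAt (fun t : ℂ => m (y - t, t)) (L (-1, 1)) 0 :=
      hmd.comp_hasDerivAt_of_eq (f := fun t : ℂ => ((y - t, t) : ℂ × ℂ)) 0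
        (((hasDerivAt_id (0 : ℂ)).const_sub y).prodMk (hasDerivAt_id (0 : ℂ))) (by simp)
    have hb : HasDerivAt (fun t : ℂ => m (y + t, t) - 2 * m (y, t) + m (y - t, t)) 0 0 := by
      have h1 := (d1.sub (d2.const_mul 2)).add d3
      have h2 : L (1, 1) - 2 * L (0, 1) + L (-1, 1) = 0 := by
        have e1 : L (1, 1) = L (1, 0) + L (0, 1) := by rw [← map_add]; simp
        have e2 : L (-1, 1) = -L (1, 0) + L (0, 1) := by rw [← map_neg, ← map_add]; simp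
        rw [e1, e2]
        ring
      rw [h2] at h1
      exact h1
    have hbt : Tendsto (fun t : ℂ => t⁻¹ * (m (y + t, t) - 2 * m (y, t) + m (y - t, t)))
        (𝓝[≠] 0) (𝓝 0) := by
      have h1 := hasDerivAt_iff_tendsto_slope_zero.1 hb
      refine h1.congr fun t => ?_
      simp only [zero_add, add_zero, sub_zero, smul_eq_mul]
      ring
    -- both sides of the divided identity
    have hlhs : Tendsto (fun t : ℂ => (1 + m (y, t) - m (y - t, t)) ^ k *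
        gk (y + t * m (y, t), t * (1 + m (y, t) - m (y - t, t)))) (𝓝[≠] 0) (𝓝 (gk (y, 0))) := by
      have h1 : Tendsto (fun t : ℂ => (1 + m (y, t) - m (y - t, t)) ^ k *
          gk (y + t * m (y, t), t * (1 + m (y, t) - m (y - t, t)))) (𝓝 0)
          (𝓝 ((1 + m (y, 0) - m (y - 0, 0)) ^ k *
            gk (y + 0 * m (y, 0), 0 * (1 + m (y, 0) - m (y - 0, 0))))) :=
        ((hα.pow k).mul hgc).tendsto
      rw [hval] at h1
      simp only [sub_zero, add_sub_cancel_right, one_pow, one_mul] at h1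
      exact h1.mono_left nhdsWithin_le_nhds
    have hrhs : Tendsto (fun t : ℂ => t⁻¹ * (m (y + t, t) - 2 * m (y, t) + m (y - t, t))
        * t ^ (2 - k)) (𝓝[≠] 0) (𝓝 0) := by
      have h1 : Tendsto (fun t : ℂ => t ^ (2 - k)) (𝓝[≠] 0) (𝓝 ((0 : ℂ) ^ (2 - k))) :=
        ((continuous_pow (2 - k)).tendsto (0 : ℂ)).mono_left nhdsWithin_le_nhds
      simpa using hbt.mul h1
    refine tendsto_nhds_unique (hlhs.congr' ?_) hrhs
    have hPy' : ∀ᶠ t in 𝓝[≠] (0 : ℂ), _ := hPy.filter_mono nhdsWithin_le_nhds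
    have hmem' : ∀ᶠ t in 𝓝[≠] (0 : ℂ), _ := hmem.filter_mono nhdsWithin_le_nhds
    filter_upwards [hPy', hmem', self_mem_nhdsWithin] with t h1 h2 h3
    have ht : t ≠ 0 := h3
    rw [hfac _ h2] at h1
    have hk2 : t ^ 2 = t ^ k * t ^ (2 - k) := by rw [← pow_add]; congr 1; omega
    have htk : t ^ k ≠ 0 := pow_ne_zero k ht
    apply mul_left_cancel₀ htk
    rw [mul_pow] at h1
    calc t ^ k * ((1 + m (y, t) - m (y - t, t)) ^ k *
          gk (y + t * m (y, t), t * (1 + m (y, t) - m (y - t, t))))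
        = t * (m (y + t, t) - 2 * m (y, t) + m (y - t, t)) := by rw [← h1]; ring
      _ = t⁻¹ * (m (y + t, t) - 2 * m (y, t) + m (y - t, t)) * t ^ 2 := by field_simp
      _ = t ^ k * (t⁻¹ * (m (y + t, t) - 2 * m (y, t) + m (y - t, t)) * t ^ (2 - k)) := by
          rw [hk2]; ring
  -- identity theorem
  have han : AnalyticOnNhd ℂ (fun u : ℂ => gk (u, 0)) (ball c ε) := by
    intro u hu
    exact AnalyticAt.comp (g := gk) (f := fun u : ℂ => ((u, 0) : ℂ × ℂ))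
      (hgk _ ⟨hu, mem_ball_self hδ⟩) (analyticAt_id.prod analyticAt_const)
  intro u hu
  exact han.eqOn_zero_of_preconnected_of_eventuallyEq_zero (convex_ball c ε).isPreconnected hy₀
    hloc hu

theorem s4l_acc {c : ℂ} {ε δ : ℝ} {β : ℂ × ℂ → ℂ} (hβ : AnalyticOnNhd ℂ β (ball c ε ×ˢ ball (0 : ℂ) δ))
    (hδ : 0 < δ) {y₀ : ℂ} (hy₀ : y₀ ∈ ball c ε) {ℓ : ℂ × ℂ → ℂ} (hℓ : AnalyticAt ℂ ℓ (y₀, 0))
    (hℓ0 : ∀ᶠ y in 𝓝 y₀, ℓ (y, 0) = y)
    (hrec : ∀ᶠ z in 𝓝 (y₀, (0 : ℂ)),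
      ℓ (z.1 + z.2, z.2) = ℓ z + β (ℓ z, ℓ z - ℓ (z.1 - z.2, z.2)))
    {ε' δ' : ℝ} (hε' : ε' < ε) (hδ' : δ' < δ) :
    ∃ C : ℝ, 0 ≤ C ∧ ∀ u ∈ ball c ε', ∀ a ∈ ball (0 : ℂ) δ', ‖β (u, a) - a‖ ≤ C * ‖a‖ ^ 3 := by
  set g : ℂ × ℂ → ℂ := fun z => β z - z.2 with hg
  have hga : AnalyticOnNhd ℂ g (ball c ε ×ˢ ball (0 : ℂ) δ) := fun z hz =>
    (hβ z hz).sub analyticAt_snd
  have hrec' : ∀ᶠ z in 𝓝 (y₀, (0 : ℂ)),
      g (ℓ z, ℓ z - ℓ (z.1 - z.2, z.2)) = ℓ (z.1 + z.2, z.2) - 2 * ℓ z + ℓ (z.1 - z.2, z.2) := by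
    filter_upwards [hrec] with z hz
    simp only [hg]
    rw [hz]
    ring
  have z0 := s4l_acc_step hδ hy₀ hℓ hℓ0 hrec' hga (k := 0) (by norm_num) (fun z _ => by simp)
  obtain ⟨g₁, hg₁, hf₁⟩ := s4l_div isOpen_ball hga z0
  have z1 := s4l_acc_step hδ hy₀ hℓ hℓ0 hrec' hg₁ (k := 1) (by norm_num)
    (fun z hz => by rw [pow_one]; exact hf₁ z hz)
  obtain ⟨g₂, hg₂, hf₂⟩ := s4l_div isOpen_ball hg₁ z1
  have z2 := s4l_acc_step hδ hy₀ hℓ hℓ0 hrec' hg₂ (k := 2) (by norm_num)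
    (fun z hz => by rw [hf₁ z hz, hf₂ z hz]; ring)
  obtain ⟨g₃, hg₃, hf₃⟩ := s4l_div isOpen_ball hg₂ z2
  have hsub : closedBall c ε' ×ˢ closedBall (0 : ℂ) δ' ⊆ ball c ε ×ˢ ball (0 : ℂ) δ :=
    prod_mono (closedBall_subset_ball hε') (closedBall_subset_ball hδ')
  obtain ⟨C, hC⟩ := ((isCompact_closedBall c ε').prod
    (isCompact_closedBall (0 : ℂ) δ')).exists_bound_of_continuousOn (hg₃.continuousOn.mono hsub)
  refine ⟨max C 0, le_max_right _ _, fun u hu a ha => ?_⟩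
  have hz : ((u, a) : ℂ × ℂ) ∈ closedBall c ε' ×ˢ closedBall (0 : ℂ) δ' :=
    ⟨ball_subset_closedBall hu, ball_subset_closedBall ha⟩
  have h1 : β (u, a) - a = a ^ 3 * g₃ (u, a) := by
    have e0 : g (u, a) = β (u, a) - a := rfl
    rw [← e0, hf₁ _ (hsub hz), hf₂ _ (hsub hz), hf₃ _ (hsub hz)]
    ring
  rw [h1, norm_mul, norm_pow, mul_comm]
  exact mul_le_mul_of_nonneg_right ((hC _ hz).trans (le_max_left _ _)) (by positivity)

end Claimed.Agent.R269
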