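/-
Row 269, unit 4L (Cor 4.9), LEAF LF-S4-4L-rank (host-free).  Statements: helper3.  The owner of the leaf owns this file.

LOCAL RANK LEMMA: an analytic map `X : ℂ² → ℂ²` of rank ≤ 1 with `∂_y X ≠ 0` factors through its slice `t = 0`.

PROOF.  Let `i` be a component with `pdy X_i (y₀,0) ≠ 0`, `u := X_i`, `j` the other one.  `exists_straighten` (Lib/SCVParam.lean) gives `Y` analytic at `(u z₀, 0)` with
`Y (u z, z.2) = z.1` near `z₀` and `u (Y w, w.2) = w.1` near `(u z₀, 0)`.  `ℓ z := Y (u z, 0)`.  Then `ℓ (y,0) = y`, `X_i (ℓ z, 0) = u z`.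
`m w := X_j (Y w, w.2)`: differentiating `u (Y w, w.2) = w.1` in `w.2` gives `∂_y u ∂_t Y + ∂_t u = 0`, so
`∂_t m = ∂_y X_j ∂_t Y + ∂_t X_j = ± nbJac X / ∂_y u = 0` near `(u z₀,0)`; on a bidisc `m (w₁,t) = m (w₁,0)` (`is_const_of_deriv_eq_zero` on the disc / convexity).
Hence `X_j z = m (u z, z.2) = m (u z, 0) = X_j (ℓ z, 0)`.
-/
import Claimed.Agent.R269.S4.NatDefs
import Claimed.Agent.R269.Lib.SCVParam
import Claimed.Agent.R269.Lib.Mero2b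

set_option autoImplicit false

namespace Claimed.Agent.R269

open Complex Filter Topology Set Metric

theorem s4l_fderiv_pair {f : ℂ × ℂ → ℂ} {p : ℂ × ℂ} (hf : DifferentiableAt ℂ f p) (a b : ℂ) :
    fderiv ℂ f p (a, b) = a * pdy f p + b * pdt f p := by
  rw [pdy_eq_fderiv hf, pdt_eq_fderiv hf]
  have : ((a, b) : ℂ × ℂ) = a • ((1, 0) : ℂ × ℂ) + b • ((0, 1) : ℂ × ℂ) := by simp
  rw [this, map_add, map_smul, map_smul, smul_eq_mul, smul_eq_mul]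

/-- scalar form of the rank lemma. -/
theorem s4l_rank_aux {u w : ℂ × ℂ → ℂ} {y₀ : ℂ} (hu : AnalyticAt ℂ u (y₀, 0))
    (hw : AnalyticAt ℂ w (y₀, 0)) (hd : pdy u (y₀, 0) ≠ 0)
    (hrk : ∀ᶠ z in 𝓝 (y₀, (0 : ℂ)), pdy u z * pdt w z - pdy w z * pdt u z = 0) :
    ∃ ℓ : ℂ × ℂ → ℂ, AnalyticAt ℂ ℓ (y₀, 0) ∧ (∀ᶠ y in 𝓝 y₀, ℓ (y, 0) = y) ∧
      ∀ᶠ z in 𝓝 (y₀, (0 : ℂ)), u z = u (ℓ z, 0) ∧ w z = w (ℓ z, 0) := by
  obtain ⟨Y, hY, hY0, hY1, hY2⟩ := exists_straighten (z₀ := (y₀, 0)) hu hd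
  simp only at hY hY0 hY1 hY2
  set w₀ : ℂ × ℂ := (u (y₀, 0), 0) with hw₀
  have hκ : AnalyticAt ℂ (fun w' : ℂ × ℂ => ((Y w', w'.2) : ℂ × ℂ)) w₀ := hY.prod analyticAt_snd
  have hκ0 : ((Y w₀, w₀.2) : ℂ × ℂ) = (y₀, 0) := by rw [hY0]
  have hκt : Tendsto (fun w' : ℂ × ℂ => ((Y w', w'.2) : ℂ × ℂ)) (𝓝 w₀) (𝓝 (y₀, 0)) := by
    have := hκ.continuousAt.tendsto
    rwa [hκ0] at this
  set m : ℂ × ℂ → ℂ := fun w' => w (Y w', w'.2) with hm
  have hma : AnalyticAt ℂ m w₀ :=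
    AnalyticAt.comp (g := w) (f := fun w' : ℂ × ℂ => ((Y w', w'.2) : ℂ × ℂ))
      (by rw [hκ0]; exact hw) hκ
  have hne : ∀ᶠ z in 𝓝 (y₀, (0 : ℂ)), pdy u z ≠ 0 :=
    (analyticAt_pdy hu).continuousAt.eventually_ne hd
  have hpm : ∀ᶠ w' in 𝓝 w₀, pdt m w' = 0 := by
    filter_upwards [hY.eventually_analyticAt, hκt.eventually hu.eventually_analyticAt,
      hκt.eventually hw.eventually_analyticAt, hκt.eventually hrk, hκt.eventually hne,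
      eventually_eventually_nhds.2 hY2] with w' hYa hua hwa hJ hne' hY2'
    have dY : HasDerivAt (fun t => Y (w'.1, t)) (pdt Y w') w'.2 :=
      hYa.curry_right.differentiableAt.hasDerivAt
    have dκ : HasDerivAt (fun t => ((Y (w'.1, t), t) : ℂ × ℂ)) (pdt Y w', 1) w'.2 :=
      dY.prodMk (hasDerivAt_id _)
    have du : HasDerivAt (fun t => u (Y (w'.1, t), t))
        (fderiv ℂ u (Y w', w'.2) (pdt Y w', 1)) w'.2 :=
      HasFDerivAt.comp_hasDerivAt (f := fun t => ((Y (w'.1, t), t) : ℂ × ℂ)) w'.2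
        hua.differentiableAt.hasFDerivAt dκ
    have dw : HasDerivAt (fun t => w (Y (w'.1, t), t))
        (fderiv ℂ w (Y w', w'.2) (pdt Y w', 1)) w'.2 :=
      HasFDerivAt.comp_hasDerivAt (f := fun t => ((Y (w'.1, t), t) : ℂ × ℂ)) w'.2
        hwa.differentiableAt.hasFDerivAt dκ
    rw [s4l_fderiv_pair hua.differentiableAt] at du
    rw [s4l_fderiv_pair hwa.differentiableAt] at dw
    have hconst : (fun t => u (Y (w'.1, t), t)) =ᶠ[𝓝 w'.2] fun _ => w'.1 := by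
      have hc : ContinuousAt (fun t : ℂ => ((w'.1, t) : ℂ × ℂ)) w'.2 := by fun_prop
      exact hc.eventually (p := fun w'' : ℂ × ℂ => u (Y w'', w''.2) = w''.1) hY2'
    have h0 : pdt Y w' * pdy u (Y w', w'.2) + 1 * pdt u (Y w', w'.2) = 0 := by
      rw [← du.deriv, hconst.deriv_eq, deriv_const]
    have h1 : pdt m w' = pdt Y w' * pdy w (Y w', w'.2) + 1 * pdt w (Y w', w'.2) := dw.deriv
    apply mul_left_cancel₀ hne'
    rw [h1, mul_zero]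
    linear_combination hJ + pdy w (Y w', w'.2) * h0
  obtain ⟨ρ, hρ, hball⟩ := Metric.eventually_nhds_iff_ball.1 (hpm.and hma.eventually_analyticAt)
  have hconst : ∀ w' ∈ ball w₀ ρ, m w' = m (w'.1, 0) := by
    intro w' hw'
    rw [← ball_prod_same] at hw' hball
    have hmem : ∀ t ∈ ball (0 : ℂ) ρ, ((w'.1, t) : ℂ × ℂ) ∈ ball w₀.1 ρ ×ˢ ball w₀.2 ρ :=
      fun t ht => ⟨hw'.1, ht⟩
    exact IsOpen.is_const_of_deriv_eq_zero (f := fun t => m (w'.1, t)) (s := ball (0 : ℂ) ρ)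
      isOpen_ball (convex_ball _ _).isPreconnected
      (fun t ht => (hball _ (hmem t ht)).2.curry_right.differentiableAt.differentiableWithinAt)
      (fun t ht => (hball _ (hmem t ht)).1) hw'.2 (mem_ball_self hρ)
  have hι : AnalyticAt ℂ (fun z : ℂ × ℂ => ((u z, 0) : ℂ × ℂ)) (y₀, 0) := hu.prod analyticAt_const
  have hι2 : ContinuousAt (fun z : ℂ × ℂ => ((u z, z.2) : ℂ × ℂ)) (y₀, 0) :=
    hu.continuousAt.prodMk continuousAt_snd
  refine ⟨fun z => Y (u z, 0), AnalyticAt.comp (g := Y) (f := fun z : ℂ × ℂ => ((u z, 0) : ℂ × ℂ)) hY hι,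
    ?_, ?_⟩
  · have hc : ContinuousAt (fun y : ℂ => ((y, 0) : ℂ × ℂ)) y₀ := by fun_prop
    exact hc.eventually (p := fun z : ℂ × ℂ => Y (u z, z.2) = z.1) hY1
  · filter_upwards [hY1, hι.continuousAt.eventually (p := fun w' : ℂ × ℂ => u (Y w', w'.2) = w'.1) hY2,
      hι2.eventually_mem (ball_mem_nhds w₀ hρ)] with z h1 h2 h3
    refine ⟨h2.symm, ?_⟩
    have e1 : w z = m (u z, z.2) := by
      simp only [hm]
      rw [h1]
    rw [e1, hconst _ h3]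

theorem s4l_rank_local {X : ℂ × ℂ → ℂ × ℂ} {y₀ : ℂ} (hX : AnalyticAt ℂ X (y₀, 0))
    (hrk : ∀ᶠ z in 𝓝 (y₀, (0 : ℂ)), nbJac X z = 0) (hd : nbTan X (y₀, 0) ≠ 0) :
    ∃ ℓ : ℂ × ℂ → ℂ, AnalyticAt ℂ ℓ (y₀, 0) ∧ (∀ᶠ y in 𝓝 y₀, ℓ (y, 0) = y) ∧
      ∀ᶠ z in 𝓝 (y₀, (0 : ℂ)), X z = X (ℓ z, 0) := by
  have h1 : AnalyticAt ℂ (fun w => (X w).1) (y₀, 0) := analyticAt_fst.comp hX
  have h2 : AnalyticAt ℂ (fun w => (X w).2) (y₀, 0) := analyticAt_snd.comp hX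
  by_cases hc : pdy (fun w => (X w).1) (y₀, 0) = 0
  · have hc2 : pdy (fun w => (X w).2) (y₀, 0) ≠ 0 := by
      intro h
      exact hd (Prod.ext hc h)
    obtain ⟨ℓ, hℓ, hℓ0, hℓX⟩ := s4l_rank_aux h2 h1 hc2 (by
      filter_upwards [hrk] with z hz
      unfold nbJac at hz
      linear_combination -hz)
    exact ⟨ℓ, hℓ, hℓ0, hℓX.mono fun z hz => Prod.ext hz.2 hz.1⟩
  · obtain ⟨ℓ, hℓ, hℓ0, hℓX⟩ := s4l_rank_aux h1 h2 hc (by
      filter_upwards [hrk] with z hz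
      unfold nbJac at hz
      linear_combination hz)
    exact ⟨ℓ, hℓ, hℓ0, hℓX.mono fun z hz => Prod.ext hz.1 hz.2⟩

end Claimed.Agent.R269
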