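/-
Row 269, unit 4L (Cor 4.9), LEAF LF-S4-4L-lift (host-free).  Statements: helper3.  The owner of the leaf owns this file.

THE LIFT ON THE SLAB: `Xs = P ∘ ℓ`, `ℓ (y,0) = y`.
PROOF.  `K := nbCRect x w' a' b'` (compact, convex, `⊆ nbRect x w a b ⊆ ball c ε`); `μ > 0` with `thickening μ K ⊆ nbRect x w a b` and `thickening (2μ) K ⊆ ball c ε`.
`G (y,t,v) := nbDot (P (y+v) - Xs (y,t)) (deriv P y)`: analytic at `(y,0,0)`, `G (y',0,0) = 0` for `y'` in the rectangle (`NbSlab.zero`), `∂_v G (y,0,0) = nbDot (P' y) (P' y) ≠ 0`.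
`s4l_ifk` with `min η₀ μ` gives `δ, δ₁, v`.  `r' := min δ r`, `ℓ z := z.1 + v z`.
CLAIM `Δ z := P (ℓ z) - Xs z = 0` on `nbRect x w' a' b' ×ˢ ball 0 r'` (open, convex, so preconnected; `Δ` analytic): by the identity theorem it suffices to prove it near one point `(y₀,0)`.
`s4l_rank_local` at `(y₀,0)` (`nbJac Xs = 0` near by `NbSlab.rank`; `nbTan Xs (y₀,0) = P' y₀ ≠ 0` because `Xs (.,0) = P` near `y₀` and `nbDot (P' y₀) (P' y₀) ≠ 0`) gives `ℓ'` with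
`Xs z = Xs (ℓ' z, 0) = P (ℓ' z)`, `ℓ' → y₀`; so `b := ℓ' z - z.1` is small and solves `G (z.1,z.2,b) = 0`: `b = v z` by uniqueness.
-/
import Claimed.Agent.R269.S4.NatAlg
import Claimed.Agent.R269.S4.NatIfk
import Claimed.Agent.R269.S4.NatRank
import Claimed.Agent.R269.S4.NatCalc
import Claimed.Agent.R269.S4.NatDdq

set_option autoImplicit false

namespace Claimed.Agent.R269

open Complex Filter Topology Set Metric

theorem s4l_lift {P : ℂ → ℂ × ℂ} {c : ℂ} {ε : ℝ} (hP : NbArc P c ε) {Xs : ℂ × ℂ → ℂ × ℂ}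
    {x w a b r : ℝ} (hr : 0 < r) (hS : NbSlab P Xs x w a b r) (hsub : nbRect x w a b ⊆ ball c ε)
    {w' a' b' : ℝ} (hw : w' < w) (ha : a < a') (hb : b' < b) {η₀ : ℝ} (hη₀ : 0 < η₀) :
    ∃ r' : ℝ, 0 < r' ∧ r' ≤ r ∧ ∃ ℓ : ℂ × ℂ → ℂ,
      AnalyticOnNhd ℂ ℓ (nbRect x w' a' b' ×ˢ ball (0 : ℂ) r') ∧
      (∀ y ∈ nbRect x w' a' b', ℓ (y, 0) = y) ∧
      ∀ z ∈ nbRect x w' a' b' ×ˢ ball (0 : ℂ) r', ‖ℓ z - z.1‖ < η₀ ∧ Xs z = P (ℓ z) := by
  set R : Set ℂ := nbRect x w a b with hR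
  have hRo : IsOpen R := isOpen_nbRect x w a b
  set K : Set ℂ := nbCRect x w' a' b' with hK
  have hKc : IsCompact K := isCompact_nbCRect _ _ _ _
  have hKR : K ⊆ R := nbCRect_subset_nbRect hw ha hb
  obtain ⟨μ, hμ, hμsub⟩ := hKc.exists_thickening_subset_open isOpen_ball (hKR.trans hsub)
  set G : ℂ × ℂ × ℂ → ℂ := fun q => nbDot (P (q.1 + q.2.2) - Xs (q.1, q.2.1)) (deriv P q.1) with hG
  have hGa : ∀ y ∈ K, AnalyticAt ℂ G (y, 0, 0) := by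
    intro y hy
    have hyB : y ∈ ball c ε := hsub (hKR hy)
    have a1 : AnalyticAt ℂ (fun q : ℂ × ℂ × ℂ => P (q.1 + q.2.2)) (y, 0, 0) :=
      AnalyticAt.comp (g := P) (f := fun q : ℂ × ℂ × ℂ => q.1 + q.2.2)
        (by simpa using hP.an y hyB) (analyticAt_fst.add (analyticAt_snd.comp analyticAt_snd))
    have a2 : AnalyticAt ℂ (fun q : ℂ × ℂ × ℂ => Xs (q.1, q.2.1)) (y, 0, 0) :=
      AnalyticAt.comp (g := Xs) (f := fun q : ℂ × ℂ × ℂ => ((q.1, q.2.1) : ℂ × ℂ))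
        (hS.an (y, 0) ⟨hKR hy, mem_ball_self hr⟩)
        (analyticAt_fst.prod (analyticAt_fst.comp analyticAt_snd))
    have a3 : AnalyticAt ℂ (fun q : ℂ × ℂ × ℂ => deriv P q.1) (y, 0, 0) :=
      AnalyticAt.comp (g := deriv P) (f := fun q : ℂ × ℂ × ℂ => q.1) (hP.an y hyB).deriv
        analyticAt_fst
    exact s4l_analyticAt_nbDot (a1.sub a2) a3
  have hG0 : ∀ y ∈ K, ∀ᶠ y' in 𝓝 y, G (y', 0, 0) = 0 := by
    intro y hy
    filter_upwards [hRo.mem_nhds (hKR hy)] with y' hy'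
    simp only [hG, add_zero]
    rw [hS.zero y' hy', sub_self, s4l_nbDot_zero_left]
  have hG1 : ∀ y ∈ K, deriv (fun v => G (y, 0, v)) 0 ≠ 0 := by
    intro y hy
    have hyB : y ∈ ball c ε := hsub (hKR hy)
    have d0 : HasDerivAt (fun v : ℂ => P (y + v)) (deriv P y) 0 := by
      have h3 : HasDerivAt P (deriv P y) (y + 0) := by
        simpa using (hP.an y hyB).differentiableAt.hasDerivAt
      exact h3.comp_const_add y 0
    have d1 := (s4l_hasDerivAt_fst d0).sub_const (Xs (y, 0)).1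
    have d2 := (s4l_hasDerivAt_snd d0).sub_const (Xs (y, 0)).2
    have d3 : HasDerivAt (fun v => G (y, 0, v)) (nbDot (deriv P y) (deriv P y)) 0 :=
      (d1.mul_const (deriv P y).1).add (d2.mul_const (deriv P y).2)
    rw [d3.deriv]
    exact hP.q_ne y hyB
  obtain ⟨δ, δ₁, hδ, -, hδ₁, hδ₁η, v, hv, hv0, hv1, hv2⟩ :=
    s4l_ifk hKc (convex_nbCRect _ _ _ _) hGa hG0 hG1 (η₀ := min η₀ μ) (lt_min hη₀ hμ)
  have hδ₁η₀ : δ₁ ≤ η₀ := hδ₁η.trans (min_le_left _ _)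
  have hδ₁μ : δ₁ ≤ μ := hδ₁η.trans (min_le_right _ _)
  set r' : ℝ := min δ r with hr'
  have hr'pos : 0 < r' := lt_min hδ hr
  have hΩsub : nbRect x w' a' b' ×ˢ ball (0 : ℂ) r' ⊆ thickening δ K ×ˢ ball (0 : ℂ) δ :=
    prod_mono ((nbRect_subset_nbCRect _ _ _ _).trans (self_subset_thickening hδ _))
      (ball_subset_ball (min_le_left _ _))
  have hΩsub2 : nbRect x w' a' b' ×ˢ ball (0 : ℂ) r' ⊆ R ×ˢ ball (0 : ℂ) r :=
    prod_mono ((nbRect_subset_nbCRect _ _ _ _).trans hKR) (ball_subset_ball (min_le_right _ _))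
  have hℓa : AnalyticOnNhd ℂ (fun z : ℂ × ℂ => z.1 + v z) (nbRect x w' a' b' ×ˢ ball (0 : ℂ) r') :=
    fun z hz => analyticAt_fst.add (hv z (hΩsub hz))
  have hℓB : ∀ z ∈ nbRect x w' a' b' ×ˢ ball (0 : ℂ) r', z.1 + v z ∈ ball c ε := by
    intro z hz
    apply hμsub
    refine mem_thickening_iff.2 ⟨z.1, nbRect_subset_nbCRect _ _ _ _ hz.1, ?_⟩
    rw [dist_eq_norm, add_sub_cancel_left]
    exact (hv1 z (hΩsub hz)).1.trans_le hδ₁μ
  refine ⟨r', hr'pos, min_le_right _ _, fun z => z.1 + v z, hℓa, ?_, ?_⟩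
  · intro y hy
    show y + v (y, 0) = y
    rw [hv0 y (self_subset_thickening hδ _ (nbRect_subset_nbCRect _ _ _ _ hy)), add_zero]
  -- the claim
  have hΔa : AnalyticOnNhd ℂ (fun z : ℂ × ℂ => P (z.1 + v z) - Xs z)
      (nbRect x w' a' b' ×ˢ ball (0 : ℂ) r') := by
    intro z hz
    exact (AnalyticAt.comp (g := P) (f := fun z : ℂ × ℂ => z.1 + v z) (hP.an _ (hℓB z hz))
      (hℓa z hz)).sub (hS.an z (hΩsub2 hz))
  have hΔ : ∀ z ∈ nbRect x w' a' b' ×ˢ ball (0 : ℂ) r', P (z.1 + v z) - Xs z = 0 := by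
    intro z₁ hz₁
    set y₀ : ℂ := z₁.1 with hy₀
    have hy₀R' : y₀ ∈ nbRect x w' a' b' := hz₁.1
    have hy₀R : y₀ ∈ R := hKR (nbRect_subset_nbCRect _ _ _ _ hy₀R')
    have hz₀ : ((y₀, 0) : ℂ × ℂ) ∈ nbRect x w' a' b' ×ˢ ball (0 : ℂ) r' :=
      ⟨hy₀R', mem_ball_self hr'pos⟩
    have hpre : IsPreconnected (nbRect x w' a' b' ×ˢ ball (0 : ℂ) r') :=
      ((convex_nbRect _ _ _ _).prod (convex_ball _ _)).isPreconnected
    refine hΔa.eqOn_zero_of_preconnected_of_eventuallyEq_zero hpre hz₀ ?_ hz₁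
    -- local rank lemma
    have hopen : IsOpen (R ×ˢ ball (0 : ℂ) r) := hRo.prod isOpen_ball
    have hz₀' : ((y₀, 0) : ℂ × ℂ) ∈ R ×ˢ ball (0 : ℂ) r := ⟨hy₀R, mem_ball_self hr⟩
    have htan : nbTan Xs (y₀, 0) = deriv P y₀ :=
      s4l_nbTan_of_slice (z := (y₀, 0)) (Q := P)
        (by filter_upwards [hRo.mem_nhds hy₀R] with y hy using hS.zero y hy)
        (hP.an y₀ (hsub hy₀R)).differentiableAt.hasDerivAt
    obtain ⟨ℓ', hℓ', hℓ'0, hℓ'X⟩ := s4l_rank_local (hS.an _ hz₀')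
      (by filter_upwards [hopen.mem_nhds hz₀'] with z hz using hS.rank z hz)
      (by
        rw [htan]
        intro h
        apply hP.q_ne y₀ (hsub hy₀R)
        rw [h, s4l_nbDot_zero_left])
    have hℓ'y₀ : ℓ' (y₀, 0) = y₀ := hℓ'0.self_of_nhds
    have e1 : ∀ᶠ z in 𝓝 ((y₀, 0) : ℂ × ℂ), ℓ' z ∈ R :=
      hℓ'.continuousAt.eventually_mem (hRo.mem_nhds (by rw [hℓ'y₀]; exact hy₀R))
    have e2 : ∀ᶠ z in 𝓝 ((y₀, 0) : ℂ × ℂ), ‖ℓ' z - z.1‖ < δ₁ := by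
      refine ContinuousAt.eventually_lt (hℓ'.continuousAt.sub continuousAt_fst).norm
        continuousAt_const ?_
      simp only [hℓ'y₀, sub_self, norm_zero]
      exact hδ₁
    have e3 : ∀ᶠ z in 𝓝 ((y₀, 0) : ℂ × ℂ), z ∈ nbRect x w' a' b' ×ˢ ball (0 : ℂ) r' :=
      ((isOpen_nbRect _ _ _ _).prod isOpen_ball).mem_nhds hz₀
    filter_upwards [e1, e2, e3, hℓ'X] with z h1 h2 h3 h4
    have h5 : Xs z = P (ℓ' z) := by rw [h4, hS.zero _ h1]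
    have h6 : ℓ' z - z.1 = v z := by
      refine hv2 z (hΩsub h3) _ h2 ?_
      simp only [hG]
      rw [add_sub_cancel, ← h5, sub_self, s4l_nbDot_zero_left]
    show P (z.1 + v z) - Xs z = 0
    rw [← h6, add_sub_cancel, h5, sub_self]
  intro z hz
  refine ⟨?_, ?_⟩
  · show ‖z.1 + v z - z.1‖ < η₀
    rw [add_sub_cancel_left]
    exact (hv1 z (hΩsub hz)).1.trans_le hδ₁η₀
  · exact (sub_eq_zero.1 (hΔ z hz)).symm

end Claimed.Agent.R269
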