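/-
Row 269, unit 4L (Cor 4.9), LEAF LF-S4-4L-bnd (host-free).  Statements: helper3.  The owner of the leaf owns this file.

Bounds for a lift `ℓ (y,t)`, `ℓ (y,0) = y`, on a smaller slab.
PROOF AS FORMALISED: `ℓ = y + t m` (`s4l_div`), `m` and `Dm` bounded on a compact convex set, mean value inequality.
ORIGINAL PLAN.  Choose intermediate `w' < w'' < w`, `a < a'' < a'`, `b' < b'' < b`, `r'' := r/2`; `ℓ` is continuous, hence bounded by `M₀` on the compact set `nbCRect x w'' a'' b'' ×ˢ closedBall 0 r''`.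
`r' := min r'' (min (w''-w') (min (a'-a'') (b''-b')))`.  For `y ∈ nbRect x w' a' b'` the functions `f t := ℓ (y,t) - y` and `h t := ℓ (y,t) - ℓ (y-t,t) - t` are differentiable on `ball 0 r'`,
bounded by a constant `M`; `f 0 = 0`;  `h 0 = 0`, `h' 0 = ∂_t ℓ (y,0) - (-∂_y ℓ (y,0) + ∂_t ℓ (y,0)) - 1 = ∂_y ℓ (y,0) - 1 = 0`.  `s4l_schwarz` with `k = 1`, `k = 2`.
(If the small rectangle is empty the statement is empty; `|y|` is bounded on the rectangle.)
-/
import Claimed.Agent.R269.S4.NatAlg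
import Claimed.Agent.R269.S4.NatDiv

set_option autoImplicit false

namespace Claimed.Agent.R269

open Complex Filter Topology Set Metric

theorem s4l_bnd {x w a b r : ℝ} {ℓ : ℂ × ℂ → ℂ}
    (hℓ : AnalyticOnNhd ℂ ℓ (nbRect x w a b ×ˢ ball (0 : ℂ) r))
    (hℓ0 : ∀ y ∈ nbRect x w a b, ℓ (y, 0) = y) {w' a' b' : ℝ} (hw : w' < w) (ha : a < a')
    (hb : b' < b) (hr : 0 < r) :
    ∃ C r' : ℝ, 0 ≤ C ∧ 0 < r' ∧ r' ≤ r ∧ ∀ y ∈ nbRect x w' a' b', ∀ t ∈ ball (0 : ℂ) r',
      y - t ∈ nbRect x w a b ∧ ‖ℓ (y, t) - y‖ ≤ C * ‖t‖ ∧ ‖ℓ (y, t) - ℓ (y - t, t) - t‖ ≤ C * ‖t‖ ^ 2 := by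
  obtain ⟨m, hm, hℓm⟩ := s4l_div (isOpen_nbRect x w a b) (H := fun z => ℓ z - z.1)
    (fun z hz => (hℓ z hz).sub analyticAt_fst) (fun u hu => by simp only; rw [hℓ0 u hu, sub_self])
  set K : Set (ℂ × ℂ) := nbCRect x ((w + w') / 2) ((a + a') / 2) ((b + b') / 2) ×ˢ
    closedBall (0 : ℂ) (r / 2) with hK
  have hKsub : K ⊆ nbRect x w a b ×ˢ ball (0 : ℂ) r :=
    prod_mono (nbCRect_subset_nbRect (by linarith) (by linarith) (by linarith))
      (closedBall_subset_ball (by linarith))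
  have hKc : IsCompact K := (isCompact_nbCRect _ _ _ _).prod (isCompact_closedBall _ _)
  have hKv : Convex ℝ K := (convex_nbCRect _ _ _ _).prod (convex_closedBall _ _)
  obtain ⟨M₀, hM₀⟩ := hKc.exists_bound_of_continuousOn (hm.continuousOn.mono hKsub)
  have hdc : ContinuousOn (fderiv ℂ m) K := fun z hz =>
    (hm z (hKsub hz)).fderiv.continuousAt.continuousWithinAt
  obtain ⟨M₁, hM₁⟩ := hKc.exists_bound_of_continuousOn hdc
  set r' : ℝ := min (r / 2) (min ((w - w') / 2) (min ((a' - a) / 2) ((b - b') / 2))) with hr'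
  have hr'pos : 0 < r' := by
    refine lt_min (by linarith) (lt_min (by linarith) (lt_min (by linarith) (by linarith)))
  have h1 : r' ≤ r / 2 := min_le_left _ _
  have h2 : r' ≤ (w - w') / 2 := (min_le_right _ _).trans (min_le_left _ _)
  have h3 : r' ≤ (a' - a) / 2 :=
    (min_le_right _ _).trans ((min_le_right _ _).trans (min_le_left _ _))
  have h4 : r' ≤ (b - b') / 2 :=
    (min_le_right _ _).trans ((min_le_right _ _).trans (min_le_right _ _))
  refine ⟨max (max M₀ M₁) 0, r', le_max_right _ _, hr'pos, by linarith, fun y hy t ht => ?_⟩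
  have ht' : ‖t‖ < r' := by simpa using ht
  have hre : |t.re| ≤ ‖t‖ := Complex.abs_re_le_norm t
  have him : |t.im| ≤ ‖t‖ := Complex.abs_im_le_norm t
  obtain ⟨hy1, hy2, hy3⟩ := hy
  have hyt : y - t ∈ nbCRect x ((w + w') / 2) ((a + a') / 2) ((b + b') / 2) := by
    rw [abs_le] at hre him
    rw [abs_lt] at hy1
    refine ⟨?_, ?_, ?_⟩
    · rw [Complex.sub_re, abs_le]
      constructor <;> linarith [hre.1, hre.2]
    · rw [Complex.sub_im]; linarith [him.1, him.2]
    · rw [Complex.sub_im]; linarith [him.1, him.2]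
  have hyK : y ∈ nbCRect x ((w + w') / 2) ((a + a') / 2) ((b + b') / 2) :=
    ⟨by linarith, by linarith, by linarith⟩
  have htK : t ∈ closedBall (0 : ℂ) (r / 2) := by
    rw [mem_closedBall, dist_zero_right]; linarith
  have hz1 : ((y, t) : ℂ × ℂ) ∈ K := ⟨hyK, htK⟩
  have hz2 : ((y - t, t) : ℂ × ℂ) ∈ K := ⟨hyt, htK⟩
  have e1 : ℓ (y, t) = y + t * m (y, t) := by
    have := hℓm _ (hKsub hz1)
    simp only at this
    linear_combination this
  have e2 : ℓ (y - t, t) = y - t + t * m (y - t, t) := by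
    have := hℓm _ (hKsub hz2)
    simp only at this
    linear_combination this
  have hC0 : M₀ ≤ max (max M₀ M₁) 0 := (le_max_left _ _).trans (le_max_left _ _)
  have hC1 : M₁ ≤ max (max M₀ M₁) 0 := (le_max_right _ _).trans (le_max_left _ _)
  refine ⟨nbCRect_subset_nbRect (by linarith) (by linarith) (by linarith) hyt, ?_, ?_⟩
  · have : ℓ (y, t) - y = m (y, t) * t := by rw [e1]; ring
    rw [this, norm_mul]
    exact mul_le_mul_of_nonneg_right ((hM₀ _ hz1).trans hC0) (norm_nonneg _)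
  · have e3 : ℓ (y, t) - ℓ (y - t, t) - t = (m (y, t) - m (y - t, t)) * t := by rw [e1, e2]; ring
    have h5 := Convex.norm_image_sub_le_of_norm_fderiv_le (𝕜 := ℂ) (f := m) (s := K) (C := M₁)
      (fun z hz => (hm z (hKsub hz)).differentiableAt) hM₁ hKv hz2 hz1
    have e4 : ((y, t) : ℂ × ℂ) - (y - t, t) = (t, 0) := by simp
    rw [e4] at h5
    have e5 : ‖((t, 0) : ℂ × ℂ)‖ = ‖t‖ := by simp [Prod.norm_def]
    rw [e5] at h5
    rw [e3, norm_mul, pow_two, ← mul_assoc]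
    refine mul_le_mul_of_nonneg_right (h5.trans ?_) (norm_nonneg _)
    exact mul_le_mul_of_nonneg_right hC1 (norm_nonneg _)

end Claimed.Agent.R269
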