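/-
Row 269, unit 4L (Cor 4.9), LEAF LF-S4-4L-iter (host-free, Mathlib only, elementary).  Statements: helper3.  The owner of the leaf owns this file.

A PRIORI ESTIMATE FOR `N = O(1/|t|)` STEPS of a recurrence with cubic accuracy (two summations).
`e (j+1) = β (u j, e j)`, `u (j+1) = u j + e (j+1)`; `u 0 ≈ y'`, `e 0 ≈ t`; the ideal path `y' + j t` stays in `ball c R'`, `R' < R`.
PROOF.  `D := C₀ + 8 C Λ`, `D' := C₀ + Λ D`; `r₀ := min (δ/2) (min (1/(D+1)) ((R-R')/(D'+1)))` (any smaller positive number).  Strong induction on `j`, with the sharper claims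
`‖e j - t‖ ≤ C₀ ‖t‖² + 8 C j ‖t‖³` and `‖u j - (y' + j t)‖ ≤ C₀ ‖t‖ + j D ‖t‖²`:  `‖e j‖ ≤ ‖t‖ + D ‖t‖² ≤ 2 ‖t‖ < δ`, `‖β (u j, e j) - e j‖ ≤ C (2‖t‖)³`, `j ‖t‖ ≤ Λ`.
-/
import Mathlib

set_option autoImplicit false

namespace Claimed.Agent.R269

open Complex Filter Topology Set Metric

theorem s4l_iter {c : ℂ} {R R' δ C C₀ Λ : ℝ} {β : ℂ × ℂ → ℂ}
    (hacc : ∀ u ∈ ball c R, ∀ a ∈ ball (0 : ℂ) δ, ‖β (u, a) - a‖ ≤ C * ‖a‖ ^ 3) (hC : 0 ≤ C)
    (hC₀ : 0 ≤ C₀) (hΛ : 0 ≤ Λ) (hδ : 0 < δ) (hR' : R' < R) :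
    ∃ r₀ : ℝ, 0 < r₀ ∧ ∀ (t y' : ℂ) (N : ℕ) (u e : ℕ → ℂ), ‖t‖ < r₀ → N * ‖t‖ ≤ Λ →
      (∀ j ≤ N, y' + j * t ∈ ball c R') → ‖u 0 - y'‖ ≤ C₀ * ‖t‖ → ‖e 0 - t‖ ≤ C₀ * ‖t‖ ^ 2 →
      (∀ j < N, e (j + 1) = β (u j, e j) ∧ u (j + 1) = u j + e (j + 1)) →
      ∀ j ≤ N, u j ∈ ball c R ∧ e j ∈ ball (0 : ℂ) δ := by
  set D : ℝ := C₀ + 8 * C * Λ with hD
  set D' : ℝ := C₀ + Λ * D with hD'
  have hD0 : 0 ≤ D := by positivity
  have hD'0 : 0 ≤ D' := by positivity
  refine ⟨min (δ / 2) (min (1 / (D + 1)) ((R - R') / (D' + 1))), ?_, ?_⟩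
  · refine lt_min (by linarith) (lt_min (by positivity) (div_pos (by linarith) (by positivity)))
  intro t y' N u e ht hN hpath hu0 he0 hstep
  set τ : ℝ := ‖t‖ with hτ
  have hτ0 : 0 ≤ τ := norm_nonneg t
  have h1 : τ < δ / 2 := ht.trans_le (min_le_left _ _)
  have h2 : τ < 1 / (D + 1) := ht.trans_le ((min_le_right _ _).trans (min_le_left _ _))
  have h3 : τ < (R - R') / (D' + 1) := ht.trans_le ((min_le_right _ _).trans (min_le_right _ _))
  have h2' : D * τ ≤ 1 := by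
    rw [lt_div_iff₀ (by positivity)] at h2
    nlinarith
  have h3' : D' * τ < R - R' := by
    rw [lt_div_iff₀ (by positivity)] at h3
    nlinarith
  -- consequences of the sharp claims
  have hcons_e : ∀ j : ℕ, j ≤ N → ‖e j - t‖ ≤ C₀ * τ ^ 2 + 8 * C * j * τ ^ 3 →
      ‖e j - t‖ ≤ D * τ ^ 2 := by
    intro j hj h
    have hjτ : (j : ℝ) * τ ≤ Λ := by
      have : (j : ℝ) ≤ N := by exact_mod_cast hj
      exact (mul_le_mul_of_nonneg_right this hτ0).trans hN
    have : 8 * C * j * τ ^ 3 ≤ 8 * C * Λ * τ ^ 2 := by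
      have e1 : 8 * C * j * τ ^ 3 = 8 * C * τ ^ 2 * (j * τ) := by ring
      have e2 : 8 * C * Λ * τ ^ 2 = 8 * C * τ ^ 2 * Λ := by ring
      rw [e1, e2]
      exact mul_le_mul_of_nonneg_left hjτ (by positivity)
    rw [hD]
    nlinarith
  have hnorm_e : ∀ j : ℕ, ‖e j - t‖ ≤ D * τ ^ 2 → ‖e j‖ ≤ 2 * τ := by
    intro j h
    have e1 : ‖e j‖ ≤ ‖e j - t‖ + ‖t‖ := by
      have := norm_add_le (e j - t) t
      simpa using this
    have e2 : D * τ ^ 2 ≤ τ := by nlinarith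
    linarith
  have hmain : ∀ j : ℕ, j ≤ N → ‖e j - t‖ ≤ C₀ * τ ^ 2 + 8 * C * j * τ ^ 3 ∧
      ‖u j - (y' + j * t)‖ ≤ C₀ * τ + j * D * τ ^ 2 := by
    intro j
    induction j with
    | zero =>
      intro _
      refine ⟨by simpa using he0, by simpa using hu0⟩
    | succ j ih =>
      intro hj
      obtain ⟨ha, hb⟩ := ih (by omega)
      have hjN : j ≤ N := by omega
      have hae := hcons_e j hjN ha
      have hne := hnorm_e j hae
      have hjτ : (j : ℝ) * τ ≤ Λ := by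
        have : (j : ℝ) ≤ N := by exact_mod_cast hjN
        exact (mul_le_mul_of_nonneg_right this hτ0).trans hN
      have hu : u j ∈ ball c R := by
        have hp : dist (y' + j * t) c < R' := hpath j hjN
        have e1 : ‖u j - (y' + j * t)‖ ≤ D' * τ := by
          have : (j : ℝ) * D * τ ^ 2 ≤ Λ * D * τ := by
            have e3 : (j : ℝ) * D * τ ^ 2 = D * τ * (j * τ) := by ring
            have e4 : Λ * D * τ = D * τ * Λ := by ring
            rw [e3, e4]
            exact mul_le_mul_of_nonneg_left hjτ (by positivity)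
          rw [hD']
          nlinarith
        rw [mem_ball]
        have := dist_triangle (u j) (y' + j * t) c
        rw [dist_eq_norm (u j) (y' + j * t)] at this
        linarith
      have he : e j ∈ ball (0 : ℂ) δ := by
        rw [mem_ball, dist_zero_right]
        linarith
      obtain ⟨hs1, hs2⟩ := hstep j (by omega)
      have hβ := hacc _ hu _ he
      have ha' : ‖e (j + 1) - t‖ ≤ C₀ * τ ^ 2 + 8 * C * ((j + 1 : ℕ) : ℝ) * τ ^ 3 := by
        have e1 : e (j + 1) - t = (β (u j, e j) - e j) + (e j - t) := by rw [hs1]; ring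
        have e2 : C * ‖e j‖ ^ 3 ≤ C * (2 * τ) ^ 3 :=
          mul_le_mul_of_nonneg_left (pow_le_pow_left₀ (norm_nonneg _) hne 3) hC
        rw [e1]
        refine (norm_add_le _ _).trans ?_
        push_cast
        nlinarith
      refine ⟨ha', ?_⟩
      have hae' := hcons_e (j + 1) hj ha'
      have e1 : u (j + 1) - (y' + ((j + 1 : ℕ) : ℂ) * t) = (u j - (y' + j * t)) + (e (j + 1) - t) := by
        rw [hs2]; push_cast; ring
      rw [e1]
      refine (norm_add_le _ _).trans ?_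
      push_cast
      nlinarith
  intro j hj
  obtain ⟨ha, hb⟩ := hmain j hj
  have hae := hcons_e j hj ha
  have hne := hnorm_e j hae
  have hjτ : (j : ℝ) * τ ≤ Λ := by
    have : (j : ℝ) ≤ N := by exact_mod_cast hj
    exact (mul_le_mul_of_nonneg_right this hτ0).trans hN
  constructor
  · have hp : dist (y' + j * t) c < R' := hpath j hj
    have e1 : ‖u j - (y' + j * t)‖ ≤ D' * τ := by
      have : (j : ℝ) * D * τ ^ 2 ≤ Λ * D * τ := by
        have e3 : (j : ℝ) * D * τ ^ 2 = D * τ * (j * τ) := by ring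
        have e4 : Λ * D * τ = D * τ * Λ := by ring
        rw [e3, e4]
        exact mul_le_mul_of_nonneg_left hjτ (by positivity)
      rw [hD']
      nlinarith
    rw [mem_ball]
    have := dist_triangle (u j) (y' + j * t) c
    rw [dist_eq_norm (u j) (y' + j * t)] at this
    linarith
  · rw [mem_ball, dist_zero_right]
    linarith

end Claimed.Agent.R269
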