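/-
Row 269, unit 4L (Cor 4.9): PROPAGATION IN STEEP DIRECTIONS, definitions.  Architect: helper3.

Geometry (`c = x + iH` the edge point, `e` the scale, `b₀ ∈ (H-2e, H-e)` the starting row, `c₂ ≤ e/8` the half thickness of the slab):
  big slab     `Σ  = nbRect x (15e) (b₀-c₂) (b₀+c₂)`        the lift `ℓ` lives on `Σ × ball 0 r₁`
  small slab   `Σ₁ = nbRect x (14e) (b₀-c₂/2) (b₀+c₂/2)`    starting points
  target       `Y  = nbRect x e (b₀-c₂/2) (H+e)`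
  all ideal paths `y - j t` stay in `nbRect x (14e) (b₀-c₂/2) (H+e) ⊆ ball c (17e)`; the recurrence lives on `ball c (20e) × ball 0 δ`.
State of the recurrence: `(node, last increment)`.
-/
import Claimed.Agent.R269.S4.NatAlg

set_option autoImplicit false

namespace Claimed.Agent.R269

open Complex Filter Topology Set Metric

/-- hypotheses of the propagation theorem. -/
structure NbProp (c : ℂ) (e b₀ c₂ r₁ δ C : ℝ) (β ℓ : ℂ × ℂ → ℂ) : Prop where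
  e_pos : 0 < e
  b₀_gt : c.im - 2 * e < b₀
  b₀_lt : b₀ < c.im - e
  c₂_pos : 0 < c₂
  c₂_le : c₂ ≤ e / 8
  r₁_pos : 0 < r₁
  δ_pos : 0 < δ
  C_nonneg : 0 ≤ C
  β_an : AnalyticOnNhd ℂ β (ball c (20 * e) ×ˢ ball (0 : ℂ) δ)
  β_acc : ∀ u ∈ ball c (20 * e), ∀ a ∈ ball (0 : ℂ) δ, ‖β (u, a) - a‖ ≤ C * ‖a‖ ^ 3
  ℓ_an : AnalyticOnNhd ℂ ℓ (nbRect c.re (15 * e) (b₀ - c₂) (b₀ + c₂) ×ˢ ball (0 : ℂ) r₁)
  ℓ_zero : ∀ y ∈ nbRect c.re (15 * e) (b₀ - c₂) (b₀ + c₂), ℓ (y, 0) = y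
  ℓ_rec : ∀ z ∈ nbRect c.re (15 * e) (b₀ - c₂) (b₀ + c₂) ×ˢ ball (0 : ℂ) r₁,
    z.1 - z.2 ∈ nbRect c.re (15 * e) (b₀ - c₂) (b₀ + c₂) →
    z.1 + z.2 ∈ nbRect c.re (15 * e) (b₀ - c₂) (b₀ + c₂) →
      ℓ (z.1 + z.2, z.2) = ℓ z + β (ℓ z, ℓ z - ℓ (z.1 - z.2, z.2))

/-- one step of the recurrence in the coordinates (node, last increment). -/
def nbStep (β : ℂ × ℂ → ℂ) (p : ℂ × ℂ) : ℂ × ℂ := (p.1 + β p, β p)

/-- the state of the exact solution at `(y,t)`. -/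
def nbInit (ℓ : ℂ × ℂ → ℂ) (z : ℂ × ℂ) : ℂ × ℂ := (ℓ z, ℓ z - ℓ (z.1 - z.2, z.2))

/-- the state at `(y,t)` obtained by `n` steps from the exact state at `(y - n t, t)`. -/
def nbIt (β ℓ : ℂ × ℂ → ℂ) (n : ℕ) (z : ℂ × ℂ) : ℂ × ℂ :=
  (nbStep β)^[n] (nbInit ℓ (z.1 - n * z.2, z.2))

/-- the domain of `nbIt β ℓ n`. -/
def nbDom (c : ℂ) (e b₀ c₂ r₀ : ℝ) (n : ℕ) : Set (ℂ × ℂ) :=
  {z | z.1 ∈ nbRect c.re e (b₀ - c₂ / 2) (c.im + e) ∧ z.2 ∈ nbSteep r₀ ∧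
    z.1 - n * z.2 ∈ nbRect c.re (14 * e) (b₀ - c₂ / 2) (b₀ + c₂ / 2)}

/-- all intermediate states stay in the domain of the recurrence. -/
def NbOrb (c : ℂ) (e b₀ c₂ r₀ δ : ℝ) (β ℓ : ℂ × ℂ → ℂ) : Prop :=
  ∀ n : ℕ, ∀ z ∈ nbDom c e b₀ c₂ r₀ n, ∀ j ≤ n,
    (nbStep β)^[j] (nbInit ℓ (z.1 - n * z.2, z.2)) ∈ ball c (20 * e) ×ˢ ball (0 : ℂ) δ

/-- lattice points of a segment with end points in a convex set. -/
theorem s4l_seg_mem {S : Set ℂ} (hS : Convex ℝ S) {p t : ℂ} {n j : ℕ} (hj : j ≤ n) (h0 : p ∈ S)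
    (hn : p + n * t ∈ S) : p + j * t ∈ S := by
  rcases Nat.eq_zero_or_pos n with h | h
  · have : j = 0 := by omega
    subst this
    simpa using h0
  · have hn0 : (n : ℝ) ≠ 0 := by positivity
    have h1 := hS.add_smul_mem h0 hn (t := (j : ℝ) / n)
      ⟨by positivity, by rw [div_le_one (by positivity)]; exact_mod_cast hj⟩
    have h2 : ((j : ℝ) / n) • ((n : ℂ) * t) = j * t := by
      rw [Complex.real_smul]
      push_cast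
      have : (n : ℂ) ≠ 0 := by exact_mod_cast h.ne'
      field_simp
    rwa [h2] at h1

theorem s4l_propdefs_eqns_cite : True := by
  have := @nbStep.eq_1
  have := @nbInit.eq_1
  have := @nbIt.eq_1
  have := @nbDom.eq_1
  have := @NbOrb.eq_1
  trivial

end Claimed.Agent.R269
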