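/-
Row 269, unit 4L (Cor 4.9), LEAF LF-S4-4L-propA (host-free).  Statements: helper3.  The owner of the leaf owns this file.

ORBIT CONFINEMENT.  PROOF.  `s4l_bnd` for `ℓ` on `Σ`, smaller slab `Σ₁` (`w' = 14e`, `a' = b₀-c₂/2`, `b' = b₀+c₂/2`): constants `C₀, r'`.
`s4l_iter` with `R = 20e`, `R' = 17e`, `Λ = 8e`, `C₀`: radius `r₀'`.  `r₀ := min r₀' (min r' (min r₁ (c₂/2)))`.
For `z = (y,t) ∈ nbDom n`, `y' := y - n t ∈ Σ₁`:  `u j, e j :=` components of `(nbStep β)^[j] (nbInit ℓ (y',t))` (`Function.iterate_succ_apply'`);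
 * `n Im t = Im y - Im y' < (H+e) - (b₀-c₂/2) < 3.1 e`, `‖t‖ < (5/2) Im t` (`nbSteep_im_pos`), so `n ‖t‖ ≤ 8e`;
 * `y' + j t` (`j ≤ n`) is a convex combination of `y'` and `y`, both in the convex set `nbRect x (14e) (b₀-c₂/2) (H+e) ⊆ ball c (17e)` (`nbRect_subset_ball`).
-/
import Claimed.Agent.R269.S4.NatPropDefs
import Claimed.Agent.R269.S4.NatBnd
import Claimed.Agent.R269.S4.NatIter

set_option autoImplicit false

namespace Claimed.Agent.R269

open Complex Filter Topology Set Metric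

theorem s4l_prop_orbit {c : ℂ} {e b₀ c₂ r₁ δ C : ℝ} {β ℓ : ℂ × ℂ → ℂ}
    (h : NbProp c e b₀ c₂ r₁ δ C β ℓ) :
    ∃ r₀ : ℝ, 0 < r₀ ∧ r₀ ≤ r₁ ∧ r₀ ≤ c₂ / 2 ∧ NbOrb c e b₀ c₂ r₀ δ β ℓ := by
  have he := h.e_pos
  have hb₀ := h.b₀_gt
  have hb₀' := h.b₀_lt
  have hc₂ := h.c₂_pos
  have hc₂' := h.c₂_le
  obtain ⟨C₀, r', hC₀, hr', -, hbnd⟩ := s4l_bnd h.ℓ_an h.ℓ_zero (w' := 14 * e) (a' := b₀ - c₂ / 2)
    (b' := b₀ + c₂ / 2) (by linarith) (by linarith) (by linarith) h.r₁_pos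
  obtain ⟨r₀', hr₀', hiter⟩ := s4l_iter (c := c) (R := 20 * e) (R' := 17 * e) (δ := δ) (C := C)
    (C₀ := C₀) (Λ := 8 * e) (β := β) h.β_acc h.C_nonneg hC₀ (by linarith) h.δ_pos (by linarith)
  refine ⟨min r₀' (min r' (min r₁ (c₂ / 2))), ?_, ?_, ?_, ?_⟩
  · exact lt_min hr₀' (lt_min hr' (lt_min h.r₁_pos (by linarith)))
  · exact (min_le_right _ _).trans ((min_le_right _ _).trans (min_le_left _ _))
  · exact (min_le_right _ _).trans ((min_le_right _ _).trans (min_le_right _ _))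
  intro n z hz j hj
  obtain ⟨hy, ht, hy'⟩ := hz
  set t : ℂ := z.2 with htdef
  set y' : ℂ := z.1 - n * t with hy'def
  have htn : ‖t‖ < min r₀' (min r' (min r₁ (c₂ / 2))) := ht.2
  have ht1 : ‖t‖ < r₀' := htn.trans_le (min_le_left _ _)
  have ht2 : ‖t‖ < r' := htn.trans_le ((min_le_right _ _).trans (min_le_left _ _))
  obtain ⟨htim, htim'⟩ := nbSteep_im_pos ht
  obtain ⟨-, hb1, hb2⟩ := hbnd y' hy' t (by simpa using ht2)
  have hyy' : y' + n * t = z.1 := by rw [hy'def]; ring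
  -- number of steps
  have hN : (n : ℝ) * ‖t‖ ≤ 8 * e := by
    have h1 : (n : ℝ) * t.im = z.1.im - y'.im := by
      rw [← hyy']
      simp
    have h2 : (n : ℝ) * t.im < 3 * e + c₂ / 2 := by
      rw [h1]
      linarith [hy.2.2, hy'.2.1]
    have h3 : (n : ℝ) * ‖t‖ ≤ n * (5 / 2 * t.im) :=
      mul_le_mul_of_nonneg_left htim'.le (Nat.cast_nonneg n)
    nlinarith
  -- the ideal path
  have hpath : ∀ i ≤ n, y' + i * t ∈ ball c (17 * e) := by
    intro i hi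
    have hsub : nbRect c.re (14 * e) (b₀ - c₂ / 2) (c.im + e) ⊆ ball c (17 * e) :=
      nbRect_subset_ball (by linarith) (by linarith)
    apply hsub
    refine s4l_seg_mem (convex_nbRect _ _ _ _) hi
      (nbRect_mono le_rfl le_rfl (by linarith) hy') ?_
    rw [hyy']
    exact nbRect_mono (by linarith) le_rfl le_rfl hy
  have hres := hiter t y' n (fun i => ((nbStep β)^[i] (nbInit ℓ (y', t))).1)
    (fun i => ((nbStep β)^[i] (nbInit ℓ (y', t))).2) ht1 hN hpath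
    (by simpa [nbInit] using hb1) (by simpa [nbInit] using hb2)
    (by
      intro i _
      simp only [Function.iterate_succ_apply', nbStep, Prod.mk.eta, and_self]) j hj
  exact ⟨hres.1, hres.2⟩

end Claimed.Agent.R269
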