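/-
Row 269, unit 4L (Cor 4.9), LEAF LF-S4-4L-propB (host-free).  Statements: helper3.  The owner of the leaf owns this file.

ANALYTICITY, CONSISTENCY, COVERING of the continuations `nbIt β ℓ n` on `nbDom n`.
 * `isOpen_nbDom`: preimages of open sets under continuous maps.
 * `s4l_prop_analytic`: induction on `j ≤ n`: `z ↦ (nbStep β)^[j] (nbInit ℓ (z.1 - n z.2, z.2))` is analytic at every `z ∈ nbDom n`.  `j = 0`: `y' := z.1 - n z.2 ∈ Σ₁`, `‖z.2‖ < r₀ ≤ c₂/2 ≤ e`, so `y', y' - z.2 ∈ Σ`,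
   `ℓ` analytic at `(y',t)`, `(y'-t,t)`.  Step: `nbStep β` is analytic at the points of `ball c (20e) ×ˢ ball 0 δ` (`NbProp.β_an`), the `j`-th state lies there (`NbOrb`).
 * `s4l_prop_step`: `nbStep β (nbInit ℓ (y',t)) = nbInit ℓ (y'+t,t)` by `NbProp.ℓ_rec`.
 * `s4l_prop_consistent`: wlog `n ≤ m`; `y - j t ∈ Σ₁` for `n ≤ j ≤ m` (convexity of `Σ₁`); induction on `m - n` with `s4l_prop_step` at `y' = y - (j+1) t` (`y' - t ∈ Σ` since `‖t‖ < c₂/2 ≤ e`) and `Function.iterate_succ_apply`.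
 * `s4l_prop_cover`: `n :=` least `n` with `Im y - n Im t < b₀ + c₂/2` (`Nat.find`, Archimedes, `Im t > 0`); then `Im y - n Im t > b₀ - c₂/2` (`n = 0`: membership; `n > 0`: minimality and `Im t ≤ ‖t‖ < c₂/2`);
   `|Re (y - n t) - x| < e + n ‖t‖ < e + (5/2) n Im t < e + (5/2)(3.1 e) < 14 e`.
-/
import Claimed.Agent.R269.S4.NatPropDefs

set_option autoImplicit false

namespace Claimed.Agent.R269

open Complex Filter Topology Set Metric

theorem isOpen_nbDom (c : ℂ) (e b₀ c₂ r₀ : ℝ) (n : ℕ) : IsOpen (nbDom c e b₀ c₂ r₀ n) :=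
  ((isOpen_nbRect _ _ _ _).preimage continuous_fst).inter
    (((isOpen_nbSteep r₀).preimage continuous_snd).inter
      ((isOpen_nbRect _ _ _ _).preimage (f := fun z : ℂ × ℂ => z.1 - n * z.2) (by fun_prop)))

/-- a small translate of a rectangle lies in a slightly bigger one. -/
theorem s4l_rect_shift {x w a b d : ℝ} {y t : ℂ} (hy : y ∈ nbRect x w a b) (ht : ‖t‖ < d) :
    y + t ∈ nbRect x (w + d) (a - d) (b + d) := by
  obtain ⟨h1, h2, h3⟩ := hy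
  have hre := abs_le.1 (Complex.abs_re_le_norm t)
  have him := abs_le.1 (Complex.abs_im_le_norm t)
  rw [abs_lt] at h1
  refine ⟨?_, ?_, ?_⟩
  · rw [Complex.add_re, abs_lt]
    constructor <;> linarith [hre.1, hre.2]
  · rw [Complex.add_im]; linarith [him.1]
  · rw [Complex.add_im]; linarith [him.2]

/-- from the small slab to the big one. -/
theorem s4l_slab_shift {x e b₀ c₂ : ℝ} (hc₂' : c₂ ≤ e / 8) {y t : ℂ}
    (hy : y ∈ nbRect x (14 * e) (b₀ - c₂ / 2) (b₀ + c₂ / 2)) (ht : ‖t‖ < c₂ / 2) :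
    y ∈ nbRect x (15 * e) (b₀ - c₂) (b₀ + c₂) ∧ y + t ∈ nbRect x (15 * e) (b₀ - c₂) (b₀ + c₂) ∧
      y - t ∈ nbRect x (15 * e) (b₀ - c₂) (b₀ + c₂) := by
  have hpos : 0 < c₂ := by linarith [norm_nonneg t]
  refine ⟨nbRect_mono (by linarith) (by linarith) (by linarith) hy,
    nbRect_mono (by linarith) (by linarith) (by linarith) (s4l_rect_shift hy (d := c₂ / 2) ht), ?_⟩
  rw [sub_eq_add_neg]
  exact nbRect_mono (by linarith) (by linarith) (by linarith)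
    (s4l_rect_shift hy (t := -t) (d := c₂ / 2) (by rwa [norm_neg]))

theorem s4l_prop_analytic {c : ℂ} {e b₀ c₂ r₁ δ C : ℝ} {β ℓ : ℂ × ℂ → ℂ}
    (h : NbProp c e b₀ c₂ r₁ δ C β ℓ) {r₀ : ℝ} (h1 : r₀ ≤ r₁) (h2 : r₀ ≤ c₂ / 2)
    (horb : NbOrb c e b₀ c₂ r₀ δ β ℓ) (n : ℕ) :
    AnalyticOnNhd ℂ (nbIt β ℓ n) (nbDom c e b₀ c₂ r₀ n) := by
  intro z hz
  have key : ∀ j ≤ n, AnalyticAt ℂ
      (fun z : ℂ × ℂ => (nbStep β)^[j] (nbInit ℓ (z.1 - n * z.2, z.2))) z := by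
    intro j
    induction j with
    | zero =>
      intro _
      obtain ⟨-, ht, hy'⟩ := hz
      have htn : ‖z.2‖ < c₂ / 2 := ht.2.trans_le h2
      have htb : z.2 ∈ ball (0 : ℂ) r₁ := by simpa using ht.2.trans_le h1
      obtain ⟨s0, -, s2⟩ := s4l_slab_shift h.c₂_le hy' htn
      have a0 : AnalyticAt ℂ (fun z : ℂ × ℂ => ((z.1 - n * z.2, z.2) : ℂ × ℂ)) z :=
        (analyticAt_fst.sub (analyticAt_const.mul analyticAt_snd)).prod analyticAt_snd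
      have a0' : AnalyticAt ℂ (fun z : ℂ × ℂ => ((z.1 - n * z.2 - z.2, z.2) : ℂ × ℂ)) z :=
        ((analyticAt_fst.sub (analyticAt_const.mul analyticAt_snd)).sub analyticAt_snd).prod
          analyticAt_snd
      have a1 : AnalyticAt ℂ (fun z : ℂ × ℂ => ℓ (z.1 - n * z.2, z.2)) z :=
        AnalyticAt.comp (g := ℓ) (f := fun z : ℂ × ℂ => ((z.1 - n * z.2, z.2) : ℂ × ℂ))
          (h.ℓ_an _ ⟨s0, htb⟩) a0
      have a2 : AnalyticAt ℂ (fun z : ℂ × ℂ => ℓ (z.1 - n * z.2 - z.2, z.2)) z :=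
        AnalyticAt.comp (g := ℓ) (f := fun z : ℂ × ℂ => ((z.1 - n * z.2 - z.2, z.2) : ℂ × ℂ))
          (h.ℓ_an _ ⟨s2, htb⟩) a0'
      exact a1.prod (a1.sub a2)
    | succ j ih =>
      intro hj
      have hprev := ih (by omega)
      have hmem := horb n z hz j (by omega)
      have hβ := h.β_an _ hmem
      have hstep : AnalyticAt ℂ (nbStep β) ((nbStep β)^[j] (nbInit ℓ (z.1 - n * z.2, z.2))) :=
        (analyticAt_fst.add hβ).prod hβ
      have := AnalyticAt.comp (g := nbStep β)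
        (f := fun z : ℂ × ℂ => (nbStep β)^[j] (nbInit ℓ (z.1 - n * z.2, z.2))) hstep hprev
      refine this.congr (Eventually.of_forall fun w => ?_)
      simp only [Function.comp_apply, Function.iterate_succ_apply']
  exact key n le_rfl

theorem s4l_prop_step {c : ℂ} {e b₀ c₂ r₁ δ C : ℝ} {β ℓ : ℂ × ℂ → ℂ}
    (h : NbProp c e b₀ c₂ r₁ δ C β ℓ) {y t : ℂ} (ht : t ∈ ball (0 : ℂ) r₁)
    (h0 : y ∈ nbRect c.re (15 * e) (b₀ - c₂) (b₀ + c₂))
    (h1 : y - t ∈ nbRect c.re (15 * e) (b₀ - c₂) (b₀ + c₂))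
    (h2 : y + t ∈ nbRect c.re (15 * e) (b₀ - c₂) (b₀ + c₂)) :
    nbStep β (nbInit ℓ (y, t)) = nbInit ℓ (y + t, t) := by
  have hrec := h.ℓ_rec (y, t) ⟨h0, ht⟩ h1 h2
  simp only at hrec
  simp only [nbStep, nbInit, add_sub_cancel_right]
  rw [hrec]
  simp

theorem s4l_prop_consistent {c : ℂ} {e b₀ c₂ r₁ δ C : ℝ} {β ℓ : ℂ × ℂ → ℂ}
    (h : NbProp c e b₀ c₂ r₁ δ C β ℓ) {r₀ : ℝ} (h1 : r₀ ≤ r₁) (h2 : r₀ ≤ c₂ / 2) {n m : ℕ}
    {z : ℂ × ℂ} (hn : z ∈ nbDom c e b₀ c₂ r₀ n) (hm : z ∈ nbDom c e b₀ c₂ r₀ m) :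
    nbIt β ℓ n z = nbIt β ℓ m z := by
  have main : ∀ {n m : ℕ}, n ≤ m → z ∈ nbDom c e b₀ c₂ r₀ n → z ∈ nbDom c e b₀ c₂ r₀ m →
      nbIt β ℓ n z = nbIt β ℓ m z := by
    intro n m hnm hn hm
    have ht := hn.2.1
    have htn : ‖z.2‖ < c₂ / 2 := ht.2.trans_le h2
    have htb : z.2 ∈ ball (0 : ℂ) r₁ := by simpa using ht.2.trans_le h1
    have hseg : ∀ i, n ≤ i → i ≤ m →
        z.1 - i * z.2 ∈ nbRect c.re (14 * e) (b₀ - c₂ / 2) (b₀ + c₂ / 2) := by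
      intro i hi1 hi2
      have := s4l_seg_mem (convex_nbRect c.re (14 * e) (b₀ - c₂ / 2) (b₀ + c₂ / 2))
        (p := z.1 - m * z.2) (t := z.2) (n := m - n) (j := m - i) (by omega) hm.2.2 (by
          have e1 : z.1 - m * z.2 + ((m - n : ℕ) : ℂ) * z.2 = z.1 - n * z.2 := by
            rw [Nat.cast_sub hnm]; ring
          rw [e1]
          exact hn.2.2)
      have e2 : z.1 - m * z.2 + ((m - i : ℕ) : ℂ) * z.2 = z.1 - i * z.2 := by
        rw [Nat.cast_sub hi2]; ring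
      rwa [e2] at this
    have hind : ∀ k, n + k ≤ m → nbIt β ℓ (n + k) z = nbIt β ℓ n z := by
      intro k
      induction k with
      | zero => intro _; rfl
      | succ k ih =>
        intro hk
        rw [← ih (by omega)]
        obtain ⟨s0, s1, s2⟩ := s4l_slab_shift h.c₂_le (hseg (n + (k + 1)) (by omega) hk) htn
        have hstep := s4l_prop_step h htb s0 s2 s1
        have e3 : z.1 - ((n + (k + 1) : ℕ) : ℂ) * z.2 + z.2 = z.1 - ((n + k : ℕ) : ℂ) * z.2 := by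
          push_cast; ring
        rw [e3] at hstep
        show (nbStep β)^[n + (k + 1)] (nbInit ℓ (z.1 - ((n + (k + 1) : ℕ) : ℂ) * z.2, z.2))
          = (nbStep β)^[n + k] (nbInit ℓ (z.1 - ((n + k : ℕ) : ℂ) * z.2, z.2))
        rw [← add_assoc] at hstep ⊢
        rw [Function.iterate_succ_apply, hstep]
    obtain ⟨k, rfl⟩ := Nat.exists_eq_add_of_le hnm
    exact (hind k le_rfl).symm
  rcases le_total n m with hnm | hnm
  · exact main hnm hn hm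
  · exact (main hnm hm hn).symm

theorem s4l_prop_cover {c : ℂ} {e b₀ c₂ r₁ δ C : ℝ} {β ℓ : ℂ × ℂ → ℂ}
    (h : NbProp c e b₀ c₂ r₁ δ C β ℓ) {r₀ : ℝ} (h2 : r₀ ≤ c₂ / 2) {z : ℂ × ℂ}
    (hz : z ∈ nbRect c.re e (b₀ - c₂ / 2) (c.im + e) ×ˢ nbSteep r₀) :
    ∃ n : ℕ, z ∈ nbDom c e b₀ c₂ r₀ n := by
  classical
  have he := h.e_pos
  have hb₀ := h.b₀_gt
  have hb₀' := h.b₀_lt
  have hc₂ := h.c₂_pos
  have hc₂' := h.c₂_le
  obtain ⟨hy, ht⟩ := hz
  obtain ⟨htim, htim'⟩ := nbSteep_im_pos ht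
  have htn : ‖z.2‖ < c₂ / 2 := ht.2.trans_le h2
  have hex : ∃ n : ℕ, z.1.im - n * z.2.im < b₀ + c₂ / 2 := by
    obtain ⟨n, hn⟩ := exists_nat_gt ((z.1.im - (b₀ + c₂ / 2)) / z.2.im)
    refine ⟨n, ?_⟩
    rw [div_lt_iff₀ htim] at hn
    linarith
  set n := Nat.find hex with hn
  have hn1 : z.1.im - n * z.2.im < b₀ + c₂ / 2 := Nat.find_spec hex
  have hn2 : b₀ - c₂ / 2 < z.1.im - n * z.2.im := by
    rcases Nat.eq_zero_or_pos n with h0 | h0
    · rw [h0]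
      simpa using hy.2.1
    · have hmin := Nat.find_min hex (m := n - 1) (by omega)
      rw [not_lt] at hmin
      have e1 : ((n - 1 : ℕ) : ℝ) = n - 1 := by
        rw [Nat.cast_sub h0]; simp
      rw [e1] at hmin
      have him : z.2.im ≤ ‖z.2‖ := (le_abs_self _).trans (Complex.abs_im_le_norm _)
      nlinarith
  have him' : (z.1 - n * z.2).im = z.1.im - n * z.2.im := by simp
  have hre' : (z.1 - n * z.2).re = z.1.re - n * z.2.re := by simp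
  refine ⟨n, hy, ht, ?_, ?_, ?_⟩
  · rw [hre']
    have h3 : (n : ℝ) * z.2.im < 3 * e + c₂ / 2 := by linarith [hy.2.2]
    have h4 : (n : ℝ) * |z.2.re| ≤ n * (5 / 2 * z.2.im) :=
      mul_le_mul_of_nonneg_left ((Complex.abs_re_le_norm _).trans htim'.le) (Nat.cast_nonneg n)
    have h5 : |(n : ℝ) * z.2.re| = n * |z.2.re| := by
      rw [abs_mul, abs_of_nonneg (Nat.cast_nonneg n)]
    have h6 : |z.1.re - n * z.2.re - c.re| ≤ |z.1.re - c.re| + |(n : ℝ) * z.2.re| := by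
      have e2 : z.1.re - n * z.2.re - c.re = (z.1.re - c.re) - n * z.2.re := by ring
      rw [e2]
      exact abs_sub _ _
    have h7 := hy.1
    nlinarith
  · rw [him']; exact hn2
  · rw [him']; exact hn1

theorem s4l_prop_zero {c : ℂ} {e b₀ c₂ r₀ : ℝ} (he : 0 < e) {z : ℂ × ℂ}
    (hz : z ∈ nbRect c.re e (b₀ - c₂ / 2) (b₀ + c₂ / 2) ×ˢ nbSteep r₀) (hb : b₀ + c₂ / 2 ≤ c.im + e) :
    z ∈ nbDom c e b₀ c₂ r₀ 0 := by
  refine ⟨nbRect_mono le_rfl le_rfl hb hz.1, hz.2, ?_⟩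
  simpa using nbRect_mono (by linarith) le_rfl le_rfl hz.1

end Claimed.Agent.R269
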