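/-
Row 269, unit 4L (Cor 4.9): PROPAGATION IN STEEP DIRECTIONS, the theorem (glue of the leaves propA, propB).  helper3.
-/
import Claimed.Agent.R269.S4.NatPropA
import Claimed.Agent.R269.S4.NatPropB

set_option autoImplicit false

namespace Claimed.Agent.R269

open Complex Filter Topology Set Metric

theorem s4l_prop {c : ℂ} {e b₀ c₂ r₁ δ C : ℝ} {β ℓ : ℂ × ℂ → ℂ}
    (h : NbProp c e b₀ c₂ r₁ δ C β ℓ) :
    ∃ r₀ : ℝ, 0 < r₀ ∧ r₀ ≤ r₁ ∧ ∃ ℓh : ℂ × ℂ → ℂ,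
      AnalyticOnNhd ℂ ℓh (nbRect c.re e (b₀ - c₂ / 2) (c.im + e) ×ˢ nbSteep r₀) ∧
      (∀ z ∈ nbRect c.re e (b₀ - c₂ / 2) (c.im + e) ×ˢ nbSteep r₀, ℓh z ∈ ball c (20 * e)) ∧
      ∀ z ∈ nbRect c.re e (b₀ - c₂ / 2) (b₀ + c₂ / 2) ×ˢ nbSteep r₀, ℓh z = ℓ z := by
  classical
  obtain ⟨r₀, hr₀, h1, h2, horb⟩ := s4l_prop_orbit h
  set ℓh : ℂ × ℂ → ℂ := fun z =>
    if hz : ∃ n, z ∈ nbDom c e b₀ c₂ r₀ n then (nbIt β ℓ hz.choose z).1 else 0 with hℓh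
  have key : ∀ (n : ℕ) (z : ℂ × ℂ), z ∈ nbDom c e b₀ c₂ r₀ n → ℓh z = (nbIt β ℓ n z).1 := by
    intro n z hz
    have hex : ∃ n, z ∈ nbDom c e b₀ c₂ r₀ n := ⟨n, hz⟩
    simp only [hℓh, dif_pos hex]
    rw [s4l_prop_consistent h h1 h2 hex.choose_spec hz]
  refine ⟨r₀, hr₀, h1, ℓh, ?_, ?_, ?_⟩
  · intro z hz
    obtain ⟨n, hn⟩ := s4l_prop_cover h h2 hz
    have han : AnalyticAt ℂ (fun w => (nbIt β ℓ n w).1) z :=
      analyticAt_fst.comp (s4l_prop_analytic h h1 h2 horb n z hn)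
    refine han.congr ?_
    filter_upwards [(isOpen_nbDom c e b₀ c₂ r₀ n).mem_nhds hn] with w hw
    exact (key n w hw).symm
  · intro z hz
    obtain ⟨n, hn⟩ := s4l_prop_cover h h2 hz
    rw [key n z hn]
    exact (horb n z hn n le_rfl).1
  · intro z hz
    have hb : b₀ + c₂ / 2 ≤ c.im + e := by
      have := h.b₀_lt
      have := h.c₂_le
      have := h.e_pos
      linarith
    rw [key 0 z (s4l_prop_zero h.e_pos hz hb)]
    simp [nbIt, nbInit]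

end Claimed.Agent.R269
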