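/-
Row 269, unit 4L (Cor 4.9), LEAF LF-S4-4L-rec (host-free).  Statements: helper3.  The owner of the leaf owns this file.

THE EXACT RECURRENCE ON THE SLAB: the lift satisfies `ℓ (y+t,t) = ℓ (y,t) + β (ℓ (y,t), ℓ (y,t) - ℓ (y-t,t))`.
PROOF.  `𝒲 := {z ∈ R ×ˢ ball 0 r | z.1 - z.2 ∈ R, z.1 + z.2 ∈ R}`, `R := nbRect x w a b`: open and convex.  On `𝒲` put `u := ℓ z`, `A := ℓ z - ℓ (z.1-z.2,z.2)`, `B := ℓ (z.1+z.2,z.2) - ℓ z`;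
`‖A‖, ‖B‖ < r + 2 η₀ ≤ min δ δ₁`.  Chain rule: `nbTan Xs z = pdy ℓ z • P' u` (`Xs = P ∘ ℓ` near `z`).  So, by `NbSlab.refl`, `s4l_rfl_smul`, `s4l_rfl_arc`:
`0 = nbRflX Xs z = (pdy ℓ z)² * A * B * D z`,  `D z := nbRflD P u A B`  (analytic on `𝒲`: `s4l_rflD_analyticAt`; `u, u - A, u + B ∈ ball c ε' ⊆ ball c ε`).
AS FORMALISED: the germs of `(pdy ℓ)²`, `A`, `B` at `(y₀,0)` are not zero (`pdy ℓ = 1`, `∂_t A = ∂_t B = 1` there) and the ring of germs is a domain (`SCV.eventually_eq_zero_or_of_mul`).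
ORIGINAL: Near a point `(y₀,0)`: `pdy ℓ → 1`, `A = t + O(t²)`, `B = t + O(t²)` (`s4l_bnd`, also for `(y+t)`), so `D = 0` for small `t ≠ 0`, hence (continuity/density) near `(y₀,0)`, hence on `𝒲` (identity theorem).
Uniqueness `hβu` gives `B = β (u, A)`.   (If `R` is empty there is nothing to prove.)
-/
import Claimed.Agent.R269.S4.NatDdq
import Claimed.Agent.R269.S4.NatCalc
import Claimed.Agent.R269.S4.NatRank

set_option autoImplicit false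

namespace Claimed.Agent.R269

open Complex Filter Topology Set Metric

theorem s4l_rec {P : ℂ → ℂ × ℂ} {c : ℂ} {ε ε' δ δ₁ η₀ : ℝ} (hP : NbArc P c ε) (hε' : ε' ≤ ε)
    {β : ℂ × ℂ → ℂ}
    (hβu : ∀ p ∈ ball c ε' ×ˢ ball (0 : ℂ) δ, ∀ b : ℂ, ‖b‖ < δ₁ → nbRflD P p.1 p.2 b = 0 → b = β p)
    {Xs : ℂ × ℂ → ℂ × ℂ} {x w a b r : ℝ} (hr : 0 < r) (hS : NbSlab P Xs x w a b r) {ℓ : ℂ × ℂ → ℂ}
    (hℓ : AnalyticOnNhd ℂ ℓ (nbRect x w a b ×ˢ ball (0 : ℂ) r))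
    (hℓ0 : ∀ y ∈ nbRect x w a b, ℓ (y, 0) = y)
    (hℓX : ∀ z ∈ nbRect x w a b ×ˢ ball (0 : ℂ) r, ‖ℓ z - z.1‖ < η₀ ∧ ℓ z ∈ ball c ε' ∧ Xs z = P (ℓ z))
    (hsm : r + 2 * η₀ ≤ min δ δ₁) :
    ∀ z ∈ nbRect x w a b ×ˢ ball (0 : ℂ) r, z.1 - z.2 ∈ nbRect x w a b → z.1 + z.2 ∈ nbRect x w a b →
      ℓ (z.1 + z.2, z.2) = ℓ z + β (ℓ z, ℓ z - ℓ (z.1 - z.2, z.2)) := by
  set R : Set ℂ := nbRect x w a b with hR
  have hRo : IsOpen R := isOpen_nbRect x w a b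
  have hRc : Convex ℝ R := convex_nbRect x w a b
  have hΩo : IsOpen (R ×ˢ ball (0 : ℂ) r) := hRo.prod isOpen_ball
  set W : Set (ℂ × ℂ) := {z | z ∈ R ×ˢ ball (0 : ℂ) r ∧ z.1 - z.2 ∈ R ∧ z.1 + z.2 ∈ R} with hW
  have hWo : IsOpen W :=
    hΩo.inter ((hRo.preimage (f := fun z : ℂ × ℂ => z.1 - z.2) (by fun_prop)).inter
      (hRo.preimage (f := fun z : ℂ × ℂ => z.1 + z.2) (by fun_prop)))
  have hWc : Convex ℝ W := by
    intro z hz z' hz' s t hs ht hst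
    refine ⟨(hRc.prod (convex_ball _ _)) hz.1 hz'.1 hs ht hst, ?_, ?_⟩
    · have := hRc hz.2.1 hz'.2.1 hs ht hst
      have e : (s • z + t • z').1 - (s • z + t • z').2 = s • (z.1 - z.2) + t • (z'.1 - z'.2) := by
        simp only [Prod.fst_add, Prod.snd_add, Prod.smul_fst, Prod.smul_snd, smul_sub]
        ring
      rw [e]
      exact this
    · have := hRc hz.2.2 hz'.2.2 hs ht hst
      have e : (s • z + t • z').1 + (s • z + t • z').2 = s • (z.1 + z.2) + t • (z'.1 + z'.2) := by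
        simp only [Prod.fst_add, Prod.snd_add, Prod.smul_fst, Prod.smul_snd, smul_add]
        ring
      rw [e]
      exact this
  have hm : ∀ z ∈ W, ((z.1 - z.2, z.2) : ℂ × ℂ) ∈ R ×ˢ ball (0 : ℂ) r := fun z hz => ⟨hz.2.1, hz.1.2⟩
  have hp : ∀ z ∈ W, ((z.1 + z.2, z.2) : ℂ × ℂ) ∈ R ×ˢ ball (0 : ℂ) r := fun z hz => ⟨hz.2.2, hz.1.2⟩
  set Af : ℂ × ℂ → ℂ := fun z => ℓ z - ℓ (z.1 - z.2, z.2) with hAf
  set Bf : ℂ × ℂ → ℂ := fun z => ℓ (z.1 + z.2, z.2) - ℓ z with hBf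
  set D : ℂ × ℂ → ℂ := fun z => nbRflD P (ℓ z) (Af z) (Bf z) with hD
  have hℓm : ∀ z ∈ W, AnalyticAt ℂ (fun z : ℂ × ℂ => ℓ (z.1 - z.2, z.2)) z := fun z hz =>
    AnalyticAt.comp (g := ℓ) (f := fun z : ℂ × ℂ => ((z.1 - z.2, z.2) : ℂ × ℂ)) (hℓ _ (hm z hz))
      ((analyticAt_fst.sub analyticAt_snd).prod analyticAt_snd)
  have hℓp : ∀ z ∈ W, AnalyticAt ℂ (fun z : ℂ × ℂ => ℓ (z.1 + z.2, z.2)) z := fun z hz =>
    AnalyticAt.comp (g := ℓ) (f := fun z : ℂ × ℂ => ((z.1 + z.2, z.2) : ℂ × ℂ)) (hℓ _ (hp z hz))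
      ((analyticAt_fst.add analyticAt_snd).prod analyticAt_snd)
  have hAa : ∀ z ∈ W, AnalyticAt ℂ Af z := fun z hz => (hℓ z hz.1).sub (hℓm z hz)
  have hBa : ∀ z ∈ W, AnalyticAt ℂ Bf z := fun z hz => (hℓp z hz).sub (hℓ z hz.1)
  have hball : ball c ε' ⊆ ball c ε := ball_subset_ball hε'
  have hDa : AnalyticOnNhd ℂ D W := by
    intro z hz
    refine AnalyticAt.comp (g := fun q : ℂ × ℂ × ℂ => nbRflD P q.1 q.2.1 q.2.2)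
      (f := fun z : ℂ × ℂ => ((ℓ z, Af z, Bf z) : ℂ × ℂ × ℂ)) ?_
      ((hℓ z hz.1).prod ((hAa z hz).prod (hBa z hz)))
    refine s4l_rflD_analyticAt hP.an (p := (ℓ z, Af z, Bf z)) (hball (hℓX z hz.1).2.1) ?_ ?_
    · have : ℓ z - Af z = ℓ (z.1 - z.2, z.2) := by simp only [hAf]; ring
      show ℓ z - Af z ∈ ball c ε
      rw [this]
      exact hball (hℓX _ (hm z hz)).2.1
    · have : ℓ z + Bf z = ℓ (z.1 + z.2, z.2) := by simp only [hBf]; ring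
      show ℓ z + Bf z ∈ ball c ε
      rw [this]
      exact hball (hℓX _ (hp z hz)).2.1
  -- the key identity
  have hkey : ∀ z ∈ W, pdy ℓ z ^ 2 * (Af z * (Bf z * D z)) = 0 := by
    intro z hz
    have h0 := hS.refl z hz.1 hz.2.1 hz.2.2
    unfold nbRflX at h0
    have htan : nbTan Xs z = pdy ℓ z • deriv P (ℓ z) :=
      s4l_nbTan_comp (by filter_upwards [hΩo.mem_nhds hz.1] with w' hw' using (hℓX w' hw').2.2)
        (hℓ z hz.1) (hP.an _ (hball (hℓX z hz.1).2.1))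
    have e1 : ℓ (z.1 - z.2, z.2) = ℓ z - Af z := by simp only [hAf]; ring
    have e2 : ℓ (z.1 + z.2, z.2) = ℓ z + Bf z := by simp only [hBf]; ring
    rw [htan, (hℓX _ (hm z hz)).2.2, (hℓX z hz.1).2.2, (hℓX _ (hp z hz)).2.2, e1, e2,
      s4l_rfl_smul, s4l_rfl_arc] at h0
    rw [← h0]
    ring
  intro z hz hz1 hz2
  have hzW : z ∈ W := ⟨hz, hz1, hz2⟩
  -- `D = 0` near `(y₀,0)`
  set y₀ : ℂ := z.1 with hy₀
  have hy₀R : y₀ ∈ R := hz.1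
  have hp₀ : ((y₀, 0) : ℂ × ℂ) ∈ W := by
    refine ⟨⟨hy₀R, mem_ball_self hr⟩, ?_, ?_⟩
    · simpa using hy₀R
    · simpa using hy₀R
  have hpy : pdy ℓ (y₀, 0) = 1 := by
    unfold pdy
    have : (fun y => ℓ (y, ((y₀, 0) : ℂ × ℂ).2)) =ᶠ[𝓝 y₀] fun y => y := by
      filter_upwards [hRo.mem_nhds hy₀R] with y hy using hℓ0 y hy
    rw [this.deriv_eq]
    exact (hasDerivAt_id y₀).deriv
  have hℓd : DifferentiableAt ℂ ℓ (y₀, 0) := (hℓ _ hp₀.1).differentiableAt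
  have d1 : HasDerivAt (fun t : ℂ => ℓ (y₀ + t, t)) (fderiv ℂ ℓ (y₀, 0) (1, 1)) 0 :=
    hℓd.hasFDerivAt.comp_hasDerivAt_of_eq (f := fun t : ℂ => ((y₀ + t, t) : ℂ × ℂ)) 0
      (((hasDerivAt_id (0 : ℂ)).const_add y₀).prodMk (hasDerivAt_id (0 : ℂ))) (by simp)
  have d2 : HasDerivAt (fun t : ℂ => ℓ (y₀, t)) (fderiv ℂ ℓ (y₀, 0) (0, 1)) 0 :=
    hℓd.hasFDerivAt.comp_hasDerivAt_of_eq (f := fun t : ℂ => ((y₀, t) : ℂ × ℂ)) 0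
      ((hasDerivAt_const (0 : ℂ) y₀).prodMk (hasDerivAt_id (0 : ℂ))) (by simp)
  have d3 : HasDerivAt (fun t : ℂ => ℓ (y₀ - t, t)) (fderiv ℂ ℓ (y₀, 0) (-1, 1)) 0 :=
    hℓd.hasFDerivAt.comp_hasDerivAt_of_eq (f := fun t : ℂ => ((y₀ - t, t) : ℂ × ℂ)) 0
      (((hasDerivAt_id (0 : ℂ)).const_sub y₀).prodMk (hasDerivAt_id (0 : ℂ))) (by simp)
  rw [s4l_fderiv_pair hℓd, hpy] at d1 d2 d3
  have hc0 : ContinuousAt (fun t : ℂ => ((y₀, t) : ℂ × ℂ)) 0 := by fun_prop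
  have n1 : ¬ ∀ᶠ w' in 𝓝 ((y₀, 0) : ℂ × ℂ), pdy ℓ w' ^ 2 = 0 := by
    intro h
    have := h.self_of_nhds
    rw [hpy] at this
    norm_num at this
  have n2 : ¬ ∀ᶠ w' in 𝓝 ((y₀, 0) : ℂ × ℂ), Af w' = 0 := by
    intro h
    have h1 : (fun t : ℂ => ℓ (y₀, t) - ℓ (y₀ - t, t)) =ᶠ[𝓝 0] fun _ => 0 :=
      hc0.eventually (p := fun w' : ℂ × ℂ => Af w' = 0) h
    have h2 : deriv (fun t : ℂ => ℓ (y₀, t) - ℓ (y₀ - t, t)) 0 = _ := (d2.sub d3).deriv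
    rw [h1.deriv_eq, deriv_const] at h2
    have : (0 : ℂ) = 1 := by rw [h2]; ring
    norm_num at this
  have n3 : ¬ ∀ᶠ w' in 𝓝 ((y₀, 0) : ℂ × ℂ), Bf w' = 0 := by
    intro h
    have h1 : (fun t : ℂ => ℓ (y₀ + t, t) - ℓ (y₀, t)) =ᶠ[𝓝 0] fun _ => 0 :=
      hc0.eventually (p := fun w' : ℂ × ℂ => Bf w' = 0) h
    have h2 : deriv (fun t : ℂ => ℓ (y₀ + t, t) - ℓ (y₀, t)) 0 = _ := (d1.sub d2).deriv
    rw [h1.deriv_eq, deriv_const] at h2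
    have : (0 : ℂ) = 1 := by rw [h2]; ring
    norm_num at this
  have hev : ∀ᶠ w' in 𝓝 ((y₀, 0) : ℂ × ℂ), pdy ℓ w' ^ 2 * (Af w' * (Bf w' * D w')) = 0 := by
    filter_upwards [hWo.mem_nhds hp₀] with w' hw' using hkey w' hw'
  have s1 := (SCV.eventually_eq_zero_or_of_mul ((analyticAt_pdy (hℓ _ hp₀.1)).pow 2)
    ((hAa _ hp₀).mul ((hBa _ hp₀).mul (hDa _ hp₀))) hev).resolve_left n1
  have s2 := (SCV.eventually_eq_zero_or_of_mul (hAa _ hp₀) ((hBa _ hp₀).mul (hDa _ hp₀))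
    s1).resolve_left n2
  have s3 := (SCV.eventually_eq_zero_or_of_mul (hBa _ hp₀) (hDa _ hp₀) s2).resolve_left n3
  have hD0 : D z = 0 :=
    hDa.eqOn_zero_of_preconnected_of_eventuallyEq_zero hWc.isPreconnected hp₀ s3 hzW
  -- sizes
  have hz2 : ‖z.2‖ < r := by simpa using hz.2
  have b0 := (hℓX z hz).1
  have bm := (hℓX _ (hm z hzW)).1
  have bp := (hℓX _ (hp z hzW)).1
  simp only at bm bp
  have hAn : ‖Af z‖ < r + 2 * η₀ := by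
    have e : Af z = (ℓ z - z.1) - (ℓ (z.1 - z.2, z.2) - (z.1 - z.2)) + z.2 := by
      simp only [hAf]; ring
    rw [e]
    have := norm_add_le ((ℓ z - z.1) - (ℓ (z.1 - z.2, z.2) - (z.1 - z.2))) z.2
    have := norm_sub_le (ℓ z - z.1) (ℓ (z.1 - z.2, z.2) - (z.1 - z.2))
    linarith
  have hBn : ‖Bf z‖ < r + 2 * η₀ := by
    have e : Bf z = (ℓ (z.1 + z.2, z.2) - (z.1 + z.2)) - (ℓ z - z.1) + z.2 := by
      simp only [hBf]; ring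
    rw [e]
    have := norm_add_le ((ℓ (z.1 + z.2, z.2) - (z.1 + z.2)) - (ℓ z - z.1)) z.2
    have := norm_sub_le (ℓ (z.1 + z.2, z.2) - (z.1 + z.2)) (ℓ z - z.1)
    linarith
  have hB := hβu (ℓ z, Af z)
    ⟨(hℓX z hz).2.1, by simpa using hAn.trans_le (hsm.trans (min_le_left _ _))⟩ (Bf z)
    (hBn.trans_le (hsm.trans (min_le_right _ _))) hD0
  have e3 : ℓ (z.1 + z.2, z.2) = ℓ z + Bf z := by simp only [hBf]; ring
  rw [e3, hB]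

end Claimed.Agent.R269
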