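/-
Row 269, unit 4L (Cor 4.9), LEAF LF-S4-4L-reflmap (host-free, SHORT given the tools).  Statements: helper3.  The owner of the leaf owns this file.

THE LOCAL REFLECTION MAP of a regular arc: `b = β (u,a)` is the unique small solution of the divided reflection law `nbRflD P u a b = 0`.
PROOF.  `s4l_ifk` with `K := closedBall c ε'` (compact, convex, inside `ball c ε`), `G (u,a,b) := nbRflD P u a b`:
analytic at `(u,0,0)` (`s4l_rflD_analyticAt`), `G (u',0,0) = 0` (`s4l_rflD_zero`), `∂_b G (u,0,0) = - q k / 2 ≠ 0` (`s4l_rflD_deriv`, `NbArc.q_ne`, `NbArc.k_ne`).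
`ball c ε' ⊆ thickening δ (closedBall c ε')`.
-/
import Claimed.Agent.R269.S4.NatDdq
import Claimed.Agent.R269.S4.NatIfk

set_option autoImplicit false

namespace Claimed.Agent.R269

open Complex Filter Topology Set Metric

theorem s4l_reflMap {P : ℂ → ℂ × ℂ} {c : ℂ} {ε ε' : ℝ} (hP : NbArc P c ε) (hε' : ε' < ε) {η₀ : ℝ}
    (hη₀ : 0 < η₀) :
    ∃ δ δ₁ : ℝ, 0 < δ ∧ δ ≤ η₀ ∧ 0 < δ₁ ∧ δ₁ ≤ η₀ ∧ ∃ β : ℂ × ℂ → ℂ,
      AnalyticOnNhd ℂ β (ball c ε' ×ˢ ball (0 : ℂ) δ) ∧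
      (∀ p ∈ ball c ε' ×ˢ ball (0 : ℂ) δ, ‖β p‖ < δ₁ ∧ nbRflD P p.1 p.2 (β p) = 0) ∧
      (∀ p ∈ ball c ε' ×ˢ ball (0 : ℂ) δ, ∀ b : ℂ, ‖b‖ < δ₁ → nbRflD P p.1 p.2 b = 0 → b = β p) := by
  have hsub : closedBall c ε' ⊆ ball c ε := closedBall_subset_ball hε'
  obtain ⟨δ, δ₁, hδ, hδη, hδ₁, hδ₁η, v, hv, -, hv1, hv2⟩ :=
    s4l_ifk (K := closedBall c ε') (isCompact_closedBall c ε') (convex_closedBall c ε')
      (G := fun q : ℂ × ℂ × ℂ => nbRflD P q.1 q.2.1 q.2.2)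
      (fun x hx => s4l_rflD_analyticAt hP.an (p := (x, 0, 0)) (hsub hx) (by simpa using hsub hx)
        (by simpa using hsub hx))
      (fun x _ => Eventually.of_forall fun x' => s4l_rflD_zero P x')
      (fun x hx => by
        have h1 := s4l_rflD_deriv hP.an (hsub hx)
        simp only
        rw [h1]
        exact div_ne_zero (neg_ne_zero.2 (mul_ne_zero (hP.q_ne x (hsub hx)) (hP.k_ne x (hsub hx))))
          two_ne_zero) hη₀
  have hsub2 : ball c ε' ×ˢ ball (0 : ℂ) δ ⊆ thickening δ (closedBall c ε') ×ˢ ball (0 : ℂ) δ :=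
    prod_mono_left (ball_subset_closedBall.trans (self_subset_thickening hδ _))
  exact ⟨δ, δ₁, hδ, hδη, hδ₁, hδ₁η, v, hv.mono hsub2, fun p hp => hv1 p (hsub2 hp),
    fun p hp => hv2 p (hsub2 hp)⟩

end Claimed.Agent.R269
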