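/-
Row 269, unit 4L (Cor 4.9): CONTINUATION OF THE IMPACT MAP IN STEEP DIRECTIONS (glue of reflmap, lift, rec, acc, prop).  helper3.
-/
import Claimed.Agent.R269.S4.NatRefl
import Claimed.Agent.R269.S4.NatAcc
import Claimed.Agent.R269.S4.NatLift
import Claimed.Agent.R269.S4.NatRec
import Claimed.Agent.R269.S4.NatProp

set_option autoImplicit false

namespace Claimed.Agent.R269

open Complex Filter Topology Set Metric

theorem s4l_steep {P : ℂ → ℂ × ℂ} {c : ℂ} {e : ℝ} (he : 0 < e) (hP : NbArc P c (25 * e))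
    {Xs : ℂ × ℂ → ℂ × ℂ} {b₀ c₂ r : ℝ} (hb₀ : c.im - 2 * e < b₀) (hb₀' : b₀ < c.im - e)
    (hc₂ : 0 < c₂) (hc₂' : c₂ ≤ e / 8) (hr : 0 < r)
    (hS : NbSlab P Xs c.re (16 * e) (b₀ - 2 * c₂) (b₀ + 2 * c₂) r) :
    ∃ r₀ : ℝ, 0 < r₀ ∧ r₀ ≤ r ∧ ∃ E : ℂ × ℂ → ℂ × ℂ,
      AnalyticOnNhd ℂ E (nbRect c.re e (b₀ - c₂ / 2) (c.im + e) ×ˢ nbSteep r₀) ∧
      ∀ z ∈ nbRect c.re e (b₀ - c₂ / 2) (b₀ + c₂ / 2) ×ˢ nbSteep r₀, E z = Xs z := by
  -- the reflection map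
  obtain ⟨δβ, δ₁, hδβ, -, hδ₁, -, β, hβan, -, hβu⟩ :=
    s4l_reflMap hP (ε' := 21 * e) (by linarith) one_pos
  set m : ℝ := min δβ δ₁ with hm
  have hmpos : 0 < m := lt_min hδβ hδ₁
  -- the lift
  have hsub : nbRect c.re (16 * e) (b₀ - 2 * c₂) (b₀ + 2 * c₂) ⊆ ball c (25 * e) :=
    nbRect_subset_ball (by linarith) (by linarith)
  set η₀ : ℝ := min e (m / 4) with hη₀
  have hη₀pos : 0 < η₀ := lt_min he (by linarith)
  obtain ⟨r', hr', hr'r, ℓ, hℓan, hℓ0, hℓX⟩ :=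
    s4l_lift hP hr hS hsub (w' := 15 * e) (a' := b₀ - c₂) (b' := b₀ + c₂) (by linarith)
      (by linarith) (by linarith) hη₀pos
  set r₁ : ℝ := min r' (m / 4) with hr₁
  have hr₁pos : 0 < r₁ := lt_min hr' (by linarith)
  have hr₁r' : r₁ ≤ r' := min_le_left _ _
  have hballs : ball (0 : ℂ) r₁ ⊆ ball (0 : ℂ) r' := ball_subset_ball hr₁r'
  have hprod : nbRect c.re (15 * e) (b₀ - c₂) (b₀ + c₂) ×ˢ ball (0 : ℂ) r₁
      ⊆ nbRect c.re (15 * e) (b₀ - c₂) (b₀ + c₂) ×ˢ ball (0 : ℂ) r' :=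
    prod_mono_right hballs
  have hℓan₁ := hℓan.mono hprod
  have hsub18 : nbRect c.re (15 * e) (b₀ - c₂) (b₀ + c₂) ⊆ ball c (18 * e) :=
    nbRect_subset_ball (by linarith) (by linarith)
  have hℓmem : ∀ z ∈ nbRect c.re (15 * e) (b₀ - c₂) (b₀ + c₂) ×ˢ ball (0 : ℂ) r₁,
      ℓ z ∈ ball c (19 * e) := by
    intro z hz
    have h1 := (hℓX z (hprod hz)).1
    have h2 : dist z.1 c < 18 * e := hsub18 hz.1
    have h3 : dist (ℓ z) z.1 < e := by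
      rw [dist_eq_norm]
      exact h1.trans_le (min_le_left _ _)
    have := dist_triangle (ℓ z) z.1 c
    rw [mem_ball]
    linarith
  -- the exact recurrence
  have hS₁ : NbSlab P Xs c.re (15 * e) (b₀ - c₂) (b₀ + c₂) r₁ :=
    hS.mono (by linarith) (by linarith) (by linarith) (hr₁r'.trans hr'r)
  have hrec := s4l_rec hP (ε' := 21 * e) (δ := δβ) (δ₁ := δ₁) (η₀ := η₀) (by linarith) hβu hr₁pos hS₁
    hℓan₁ hℓ0
    (fun z hz => ⟨(hℓX z (hprod hz)).1, ball_subset_ball (by linarith) (hℓmem z hz),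
      (hℓX z (hprod hz)).2⟩)
    (by
      have h1 : r₁ ≤ m / 4 := min_le_right _ _
      have h2 : η₀ ≤ m / 4 := min_le_right _ _
      linarith)
  -- accuracy
  set y₀ : ℂ := ⟨c.re, b₀⟩ with hy₀
  have hy₀R : y₀ ∈ nbRect c.re (15 * e) (b₀ - c₂) (b₀ + c₂) := by
    refine ⟨?_, ?_, ?_⟩
    · simp only [hy₀, sub_self, abs_zero]
      linarith
    · simp only [hy₀]
      linarith
    · simp only [hy₀]
      linarith
  have hRopen := isOpen_nbRect c.re (15 * e) (b₀ - c₂) (b₀ + c₂)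
  have hz₀ : (y₀, (0 : ℂ)) ∈ nbRect c.re (15 * e) (b₀ - c₂) (b₀ + c₂) ×ˢ ball (0 : ℂ) r₁ :=
    ⟨hy₀R, mem_ball_self hr₁pos⟩
  obtain ⟨C, hC, hacc⟩ := s4l_acc hβan hδβ (y₀ := y₀)
    (ball_subset_ball (by linarith) (hsub18 hy₀R)) (hℓan₁ _ hz₀)
    (by filter_upwards [hRopen.mem_nhds hy₀R] with y hy using hℓ0 y hy)
    (by
      have hc1 : ContinuousAt (fun z : ℂ × ℂ => z.1 - z.2) (y₀, (0 : ℂ)) := by fun_prop
      have hc2 : ContinuousAt (fun z : ℂ × ℂ => z.1 + z.2) (y₀, (0 : ℂ)) := by fun_prop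
      have h1 := hc1.preimage_mem_nhds (t := nbRect c.re (15 * e) (b₀ - c₂) (b₀ + c₂))
        (hRopen.mem_nhds (by simpa using hy₀R))
      have h2 := hc2.preimage_mem_nhds (t := nbRect c.re (15 * e) (b₀ - c₂) (b₀ + c₂))
        (hRopen.mem_nhds (by simpa using hy₀R))
      filter_upwards [(hRopen.prod isOpen_ball).mem_nhds hz₀, h1, h2] with z hz hz1 hz2
      exact hrec z hz hz1 hz2)
    (ε' := 20 * e) (δ' := δβ / 2) (by linarith) (by linarith)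
  -- propagation
  have hprop : NbProp c e b₀ c₂ r₁ (δβ / 2) C β ℓ :=
    { e_pos := he
      b₀_gt := hb₀
      b₀_lt := hb₀'
      c₂_pos := hc₂
      c₂_le := hc₂'
      r₁_pos := hr₁pos
      δ_pos := by linarith
      C_nonneg := hC
      β_an := hβan.mono (prod_mono (ball_subset_ball (by linarith)) (ball_subset_ball (by linarith)))
      β_acc := hacc
      ℓ_an := hℓan₁
      ℓ_zero := hℓ0
      ℓ_rec := hrec }
  obtain ⟨r₀, hr₀, hr₀r₁, ℓh, hℓh, hℓhmem, hℓheq⟩ := s4l_prop hprop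
  refine ⟨r₀, hr₀, hr₀r₁.trans (hr₁r'.trans hr'r), fun z => P (ℓh z), ?_, ?_⟩
  · intro z hz
    exact (hP.an _ (ball_subset_ball (by linarith) (hℓhmem z hz))).comp (hℓh z hz)
  · intro z hz
    have hz' : z ∈ nbRect c.re (15 * e) (b₀ - c₂) (b₀ + c₂) ×ˢ ball (0 : ℂ) r' :=
      ⟨nbRect_mono (by linarith) (by linarith) (by linarith) hz.1,
        ball_subset_ball (hr₀r₁.trans hr₁r') (nbSteep_subset_ball r₀ hz.2)⟩
    show P (ℓh z) = Xs z
    rw [hℓheq z hz, (hℓX z hz').2]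

end Claimed.Agent.R269
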