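/-
Row 269, unit 4L: COROLLARY 4.9 (natural boundary of the shape).  THE EXPORT `s4l_nat_bdry`.   helper3.   No `sorry` in this file.

Glue:  a continuation patch `P` of `Γ = X(.,0)` at an edge point  →  regular edge point `c` (`NbCtx.exists_regular`)  →  clean slab below the edge with the two transported identities
(`NbCtx.exists_slab`)  →  continuation of `X` for steep `t` and steep `-t` (`s4l_steep`)  →  Hartogs figure of quadratic discs, one for each component (`s4l_fig`)  →  joint patch of `X` at `(c,0)`: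
contradiction with Theorem 4.8 (`no_patch_X` at `t₀ = 0`).   The lower edge is reduced to the upper one by the real symmetry (`NbCtx.patch_conj`).
-/
import Claimed.Agent.R269.S4.NatSteep
import Claimed.Agent.R269.S4.NatFigC
import Claimed.Agent.R269.S4.NatHostC
import Claimed.Agent.R269.S4.NatHostD

set_option autoImplicit false

namespace Claimed.Agent.R269

open Complex ComplexConjugate Filter Topology Set Metric
open scoped ENNReal

variable {G : Glance} {ρ : ℝ} {X : ℂ × ℂ → ℂ × ℂ}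

/-- a clean slab below the edge. -/
theorem NbCtx.exists_slab (h : NbCtx G ρ X) {c : ℂ} (hc : ENNReal.ofReal c.im = G.Hs) {e : ℝ}
    (he : 0 < e) (hec : 25 * e < c.im) {P : ℂ → ℂ × ℂ} (hP : NbArc P c (25 * e))
    (hPX : ∀ s ∈ ball c (25 * e), s.im < c.im → P =ᶠ[𝓝[≠] s] fun s' => X (s', 0)) :
    ∃ b₀ c₂ r : ℝ, c.im - 2 * e < b₀ ∧ b₀ < c.im - e ∧ 0 < c₂ ∧ c₂ ≤ e / 8 ∧ 0 < r ∧
      NbSlab P X c.re (16 * e) (b₀ - 2 * c₂) (b₀ + 2 * c₂) r := by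
  obtain ⟨b₀, c₂, r₁, hb₀, hb₀', hc₂, hc₂', hr₁, han⟩ := h.exists_row hc he hec
  have hcpos : 0 < c.im := by linarith
  have hs := NbCtx.s_pos G
  have hb : ENNReal.ofReal (c.im - e / 2) < G.Hs := by
    rw [← hc]
    exact (ENNReal.ofReal_lt_ofReal_iff hcpos).2 (by linarith)
  obtain ⟨r₂, hr₂, hr₂ρ, hbox⟩ := h.box hb
  have hRsub : nbRect c.re (16 * e) (b₀ - 2 * c₂) (b₀ + 2 * c₂) ⊆ hband (-(G.s / 2)) (c.im - e / 2) := by
    intro y hy
    exact ⟨by linarith [hy.2.1], by linarith [hy.2.2]⟩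
  have hRball : nbRect c.re (16 * e) (b₀ - 2 * c₂) (b₀ + 2 * c₂) ⊆ ball c (25 * e) :=
    nbRect_subset_ball (by linarith) (by linarith)
  have hl : ball (0 : ℂ) (min r₁ r₂) ⊆ ball (0 : ℂ) r₁ := ball_subset_ball (min_le_left _ _)
  have hrr : ball (0 : ℂ) (min r₁ r₂) ⊆ ball (0 : ℂ) r₂ := ball_subset_ball (min_le_right _ _)
  refine ⟨b₀, c₂, min r₁ r₂, hb₀, hb₀', hc₂, hc₂', lt_min hr₁ hr₂,
    { an := han.mono (prod_mono_right hl), zero := ?_, rank := ?_, refl := ?_ }⟩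
  · intro y hy
    have hXa : AnalyticAt ℂ X (y, (0 : ℂ)) := han _ ⟨hy, mem_ball_self hr₁⟩
    have hXc : ContinuousAt (fun s' : ℂ => X (s', 0)) y :=
      ContinuousAt.comp (f := fun s' : ℂ => (s', (0 : ℂ))) (g := X) hXa.continuousAt (by fun_prop)
    have hPc : ContinuousAt P y := (hP.an y (hRball hy)).continuousAt
    have hev := hPX y (hRball hy) (by linarith [hy.2.2])
    have h1 : Tendsto P (𝓝[≠] y) (𝓝 (P y)) := hPc.tendsto.mono_left nhdsWithin_le_nhds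
    have h2 : Tendsto (fun s' : ℂ => X (s', 0)) (𝓝[≠] y) (𝓝 (X (y, 0))) :=
      hXc.tendsto.mono_left nhdsWithin_le_nhds
    exact tendsto_nhds_unique h2 (h1.congr' hev)
  · intro z hz
    exact h.jac_zero (b := c.im - e / 2) (by linarith) hr₂ hr₂ρ hbox ⟨hRsub hz.1, hrr hz.2⟩
      (han z ⟨hz.1, hl hz.2⟩)
  · intro z hz hz₁ hz₂
    exact h.rfl_zero (b := c.im - e / 2) (by linarith) hr₂ hr₂ρ hbox ⟨hRsub hz.1, hrr hz.2⟩
      (hRsub hz₁) (hRsub hz₂) (han z ⟨hz.1, hl hz.2⟩) (han _ ⟨hz₁, hl hz.2⟩) (han _ ⟨hz₂, hl hz.2⟩)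

/-- meromorphy of the components of `X` on boxes below the edge. -/
theorem NbCtx.mero_box (h : NbCtx G ρ X) {c : ℂ} (hc : ENNReal.ofReal c.im = G.Hs) (hcpos : 0 < c.im)
    {e a₀ : ℝ} (ha₀ : 0 ≤ a₀) {b : ℝ} (hb : b < c.im) :
    ∃ r : ℝ, 0 < r ∧ Mero2On (fun z => (X z).1) (nbRect c.re e a₀ b ×ˢ ball (0 : ℂ) r) ∧
      Mero2On (fun z => (X z).2) (nbRect c.re e a₀ b ×ˢ ball (0 : ℂ) r) := by
  have hs := NbCtx.s_pos G
  have hb' : ENNReal.ofReal b < G.Hs := by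
    rw [← hc]
    exact (ENNReal.ofReal_lt_ofReal_iff hcpos).2 hb
  obtain ⟨r, hr, -, hbox⟩ := h.box hb'
  have hsub : nbRect c.re e a₀ b ×ˢ ball (0 : ℂ) r ⊆ G.tube ρ := by
    refine Subset.trans (prod_mono_left ?_) hbox
    intro y hy
    exact ⟨by linarith [hy.2.1], hy.2.2⟩
  exact ⟨r, hr, fun z hz => h.mero₁.mero2On z (hsub hz), fun z hz => h.mero₂.mero2On z (hsub hz)⟩

/-- **Corollary 4.9, upper edge.** -/
theorem s4l_upper (h : NbCtx G ρ X)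
    (hnp : ∀ y₁ : ℂ, ENNReal.ofReal y₁.im = G.hX 0 → ¬ G.JointPatchAt G.X0 y₁ 0)
    {s₀ : ℂ} (hs₀ : ENNReal.ofReal s₀.im = G.Hs) {ε : ℝ} {P : ℂ → ℂ × ℂ}
    (hP : NbPatch G X s₀ ε P) : False := by
  obtain ⟨c, e, hcs, he, hec, hArc, hPX⟩ := h.exists_regular hs₀ hP
  have hc : ENNReal.ofReal c.im = G.Hs := by rw [hcs]; exact hs₀
  have hcpos : 0 < c.im := by linarith
  have hs := NbCtx.s_pos G
  obtain ⟨b₀, c₂, r, hb₀, hb₀', hc₂, hc₂', hr, hS⟩ := h.exists_slab hc he hec hArc hPX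
  obtain ⟨rp, hrp, -, Ep, hEpan, hEpeq⟩ := s4l_steep he hArc hb₀ hb₀' hc₂ hc₂' hr hS
  obtain ⟨rm, hrm, -, Em, hEman, hEmeq⟩ := s4l_steep he hArc hb₀ hb₀' hc₂ hc₂' hr hS.neg
  have hr₀ : 0 < min rp rm := lt_min hrp hrm
  have hsp : nbSteep (min rp rm) ⊆ nbSteep rp := nbSteep_mono (min_le_left _ _)
  have hsm : nbSteep (min rp rm) ⊆ nbSteep rm := nbSteep_mono (min_le_right _ _)
  have ha₀ : 0 ≤ b₀ - c₂ / 2 := by linarith
  have hEpan' := hEpan.mono (prod_mono_right hsp)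
  have hEman' := hEman.mono (prod_mono_right hsm)
  have hFig₁ : NbFig c.re c.im e (b₀ - c₂ / 2) (b₀ + c₂ / 2) (min rp rm) (fun z => (X z).1)
      (fun z => (Ep z).1) (fun z => (Em z).1) :=
    { e_pos := he
      a₀_lt := by linarith
      a₀_le := by linarith
      r₀_pos := hr₀
      F_mero := fun b hb => by
        obtain ⟨r', hr', h1, -⟩ := h.mero_box hc hcpos (e := e) ha₀ hb
        exact ⟨r', hr', h1⟩
      Ep_an := fun z hz => analyticAt_fst.comp (hEpan' z hz)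
      Ep_eq := fun z hz => by
        show (Ep z).1 = (X z).1
        rw [hEpeq z ⟨hz.1, hsp hz.2⟩]
      Em_an := fun z hz => analyticAt_fst.comp (hEman' z hz)
      Em_eq := fun z hz => by
        show (Em z).1 = (X (z.1, -z.2)).1
        rw [hEmeq z ⟨hz.1, hsm hz.2⟩] }
  have hFig₂ : NbFig c.re c.im e (b₀ - c₂ / 2) (b₀ + c₂ / 2) (min rp rm) (fun z => (X z).2)
      (fun z => (Ep z).2) (fun z => (Em z).2) :=
    { e_pos := he
      a₀_lt := by linarith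
      a₀_le := by linarith
      r₀_pos := hr₀
      F_mero := fun b hb => by
        obtain ⟨r', hr', -, h2⟩ := h.mero_box hc hcpos (e := e) ha₀ hb
        exact ⟨r', hr', h2⟩
      Ep_an := fun z hz => analyticAt_snd.comp (hEpan' z hz)
      Ep_eq := fun z hz => by
        show (Ep z).2 = (X z).2
        rw [hEpeq z ⟨hz.1, hsp hz.2⟩]
      Em_an := fun z hz => analyticAt_snd.comp (hEman' z hz)
      Em_eq := fun z hz => by
        show (Em z).2 = (X (z.1, -z.2)).2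
        rw [hEmeq z ⟨hz.1, hsm hz.2⟩] }
  obtain ⟨ε₁, hε₁, Pt₁, hPt₁, hag₁⟩ := s4l_fig hFig₁
  obtain ⟨ε₂, hε₂, Pt₂, hPt₂, hag₂⟩ := s4l_fig hFig₂
  rw [Complex.re_add_im c] at hPt₁ hag₁ hPt₂ hag₂
  set ε' : ℝ := min ε₁ (min ε₂ c.im) with hε'def
  have hε' : 0 < ε' := lt_min hε₁ (lt_min hε₂ hcpos)
  have hε'₁ : ε' ≤ ε₁ := min_le_left _ _
  have hε'₂ : ε' ≤ ε₂ := (min_le_right _ _).trans (min_le_left _ _)
  have hε'c : ε' ≤ c.im := (min_le_right _ _).trans (min_le_right _ _)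
  have hb : c.im - ε' / 2 < c.im := by linarith
  obtain ⟨r₁, hr₁, hag₁'⟩ := hag₁ _ hb
  obtain ⟨r₂, hr₂, hag₂'⟩ := hag₂ _ hb
  have hb' : ENNReal.ofReal (c.im - ε' / 2) < G.Hs := by
    rw [← hc]
    exact (ENNReal.ofReal_lt_ofReal_iff hcpos).2 hb
  obtain ⟨r₃, hr₃, hr₃ρ, hbox⟩ := h.box hb'
  set rV : ℝ := min r₃ (min r₁ r₂) with hrVdef
  have hrV : 0 < rV := lt_min hr₃ (lt_min hr₁ hr₂)
  have hrV₃ : rV ≤ r₃ := min_le_left _ _
  have hrV₁ : rV ≤ r₁ := (min_le_right _ _).trans (min_le_left _ _)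
  have hrV₂ : rV ≤ r₂ := (min_le_right _ _).trans (min_le_right _ _)
  refine hnp c hc ⟨ε', fun z => (Pt₁ z, Pt₂ z), c.im - ε' / 2, ball (0 : ℂ) rV, X, hε',
    ⟨fun z hz => hPt₁ z ⟨ball_subset_ball hε'₁ hz.1, ball_subset_ball hε'₁ hz.2⟩,
      fun z hz => hPt₂ z ⟨ball_subset_ball hε'₂ hz.1, ball_subset_ball hε'₂ hz.2⟩⟩,
    by linarith, by linarith, by linarith, mem_ball_self hrV,
    h.primary (hrV₃.trans hr₃ρ) (Subset.trans (prod_mono_right (ball_subset_ball hrV₃)) hbox), ?_⟩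
  intro z hz
  exact ⟨hag₁' z ⟨⟨ball_subset_ball hε'₁ hz.1.1, hz.1.2.2⟩, ball_subset_ball hrV₁ hz.2.2⟩,
    hag₂' z ⟨⟨ball_subset_ball hε'₂ hz.1.1, hz.1.2.2⟩, ball_subset_ball hrV₂ hz.2.2⟩⟩

/-- **P1 Corollary 4.9**: the field `nat_bdry` of `Sec4` (S5/Pre.lean). -/
theorem s4l_nat_bdry (h : NbCtx G ρ X)
    (hnp : ∀ y₁ : ℂ, ENNReal.ofReal y₁.im = G.hX 0 → ¬ G.JointPatchAt G.X0 y₁ 0) :
    ∀ s₀ : ℂ, ENNReal.ofReal |s₀.im| = G.Hs →
      ¬ ∃ (ε : ℝ) (P : ℂ → ℂ × ℂ), 0 < ε ∧ MeromorphicOn (fun s => (P s).1) (Metric.ball s₀ ε) ∧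
        MeromorphicOn (fun s => (P s).2) (Metric.ball s₀ ε) ∧
        ∀ s ∈ Metric.ball s₀ ε ∩ estrip G.Hs, P =ᶠ[𝓝[≠] s] fun s' => X (s', 0) := by
  rintro s₀ hs₀ ⟨ε, P, hP⟩
  have hP' : NbPatch G X s₀ ε P := hP
  rcases le_total 0 s₀.im with h0 | h0
  · rw [abs_of_nonneg h0] at hs₀
    exact s4l_upper h hnp hs₀ hP'
  · rw [abs_of_nonpos h0] at hs₀
    exact s4l_upper h hnp (s₀ := conj s₀) (by simpa using hs₀) (h.patch_conj hP')

end Claimed.Agent.R269
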