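/-
Row 269, P1 Section 4, unit 4J (wall analysis = proof of Theorem 4.8 from LENS-L, LENS-P, ALG2).
DEFINITIONS.  Owner: helper264.   Design: origin/helper264:notes269/S4-architecture.md, section 1.

INTERFACE TO UNIT 4C (helper19):  `Ctx4C G`  = everything the wall analysis uses about widths and primary extensions.
  `G.tubeU F₀`      the upper tube `{(y,t) : |t| < r₁, -(s/2) < Im y < h_F(t)}`
  `MaxExt0 G F₀`    a maximal primary extension `F` on the upper tube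
  `M.IsPatch P W`   `P` is meromorphic on the open set `W` and has the germs of `F` at all points of `W` in the tube
  `MaxExt G F₀`     + tube open, lower bound, boxes, periodicity, `of_joint`, GLUE (step A3)

UNIVERSAL JETS.  All differential-algebraic relations (LENS-L, LENS-P, ALG2, the Bezout identities) are written as
`MvPolynomial.eval (jetU PL PX A z) R = 0`, `R : MvPolynomial Var ℂ`, `Var = Idx ⊕ (Idx ⊕ ℕ)`:
  `Sum.inl (j,c,a,b)`            `∂_y^a ∂_t^b` of the coordinate `c` of the LINE field  `PL j` at `(y + j t, t)`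
  `Sum.inr (Sum.inl (j,c,a,b))`  the same for the IMPACT field `PX j` at `(y + (j + 1/2) t, t)`
  `Sum.inr (Sum.inr b)`          `A^{(b)}(t)`.
The fields are FAMILIES indexed by the shift `j`: near a wall point each shifted point has its own local patch.
-/
import Claimed.Agent.R269.Lib.Mero2b

set_option autoImplicit false

namespace Claimed.Agent.R269

open Complex Filter Topology Set Polynomial
open scoped ENNReal Real

/-! ### Interface to unit 4C -/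

namespace Glance

/-- the upper tube of the primary branch of `F₀`. -/
def tubeU (G : Glance) (F₀ : ℂ × ℂ → ℂ × ℂ) : Set (ℂ × ℂ) :=
  {z | z.2 ∈ Metric.ball (0 : ℂ) G.r₁ ∧ -(G.s / 2) < z.1.im ∧
    ENNReal.ofReal z.1.im < G.width F₀ z.2}

end Glance

/-- a maximal primary extension on the upper tube. -/
structure MaxExt0 (G : Glance) (F₀ : ℂ × ℂ → ℂ × ℂ) where
  F : ℂ × ℂ → ℂ × ℂ
  mero : Mero2On₂ F (G.tubeU F₀)
  base : ∀ z ∈ hstrip (G.s / 2) ×ˢ Metric.ball (0 : ℂ) G.r₁, F z = F₀ z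

/-- `P` continues the primary branch on the open set `W`. -/
def MaxExt0.IsPatch {G : Glance} {F₀ : ℂ × ℂ → ℂ × ℂ} (M : MaxExt0 G F₀) (P : ℂ × ℂ → ℂ × ℂ)
    (W : Set (ℂ × ℂ)) : Prop :=
  IsOpen W ∧ Mero2On₂ P W ∧ ∀ z ∈ W ∩ G.tubeU F₀, Mero2EqAt₂ P M.F z

/-- what unit 4C exports about the primary branch of `F₀` (`F₀ = G.L0` or `G.X0`). -/
structure MaxExt (G : Glance) (F₀ : ℂ × ℂ → ℂ × ℂ) extends MaxExt0 G F₀ where
  isOpen_tube : IsOpen (G.tubeU F₀)
  low : ∀ t ∈ Metric.ball (0 : ℂ) G.r₁, ENNReal.ofReal G.s ≤ G.width F₀ t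
  box : ∀ z ∈ G.tubeU F₀, ∃ b δ : ℝ, z.1.im < b ∧ 0 < δ ∧
    hband (-(G.s / 2)) b ×ˢ Metric.ball z.2 δ ⊆ G.tubeU F₀
  per : ∀ z ∈ G.tubeU F₀, Mero2EqAt₂ (fun w => F (w.1 + 2 * π, w.2)) F z
  of_joint : ∀ y₁ t₀ : ℂ, G.JointPatchAt F₀ y₁ t₀ → ∃ (ε : ℝ) (P : ℂ × ℂ → ℂ × ℂ), 0 < ε ∧
    toMaxExt0.IsPatch P (Metric.ball y₁ ε ×ˢ Metric.ball t₀ ε)
  /-- step (A3): the wall cannot consist of good points. -/
  glue : ∀ (t : ℂ) (H : ℝ), t ∈ Metric.ball (0 : ℂ) G.r₁ → G.width F₀ t = ENNReal.ofReal H →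
    (∀ y : ℂ, y.im = H → ∃ (W : Set (ℂ × ℂ)) (P : ℂ × ℂ → ℂ × ℂ), (y, t) ∈ W ∧
      toMaxExt0.IsPatch P W) → False

/-- EVERYTHING unit 4J uses from unit 4C. -/
structure Ctx4C (G : Glance) where
  ρ : ℝ
  ρ_pos : 0 < ρ
  ρ_le : ρ ≤ G.r₁
  width_rel : ∀ t ∈ Metric.ball (0 : ℂ) ρ, G.hL t = G.hX t + ENNReal.ofReal (|t.im| / 2)
  lsc_X : LowerSemicontinuousOn G.hX (Metric.ball 0 ρ)
  lsc_L : LowerSemicontinuousOn G.hL (Metric.ball 0 ρ)
  supermean_X : SuperMeanOn G.hX ρ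
  supermean_L : SuperMeanOn G.hL ρ
  mL : MaxExt G G.L0
  mX : MaxExt G G.X0

/-- the line field continues meromorphically to a neighbourhood of `(y,t)`. -/
def Ctx4C.Good {G : Glance} (K : Ctx4C G) (t y : ℂ) : Prop :=
  ∃ (W : Set (ℂ × ℂ)) (P : ℂ × ℂ → ℂ × ℂ), (y, t) ∈ W ∧ K.mL.IsPatch P W

/-! ### Universal jets -/

/-- jets of a family of line fields: the variable with shift index `j` is read off the field `P j` at `(y + j t, t)`. -/
noncomputable def jetFam (P : ℤ → ℂ × ℂ → ℂ × ℂ) (z : ℂ × ℂ) : Idx → ℂ :=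
  fun i => pd i.2.2.1 i.2.2.2 (fun w => crd i.2.1 (P i.1 w)) (z.1 + (i.1 : ℂ) * z.2, z.2)

/-- the same at the half-integer shifts `(y + (j + 1/2) t, t)`. -/
noncomputable def jetFamH (P : ℤ → ℂ × ℂ → ℂ × ℂ) (z : ℂ × ℂ) : Idx → ℂ :=
  fun i => pd i.2.2.1 i.2.2.2 (fun w => crd i.2.1 (P i.1 w)) (z.1 + ((i.1 : ℂ) + 1 / 2) * z.2, z.2)

/-- the universal jet variables. -/
abbrev Var := Idx ⊕ (Idx ⊕ ℕ)

/-- the universal jet assignment. -/
noncomputable def jetU (PL PX : ℤ → ℂ × ℂ → ℂ × ℂ) (A : ℂ → ℂ) (z : ℂ × ℂ) : Var → ℂ :=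
  Sum.elim (jetFam PL z) (Sum.elim (jetFamH PX z) (fun b => iteratedDeriv b A z.2))

/-- the jets of the primary branches on the initial domain. -/
noncomputable def Glance.jet0 (G : Glance) (z : ℂ × ℂ) : Var → ℂ :=
  jetU (fun _ => G.L0) (fun _ => G.X0) G.A z

/-- the jets of the maximal primary extensions. -/
noncomputable def Ctx4C.jetM {G : Glance} (K : Ctx4C G) (z : ℂ × ℂ) : Var → ℂ :=
  jetU (fun _ => K.mL.F) (fun _ => K.mX.F) G.A z

/-- a bounded set of shift indices (`sL`: line fields, `sX`: impact fields). -/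
structure ShiftSet where
  sL : Set ℤ
  sX : Set ℤ
  N : ℕ
  bdL : ∀ j ∈ sL, |j| ≤ (N : ℤ)
  bdX : ∀ j ∈ sX, |j| + 1 ≤ (N : ℤ)

/-- add a line shift. -/
def ShiftSet.insertL (σ : ShiftSet) (j : ℤ) (hj : |j| ≤ (σ.N : ℤ)) : ShiftSet where
  sL := insert j σ.sL
  sX := σ.sX
  N := σ.N
  bdL := by
    intro i hi
    rcases hi with rfl | hi
    · exact hj
    · exact σ.bdL i hi
  bdX := σ.bdX

/-- the variables whose shift index is allowed by `σ`. -/
def ShiftSet.allow (σ : ShiftSet) : Set Var :=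
  {v | (∀ i : Idx, v = Sum.inl i → i.1 ∈ σ.sL) ∧ ∀ i : Idx, v = Sum.inr (Sum.inl i) → i.1 ∈ σ.sX}

/-- the polynomials in the allowed variables. -/
def ShiftSet.Supp (σ : ShiftSet) (R : MvPolynomial Var ℂ) : Prop :=
  R ∈ MvPolynomial.supported ℂ σ.allow

/-- the two families of fields have the same meromorphic germs at all the shifted points of `z`
(with `PL' = PL`, `PX' = PX`: the fields are meromorphic at the shifted points). -/
def JetEq (σ : ShiftSet) (PL PX PL' PX' : ℤ → ℂ × ℂ → ℂ × ℂ) (z : ℂ × ℂ) : Prop :=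
  (∀ j ∈ σ.sL, Mero2EqAt₂ (PL j) (PL' j) (z.1 + (j : ℂ) * z.2, z.2)) ∧
  (∀ j ∈ σ.sX, Mero2EqAt₂ (PX j) (PX' j) (z.1 + ((j : ℂ) + 1 / 2) * z.2, z.2))

/-- the fields `PL j`, `PX j` are patches of the primary branches near the shifted points of `z`. -/
def Ctx4C.JetPatch {G : Glance} (K : Ctx4C G) (σ : ShiftSet) (PL PX : ℤ → ℂ × ℂ → ℂ × ℂ)
    (z : ℂ × ℂ) : Prop :=
  (∀ j ∈ σ.sL, ∃ W, (z.1 + (j : ℂ) * z.2, z.2) ∈ W ∧ K.mL.IsPatch (PL j) W) ∧
  (∀ j ∈ σ.sX, ∃ W, (z.1 + ((j : ℂ) + 1 / 2) * z.2, z.2) ∈ W ∧ K.mX.IsPatch (PX j) W)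

namespace Glance

variable (G : Glance)

/-- `R` is a differential relation of the primary branches. -/
structure IsRel (σ : ShiftSet) (R : MvPolynomial Var ℂ) : Prop where
  supp : σ.Supp R
  zero : ∀ z ∈ G.dom σ.N, MvPolynomial.eval (G.jet0 z) R = 0

/-- `R` is NOT a differential relation of the primary branches. -/
structure IsNonRel (σ : ShiftSet) (R : MvPolynomial Var ℂ) : Prop where
  supp : σ.Supp R
  ne : ∃ z ∈ G.dom σ.N, MvPolynomial.eval (G.jet0 z) R ≠ 0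

/-- universal form of LENS-L / LENS-P: the coordinate `c` of the line `L(y,t)` is a root of a separable polynomial with
coefficients in the jets allowed by `σ`. -/
structure Lens (c : Fin 2) (σ : ShiftSet) where
  Pi : Polynomial (MvPolynomial Var ℂ)
  A : Polynomial (MvPolynomial Var ℂ)
  B : Polynomial (MvPolynomial Var ℂ)
  D : MvPolynomial Var ℂ
  deg : 1 ≤ Pi.natDegree
  supp_Pi : ∀ l, σ.Supp (Pi.coeff l)
  supp_A : ∀ l, σ.Supp (A.coeff l)
  supp_B : ∀ l, σ.Supp (B.coeff l)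
  supp_D : σ.Supp D
  bezout : ∀ z ∈ G.dom σ.N,
    (A * Pi + B * derivative Pi - C D).map (MvPolynomial.eval (G.jet0 z)) = 0
  nondeg : ∃ z ∈ G.dom σ.N, MvPolynomial.eval (G.jet0 z) D ≠ 0 ∧
    MvPolynomial.eval (G.jet0 z) Pi.leadingCoeff ≠ 0
  root : ∀ z ∈ G.dom σ.N, (Pi.map (MvPolynomial.eval (G.jet0 z))).eval (crd c (G.L0 z)) = 0

variable {G}

/-- the coefficient function of `q` along the jet assignment `J`, in normal form. -/
noncomputable def cf (J : ℂ × ℂ → Var → ℂ) (q : MvPolynomial Var ℂ) : ℂ × ℂ → ℂ :=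
  mnf fun w => MvPolynomial.eval (J w) q

/-- `z` is a regular point of the lens datum along `J`: all coefficient functions are analytic at `z`, the Bezout constant
and the leading coefficient do not vanish at `z`. -/
structure Lens.RegAt {c : Fin 2} {σ : ShiftSet} (Λ : G.Lens c σ) (J : ℂ × ℂ → Var → ℂ)
    (z : ℂ × ℂ) : Prop where
  an_Pi : ∀ l, AnalyticAt ℂ (cf J (Λ.Pi.coeff l)) z
  an_A : ∀ l, AnalyticAt ℂ (cf J (Λ.A.coeff l)) z
  an_B : ∀ l, AnalyticAt ℂ (cf J (Λ.B.coeff l)) z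
  an_D : AnalyticAt ℂ (cf J Λ.D) z
  ne_D : cf J Λ.D z ≠ 0
  ne_lc : cf J Λ.Pi.leadingCoeff z ≠ 0

end Glance

/-- a lens configuration: an open set `Ω` of points `z` all of whose `σ`-shifted points carry the patches `PL j`, `PX j`,
with lens data for both coordinates of the line `L(z)`. -/
structure LensCfg {G : Glance} (K : Ctx4C G) where
  σ : ShiftSet
  zero_not_mem : (0 : ℤ) ∉ σ.sL
  Ω : Set (ℂ × ℂ)
  isOpen : IsOpen Ω
  param : ∀ z ∈ Ω, z.2 ∈ Metric.ball (0 : ℂ) G.r₁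
  PL : ℤ → ℂ × ℂ → ℂ × ℂ
  PX : ℤ → ℂ × ℂ → ℂ × ℂ
  patch : ∀ z ∈ Ω, K.JetPatch σ PL PX z
  lens : (c : Fin 2) → G.Lens c σ

end Claimed.Agent.R269
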