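/-
Row 269, P1 Section 4, unit 4J, leaf LF-S4-4J-conn: local topology of the upper tube at wall points; elementary facts on patches.
Blueprint: helper264.   Uses only the fields of `MaxExt` (`S4/WallDefs.lean`) and the identity theorem of `Lib/Mero2.lean`.

PLAN.
* `below_mem`: `ofReal (y.im - τ) < width`: if `0 < y.im` then `ofReal` is strictly monotone there; if `y.im ≤ 0` then
  `ofReal (y.im - τ) = 0 < ofReal s ≤ width` (`low`; `0 < G.s` from `G.r₁_pos`, `G.r₁_lt`).  `-(s/2) < y.im - τ` for small `τ`.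
* `conn`: `N ⊇ ball y ε ×ˢ ball t ε` with `-(s/2) < y.im - ε`.  `z* := (y - (ε/2) I, t)` is in the tube; `box` at `z*` gives `b > y.im - ε/2`, `δ`.
  `N' := ball y ε ×ˢ ball t (min ε δ)`.  `Core := (ball y ε ∩ hband (-(s/2)) b) ×ˢ ball t (min ε δ)` is convex, `⊆ tube ∩ N'`, contains `z*`.
  For `(y',t') ∈ tube ∩ N'` the segment `[y', y - (ε/2) I] × {t'}` lies in `tube ∩ N'` (the slice
  `{y'' ∈ ball y ε | -(s/2) < Im y'' ∧ ofReal (Im y'') < width t'}` is convex: `Im` of a convex combination is `≤ max`) and meets `Core`.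
  `isPreconnected_of_forall z*` with the sets `Core ∪ segment × {t'}` (`IsPreconnected.union`).
* `isPatch_of_point`: `conn` with `N`; `W := N'`; pick `τ` small with `(y - τ I, t) ∈ N' ∩ tube` and equal germs;
  `Mero2On.eqAt_of_isPreconnected` on the open preconnected set `tube ∩ N'` for both coordinates.
* `translate`: `per` + induction on `k` (both signs) + `Mero2EqAt.comp_shear` with the constant shear `a = fun _ => -2πk`; the tube is invariant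
  under real translations of `y`.
-/
import Claimed.Agent.R269.S4.WallDefs

set_option autoImplicit false

namespace Claimed.Agent.R269

open Complex Filter Topology Set
open scoped ENNReal Real

theorem MaxExt0.IsPatch.mono {G : Glance} {F₀ : ℂ × ℂ → ℂ × ℂ} {M : MaxExt0 G F₀}
    {P : ℂ × ℂ → ℂ × ℂ} {W W' : Set (ℂ × ℂ)} (h : M.IsPatch P W) (hW' : IsOpen W')
    (hsub : W' ⊆ W) : M.IsPatch P W' :=
  ⟨hW', ⟨fun z hz => h.2.1.1 z (hsub hz), fun z hz => h.2.1.2 z (hsub hz)⟩,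
    fun z hz => h.2.2 z ⟨hsub hz.1, hz.2⟩⟩

/-- translation in `y`: germs. -/
theorem s4j_eqAt₂_translate {F P : ℂ × ℂ → ℂ × ℂ} {z : ℂ × ℂ} (c : ℂ)
    (h : Mero2EqAt₂ F P (z.1 + c, z.2)) :
    Mero2EqAt₂ (fun w => F (w.1 + c, w.2)) (fun w => P (w.1 + c, w.2)) z := by
  have e : ∀ w : ℂ × ℂ, shear (fun _ => c) 0 1 w = (w.1 + c, w.2) := fun w => by simp [shear]
  rw [← e] at h
  have h1 := h.1.comp_shear (a := fun _ => c) analyticAt_const one_ne_zero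
  have h2 := h.2.comp_shear (a := fun _ => c) analyticAt_const one_ne_zero
  simp only [e] at h1 h2
  exact ⟨h1, h2⟩

/-- the slices of the tube are convex. -/
theorem s4j_convex_slice (a : ℝ) (w : ℝ≥0∞) :
    Convex ℝ {y : ℂ | a < y.im ∧ ENNReal.ofReal y.im < w} := by
  have h1 : {y : ℂ | a < y.im ∧ ENNReal.ofReal y.im < w}
      = Complex.imCLM ⁻¹' {r : ℝ | a < r ∧ ENNReal.ofReal r < w} := rfl
  rw [h1]
  refine Convex.linear_preimage ?_ Complex.imCLM.toLinearMap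
  apply Set.OrdConnected.convex
  constructor
  intro p hp q hq r hr
  exact ⟨lt_of_lt_of_le hp.1 hr.1, lt_of_le_of_lt (ENNReal.ofReal_le_ofReal hr.2) hq.2⟩

namespace MaxExt

variable {G : Glance} {F₀ : ℂ × ℂ → ℂ × ℂ}

theorem isPatch_self (M : MaxExt G F₀) : M.IsPatch M.F (G.tubeU F₀) :=
  ⟨M.isOpen_tube, M.mero, fun z hz => ⟨(M.mero.1 z hz.1).refl, (M.mero.2 z hz.1).refl⟩⟩

theorem below_mem' (M : MaxExt G F₀) {y t : ℂ} (ht : t ∈ Metric.ball (0 : ℂ) G.r₁)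
    (hy : ENNReal.ofReal y.im ≤ G.width F₀ t) {τ : ℝ} (h0 : 0 < τ) (h1 : τ < y.im + G.s / 2) :
    (y - (τ : ℂ) * I, t) ∈ G.tubeU F₀ := by
  have e : (y - (τ : ℂ) * I).im = y.im - τ := by simp
  refine ⟨ht, ?_, ?_⟩
  · show -(G.s / 2) < (y - (τ : ℂ) * I).im
    rw [e]
    linarith
  · show ENNReal.ofReal (y - (τ : ℂ) * I).im < G.width F₀ t
    rw [e]
    rcases lt_or_ge 0 y.im with hpos | hneg
    · exact lt_of_lt_of_le ((ENNReal.ofReal_lt_ofReal_iff hpos).2 (by linarith)) hy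
    · have hs : 0 < G.s := G.r₁_pos.trans G.r₁_lt
      have h2 : ENNReal.ofReal (y.im - τ) = 0 := ENNReal.ofReal_eq_zero.2 (by linarith)
      rw [h2]
      exact lt_of_lt_of_le (ENNReal.ofReal_pos.2 hs) (M.low t ht)

theorem below_mem (M : MaxExt G F₀) {y t : ℂ} (ht : t ∈ Metric.ball (0 : ℂ) G.r₁) (hy0 : -(G.s / 2) < y.im)
    (hy : ENNReal.ofReal y.im ≤ G.width F₀ t) :
    ∀ᶠ τ : ℝ in 𝓝[>] (0 : ℝ), (y - (τ : ℂ) * I, t) ∈ G.tubeU F₀ := by
  have h1 : ∀ᶠ τ : ℝ in 𝓝[>] (0 : ℝ), τ < y.im + G.s / 2 :=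
    nhdsWithin_le_nhds (Iio_mem_nhds (by linarith : (0 : ℝ) < y.im + G.s / 2))
  filter_upwards [h1, self_mem_nhdsWithin] with τ h2 h3
  exact M.below_mem' ht hy h3 h2

/-- the tube is "connected at" every point of its closure over the parameter `t`. -/
theorem conn (M : MaxExt G F₀) {y t : ℂ} (ht : t ∈ Metric.ball (0 : ℂ) G.r₁) (hy0 : -(G.s / 2) < y.im)
    (hy : ENNReal.ofReal y.im ≤ G.width F₀ t) :
    ∀ N ∈ 𝓝 (y, t), ∃ N' ⊆ N, IsOpen N' ∧ (y, t) ∈ N' ∧ (G.tubeU F₀ ∩ N').Nonempty ∧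
      IsPreconnected (G.tubeU F₀ ∩ N') := by
  intro N hN
  obtain ⟨ε₀, hε₀, hsub₀⟩ := Metric.mem_nhds_iff.1 hN
  -- shrink
  set ε : ℝ := min ε₀ (y.im + G.s / 2) with hε
  have hεpos : 0 < ε := lt_min hε₀ (by linarith)
  have hεle : ε ≤ ε₀ := min_le_left _ _
  have hεle' : ε ≤ y.im + G.s / 2 := min_le_right _ _
  set y₀ : ℂ := y - ((ε / 2 : ℝ) : ℂ) * I with hy₀
  have hy₀im : y₀.im = y.im - ε / 2 := by simp [hy₀]
  have hz₀ : (y₀, t) ∈ G.tubeU F₀ := M.below_mem' ht hy (by linarith) (by linarith)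
  obtain ⟨b, δ, hb, hδ, hbox⟩ := M.box _ hz₀
  have hb' : y₀.im < b := hb
  have hy₀ball : y₀ ∈ Metric.ball y ε := by
    rw [Metric.mem_ball, dist_eq_norm]
    have : y₀ - y = -(((ε / 2 : ℝ) : ℂ) * I) := by rw [hy₀]; ring
    rw [this, norm_neg, norm_mul, Complex.norm_I, mul_one, Complex.norm_real, Real.norm_eq_abs,
      abs_of_pos (by linarith)]
    linarith
  set η : ℝ := min ε δ with hη
  have hηpos : 0 < η := lt_min hεpos hδ
  set N' : Set (ℂ × ℂ) := Metric.ball y ε ×ˢ Metric.ball t η with hN'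
  set Core : Set (ℂ × ℂ) := (Metric.ball y ε ∩ hband (-(G.s / 2)) b) ×ˢ Metric.ball t η with hCore
  have hy₀band : y₀ ∈ hband (-(G.s / 2)) b := ⟨by rw [hy₀im]; linarith, hb'⟩
  have hCoreSub : Core ⊆ G.tubeU F₀ ∩ N' := by
    rintro ⟨y', t'⟩ ⟨⟨h1, h2⟩, h3⟩
    exact ⟨hbox ⟨h2, Metric.ball_subset_ball (min_le_right _ _) h3⟩, h1, h3⟩
  have hband_conv : Convex ℝ (hband (-(G.s / 2)) b) := by
    have h1 : hband (-(G.s / 2)) b = Complex.imCLM ⁻¹' (Set.Ioo (-(G.s / 2)) b) := rfl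
    rw [h1]
    exact (convex_Ioo _ _).linear_preimage Complex.imCLM.toLinearMap
  have hCoreConn : IsPreconnected Core :=
    (((convex_ball y ε).inter hband_conv).prod (convex_ball t η)).isPreconnected
  have hz₀Core : (y₀, t) ∈ Core := ⟨⟨hy₀ball, hy₀band⟩, Metric.mem_ball_self hηpos⟩
  refine ⟨N', ?_, Metric.isOpen_ball.prod Metric.isOpen_ball,
    ⟨Metric.mem_ball_self hεpos, Metric.mem_ball_self hηpos⟩, ⟨(y₀, t), hCoreSub hz₀Core⟩, ?_⟩
  · rintro ⟨y', t'⟩ ⟨h1, h2⟩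
    apply hsub₀
    rw [Metric.mem_ball, Prod.dist_eq]
    exact max_lt (lt_of_lt_of_le h1 hεle) (lt_of_lt_of_le h2 ((min_le_left _ _).trans hεle))
  · refine isPreconnected_of_forall (y₀, t) ?_
    rintro ⟨y', t'⟩ ⟨hT, hy'N, ht'N⟩
    have hy'N' : y' ∈ Metric.ball y ε := hy'N
    have ht'N' : t' ∈ Metric.ball t η := ht'N
    have hmid : (y₀, t') ∈ Core := ⟨⟨hy₀ball, hy₀band⟩, ht'N'⟩
    refine ⟨Core ∪ segment ℝ y' y₀ ×ˢ {t'}, ?_, Or.inl hz₀Core,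
      Or.inr ⟨left_mem_segment ℝ y' y₀, rfl⟩, ?_⟩
    · refine union_subset hCoreSub ?_
      rintro ⟨y'', t''⟩ ⟨h1, h2⟩
      have h2' : t'' = t' := h2
      subst h2'
      have h1' : y'' ∈ segment ℝ y' y₀ := h1
      have hA : y'' ∈ Metric.ball y ε := (convex_ball y ε).segment_subset hy'N' hy₀ball h1'
      have hB : y'' ∈ {y : ℂ | -(G.s / 2) < y.im ∧ ENNReal.ofReal y.im < G.width F₀ t''} :=
        (s4j_convex_slice _ _).segment_subset ⟨hT.2.1, hT.2.2⟩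
          ⟨(hCoreSub hmid).1.2.1, (hCoreSub hmid).1.2.2⟩ h1'
      exact ⟨⟨hT.1, hB.1, hB.2⟩, hA, ht'N'⟩
    · refine IsPreconnected.union (y₀, t') hmid ⟨right_mem_segment ℝ y' y₀, rfl⟩ hCoreConn ?_
      exact (convex_segment y' y₀).isPreconnected.prod isPreconnected_singleton

/-- one-point criterion. -/
theorem isPatch_of_point (M : MaxExt G F₀) {y t : ℂ} (ht : t ∈ Metric.ball (0 : ℂ) G.r₁) (hy0 : -(G.s / 2) < y.im)
    (hy : ENNReal.ofReal y.im ≤ G.width F₀ t) {P : ℂ × ℂ → ℂ × ℂ} {N : Set (ℂ × ℂ)}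
    (hN : IsOpen N) (hz : (y, t) ∈ N) (hP : Mero2On₂ P N)
    (h : ∃ᶠ τ : ℝ in 𝓝[>] (0 : ℝ), Mero2EqAt₂ P M.F (y - (τ : ℂ) * I, t)) :
    ∃ W ⊆ N, (y, t) ∈ W ∧ M.IsPatch P W := by
  obtain ⟨N', hsub, hN'o, hzN', -, hconn⟩ := M.conn ht hy0 hy N (hN.mem_nhds hz)
  have hcont : Tendsto (fun τ : ℝ => (y - (τ : ℂ) * I, t)) (𝓝[>] (0 : ℝ)) (𝓝 (y, t)) := by
    have hc : Continuous (fun τ : ℝ => (y - (τ : ℂ) * I, t)) := by fun_prop
    have := hc.tendsto 0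
    simp only [Complex.ofReal_zero, zero_mul, sub_zero] at this
    exact this.mono_left nhdsWithin_le_nhds
  have h1 : ∀ᶠ τ : ℝ in 𝓝[>] (0 : ℝ), (y - (τ : ℂ) * I, t) ∈ N' :=
    hcont.eventually (hN'o.mem_nhds hzN')
  obtain ⟨τ, hτ, hτN, hτT⟩ := (h.and_eventually (h1.and (M.below_mem ht hy0 hy))).exists
  have hPm : Mero2On₂ P (G.tubeU F₀ ∩ N') :=
    ⟨fun z hz => hP.1 z (hsub hz.2), fun z hz => hP.2 z (hsub hz.2)⟩
  have hFm : Mero2On₂ M.F (G.tubeU F₀ ∩ N') :=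
    ⟨fun z hz => M.mero.1 z hz.1, fun z hz => M.mero.2 z hz.1⟩
  refine ⟨N', hsub, hzN', hN'o, ⟨fun z hz => hP.1 z (hsub hz), fun z hz => hP.2 z (hsub hz)⟩, ?_⟩
  intro z hz
  exact ⟨Mero2On.eqAt_of_isPreconnected hconn hPm.1 hFm.1 ⟨hτT, hτN⟩ hτ.1 z ⟨hz.2, hz.1⟩,
    Mero2On.eqAt_of_isPreconnected hconn hPm.2 hFm.2 ⟨hτT, hτN⟩ hτ.2 z ⟨hz.2, hz.1⟩⟩

theorem tube_translate (G : Glance) (F₀ : ℂ × ℂ → ℂ × ℂ) {z : ℂ × ℂ} (hz : z ∈ G.tubeU F₀) {c : ℂ}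
    (hc : c.im = 0) : (z.1 + c, z.2) ∈ G.tubeU F₀ := by
  have e : (z.1 + c).im = z.1.im := by simp [hc]
  refine ⟨hz.1, ?_, ?_⟩
  · show -(G.s / 2) < (z.1 + c).im
    rw [e]; exact hz.2.1
  · show ENNReal.ofReal (z.1 + c).im < G.width F₀ z.2
    rw [e]; exact hz.2.2

/-- periodicity of the maximal extension, all multiples of the period. -/
theorem per_int (M : MaxExt G F₀) (k : ℤ) : ∀ z ∈ G.tubeU F₀,
    Mero2EqAt₂ (fun w => M.F (w.1 + 2 * π * k, w.2)) M.F z := by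
  have him : ((2 * π : ℂ)).im = 0 := by simp
  have him' : ((-(2 * π) : ℂ)).im = 0 := by simp
  have hneg : ∀ z ∈ G.tubeU F₀, Mero2EqAt₂ (fun w => M.F (w.1 + -(2 * π), w.2)) M.F z := by
    intro z hz
    have h1 := s4j_eqAt₂_translate (-(2 * π)) (M.per _ (tube_translate G F₀ hz him'))
    simp only [neg_add_cancel_right] at h1
    exact ⟨h1.1.symm, h1.2.symm⟩
  induction k using Int.induction_on with
  | zero =>
    intro z hz
    simp only [Int.cast_zero, mul_zero, add_zero]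
    exact ⟨(M.mero.1 z hz).refl, (M.mero.2 z hz).refl⟩
  | succ k ih =>
    intro z hz
    have h1 := s4j_eqAt₂_translate (2 * π) (ih _ (tube_translate G F₀ hz him))
    have h2 := M.per z hz
    have e : ∀ w : ℂ × ℂ, w.1 + 2 * π + 2 * π * ((k : ℤ) : ℂ) = w.1 + 2 * π * (((k : ℤ) + 1 : ℤ) : ℂ) := by
      intro w; push_cast; ring
    simp only [e] at h1
    exact ⟨h1.1.trans h2.1, h1.2.trans h2.2⟩
  | pred k ih =>
    intro z hz
    have h1 := s4j_eqAt₂_translate (-(2 * π)) (ih _ (tube_translate G F₀ hz him'))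
    have h2 := hneg z hz
    have e : ∀ w : ℂ × ℂ, w.1 + -(2 * π) + 2 * π * ((-(k : ℤ) : ℤ) : ℂ)
        = w.1 + 2 * π * ((-(k : ℤ) - 1 : ℤ) : ℂ) := by
      intro w; push_cast; ring
    simp only [e] at h1
    exact ⟨h1.1.trans h2.1, h1.2.trans h2.2⟩

/-- translation of a patch by a multiple of the period. -/
theorem isPatch_translate (M : MaxExt G F₀) {P : ℂ × ℂ → ℂ × ℂ} {W : Set (ℂ × ℂ)}
    (h : M.IsPatch P W) (k : ℤ) :
    M.IsPatch (fun w => P (w.1 - 2 * π * k, w.2)) {w | (w.1 - 2 * π * k, w.2) ∈ W} := by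
  have him : ((-(2 * π * k) : ℂ)).im = 0 := by simp
  have e : ∀ w : ℂ × ℂ, w.1 - 2 * π * k = w.1 + -(2 * π * k) := fun w => sub_eq_add_neg _ _
  simp only [e]
  refine ⟨?_, ?_, ?_⟩
  · exact h.1.preimage (f := fun w : ℂ × ℂ => (w.1 + -(2 * π * k), w.2)) (by fun_prop)
  · constructor
    · intro z hz
      have hz' : (z.1 + -(2 * π * k), z.2) ∈ W := hz
      exact (s4j_eqAt₂_translate (-(2 * π * k))
        ⟨(h.2.1.1 _ hz').refl, (h.2.1.2 _ hz').refl⟩).1.left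
    · intro z hz
      have hz' : (z.1 + -(2 * π * k), z.2) ∈ W := hz
      exact (s4j_eqAt₂_translate (-(2 * π * k))
        ⟨(h.2.1.1 _ hz').refl, (h.2.1.2 _ hz').refl⟩).2.left
  · rintro z ⟨hz, hzT⟩
    have hz' : (z.1 + -(2 * π * k), z.2) ∈ W := hz
    have h1 := s4j_eqAt₂_translate (-(2 * π * k)) (h.2.2 _ ⟨hz', tube_translate G F₀ hzT him⟩)
    have h2 := M.per_int (-k) z hzT
    have e2 : ∀ w : ℂ × ℂ, w.1 + 2 * π * ((-k : ℤ) : ℂ) = w.1 + -(2 * π * k) := by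
      intro w; push_cast; ring
    simp only [e2] at h2
    exact ⟨h1.1.trans h2.1, h1.2.trans h2.2⟩

end MaxExt

end Claimed.Agent.R269
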