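/-
Row 269, P1 Section 4, unit 4J, leaf LF-S4-4J-ctx: elementary consequences of `Ctx4C` (real parameters, good points, persistence of patches).   Blueprint: helper264.

PLAN.
* `hX_eq_hL`: `K.width_rel` at the real parameter (`(t : ℂ).im = 0`, `ENNReal.ofReal 0 = 0`).   `mem_ball_r₁`: `K.ρ_le`.
* `le_im_of_wall`: `ofReal s ≤ h_L(t) = ofReal y.im` (`K.mL.low`; `G.hL = G.width G.L0` by `rfl`) and `0 < s` give `s ≤ y.im` (`ENNReal.ofReal_le_ofReal_iff'`).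
* `good_add_two_pi`: `MaxExt.isPatch_translate` with `k`; `(y + 2πk - 2πk, t) = (y,t)`.
* `JetPatch.eventually`: `σ.sL ⊆ [-N,N]`, `σ.sX ⊆ [-N,N]` are finite (`Set.Finite.subset (Set.finite_Icc _ _)`, `abs_le`); for each `j` the chosen `W` is open and `z' ↦ (z'.1 + j z'.2, z'.2)` is
  continuous; `Set.Finite.eventually_all`-type lemma (`Filter.eventually_all_finite`).
* `jetEq_self`: `IsPatch` gives `Mero2On₂ P W`; `Mero2At.refl`.     `jetEq_max`: third component of `IsPatch`.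
-/
import Claimed.Agent.R269.S4.WallConn

set_option autoImplicit false

namespace Claimed.Agent.R269

open Complex Filter Topology Set
open scoped ENNReal Real

namespace Ctx4C

variable {G : Glance} (K : Ctx4C G)

theorem mem_ball_ρ (t : ℝ) (ht : |t| < K.ρ) : (t : ℂ) ∈ Metric.ball (0 : ℂ) K.ρ := by
  rw [mem_ball_zero_iff, Complex.norm_real, Real.norm_eq_abs]
  exact ht

/-- at real parameters the two widths agree. -/
theorem hX_eq_hL (t : ℝ) (ht : |t| < K.ρ) : G.hX t = G.hL t := by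
  have h := K.width_rel t (K.mem_ball_ρ t ht)
  simp only [Complex.ofReal_im, abs_zero, zero_div, ENNReal.ofReal_zero, add_zero] at h
  exact h.symm

theorem mem_ball_r₁ (t : ℝ) (ht : |t| < K.ρ) : (t : ℂ) ∈ Metric.ball (0 : ℂ) G.r₁ :=
  Metric.ball_subset_ball K.ρ_le (K.mem_ball_ρ t ht)

/-- wall points lie high. -/
theorem le_im_of_wall (t : ℝ) (ht : |t| < K.ρ) {y : ℂ} (hy : ENNReal.ofReal y.im = G.hL t) :
    G.s ≤ y.im := by
  have h1 : ENNReal.ofReal G.s ≤ ENNReal.ofReal y.im := by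
    rw [hy]
    exact K.mL.low t (K.mem_ball_r₁ t ht)
  have hs : 0 < G.s := G.r₁_pos.trans G.r₁_lt
  rcases (ENNReal.ofReal_le_ofReal_iff').1 h1 with h | h
  · exact h
  · linarith

theorem good_add_two_pi {t y : ℂ} (h : K.Good t y) (k : ℤ) : K.Good t (y + 2 * π * k) := by
  obtain ⟨W, P, hz, hP⟩ := h
  refine ⟨_, _, ?_, K.mL.isPatch_translate hP k⟩
  show (y + 2 * π * k - 2 * π * k, t) ∈ W
  rw [add_sub_cancel_right]
  exact hz

/-- points of the tube are good. -/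
theorem good_of_mem {t y : ℂ} (h : (y, t) ∈ G.tubeU G.L0) : K.Good t y :=
  ⟨_, _, h, K.mL.isPatch_self⟩

variable {K}

theorem JetPatch.eventually {σ : ShiftSet} {PL PX : ℤ → ℂ × ℂ → ℂ × ℂ} {z : ℂ × ℂ}
    (h : K.JetPatch σ PL PX z) : ∀ᶠ z' in 𝓝 z, K.JetPatch σ PL PX z' := by
  have fL : σ.sL.Finite := (Set.finite_Icc (-(σ.N : ℤ)) σ.N).subset fun j hj =>
    abs_le.1 (σ.bdL j hj)
  have fX : σ.sX.Finite := (Set.finite_Icc (-(σ.N : ℤ)) σ.N).subset fun j hj =>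
    abs_le.1 (by have := σ.bdX j hj; omega)
  have h1 : ∀ᶠ z' : ℂ × ℂ in 𝓝 z, ∀ j ∈ σ.sL,
      ∃ W, (z'.1 + (j : ℂ) * z'.2, z'.2) ∈ W ∧ K.mL.IsPatch (PL j) W := by
    refine (Filter.eventually_all_finite fL).2 fun j hj => ?_
    obtain ⟨W, hz, hW⟩ := h.1 j hj
    have hc : Continuous (fun z' : ℂ × ℂ => (z'.1 + (j : ℂ) * z'.2, z'.2)) := by fun_prop
    filter_upwards [hc.continuousAt.eventually (hW.1.mem_nhds hz)] with z' hz'
    exact ⟨W, hz', hW⟩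
  have h2 : ∀ᶠ z' : ℂ × ℂ in 𝓝 z, ∀ j ∈ σ.sX,
      ∃ W, (z'.1 + ((j : ℂ) + 1 / 2) * z'.2, z'.2) ∈ W ∧ K.mX.IsPatch (PX j) W := by
    refine (Filter.eventually_all_finite fX).2 fun j hj => ?_
    obtain ⟨W, hz, hW⟩ := h.2 j hj
    have hc : Continuous (fun z' : ℂ × ℂ => (z'.1 + ((j : ℂ) + 1 / 2) * z'.2, z'.2)) := by fun_prop
    filter_upwards [hc.continuousAt.eventually (hW.1.mem_nhds hz)] with z' hz'
    exact ⟨W, hz', hW⟩
  filter_upwards [h1, h2] with z' a b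
  exact ⟨a, b⟩

theorem JetPatch.jetEq_self {σ : ShiftSet} {PL PX : ℤ → ℂ × ℂ → ℂ × ℂ} {z : ℂ × ℂ}
    (h : K.JetPatch σ PL PX z) : JetEq σ PL PX PL PX z := by
  constructor
  · intro j hj
    obtain ⟨W, hz, hW⟩ := h.1 j hj
    exact ⟨(hW.2.1.1 _ hz).refl, (hW.2.1.2 _ hz).refl⟩
  · intro j hj
    obtain ⟨W, hz, hW⟩ := h.2 j hj
    exact ⟨(hW.2.1.1 _ hz).refl, (hW.2.1.2 _ hz).refl⟩

theorem JetPatch.jetEq_max {σ : ShiftSet} {PL PX : ℤ → ℂ × ℂ → ℂ × ℂ} {z : ℂ × ℂ}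
    (h : K.JetPatch σ PL PX z)
    (hL : ∀ j ∈ σ.sL, (z.1 + (j : ℂ) * z.2, z.2) ∈ G.tubeU G.L0)
    (hX : ∀ j ∈ σ.sX, (z.1 + ((j : ℂ) + 1 / 2) * z.2, z.2) ∈ G.tubeU G.X0) :
    JetEq σ PL PX (fun _ => K.mL.F) (fun _ => K.mX.F) z := by
  constructor
  · intro j hj
    obtain ⟨W, hz, hW⟩ := h.1 j hj
    exact hW.2.2 _ ⟨hz, hL j hj⟩
  · intro j hj
    obtain ⟨W, hz, hW⟩ := h.2 j hj
    exact hW.2.2 _ ⟨hz, hX j hj⟩

end Ctx4C

end Claimed.Agent.R269
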