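/-
Row 269, P1 Section 4, unit 4J, leaf LF-S4-4J-jet: polynomials in the universal jets.   HOST-FREE except the last three
statements (analyticity of the initial fields).  Blueprint: helper264.

PLAN.
* `ShiftSet.eval_congr`: `MvPolynomial.eval` depends only on the variables in `R.vars` (`MvPolynomial.eval₂Hom_congr'` or
  `MvPolynomial.induction_on` through `MvPolynomial.mem_supported`).
* For one variable `v ∈ σ.allow` the function `w ↦ jetU PL PX A w v` is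
    `pd a b (crd c ∘ PL j) ∘ shear`  with  `shear (fun ζ => j ζ) 0 1 w = (w.1 + j w.2, 0 + 1 * w.2)`   (toolkit `Lib/Mero2.lean`),
  resp. the same with `j + 1/2`, resp. `iteratedDeriv b A w.2` (analytic: `AnalyticAt.iteratedDeriv`, composed with `Prod.snd`).
  Use `Mero2At.pd`, `Mero2At.comp_shear`, `Mero2EqAt.pd`, `Mero2EqAt.comp_shear`, `analyticAt_pd`, `pd_congr_nhds`.
  `crd c (P w)` is `(P w).1` or `(P w).2` (`Fin 2` cases), which matches `Mero2EqAt₂`.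
* Then `Mero2At.mvPolynomial_eval` (variables in `R.vars ⊆ σ.allow`), and for the congruences
  `Filter.eventually_all_finset` over `R.vars` + `ShiftSet.eval_congr`-type argument (`MvPolynomial.eval₂Hom_congr'`).
* `s4j_analyticAt_L0/X0/A`: `DifferentiableOn` on an open set of `ℂ × ℂ` gives `AnalyticAt` (`SCV.analyticOnNhd_of_differentiableOn`,
  `Lib/SCV0.lean`); `X0 = suppPt hc ∘ ((Θ(y - t/2,t) + Θ(y + t/2,t))/2)`; the mean of two points of `hstrip σ` is in `hstrip σ`;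
  `hc` and `deriv hc` are analytic on the open strip.
-/
import Claimed.Agent.R269.S4.WallDefs

set_option autoImplicit false

namespace Claimed.Agent.R269

open Complex Filter Topology Set
open scoped ENNReal Real

theorem ShiftSet.eval_congr (σ : ShiftSet) {R : MvPolynomial Var ℂ} (hR : σ.Supp R)
    {J J' : Var → ℂ} (h : ∀ v ∈ σ.allow, J v = J' v) :
    MvPolynomial.eval J R = MvPolynomial.eval J' R := by
  have hv : (R.vars : Set Var) ⊆ σ.allow := MvPolynomial.mem_supported.1 hR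
  exact MvPolynomial.eval₂Hom_congr' rfl (fun i hi _ => h i (hv hi)) rfl

theorem ShiftSet.Supp.mono {σ σ' : ShiftSet} (hL : σ.sL ⊆ σ'.sL) (hX : σ.sX ⊆ σ'.sX)
    {R : MvPolynomial Var ℂ} (hR : σ.Supp R) : σ'.Supp R := by
  refine MvPolynomial.supported_mono ?_ hR
  intro v hv
  exact ⟨fun i hi => hL (hv.1 i hi), fun i hi => hX (hv.2 i hi)⟩

/-! ### one variable -/

theorem s4j_shear_eq (c : ℂ) (w : ℂ × ℂ) :
    shear (fun ζ => c * ζ) 0 1 w = (w.1 + c * w.2, w.2) := by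
  simp [shear]

theorem s4j_eqAt_crd {F P : ℂ × ℂ → ℂ × ℂ} {z : ℂ × ℂ} (h : Mero2EqAt₂ F P z) (c : Fin 2) :
    Mero2EqAt (fun w => crd c (F w)) (fun w => crd c (P w)) z := by
  fin_cases c
  · exact h.1
  · exact h.2

theorem s4j_analyticAt_crd {F : ℂ × ℂ → ℂ × ℂ} {z : ℂ × ℂ} (h : AnalyticAt ℂ F z) (c : Fin 2) :
    AnalyticAt ℂ (fun w => crd c (F w)) z := by
  fin_cases c
  · exact analyticAt_fst.comp h
  · exact analyticAt_snd.comp h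

/-- jets along a shear: germs. -/
theorem s4j_eqAt_pd_shear {F P : ℂ × ℂ → ℂ × ℂ} {z : ℂ × ℂ} (q : ℂ)
    (h : Mero2EqAt₂ F P (z.1 + q * z.2, z.2)) (c : Fin 2) (a b : ℕ) :
    Mero2EqAt (fun w => pd a b (fun w' => crd c (F w')) (w.1 + q * w.2, w.2))
      (fun w => pd a b (fun w' => crd c (P w')) (w.1 + q * w.2, w.2)) z := by
  rw [← s4j_shear_eq] at h
  have h1 := ((s4j_eqAt_crd h c).pd a b).comp_shear
    (a := fun ζ => q * ζ) (analyticAt_const.mul analyticAt_id) one_ne_zero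
  simpa only [s4j_shear_eq] using h1

theorem s4j_analyticAt_pd_shear {F : ℂ × ℂ → ℂ × ℂ} {z : ℂ × ℂ} (q : ℂ)
    (h : AnalyticAt ℂ F (z.1 + q * z.2, z.2)) (c : Fin 2) (a b : ℕ) :
    AnalyticAt ℂ (fun w => pd a b (fun w' => crd c (F w')) (w.1 + q * w.2, w.2)) z := by
  have h1 : AnalyticAt ℂ (pd a b (fun w' => crd c (F w'))) (z.1 + q * z.2, z.2) :=
    analyticAt_pd a b (s4j_analyticAt_crd h c)
  have h2 : AnalyticAt ℂ (fun w : ℂ × ℂ => (w.1 + q * w.2, w.2)) z :=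
    (analyticAt_fst.add (analyticAt_const.mul analyticAt_snd)).prod analyticAt_snd
  exact AnalyticAt.comp (g := pd a b (fun w' => crd c (F w')))
    (f := fun w : ℂ × ℂ => (w.1 + q * w.2, w.2)) h1 h2

theorem s4j_congr_pd_shear {F P : ℂ × ℂ → ℂ × ℂ} {z : ℂ × ℂ} (q : ℂ)
    (h : F =ᶠ[𝓝 (z.1 + q * z.2, z.2)] P) (c : Fin 2) (a b : ℕ) :
    (fun w => pd a b (fun w' => crd c (F w')) (w.1 + q * w.2, w.2)) =ᶠ[𝓝 z]
      fun w => pd a b (fun w' => crd c (P w')) (w.1 + q * w.2, w.2) := by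
  have h1 : (fun w' => crd c (F w')) =ᶠ[𝓝 (z.1 + q * z.2, z.2)] fun w' => crd c (P w') :=
    h.mono fun w hw => by simp only [hw]
  have h2 : pd a b (fun w' => crd c (F w')) =ᶠ[𝓝 (z.1 + q * z.2, z.2)]
      pd a b (fun w' => crd c (P w')) := pd_congr_nhds a b h1
  have h3 : Tendsto (fun w : ℂ × ℂ => (w.1 + q * w.2, w.2)) (𝓝 z) (𝓝 (z.1 + q * z.2, z.2)) := by
    have : Continuous (fun w : ℂ × ℂ => (w.1 + q * w.2, w.2)) := by fun_prop
    exact this.tendsto z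
  exact h3.eventually h2

theorem s4j_analyticAt_iteratedDeriv {A : ℂ → ℂ} {t : ℂ} (hA : AnalyticAt ℂ A t) (b : ℕ) :
    AnalyticAt ℂ (iteratedDeriv b A) t := by
  rw [iteratedDeriv_eq_iterate]
  exact hA.iterated_deriv b

theorem s4j_var_eq (σ : ShiftSet) {PL PX PL' PX' : ℤ → ℂ × ℂ → ℂ × ℂ} {A : ℂ → ℂ} {z : ℂ × ℂ}
    (h : JetEq σ PL PX PL' PX' z) {v : Var} (hv : v ∈ σ.allow) :
    (fun w => jetU PL PX A w v) =ᶠ[genF z] fun w => jetU PL' PX' A w v := by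
  rcases v with i | i | b
  · exact (s4j_eqAt_pd_shear (i.1 : ℂ) (h.1 i.1 (hv.1 i rfl)) i.2.1 i.2.2.1 i.2.2.2).eventuallyEq
  · exact (s4j_eqAt_pd_shear ((i.1 : ℂ) + 1 / 2) (h.2 i.1 (hv.2 i rfl)) i.2.1 i.2.2.1
      i.2.2.2).eventuallyEq
  · exact EventuallyEq.rfl

theorem s4j_var_mero (σ : ShiftSet) {PL PX : ℤ → ℂ × ℂ → ℂ × ℂ} {A : ℂ → ℂ} {z : ℂ × ℂ}
    (hA : AnalyticAt ℂ A z.2) (h : JetEq σ PL PX PL PX z) {v : Var} (hv : v ∈ σ.allow) :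
    Mero2At (fun w => jetU PL PX A w v) z := by
  rcases v with i | i | b
  · exact (s4j_eqAt_pd_shear (i.1 : ℂ) (h.1 i.1 (hv.1 i rfl)) i.2.1 i.2.2.1 i.2.2.2).left
  · exact (s4j_eqAt_pd_shear ((i.1 : ℂ) + 1 / 2) (h.2 i.1 (hv.2 i rfl)) i.2.1 i.2.2.1
      i.2.2.2).left
  · have h1 : AnalyticAt ℂ (fun w : ℂ × ℂ => iteratedDeriv b A w.2) z :=
      AnalyticAt.comp (g := iteratedDeriv b A) (f := fun w : ℂ × ℂ => w.2) (s4j_analyticAt_iteratedDeriv hA b)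
        analyticAt_snd
    exact h1.mero2At

theorem s4j_analyticAt_mvPolynomial_eval {ι : Type*} {F : ι → ℂ × ℂ → ℂ} {z : ℂ × ℂ}
    (p : MvPolynomial ι ℂ) (hF : ∀ i ∈ p.vars, AnalyticAt ℂ (F i) z) :
    AnalyticAt ℂ (fun w => MvPolynomial.eval (fun i => F i w) p) z := by
  simp only [MvPolynomial.eval_eq]
  refine Finset.analyticAt_fun_sum _ fun m hm => analyticAt_const.mul
    (Finset.analyticAt_fun_prod _ fun i hi => ?_)
  exact (hF i ((MvPolynomial.mem_vars_iff_mem_support i).2 ⟨m, hm, hi⟩)).pow _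

theorem s4j_jet_mero (σ : ShiftSet) {R : MvPolynomial Var ℂ} (hR : σ.Supp R)
    {PL PX : ℤ → ℂ × ℂ → ℂ × ℂ} {A : ℂ → ℂ} {z : ℂ × ℂ} (hA : AnalyticAt ℂ A z.2)
    (h : JetEq σ PL PX PL PX z) :
    Mero2At (fun w => MvPolynomial.eval (jetU PL PX A w) R) z := by
  have hv : (R.vars : Set Var) ⊆ σ.allow := MvPolynomial.mem_supported.1 hR
  exact Mero2At.mvPolynomial_eval (F := fun v w => jetU PL PX A w v) R
    fun v hvR => s4j_var_mero σ hA h (hv hvR)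

theorem s4j_jet_congr (σ : ShiftSet) {R : MvPolynomial Var ℂ} (hR : σ.Supp R)
    {PL PX PL' PX' : ℤ → ℂ × ℂ → ℂ × ℂ} {A : ℂ → ℂ} {z : ℂ × ℂ}
    (h : JetEq σ PL PX PL' PX' z) :
    (fun w => MvPolynomial.eval (jetU PL PX A w) R) =ᶠ[genF z]
      fun w => MvPolynomial.eval (jetU PL' PX' A w) R := by
  have hv : (R.vars : Set Var) ⊆ σ.allow := MvPolynomial.mem_supported.1 hR
  have h1 : ∀ᶠ w in genF z, ∀ v ∈ R.vars, jetU PL PX A w v = jetU PL' PX' A w v :=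
    (Filter.eventually_all_finset R.vars).2 fun v hvR => s4j_var_eq σ h (hv hvR)
  filter_upwards [h1] with w hw
  exact MvPolynomial.eval₂Hom_congr' rfl (fun i hi _ => hw i hi) rfl

theorem s4j_jet_analytic (σ : ShiftSet) {R : MvPolynomial Var ℂ} (hR : σ.Supp R)
    {PL PX : ℤ → ℂ × ℂ → ℂ × ℂ} {A : ℂ → ℂ} {z : ℂ × ℂ} (hA : AnalyticAt ℂ A z.2)
    (hL : ∀ j ∈ σ.sL, AnalyticAt ℂ (PL j) (z.1 + (j : ℂ) * z.2, z.2))
    (hX : ∀ j ∈ σ.sX, AnalyticAt ℂ (PX j) (z.1 + ((j : ℂ) + 1 / 2) * z.2, z.2)) :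
    AnalyticAt ℂ (fun w => MvPolynomial.eval (jetU PL PX A w) R) z := by
  have hv : (R.vars : Set Var) ⊆ σ.allow := MvPolynomial.mem_supported.1 hR
  refine s4j_analyticAt_mvPolynomial_eval (F := fun v w => jetU PL PX A w v) R fun v hvR => ?_
  have hva : v ∈ σ.allow := hv hvR
  rcases v with i | i | b
  · exact s4j_analyticAt_pd_shear (i.1 : ℂ) (hL i.1 (hva.1 i rfl)) i.2.1 i.2.2.1 i.2.2.2
  · exact s4j_analyticAt_pd_shear ((i.1 : ℂ) + 1 / 2) (hX i.1 (hva.2 i rfl)) i.2.1 i.2.2.1 i.2.2.2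
  · exact AnalyticAt.comp (g := iteratedDeriv b A) (f := fun w : ℂ × ℂ => w.2) (s4j_analyticAt_iteratedDeriv hA b)
      analyticAt_snd

theorem s4j_jet_congr_nhds (σ : ShiftSet) {R : MvPolynomial Var ℂ} (hR : σ.Supp R)
    {PL PX PL' PX' : ℤ → ℂ × ℂ → ℂ × ℂ} {A : ℂ → ℂ} {z : ℂ × ℂ}
    (hL : ∀ j ∈ σ.sL, PL j =ᶠ[𝓝 (z.1 + (j : ℂ) * z.2, z.2)] PL' j)
    (hX : ∀ j ∈ σ.sX, PX j =ᶠ[𝓝 (z.1 + ((j : ℂ) + 1 / 2) * z.2, z.2)] PX' j) :
    (fun w => MvPolynomial.eval (jetU PL PX A w) R) =ᶠ[𝓝 z]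
      fun w => MvPolynomial.eval (jetU PL' PX' A w) R := by
  have hv : (R.vars : Set Var) ⊆ σ.allow := MvPolynomial.mem_supported.1 hR
  have h1 : ∀ᶠ w in 𝓝 z, ∀ v ∈ R.vars, jetU PL PX A w v = jetU PL' PX' A w v := by
    refine (Filter.eventually_all_finset R.vars).2 fun v hvR => ?_
    have hva : v ∈ σ.allow := hv hvR
    rcases v with i | i | b
    · exact s4j_congr_pd_shear (i.1 : ℂ) (hL i.1 (hva.1 i rfl)) i.2.1 i.2.2.1 i.2.2.2
    · exact s4j_congr_pd_shear ((i.1 : ℂ) + 1 / 2) (hX i.1 (hva.2 i rfl)) i.2.1 i.2.2.1 i.2.2.2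
    · exact Eventually.of_forall fun _ => rfl
  filter_upwards [h1] with w hw
  exact MvPolynomial.eval₂Hom_congr' rfl (fun i hi _ => hw i hi) rfl

/-! ### the initial fields -/

theorem s4j_isOpen_hstrip (s : ℝ) : IsOpen (hstrip s) :=
  isOpen_lt (continuous_abs.comp Complex.continuous_im) continuous_const

theorem s4j_analyticAt_Θ (G : Glance) {z : ℂ × ℂ} (h1 : z.1 ∈ hstrip (2 * G.s))
    (h2 : z.2 ∈ Metric.ball (0 : ℂ) G.r₁) : AnalyticAt ℂ (fun w : ℂ × ℂ => G.Θ w.1 w.2) z :=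
  SCV.analyticOnNhd_of_differentiableOn ((s4j_isOpen_hstrip _).prod Metric.isOpen_ball) G.Θ_diff z
    ⟨h1, h2⟩

theorem s4j_analyticAt_p (G : Glance) {z : ℂ × ℂ} (h1 : z.1 ∈ hstrip (2 * G.s))
    (h2 : z.2 ∈ Metric.ball (0 : ℂ) G.r₁) : AnalyticAt ℂ (fun w : ℂ × ℂ => G.p w.1 w.2) z :=
  SCV.analyticOnNhd_of_differentiableOn ((s4j_isOpen_hstrip _).prod Metric.isOpen_ball) G.p_diff z
    ⟨h1, h2⟩

theorem s4j_analyticAt_L0 (G : Glance) {z : ℂ × ℂ} (h1 : z.1 ∈ hstrip (2 * G.s))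
    (h2 : z.2 ∈ Metric.ball (0 : ℂ) G.r₁) : AnalyticAt ℂ G.L0 z := by
  have hΘ := s4j_analyticAt_Θ G h1 h2
  have hp := s4j_analyticAt_p G h1 h2
  exact ((analyticAt_const.mul hΘ).cexp).prod (hp.mul ((analyticAt_const.mul hΘ).cexp))

theorem s4j_analyticAt_X0 (G : Glance) {z : ℂ × ℂ} (h1 : |z.1.im| + |z.2.im| / 2 < 2 * G.s)
    (h2 : z.2 ∈ Metric.ball (0 : ℂ) G.r₁) : AnalyticAt ℂ G.X0 z := by
  have hm : z.1 - z.2 / 2 ∈ hstrip (2 * G.s) := by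
    show |(z.1 - z.2 / 2).im| < 2 * G.s
    have e : (z.1 - z.2 / 2).im = z.1.im - z.2.im / 2 := by simp
    rw [e]
    have := abs_sub (z.1.im) (z.2.im / 2)
    rw [abs_div, abs_two] at this
    linarith
  have hp : z.1 + z.2 / 2 ∈ hstrip (2 * G.s) := by
    show |(z.1 + z.2 / 2).im| < 2 * G.s
    have e : (z.1 + z.2 / 2).im = z.1.im + z.2.im / 2 := by simp
    rw [e]
    have := abs_add_le (z.1.im) (z.2.im / 2)
    rw [abs_div, abs_two] at this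
    linarith
  have a1 : AnalyticAt ℂ (fun w : ℂ × ℂ => G.Θ (w.1 - w.2 / 2) w.2) z :=
    AnalyticAt.comp (g := fun w : ℂ × ℂ => G.Θ w.1 w.2)
      (f := fun w : ℂ × ℂ => (w.1 - w.2 / 2, w.2))
      (s4j_analyticAt_Θ G (z := (z.1 - z.2 / 2, z.2)) hm h2)
      ((analyticAt_fst.sub (analyticAt_snd.div analyticAt_const two_ne_zero)).prod analyticAt_snd)
  have a2 : AnalyticAt ℂ (fun w : ℂ × ℂ => G.Θ (w.1 + w.2 / 2) w.2) z :=
    AnalyticAt.comp (g := fun w : ℂ × ℂ => G.Θ w.1 w.2)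
      (f := fun w : ℂ × ℂ => (w.1 + w.2 / 2, w.2))
      (s4j_analyticAt_Θ G (z := (z.1 + z.2 / 2, z.2)) hp h2)
      ((analyticAt_fst.add (analyticAt_snd.div analyticAt_const two_ne_zero)).prod analyticAt_snd)
  have a3 : AnalyticAt ℂ
      (fun w : ℂ × ℂ => (G.Θ (w.1 - w.2 / 2) w.2 + G.Θ (w.1 + w.2 / 2) w.2) / 2) z :=
    (a1.add a2).div analyticAt_const two_ne_zero
  have hmem : (G.Θ (z.1 - z.2 / 2) z.2 + G.Θ (z.1 + z.2 / 2) z.2) / 2 ∈ hstrip G.σ := by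
    have m1 : |(G.Θ (z.1 - z.2 / 2) z.2).im| < G.σ := G.Θ_mem _ hm _ h2
    have m2 : |(G.Θ (z.1 + z.2 / 2) z.2).im| < G.σ := G.Θ_mem _ hp _ h2
    show |((G.Θ (z.1 - z.2 / 2) z.2 + G.Θ (z.1 + z.2 / 2) z.2) / 2).im| < G.σ
    have e : ((G.Θ (z.1 - z.2 / 2) z.2 + G.Θ (z.1 + z.2 / 2) z.2) / 2).im
        = ((G.Θ (z.1 - z.2 / 2) z.2).im + (G.Θ (z.1 + z.2 / 2) z.2).im) / 2 := by simp
    rw [e, abs_lt] 
    rw [abs_lt] at m1 m2
    constructor <;> linarith [m1.1, m1.2, m2.1, m2.2]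
  have hh : AnalyticAt ℂ G.hc ((G.Θ (z.1 - z.2 / 2) z.2 + G.Θ (z.1 + z.2 / 2) z.2) / 2) :=
    G.hc_diff.analyticOnNhd (s4j_isOpen_hstrip _) _ hmem
  have hs : AnalyticAt ℂ (suppPt G.hc)
      ((G.Θ (z.1 - z.2 / 2) z.2 + G.Θ (z.1 + z.2 / 2) z.2) / 2) := by
    have hc : AnalyticAt ℂ Complex.cos
      ((G.Θ (z.1 - z.2 / 2) z.2 + G.Θ (z.1 + z.2 / 2) z.2) / 2) := Complex.analyticAt_cos
    have hsn : AnalyticAt ℂ Complex.sin
      ((G.Θ (z.1 - z.2 / 2) z.2 + G.Θ (z.1 + z.2 / 2) z.2) / 2) := Complex.analyticAt_sin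
    exact ((hh.mul hc).sub (hh.deriv.mul hsn)).prod ((hh.mul hsn).add (hh.deriv.mul hc))
  exact AnalyticAt.comp (g := suppPt G.hc)
    (f := fun w : ℂ × ℂ => (G.Θ (w.1 - w.2 / 2) w.2 + G.Θ (w.1 + w.2 / 2) w.2) / 2) hs a3

theorem s4j_analyticAt_A (G : Glance) {t : ℂ} (h : t ∈ Metric.ball (0 : ℂ) G.r₁) :
    AnalyticAt ℂ G.A t :=
  G.A_diff.analyticOnNhd Metric.isOpen_ball t h

end Claimed.Agent.R269
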