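/-
Row 269, P1 Section 4, unit 4J, leaf LF-S4-4J-band: "band equations by the identity theorem".   Blueprint: helper264.

`s4j_band_iff`:  a polynomial `R` in the universal jets vanishes identically on the initial domain `G.dom σ.N` iff the same polynomial in
the jets of the MAXIMAL primary extensions is the zero germ at one (any) point `(y,t₂)` of the tube with REAL parameter `t₂`.

PLAN.  `N := σ.N`, `Φ₀ w := eval (G.jet0 w) R`, `Φ w := eval (K.jetM w) R`.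
 1. `D₀ := {(y',t) | t ∈ ball 0 r₁ ∧ |Im y'| + (N+1) |Im t| < 2 s}` is open and convex (sublevel set of a convex function ∩ ball), contains
    `G.dom N` (`s/2 + (N+1) s/(N+1) < 2s`) and all `(y',t)` with `t` real, `|t| < r₁`, `|Im y'| < 2s`.  `Φ₀` is analytic on `D₀` (`s4j_jet_analytic`,
    `s4j_analyticAt_L0/X0/A`: for `|j| ≤ N`: `|Im (y' + j t)| ≤ |Im y'| + N |Im t|`; for `|j| + 1 ≤ N`:
    `|Im (y' + (j+1/2) t)| + |Im t|/2 ≤ |Im y'| + N |Im t|`).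
    Hence (`AnalyticOnNhd.eqOn_zero_of_preconnected_of_eventuallyEq_zero`): `Φ₀ = 0` on `dom N` ⇔ `Φ₀ = 0` on `D₀` ⇔ `Φ₀ = 0` near `(y₀,t₂)`,
    `y₀ := (min y.im 0) I` (`dom N` is a neighbourhood of `(0,0)`).
 2. `(y,t₂)` is in both tubes (`K.hX_eq_hL`).  `box` for `mL` and `mX` at `(y,t₂)`: `b > y.im`, `δ > 0` with `hband (-(s/2)) b ×ˢ ball t₂ δ` in both tubes.
    `D₁ := {(y',t) | t ∈ ball t₂ δ ∧ -(s/2) + (N+1)|Im t| < Im y' ∧ Im y' + (N+1) |Im t| < b}`: open, convex, contains `(y,t₂)`, `(y₀,t₂)`;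
    all shifted points of points of `D₁` are in the tubes, so `Φ` is `Mero2On D₁` (`s4j_jet_mero`, `mL.mero`, `mX.mero`).
 3. near `(y₀,t₂)`: the shifted points are in the open set `hstrip (s/2) ×ˢ ball 0 r₁`, where `mL.F = L0`, `mX.F = X0` (`base`), so `Φ = Φ₀` near
    `(y₀,t₂)` (`s4j_jet_congr_nhds`).
 4. `Mero2On.eventually_eq_zero_of_isPreconnected` on `D₁` in both directions; `Φ₀` analytic and generically zero at `(y₀,t₂)` ⇒ zero near it
    (`eventuallyEq_nhds_of_genF`).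
-/
import Claimed.Agent.R269.S4.WallJet
import Claimed.Agent.R269.S4.WallCtx

set_option autoImplicit false

namespace Claimed.Agent.R269

open Complex Filter Topology Set
open scoped ENNReal Real

variable {G : Glance}

/-- the wedge `{(y,t) : t ∈ ball τ δ, α + c |Im t| < Im y < β - c |Im t|}`. -/
def s4jWedge (τ : ℂ) (δ α β c : ℝ) : Set (ℂ × ℂ) :=
  {z | z.2 ∈ Metric.ball τ δ ∧ α + c * |z.2.im| < z.1.im ∧ z.1.im + c * |z.2.im| < β}

theorem s4j_isOpen_wedge (τ : ℂ) (δ α β c : ℝ) : IsOpen (s4jWedge τ δ α β c) := by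
  refine IsOpen.inter (Metric.isOpen_ball.preimage continuous_snd) (IsOpen.inter ?_ ?_)
  · have h1 : Continuous fun z : ℂ × ℂ => α + c * |z.2.im| := by fun_prop
    have h2 : Continuous fun z : ℂ × ℂ => z.1.im := by fun_prop
    exact isOpen_lt h1 h2
  · have h1 : Continuous fun z : ℂ × ℂ => z.1.im + c * |z.2.im| := by fun_prop
    exact isOpen_lt h1 continuous_const

theorem s4j_convex_half (e c r : ℝ) (hc : 0 ≤ c) :
    Convex ℝ {z : ℂ × ℂ | e * z.1.im + c * |z.2.im| < r} := by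
  intro x hx y hy a b ha hb hab
  have hx' : e * x.1.im + c * |x.2.im| < r := hx
  have hy' : e * y.1.im + c * |y.2.im| < r := hy
  show e * (a • x + b • y).1.im + c * |(a • x + b • y).2.im| < r
  have e1 : (a • x + b • y).1.im = a * x.1.im + b * y.1.im := by simp
  have e2 : (a • x + b • y).2.im = a * x.2.im + b * y.2.im := by simp
  rw [e1, e2]
  have h1 : |a * x.2.im + b * y.2.im| ≤ a * |x.2.im| + b * |y.2.im| := by
    refine (abs_add_le _ _).trans ?_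
    rw [abs_mul, abs_mul, abs_of_nonneg ha, abs_of_nonneg hb]
  have h2 : c * |a * x.2.im + b * y.2.im| ≤ c * (a * |x.2.im| + b * |y.2.im|) :=
    mul_le_mul_of_nonneg_left h1 hc
  set m := max (e * x.1.im + c * |x.2.im|) (e * y.1.im + c * |y.2.im|) with hm
  have hmr : m < r := max_lt hx' hy'
  have h3 : a * (e * x.1.im + c * |x.2.im|) ≤ a * m := mul_le_mul_of_nonneg_left (le_max_left _ _) ha
  have h4 : b * (e * y.1.im + c * |y.2.im|) ≤ b * m := mul_le_mul_of_nonneg_left (le_max_right _ _) hb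
  have h5 : a * m + b * m = m := by rw [← add_mul, hab, one_mul]
  nlinarith

theorem s4j_convex_wedge (τ : ℂ) (δ α β c : ℝ) (hc : 0 ≤ c) : Convex ℝ (s4jWedge τ δ α β c) := by
  have h1 : s4jWedge τ δ α β c = (Prod.snd ⁻¹' Metric.ball τ δ) ∩
      ({z : ℂ × ℂ | (-1) * z.1.im + c * |z.2.im| < -α} ∩ {z : ℂ × ℂ | 1 * z.1.im + c * |z.2.im| < β}) := by
    ext z
    simp only [s4jWedge, Set.mem_inter_iff, Set.mem_preimage, Set.mem_ofPred_eq]
    constructor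
    · rintro ⟨a, b, c⟩
      exact ⟨a, by linarith, by linarith⟩
    · rintro ⟨a, b, c⟩
      exact ⟨a, by linarith, by linarith⟩
  rw [h1]
  refine Convex.inter ?_ ((s4j_convex_half _ _ _ hc).inter (s4j_convex_half _ _ _ hc))
  exact (convex_ball τ δ).linear_preimage (LinearMap.snd ℝ ℂ ℂ)

/-- the shifted points of a point of the wedge. -/
theorem s4j_wedge_shift {τ : ℂ} {δ α β c : ℝ} {z : ℂ × ℂ} (hz : z ∈ s4jWedge τ δ α β c) {q : ℂ}
    (hq : q.im = 0) {e : ℝ} (hqe : |q.re| + e ≤ c) :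
    α + e * |z.2.im| < (z.1 + q * z.2).im ∧ (z.1 + q * z.2).im + e * |z.2.im| < β := by
  have e1 : (z.1 + q * z.2).im = z.1.im + q.re * z.2.im := by
    simp [Complex.mul_im, hq]
  rw [e1]
  have h1 : |q.re * z.2.im| = |q.re| * |z.2.im| := abs_mul _ _
  have h2 := abs_le.1 (le_of_eq h1)
  have h3 : (|q.re| + e) * |z.2.im| ≤ c * |z.2.im| := mul_le_mul_of_nonneg_right hqe (abs_nonneg _)
  obtain ⟨-, h4, h5⟩ := hz
  constructor <;> nlinarith [h2.1, h2.2]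

theorem s4j_shiftL_bd (σ : ShiftSet) {j : ℤ} (hj : j ∈ σ.sL) :
    ((j : ℂ)).im = 0 ∧ |((j : ℂ)).re| + 1 ≤ (σ.N : ℝ) + 1 := by
  refine ⟨by simp, ?_⟩
  have h := σ.bdL j hj
  have h' : ((|j| : ℤ) : ℝ) ≤ ((σ.N : ℤ) : ℝ) := by exact_mod_cast h
  simp only [Complex.intCast_re]
  push_cast at h'
  linarith

theorem s4j_shiftX_bd (σ : ShiftSet) {j : ℤ} (hj : j ∈ σ.sX) :
    ((j : ℂ) + 1 / 2).im = 0 ∧ |((j : ℂ) + 1 / 2).re| + 1 / 2 ≤ (σ.N : ℝ) + 1 := by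
  have e1 : ((j : ℂ) + 1 / 2).im = 0 := by simp
  have e2 : ((j : ℂ) + 1 / 2).re = (j : ℝ) + 1 / 2 := by simp
  refine ⟨e1, ?_⟩
  have h := σ.bdX j hj
  have h' : ((|j| + 1 : ℤ) : ℝ) ≤ ((σ.N : ℤ) : ℝ) := by exact_mod_cast h
  push_cast at h'
  rw [e2]
  have h3 : |(j : ℝ) + 1 / 2| ≤ |(j : ℝ)| + 1 / 2 := by
    refine (abs_add_le _ _).trans ?_
    rw [abs_of_pos (by norm_num : (0 : ℝ) < 1 / 2)]
  linarith

/-- analyticity of polynomials in the initial jets on the big wedge. -/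
theorem s4j_jet0_analytic (G : Glance) {σ : ShiftSet} {R : MvPolynomial Var ℂ} (hR : σ.Supp R) :
    AnalyticOnNhd ℂ (fun w => MvPolynomial.eval (G.jet0 w) R)
      (s4jWedge 0 G.r₁ (-(2 * G.s)) (2 * G.s) ((σ.N : ℝ) + 1)) := by
  intro z hz
  refine s4j_jet_analytic σ hR (s4j_analyticAt_A G hz.1) ?_ ?_
  · intro j hj
    obtain ⟨h1, h2⟩ := s4j_shiftL_bd σ hj
    obtain ⟨h3, h4⟩ := s4j_wedge_shift hz h1 h2
    refine s4j_analyticAt_L0 G ?_ hz.1
    show |(z.1 + (j : ℂ) * z.2).im| < 2 * G.s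
    rw [abs_lt]
    constructor <;> nlinarith [abs_nonneg z.2.im]
  · intro j hj
    obtain ⟨h1, h2⟩ := s4j_shiftX_bd σ hj
    obtain ⟨h3, h4⟩ := s4j_wedge_shift hz h1 h2
    refine s4j_analyticAt_X0 G ?_ hz.1
    show |(z.1 + ((j : ℂ) + 1 / 2) * z.2).im| + |z.2.im| / 2 < 2 * G.s
    have : |(z.1 + ((j : ℂ) + 1 / 2) * z.2).im| < 2 * G.s - |z.2.im| / 2 := by
      rw [abs_lt]
      constructor <;> linarith
    linarith

theorem s4j_dom_subset_wedge (G : Glance) (N : ℕ) :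
    G.dom N ⊆ s4jWedge 0 G.r₁ (-(2 * G.s)) (2 * G.s) ((N : ℝ) + 1) := by
  rintro z ⟨h1, h2⟩
  have hs : 0 < G.s := G.r₁_pos.trans G.r₁_lt
  have h1' : |z.1.im| < G.s / 2 := h1
  have h2' : ‖z.2‖ < min G.r₁ (G.s / ((N : ℝ) + 1)) := by simpa using h2
  have hN : (0 : ℝ) < (N : ℝ) + 1 := by positivity
  have h3 : ‖z.2‖ < G.s / ((N : ℝ) + 1) := lt_of_lt_of_le h2' (min_le_right _ _)
  have h4 : ((N : ℝ) + 1) * ‖z.2‖ < G.s := by
    rw [lt_div_iff₀ hN] at h3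
    linarith
  have h5 : |z.2.im| ≤ ‖z.2‖ := Complex.abs_im_le_norm _
  have h6 : ((N : ℝ) + 1) * |z.2.im| ≤ ((N : ℝ) + 1) * ‖z.2‖ := mul_le_mul_of_nonneg_left h5 hN.le
  rw [abs_lt] at h1'
  refine ⟨?_, ?_, ?_⟩
  · rw [mem_ball_zero_iff]
    exact lt_of_lt_of_le h2' (min_le_left _ _)
  · linarith [h1'.1]
  · linarith [h1'.2]

theorem s4j_dom_mem_nhds (G : Glance) (N : ℕ) : G.dom N ∈ 𝓝 ((0 : ℂ), (0 : ℂ)) := by
  have hs : 0 < G.s := G.r₁_pos.trans G.r₁_lt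
  refine ((s4j_isOpen_hstrip _).prod Metric.isOpen_ball).mem_nhds ⟨?_, ?_⟩
  · show |(0 : ℂ).im| < G.s / 2
    simp [hs]
  · refine Metric.mem_ball_self (lt_min G.r₁_pos ?_)
    positivity

/-- a polynomial in the initial jets vanishes on `dom N` iff it vanishes near one point of the big wedge. -/
theorem s4j_jet0_zero_iff (G : Glance) {σ : ShiftSet} {R : MvPolynomial Var ℂ} (hR : σ.Supp R)
    {z₀ : ℂ × ℂ} (hz₀ : z₀ ∈ s4jWedge 0 G.r₁ (-(2 * G.s)) (2 * G.s) ((σ.N : ℝ) + 1)) :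
    (∀ᶠ w in 𝓝 z₀, MvPolynomial.eval (G.jet0 w) R = 0) ↔
      ∀ z ∈ G.dom σ.N, MvPolynomial.eval (G.jet0 z) R = 0 := by
  have hconn : IsPreconnected (s4jWedge 0 G.r₁ (-(2 * G.s)) (2 * G.s) ((σ.N : ℝ) + 1)) :=
    (s4j_convex_wedge _ _ _ _ _ (by positivity)).isPreconnected
  have han := s4j_jet0_analytic G hR
  constructor
  · intro h z hz
    exact han.eqOn_zero_of_preconnected_of_eventuallyEq_zero hconn hz₀ h
      (s4j_dom_subset_wedge G σ.N hz)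
  · intro h
    have h0 : ((0 : ℂ), (0 : ℂ)) ∈ s4jWedge 0 G.r₁ (-(2 * G.s)) (2 * G.s) ((σ.N : ℝ) + 1) :=
      s4j_dom_subset_wedge G σ.N (mem_of_mem_nhds (s4j_dom_mem_nhds G σ.N))
    have h1 : (fun w => MvPolynomial.eval (G.jet0 w) R) =ᶠ[𝓝 ((0 : ℂ), (0 : ℂ))] 0 := by
      filter_upwards [s4j_dom_mem_nhds G σ.N] with w hw
      exact h w hw
    have h2 := han.eqOn_zero_of_preconnected_of_eventuallyEq_zero hconn h0 h1
    filter_upwards [(s4j_isOpen_wedge _ _ _ _ _).mem_nhds hz₀] with w hw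
    exact h2 hw

theorem s4j_band_iff (K : Ctx4C G) {σ : ShiftSet} {R : MvPolynomial Var ℂ} (hR : σ.Supp R) (t₂ : ℝ)
    (ht₂ : |t₂| < K.ρ) (y : ℂ) (hy : (y, (t₂ : ℂ)) ∈ G.tubeU G.L0) :
    (∀ᶠ w in genF (y, (t₂ : ℂ)), MvPolynomial.eval (K.jetM w) R = 0) ↔
      ∀ z ∈ G.dom σ.N, MvPolynomial.eval (G.jet0 z) R = 0 := by
  have hs : 0 < G.s := G.r₁_pos.trans G.r₁_lt
  have ht₂' : (t₂ : ℂ) ∈ Metric.ball (0 : ℂ) G.r₁ := K.mem_ball_r₁ t₂ ht₂
  have hyX : (y, (t₂ : ℂ)) ∈ G.tubeU G.X0 := by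
    refine ⟨hy.1, hy.2.1, ?_⟩
    have h1 : ENNReal.ofReal y.im < G.hL t₂ := hy.2.2
    rw [← K.hX_eq_hL t₂ ht₂] at h1
    exact h1
  obtain ⟨b₁, δ₁, hb₁, hδ₁, hbox₁⟩ := K.mL.box _ hy
  obtain ⟨b₂, δ₂, hb₂, hδ₂, hbox₂⟩ := K.mX.box _ hyX
  have hb₁' : y.im < b₁ := hb₁
  have hb₂' : y.im < b₂ := hb₂
  have hy0 : -(G.s / 2) < y.im := hy.2.1
  set b := min b₁ b₂ with hb
  set δ := min δ₁ δ₂ with hδ
  have hyb : y.im < b := lt_min hb₁' hb₂'
  have hδpos : 0 < δ := lt_min hδ₁ hδ₂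
  set D₁ := s4jWedge (t₂ : ℂ) δ (-(G.s / 2)) b ((σ.N : ℝ) + 1) with hD₁
  have hD₁c : IsPreconnected D₁ := (s4j_convex_wedge _ _ _ _ _ (by positivity)).isPreconnected
  set y₀ : ℂ := ((min y.im 0 : ℝ) : ℂ) * I with hy₀
  have hy₀im : y₀.im = min y.im 0 := by simp [hy₀]
  have hy₀lo : -(G.s / 2) < y₀.im := by rw [hy₀im]; exact lt_min hy0 (by linarith)
  have hy₀hi : y₀.im ≤ 0 := by rw [hy₀im]; exact min_le_right _ _
  have hy₀y : y₀.im ≤ y.im := by rw [hy₀im]; exact min_le_left _ _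
  have hzD : (y, (t₂ : ℂ)) ∈ D₁ := by
    refine ⟨Metric.mem_ball_self hδpos, ?_, ?_⟩
    · show -(G.s / 2) + ((σ.N : ℝ) + 1) * |((t₂ : ℂ)).im| < y.im
      simpa using hy0
    · show y.im + ((σ.N : ℝ) + 1) * |((t₂ : ℂ)).im| < b
      simpa using hyb
  have hz₀D : (y₀, (t₂ : ℂ)) ∈ D₁ := by
    refine ⟨Metric.mem_ball_self hδpos, ?_, ?_⟩
    · show -(G.s / 2) + ((σ.N : ℝ) + 1) * |((t₂ : ℂ)).im| < y₀.im
      simpa using hy₀lo
    · show y₀.im + ((σ.N : ℝ) + 1) * |((t₂ : ℂ)).im| < b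
      simp only [Complex.ofReal_im, abs_zero, mul_zero, add_zero]
      linarith
  have hz₀D₀ : (y₀, (t₂ : ℂ)) ∈ s4jWedge 0 G.r₁ (-(2 * G.s)) (2 * G.s) ((σ.N : ℝ) + 1) := by
    refine ⟨ht₂', ?_, ?_⟩
    · show -(2 * G.s) + ((σ.N : ℝ) + 1) * |((t₂ : ℂ)).im| < y₀.im
      simp only [Complex.ofReal_im, abs_zero, mul_zero, add_zero]
      linarith
    · show y₀.im + ((σ.N : ℝ) + 1) * |((t₂ : ℂ)).im| < 2 * G.s
      simp only [Complex.ofReal_im, abs_zero, mul_zero, add_zero]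
      linarith
  -- `Φ` is meromorphic on `D₁`
  have hmero : Mero2On (fun w => MvPolynomial.eval (K.jetM w) R) D₁ := by
    intro w hw
    have hw2 : w.2 ∈ Metric.ball (t₂ : ℂ) δ := hw.1
    have hL : ∀ j ∈ σ.sL, (w.1 + (j : ℂ) * w.2, w.2) ∈ G.tubeU G.L0 := by
      intro j hj
      obtain ⟨h1, h2⟩ := s4j_shiftL_bd σ hj
      obtain ⟨h3, h4⟩ := s4j_wedge_shift hw h1 h2
      refine hbox₁ ⟨⟨?_, ?_⟩, Metric.ball_subset_ball (min_le_left _ _) hw2⟩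
      · nlinarith [abs_nonneg w.2.im]
      · have : b ≤ b₁ := min_le_left _ _
        nlinarith [abs_nonneg w.2.im]
    have hX : ∀ j ∈ σ.sX, (w.1 + ((j : ℂ) + 1 / 2) * w.2, w.2) ∈ G.tubeU G.X0 := by
      intro j hj
      obtain ⟨h1, h2⟩ := s4j_shiftX_bd σ hj
      obtain ⟨h3, h4⟩ := s4j_wedge_shift hw h1 h2
      refine hbox₂ ⟨⟨?_, ?_⟩, Metric.ball_subset_ball (min_le_right _ _) hw2⟩
      · nlinarith [abs_nonneg w.2.im]
      · have : b ≤ b₂ := min_le_right _ _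
        nlinarith [abs_nonneg w.2.im]
    have hw2' : w.2 ∈ Metric.ball (0 : ℂ) G.r₁ := by
      have h0 : (w.1, w.2) ∈ G.tubeU G.L0 := by
        refine hbox₁ ⟨⟨?_, ?_⟩, Metric.ball_subset_ball (min_le_left _ _) hw2⟩
        · have := hw.2.1
          have h9 : 0 ≤ ((σ.N : ℝ) + 1) * |w.2.im| := by positivity
          linarith
        · have := hw.2.2
          have h9 : 0 ≤ ((σ.N : ℝ) + 1) * |w.2.im| := by positivity
          have : b ≤ b₁ := min_le_left _ _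
          linarith
      exact h0.1
    refine s4j_jet_mero σ hR (s4j_analyticAt_A G hw2') ⟨?_, ?_⟩
    · intro j hj
      exact ⟨(K.mL.mero.1 _ (hL j hj)).refl, (K.mL.mero.2 _ (hL j hj)).refl⟩
    · intro j hj
      exact ⟨(K.mX.mero.1 _ (hX j hj)).refl, (K.mX.mero.2 _ (hX j hj)).refl⟩
  -- near `(y₀,t₂)` the two functions agree
  have hopen : IsOpen (hstrip (G.s / 2) ×ˢ Metric.ball (0 : ℂ) G.r₁) :=
    (s4j_isOpen_hstrip _).prod Metric.isOpen_ball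
  have hshift : ∀ q : ℂ, q.im = 0 →
      (y₀ + q * (t₂ : ℂ), (t₂ : ℂ)) ∈ hstrip (G.s / 2) ×ˢ Metric.ball (0 : ℂ) G.r₁ := by
    intro q hq
    refine ⟨?_, ht₂'⟩
    show |(y₀ + q * (t₂ : ℂ)).im| < G.s / 2
    have : (y₀ + q * (t₂ : ℂ)).im = y₀.im := by simp [Complex.mul_im, hq]
    rw [this, abs_lt]
    constructor <;> linarith
  have hcongr : (fun w => MvPolynomial.eval (K.jetM w) R) =ᶠ[𝓝 (y₀, (t₂ : ℂ))]
      fun w => MvPolynomial.eval (G.jet0 w) R := by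
    refine s4j_jet_congr_nhds σ hR ?_ ?_
    · intro j hj
      filter_upwards [hopen.mem_nhds (hshift (j : ℂ) (by simp))] with w hw
      exact K.mL.base w hw
    · intro j hj
      filter_upwards [hopen.mem_nhds (hshift ((j : ℂ) + 1 / 2) (by simp))] with w hw
      exact K.mX.base w hw
  rw [← s4j_jet0_zero_iff G hR hz₀D₀]
  constructor
  · intro h
    have h1 := Mero2On.eventually_eq_zero_of_isPreconnected hD₁c hmero hzD h _ hz₀D
    have h2 : (fun w => MvPolynomial.eval (G.jet0 w) R) =ᶠ[genF (y₀, (t₂ : ℂ))] fun _ => 0 := by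
      filter_upwards [h1, hcongr.genF] with w hw1 hw2
      rw [← hw2, hw1]
    exact eventuallyEq_nhds_of_genF (s4j_jet0_analytic G hR _ hz₀D₀) analyticAt_const h2
  · intro h
    have h1 : ∀ᶠ w in genF (y₀, (t₂ : ℂ)), MvPolynomial.eval (K.jetM w) R = 0 := by
      filter_upwards [h.genF, hcongr.genF] with w hw1 hw2
      rw [hw2, hw1]
    exact Mero2On.eventually_eq_zero_of_isPreconnected hD₁c hmero hz₀D h1 _ hzD

end Claimed.Agent.R269
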