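/-
Row 269, P1 Section 4, unit 4J, leaf LF-S4-4J-local: transfer of differential relations to a neighbourhood of a wall point.
Blueprint: helper264.

`s4j_local_iff`: `t₂` real, `(y,t₂)` in the closure of the tube (`ofReal y.im ≤ h_L(t₂)`), all `σ`-shifted points of `(y,t₂)` carry patches
`PL j`, `PX j`.  Then `w ↦ eval (jetU PL PX A w) R` is meromorphic at `(y,t₂)`, and it is the zero germ iff `R` is a relation on the initial domain.

PLAN.  `z₁ := (y,t₂)`, `Φ w := eval (jetU PL PX G.A w) R`.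
 1. `JetPatch.eventually` + `A` analytic near `t₂`: there is `δ > 0` with `JetPatch` at all points of `B := ball y δ ×ˢ ball t₂ δ` and `ball t₂ δ ⊆ ball 0 r₁`.
    So `Φ` is `Mero2On B` (`JetPatch.jetEq_self`, `s4j_jet_mero`).  `B` is convex, hence preconnected.
 2. `MaxExt.below_mem`: pick `0 < τ < δ` with `z' := (y - τ I, t₂)` in the tube of `L0`.  As `t₂` is real, all shifted points of `z'` have the same imaginary part,
    so they are in the tubes of `L0` and `X0` (`K.hX_eq_hL`).  `JetPatch.jetEq_max` + `s4j_jet_congr`: `Φ =ᶠ[genF z'] eval (K.jetM ·) R`.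
 3. `s4j_band_iff` at `z'`, and `Mero2On.eventually_eq_zero_of_isPreconnected` on `B` between `z'` and `z₁` (both directions).
-/
import Claimed.Agent.R269.S4.WallBand

set_option autoImplicit false

namespace Claimed.Agent.R269

open Complex Filter Topology Set
open scoped ENNReal Real

variable {G : Glance}

theorem s4j_local_mero (K : Ctx4C G) {σ : ShiftSet} {R : MvPolynomial Var ℂ} (hR : σ.Supp R)
    {z : ℂ × ℂ} (hz : z.2 ∈ Metric.ball (0 : ℂ) G.r₁) {PL PX : ℤ → ℂ × ℂ → ℂ × ℂ}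
    (hp : K.JetPatch σ PL PX z) :
    Mero2At (fun w => MvPolynomial.eval (jetU PL PX G.A w) R) z :=
  s4j_jet_mero σ hR (s4j_analyticAt_A G hz) hp.jetEq_self

theorem s4j_local_iff (K : Ctx4C G) {σ : ShiftSet} {R : MvPolynomial Var ℂ} (hR : σ.Supp R) (t₂ : ℝ)
    (ht₂ : |t₂| < K.ρ) (y : ℂ) (hy0 : -(G.s / 2) < y.im)
    (hy : ENNReal.ofReal y.im ≤ G.hL t₂) {PL PX : ℤ → ℂ × ℂ → ℂ × ℂ}
    (hp : K.JetPatch σ PL PX (y, (t₂ : ℂ))) :
    (∀ᶠ w in genF (y, (t₂ : ℂ)), MvPolynomial.eval (jetU PL PX G.A w) R = 0) ↔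
      ∀ z ∈ G.dom σ.N, MvPolynomial.eval (G.jet0 z) R = 0 := by
  have ht₂' : (t₂ : ℂ) ∈ Metric.ball (0 : ℂ) G.r₁ := K.mem_ball_r₁ t₂ ht₂
  have h1 : ∀ᶠ z' : ℂ × ℂ in 𝓝 (y, (t₂ : ℂ)), z'.2 ∈ Metric.ball (0 : ℂ) G.r₁ :=
    continuous_snd.continuousAt.eventually (Metric.isOpen_ball.mem_nhds ht₂')
  obtain ⟨δ, hδ, hB⟩ := Metric.eventually_nhds_iff_ball.1 (hp.eventually.and h1)
  have hBc : IsPreconnected (Metric.ball (y, (t₂ : ℂ)) δ) :=
    (convex_ball (y, (t₂ : ℂ)) δ : Convex ℝ _).isPreconnected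
  have hmero : Mero2On (fun w => MvPolynomial.eval (jetU PL PX G.A w) R)
      (Metric.ball (y, (t₂ : ℂ)) δ) := fun w hw => s4j_local_mero K hR (hB w hw).2 (hB w hw).1
  have hcont : Tendsto (fun τ : ℝ => (y - (τ : ℂ) * I, (t₂ : ℂ))) (𝓝[>] (0 : ℝ))
      (𝓝 (y, (t₂ : ℂ))) := by
    have hc : Continuous (fun τ : ℝ => (y - (τ : ℂ) * I, (t₂ : ℂ))) := by fun_prop
    have := hc.tendsto 0
    simp only [Complex.ofReal_zero, zero_mul, sub_zero] at this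
    exact this.mono_left nhdsWithin_le_nhds
  have h2 : ∀ᶠ τ : ℝ in 𝓝[>] (0 : ℝ), (y - (τ : ℂ) * I, (t₂ : ℂ)) ∈ Metric.ball (y, (t₂ : ℂ)) δ :=
    hcont.eventually (Metric.ball_mem_nhds _ hδ)
  obtain ⟨τ, hτB, hτT⟩ := (h2.and (K.mL.below_mem ht₂' hy0 hy)).exists
  have hτX : (y - (τ : ℂ) * I, (t₂ : ℂ)) ∈ G.tubeU G.X0 := by
    refine ⟨hτT.1, hτT.2.1, ?_⟩
    have h3 : ENNReal.ofReal (y - (τ : ℂ) * I).im < G.hL t₂ := hτT.2.2
    rw [← K.hX_eq_hL t₂ ht₂] at h3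
    exact h3
  have hje : JetEq σ PL PX (fun _ => K.mL.F) (fun _ => K.mX.F) (y - (τ : ℂ) * I, (t₂ : ℂ)) := by
    refine (hB _ hτB).1.jetEq_max ?_ ?_
    · intro j _
      exact MaxExt.tube_translate G G.L0 hτT (by simp)
    · intro j _
      exact MaxExt.tube_translate G G.X0 hτX (by simp)
  have hcongr := s4j_jet_congr (A := G.A) σ hR hje
  rw [← s4j_band_iff K hR t₂ ht₂ _ hτT]
  constructor
  · intro h
    have h3 := Mero2On.eventually_eq_zero_of_isPreconnected hBc hmero (Metric.mem_ball_self hδ) h _ hτB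
    filter_upwards [h3, hcongr] with w hw1 hw2
    exact hw2.symm.trans hw1
  · intro h
    have h3 : ∀ᶠ w in genF (y - (τ : ℂ) * I, (t₂ : ℂ)),
        MvPolynomial.eval (jetU PL PX G.A w) R = 0 := by
      filter_upwards [h, hcongr] with w hw1 hw2
      exact hw2.trans hw1
    exact Mero2On.eventually_eq_zero_of_isPreconnected hBc hmero hτB h3 _ (Metric.mem_ball_self hδ)

theorem s4j_local (K : Ctx4C G) {σ : ShiftSet} {R : MvPolynomial Var ℂ} (hR : G.IsRel σ R) (t₂ : ℝ)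
    (ht₂ : |t₂| < K.ρ) (y : ℂ) (hy0 : -(G.s / 2) < y.im)
    (hy : ENNReal.ofReal y.im ≤ G.hL t₂) {PL PX : ℤ → ℂ × ℂ → ℂ × ℂ}
    (hp : K.JetPatch σ PL PX (y, (t₂ : ℂ))) :
    ∀ᶠ w in genF (y, (t₂ : ℂ)), MvPolynomial.eval (jetU PL PX G.A w) R = 0 :=
  (s4j_local_iff K hR.supp t₂ ht₂ y hy0 hy hp).2 hR.zero

theorem s4j_local_ne (K : Ctx4C G) {σ : ShiftSet} {R : MvPolynomial Var ℂ} (hR : G.IsNonRel σ R)
    (t₂ : ℝ) (ht₂ : |t₂| < K.ρ) (y : ℂ) (hy0 : -(G.s / 2) < y.im)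
    (hy : ENNReal.ofReal y.im ≤ G.hL t₂) {PL PX : ℤ → ℂ × ℂ → ℂ × ℂ}
    (hp : K.JetPatch σ PL PX (y, (t₂ : ℂ))) :
    ¬ ∀ᶠ w in genF (y, (t₂ : ℂ)), MvPolynomial.eval (jetU PL PX G.A w) R = 0 := fun h => by
  obtain ⟨z, hz, hne⟩ := hR.ne
  exact hne ((s4j_local_iff K hR.supp t₂ ht₂ y hy0 hy hp).1 h z hz)

end Claimed.Agent.R269
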