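/-
Row 269, P1 Section 4, unit 4J, leaf LF-S4-4J-rel: the differential relations contained in a lens datum.   PURE ALGEBRA (MvPolynomial / Polynomial).  Blueprint: helper264.

PLAN.
* `σ.Supp` is membership in the subalgebra `MvPolynomial.supported ℂ σ.allow`: closed under `+, *, -, C`, finite sums, natural multiples; coefficients of products of polynomials:
  `Polynomial.coeff_mul` (sum over the antidiagonal), `Polynomial.coeff_derivative`, `Polynomial.coeff_C`; `Polynomial.eval_eq_sum_range` for `Pi.eval (X v)`;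
  `MvPolynomial.X_mem_supported`; `ShiftSet.Supp.mono` from `σ` to `σ.insertL 0 _`.
* `bezoutRel.zero`: `Polynomial.coeff_map` applied to `Λ.bezout z hz`.
* `rootRel.zero`: `eval J (Pi.eval (X v)) = (Pi.map (eval J)).eval (J v)` (`Polynomial.eval_map`, `Polynomial.hom_eval₂`, `MvPolynomial.eval_X`);
  `G.jet0 z (Sum.inl (0,c,0,0)) = crd c (G.L0 (z.1 + (0:ℤ) * z.2, z.2))` by `rfl` (`pd 0 0 u = u`), then `simp`; `(σ.insertL 0 _).N = σ.N` by `rfl`.
-/
import Claimed.Agent.R269.S4.WallLens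

set_option autoImplicit false

namespace Claimed.Agent.R269

open Complex Filter Topology Set Polynomial
open scoped ENNReal Real

variable {G : Glance}

namespace Glance.Lens

variable {c : Fin 2} {σ : ShiftSet} (Λ : G.Lens c σ)

theorem rootRel :
    G.IsRel (σ.insertL 0 σ.abs_zero_le) (Λ.Pi.eval (MvPolynomial.X (Sum.inl (0, c, 0, 0)))) := by
  have m1 : σ.sL ⊆ (σ.insertL 0 σ.abs_zero_le).sL := fun j hj => Or.inr hj
  have m2 : σ.sX ⊆ (σ.insertL 0 σ.abs_zero_le).sX := fun j hj => hj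
  constructor
  · rw [Polynomial.eval_eq_sum_range]
    refine Subalgebra.sum_mem _ fun i _ => Subalgebra.mul_mem _
      (ShiftSet.Supp.mono m1 m2 (Λ.supp_Pi i)) (Subalgebra.pow_mem _ ?_ i)
    refine MvPolynomial.X_mem_supported.2 ⟨?_, ?_⟩
    · intro i' hi'
      have : ((0 : ℤ), c, 0, 0) = i' := Sum.inl.inj hi'
      subst this
      exact Or.inl rfl
    · intro i' hi'
      exact absurd hi' (by simp)
  · intro z hz
    have hz' : z ∈ G.dom σ.N := hz
    have h1 := Λ.root z hz'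
    rw [Polynomial.eval_map] at h1
    have h2 : G.jet0 z (Sum.inl (0, c, 0, 0)) = crd c (G.L0 z) := by
      show crd c (G.L0 (z.1 + ((0 : ℤ) : ℂ) * z.2, z.2)) = _
      rw [Int.cast_zero, zero_mul, add_zero]
    rw [← h2, ← MvPolynomial.eval_X (f := G.jet0 z), Polynomial.eval₂_at_apply] at h1
    exact h1

/-- polynomials all of whose coefficients are supported. -/
theorem _root_.Claimed.Agent.R269.s4j_supp_coeff_mul {σ : ShiftSet}
    {p q : Polynomial (MvPolynomial Var ℂ)} (hp : ∀ l, σ.Supp (p.coeff l))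
    (hq : ∀ l, σ.Supp (q.coeff l)) (l : ℕ) : σ.Supp ((p * q).coeff l) := by
  rw [Polynomial.coeff_mul]
  exact Subalgebra.sum_mem _ fun x _ => Subalgebra.mul_mem _ (hp _) (hq _)

theorem _root_.Claimed.Agent.R269.s4j_supp_coeff_derivative {σ : ShiftSet}
    {p : Polynomial (MvPolynomial Var ℂ)} (hp : ∀ l, σ.Supp (p.coeff l)) (l : ℕ) :
    σ.Supp ((derivative p).coeff l) := by
  rw [Polynomial.coeff_derivative]
  exact Subalgebra.mul_mem _ (hp _) (Subalgebra.add_mem _ (natCast_mem _ l) (Subalgebra.one_mem _))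

theorem bezoutRel (l : ℕ) :
    G.IsRel σ ((Λ.A * Λ.Pi + Λ.B * derivative Λ.Pi - C Λ.D).coeff l) := by
  constructor
  · rw [Polynomial.coeff_sub, Polynomial.coeff_add]
    refine Subalgebra.sub_mem _ (Subalgebra.add_mem _ (s4j_supp_coeff_mul Λ.supp_A Λ.supp_Pi l)
      (s4j_supp_coeff_mul Λ.supp_B (s4j_supp_coeff_derivative Λ.supp_Pi) l)) ?_
    rw [Polynomial.coeff_C]
    split_ifs
    · exact Λ.supp_D
    · exact Subalgebra.zero_mem _
  · intro z hz
    have h1 := congrArg (fun q => q.coeff l) (Λ.bezout z hz)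
    simpa only [Polynomial.coeff_map, Polynomial.coeff_zero] using h1

theorem nonRel_D : G.IsNonRel σ Λ.D :=
  ⟨Λ.supp_D, by obtain ⟨z, hz, h, -⟩ := Λ.nondeg; exact ⟨z, hz, h⟩⟩

theorem nonRel_lc : G.IsNonRel σ Λ.Pi.leadingCoeff :=
  ⟨Λ.supp_Pi _, by obtain ⟨z, hz, -, h⟩ := Λ.nondeg; exact ⟨z, hz, h⟩⟩

end Glance.Lens

end Claimed.Agent.R269
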