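/-
Row 269, P1 Section 4, unit 4J, leaf LF-S4-4J-rootrel: the root relation of a lens datum at a tube point with real parameter.   Blueprint: helper264.

Notation: `J := jetU PL PX G.A`, `Glance.cf J q` = normal form (`mnf`) of `w ↦ eval (J w) q`.

PLAN.
 * `PL' := Function.update PL 0 K.mL.F`.  `K.JetPatch (σ.insertL 0 _) PL' PX (y,t₂)`: for `j = 0` the patch `K.mL.isPatch_self` on the tube (`y + 0 * t₂ = y`); for `j ∈ σ.sL`, `j ≠ 0`.
 * `s4j_local` with `Λ.rootRel` (`ofReal y.im ≤ h_L` and `-(s/2) < y.im` from `hy`):  generically `eval (J' w) (Λ.Pi.eval (X v)) = 0`, `v = Sum.inl (0,c,0,0)`, `J' = jetU PL' PX G.A`.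
   `eval (J' w) (Π.eval (X v)) = ∑_{i ≤ d} eval (J' w) (Π.coeff i) * (J' w v)^i`, `J' w v = crd c (K.mL.F (w.1 + 0 * w.2, w.2))`,
   `eval (J' w) (Π.coeff i) = eval (J w) (Π.coeff i)` (`ShiftSet.eval_congr`: the allowed variables have shift `≠ 0`), `= cf J (Π.coeff i) w` generically
   (`s4j_local_mero`, `Mero2At.mnf_eqAt`).
-/
import Claimed.Agent.R269.S4.WallLocal
import Claimed.Agent.R269.S4.WallRel

set_option autoImplicit false

namespace Claimed.Agent.R269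

open Complex Filter Topology Set Polynomial
open scoped ENNReal Real

variable {G : Glance}

/-- the normal form of a polynomial in the jets agrees generically with the polynomial. -/
theorem s4j_cf_eventuallyEq (K : Ctx4C G) {σ : ShiftSet} {q : MvPolynomial Var ℂ} (hq : σ.Supp q)
    {z : ℂ × ℂ} (hz : z.2 ∈ Metric.ball (0 : ℂ) G.r₁) {PL PX : ℤ → ℂ × ℂ → ℂ × ℂ}
    (hp : K.JetPatch σ PL PX z) :
    Glance.cf (jetU PL PX G.A) q =ᶠ[genF z] fun w => MvPolynomial.eval (jetU PL PX G.A w) q :=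
  (s4j_local_mero K hq hz hp).mnf_eqAt.eventuallyEq

/-- replacing the field with a shift index which is not allowed does not change the value. -/
theorem s4j_eval_update {σ : ShiftSet} {q : MvPolynomial Var ℂ} (hq : σ.Supp q) {j₀ : ℤ}
    (hj₀ : j₀ ∉ σ.sL) (PL PX : ℤ → ℂ × ℂ → ℂ × ℂ) (F : ℂ × ℂ → ℂ × ℂ) (A : ℂ → ℂ) (w : ℂ × ℂ) :
    MvPolynomial.eval (jetU (Function.update PL j₀ F) PX A w) q
      = MvPolynomial.eval (jetU PL PX A w) q := by
  refine ShiftSet.eval_congr σ hq fun v hv => ?_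
  rcases v with i | i | b
  · have hne : i.1 ≠ j₀ := fun h => hj₀ (h ▸ hv.1 i rfl)
    show pd i.2.2.1 i.2.2.2 (fun w' => crd i.2.1 (Function.update PL j₀ F i.1 w')) _ = _
    rw [Function.update_of_ne hne]
    rfl
  · rfl
  · rfl

/-- adding the maximal extension itself as a patch at a shifted point in the tube. -/
theorem s4j_jetPatch_insert (K : Ctx4C G) {σ : ShiftSet} {j₀ : ℤ} (hj₀ : j₀ ∉ σ.sL)
    (hb : |j₀| ≤ (σ.N : ℤ)) {PL PX : ℤ → ℂ × ℂ → ℂ × ℂ} {z : ℂ × ℂ}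
    (hp : K.JetPatch σ PL PX z) (hz : (z.1 + (j₀ : ℂ) * z.2, z.2) ∈ G.tubeU G.L0) :
    K.JetPatch (σ.insertL j₀ hb) (Function.update PL j₀ K.mL.F) PX z := by
  refine ⟨?_, hp.2⟩
  intro j hj
  rcases hj with rfl | hj
  · refine ⟨_, hz, ?_⟩
    rw [Function.update_self]
    exact K.mL.isPatch_self
  · have hne : j ≠ j₀ := fun h => hj₀ (h ▸ hj)
    rw [Function.update_of_ne hne]
    exact hp.1 j hj

theorem s4j_rootrel (K : Ctx4C G) {c : Fin 2} {σ : ShiftSet} (h0 : (0 : ℤ) ∉ σ.sL)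
    (Λ : G.Lens c σ) {PL PX : ℤ → ℂ × ℂ → ℂ × ℂ} (t₂ : ℝ) (ht₂ : |t₂| < K.ρ) (y : ℂ)
    (hy : (y, (t₂ : ℂ)) ∈ G.tubeU G.L0) (hp : K.JetPatch σ PL PX (y, (t₂ : ℂ))) :
    ∀ᶠ w in genF (y, (t₂ : ℂ)), ∑ i ∈ Finset.range (Λ.Pi.natDegree + 1),
      Glance.cf (jetU PL PX G.A) (Λ.Pi.coeff i) w * (crd c (K.mL.F w)) ^ i = 0 := by
  have ht : (t₂ : ℂ) ∈ Metric.ball (0 : ℂ) G.r₁ := K.mem_ball_r₁ t₂ ht₂
  have hp' : K.JetPatch (σ.insertL 0 σ.abs_zero_le) (Function.update PL 0 K.mL.F) PX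
      (y, (t₂ : ℂ)) := by
    refine s4j_jetPatch_insert K h0 σ.abs_zero_le hp ?_
    simpa using hy
  have h1 := s4j_local K Λ.rootRel t₂ ht₂ y hy.2.1 (le_of_lt hy.2.2) hp'
  have h2 : ∀ᶠ w in genF (y, (t₂ : ℂ)), ∀ i ∈ Finset.range (Λ.Pi.natDegree + 1),
      Glance.cf (jetU PL PX G.A) (Λ.Pi.coeff i) w
        = MvPolynomial.eval (jetU PL PX G.A w) (Λ.Pi.coeff i) :=
    (Filter.eventually_all_finset _).2 fun i _ => s4j_cf_eventuallyEq K (Λ.supp_Pi i) ht hp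
  filter_upwards [h1, h2] with w hw1 hw2
  rw [Polynomial.eval_eq_sum_range, map_sum] at hw1
  rw [← hw1]
  refine Finset.sum_congr rfl fun i hi => ?_
  rw [hw2 i hi, map_mul, map_pow, MvPolynomial.eval_X, s4j_eval_update (Λ.supp_Pi i) h0]
  congr 2
  show _ = crd c (Function.update PL 0 K.mL.F 0 (w.1 + ((0 : ℤ) : ℂ) * w.2, w.2))
  rw [Function.update_self, Int.cast_zero, zero_mul, add_zero]

end Claimed.Agent.R269
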