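/-
Row 269, P1 Section 4, unit 4J, leaf LF-S4-4J-alg: step (A2), analytic part.  A wall point `y` all of whose translates `y + i t₂`, `i ≤ -1` or `i ≥ K₀`, are good is good.
Blueprint: helper264.

PLAN of `s4j_alg2_coord`.  `⟨σ, h1, P, Q, hσ, hX, hP, hQ, hrel⟩ := s4j_alg2 h3 K₀ c`,  `z₁ := (y - t₂, t₂)`.
 1. for `j ∈ σ.sL`: `z₁.1 + j t₂ = y + (j - 1) t₂`, and `j ≤ 0 ⇒ j - 1 ≤ -1`, `K₀ < j ⇒ K₀ ≤ j - 1`: the point is good.  Choose (`Classical.choose`) patches `PL j`; `PX` arbitrary (`σ.sX = ∅`).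
    So `K.JetPatch σ PL PX z₁`; it persists on an open neighbourhood `N₁` of `z₁` (`JetPatch.eventually`), which we also take inside `{z | z.2 ∈ ball 0 r₁}`.
 2. `J := jetU PL PX G.A`, `u w := eval (J w) P / eval (J w) Q` is `Mero2On N₁` (`s4j_local_mero`, `Mero2At.div`).
    `N := {v | (v.1 - v.2, v.2) ∈ N₁}`, `U v := u (v.1 - v.2, v.2)`: `Mero2On N` by `Mero2At.comp_shear` (`shear (fun ζ => -ζ) 0 1 v = (v.1 + -v.2, 0 + 1 * v.2)`).
 3. for small `τ > 0`: `z' := (y - t₂ - τ I, t₂) ∈ N₁`, `(y - τ I, t₂)` in the tube (`MaxExt.below_mem`).  `PL' := Function.update PL 1 K.mL.F`; `1 ∉ σ.sL` because `1 ≤ K₀`.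
    `K.JetPatch (σ.insertL 1 h1) PL' PX z'` (for `j = 1` the patch `K.mL.isPatch_self`).  `s4j_local` with `hrel` at `z'` (its imaginary part is `y.im - τ`, still `> -(s/2)` by `K.le_im_of_wall`
    for small `τ`, and `ofReal (y.im - τ) ≤ h_L`):  generically  `crd c (K.mL.F (w.1 + 1 * w.2, w.2)) * eval (J' w) Q - eval (J' w) P = 0`;  `eval (J' w) = eval (J w)` on `P`, `Q` (`ShiftSet.eval_congr`).
 4. `s4j_local_ne` with `hQ` at `z'` + `Mero2At.eventually_ne_zero`: generically `eval (J w) Q ≠ 0`.  Hence `crd c (K.mL.F (w.1 + w.2, w.2)) = u w` generically at `z'`.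
    Pull back by the shear `v ↦ (v.1 - v.2, v.2)` (`tendsto_genF_shear`), which maps `(y - τ I, t₂)` to `z'`: `crd c (K.mL.F v) = U v` generically at `(y - τ I, t₂)`.  `mero2EqAt_iff_genF`.
-/
import Claimed.Agent.R269.S4.WallLocal
import Claimed.Agent.R269.S4.WallRel
import Claimed.Agent.R269.S4.WallRootRel

set_option autoImplicit false

namespace Claimed.Agent.R269

open Complex Filter Topology Set
open scoped ENNReal Real

variable {G : Glance}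

theorem s4j_alg2_coord (K : Ctx4C G) (h3 : G.Alg2) (t₂ : ℝ) (ht₂ : |t₂| < K.ρ) (y : ℂ)
    (hy : ENNReal.ofReal y.im = G.hL t₂) (K₀ : ℕ) (hK₀ : 1 ≤ K₀)
    (hneg : ∀ i : ℤ, i ≤ -1 → K.Good t₂ (y + i * t₂))
    (hpos : ∀ i : ℤ, (K₀ : ℤ) ≤ i → K.Good t₂ (y + i * t₂)) (c : Fin 2) :
    ∃ (N : Set (ℂ × ℂ)) (U : ℂ × ℂ → ℂ), IsOpen N ∧ (y, (t₂ : ℂ)) ∈ N ∧ Mero2On U N ∧
      ∀ᶠ τ : ℝ in 𝓝[>] (0 : ℝ),
        Mero2EqAt U (fun w => crd c (K.mL.F w)) (y - (τ : ℂ) * I, (t₂ : ℂ)) := by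
  classical
  obtain ⟨σ, h1, P, Q, hσ, hX, hP, hQ, hrel⟩ := s4j_alg2 h3 K₀ c
  have hs : 0 < G.s := G.r₁_pos.trans G.r₁_lt
  have ht : (t₂ : ℂ) ∈ Metric.ball (0 : ℂ) G.r₁ := K.mem_ball_r₁ t₂ ht₂
  have hy0 : -(G.s / 2) < y.im := by
    have := K.le_im_of_wall t₂ ht₂ hy
    linarith
  set z₁ : ℂ × ℂ := (y + (-1) * (t₂ : ℂ), (t₂ : ℂ)) with hz₁
  -- patches at the shifted points of `z₁`
  have hgood : ∀ j ∈ σ.sL, ∃ Pj : ℂ × ℂ → ℂ × ℂ, ∃ W, (z₁.1 + (j : ℂ) * z₁.2, z₁.2) ∈ W ∧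
      K.mL.IsPatch Pj W := by
    intro j hj
    have e : z₁.1 + (j : ℂ) * z₁.2 = y + ((j - 1 : ℤ) : ℂ) * (t₂ : ℂ) := by
      simp only [hz₁]; push_cast; ring
    have hg : K.Good t₂ (y + ((j - 1 : ℤ) : ℂ) * (t₂ : ℂ)) := by
      rcases hσ j hj with h | h
      · exact hneg _ (by omega)
      · exact hpos _ (by omega)
    obtain ⟨W, Pj, hz, hW⟩ := hg
    exact ⟨Pj, W, by rw [e]; exact hz, hW⟩
  choose! PL hPL using hgood
  set PX : ℤ → ℂ × ℂ → ℂ × ℂ := fun _ _ => 0 with hPX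
  have hp₁ : K.JetPatch σ PL PX z₁ := ⟨hPL, fun j hj => by rw [hX] at hj; exact absurd hj (by simp)⟩
  have hev : ∀ᶠ z in 𝓝 z₁, K.JetPatch σ PL PX z ∧ z.2 ∈ Metric.ball (0 : ℂ) G.r₁ :=
    hp₁.eventually.and (continuous_snd.continuousAt.eventually (Metric.isOpen_ball.mem_nhds ht))
  obtain ⟨N₁, hN₁sub, hN₁o, hzN₁⟩ := mem_nhds_iff.1 hev
  set J := jetU PL PX G.A with hJ
  set u : ℂ × ℂ → ℂ := fun w => MvPolynomial.eval (J w) P / MvPolynomial.eval (J w) Q with hu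
  have humero : Mero2On u N₁ := fun w hw =>
    (s4j_local_mero K hP (hN₁sub hw).2 (hN₁sub hw).1).div
      (s4j_local_mero K hQ.supp (hN₁sub hw).2 (hN₁sub hw).1)
  have hScont : Continuous (fun v : ℂ × ℂ => (v.1 + (-1) * v.2, v.2)) := by fun_prop
  have han : ∀ ζ : ℂ, AnalyticAt ℂ (fun ζ : ℂ => (-1 : ℂ) * ζ) ζ := fun ζ =>
    analyticAt_const.mul analyticAt_id
  have hUmero : Mero2On (fun v => u (v.1 + (-1) * v.2, v.2))
      {v | (v.1 + (-1) * v.2, v.2) ∈ N₁} := by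
    intro v hv
    have hv' : (v.1 + (-1) * v.2, v.2) ∈ N₁ := hv
    have h2 := humero _ hv'
    rw [← s4j_shear_eq] at h2
    have h3 := h2.comp_shear (han _) one_ne_zero
    simpa only [s4j_shear_eq] using h3
  refine ⟨{v | (v.1 + (-1) * v.2, v.2) ∈ N₁}, fun v => u (v.1 + (-1) * v.2, v.2),
    hN₁o.preimage hScont, hzN₁, hUmero, ?_⟩
  have h1not : (1 : ℤ) ∉ σ.sL := by
    intro h
    rcases hσ 1 h with h | h
    · omega
    · have : (1 : ℤ) ≤ (K₀ : ℤ) := by exact_mod_cast hK₀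
      omega
  have hcont : Tendsto (fun τ : ℝ => (y - (τ : ℂ) * I + (-1) * (t₂ : ℂ), (t₂ : ℂ))) (𝓝[>] (0 : ℝ))
      (𝓝 z₁) := by
    have hc : Continuous (fun τ : ℝ => (y - (τ : ℂ) * I + (-1) * (t₂ : ℂ), (t₂ : ℂ))) := by fun_prop
    have := hc.tendsto 0
    simp only [Complex.ofReal_zero, zero_mul, sub_zero] at this
    exact this.mono_left nhdsWithin_le_nhds
  filter_upwards [hcont.eventually (hN₁o.mem_nhds hzN₁), K.mL.below_mem ht hy0 hy.le] with τ hτN hτT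
  set y' : ℂ := y - (τ : ℂ) * I + (-1) * (t₂ : ℂ) with hy'
  have him : y'.im = (y - (τ : ℂ) * I).im := by simp [hy']
  have hy'0 : -(G.s / 2) < y'.im := by rw [him]; exact hτT.2.1
  have hy'1 : ENNReal.ofReal y'.im ≤ G.hL t₂ := by rw [him]; exact le_of_lt hτT.2.2
  have hp' : K.JetPatch σ PL PX (y', (t₂ : ℂ)) := (hN₁sub hτN).1
  have hp'' : K.JetPatch (σ.insertL 1 h1) (Function.update PL 1 K.mL.F) PX (y', (t₂ : ℂ)) := by
    refine s4j_jetPatch_insert K h1not h1 hp' ?_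
    have e : y' + ((1 : ℤ) : ℂ) * (t₂ : ℂ) = y - (τ : ℂ) * I := by
      rw [hy']; push_cast; ring
    show (y' + ((1 : ℤ) : ℂ) * (t₂ : ℂ), (t₂ : ℂ)) ∈ G.tubeU G.L0
    rw [e]
    exact hτT
  have g1 := s4j_local K hrel t₂ ht₂ y' hy'0 hy'1 hp''
  have g2 : ∀ᶠ w in genF (y', (t₂ : ℂ)), MvPolynomial.eval (J w) Q ≠ 0 :=
    (s4j_local_mero K hQ.supp ht hp').eventually_ne_zero
      (s4j_local_ne K hQ t₂ ht₂ y' hy'0 hy'1 hp')
  have g3 : ∀ᶠ w in genF (y', (t₂ : ℂ)), crd c (K.mL.F (w.1 + 1 * w.2, w.2)) = u w := by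
    filter_upwards [g1, g2] with w w1 w2
    rw [map_sub, map_mul, MvPolynomial.eval_X, s4j_eval_update hQ.supp h1not,
      s4j_eval_update hP h1not, sub_eq_zero] at w1
    have e : jetU (Function.update PL 1 K.mL.F) PX G.A w (Sum.inl (1, c, 0, 0))
        = crd c (K.mL.F (w.1 + 1 * w.2, w.2)) := by
      show crd c (Function.update PL 1 K.mL.F 1 (w.1 + ((1 : ℤ) : ℂ) * w.2, w.2)) = _
      rw [Function.update_self, Int.cast_one]
    rw [e] at w1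
    show _ = MvPolynomial.eval (J w) P / MvPolynomial.eval (J w) Q
    rw [eq_div_iff w2]
    exact w1
  have hsh : shear (fun ζ => (-1 : ℂ) * ζ) 0 1 (y - (τ : ℂ) * I, (t₂ : ℂ)) = (y', (t₂ : ℂ)) := by
    rw [s4j_shear_eq]
  have g4 := (tendsto_genF_shear (a := fun ζ => (-1 : ℂ) * ζ) (t₀ := 0) (r := 1)
    (z := (y - (τ : ℂ) * I, (t₂ : ℂ))) (han _) one_ne_zero)
  rw [hsh] at g4
  have g5 := g4.eventually g3
  refine mero2EqAt_iff_genF.2 ⟨hUmero _ hτN, ?_⟩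
  filter_upwards [g5] with v hv
  rw [s4j_shear_eq] at hv
  simp only at hv
  rw [← hv]
  congr 2
  ext
  · simp
  · rfl

/-- **Step (A2), analytic part.** -/
theorem s4j_alg2_step (K : Ctx4C G) (h3 : G.Alg2) (t₂ : ℝ) (ht₂ : |t₂| < K.ρ) (y : ℂ)
    (hy : ENNReal.ofReal y.im = G.hL t₂) (K₀ : ℕ)
    (hneg : ∀ i : ℤ, i ≤ -1 → K.Good t₂ (y + i * t₂))
    (hpos : ∀ i : ℤ, (K₀ : ℤ) ≤ i → K.Good t₂ (y + i * t₂)) : K.Good t₂ y := by
  rcases Nat.eq_zero_or_pos K₀ with h0 | h0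
  · have := hpos 0 (by simp [h0])
    simpa using this
  obtain ⟨N0, U0, hN0, hz0, hU0, he0⟩ := s4j_alg2_coord K h3 t₂ ht₂ y hy K₀ h0 hneg hpos 0
  obtain ⟨N1, U1, hN1, hz1, hU1, he1⟩ := s4j_alg2_coord K h3 t₂ ht₂ y hy K₀ h0 hneg hpos 1
  have hs : 0 < G.s := G.r₁_pos.trans G.r₁_lt
  have hy0 : -(G.s / 2) < y.im := by
    have := K.le_im_of_wall t₂ ht₂ hy
    linarith
  obtain ⟨W, -, hzW, hW⟩ := K.mL.isPatch_of_point (K.mem_ball_r₁ t₂ ht₂) hy0 hy.le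
    (P := fun w => (U0 w, U1 w)) (hN0.inter hN1) ⟨hz0, hz1⟩
    ⟨fun z hz => hU0 z hz.1, fun z hz => hU1 z hz.2⟩
    ((he0.and he1).mono fun τ h => ⟨by simpa [crd] using h.1, by simpa [crd] using h.2⟩).frequently
  exact ⟨W, _, hzW, hW⟩

end Claimed.Agent.R269
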