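/-
Row 269, P1 Section 4, unit 4J, leaf LF-S4-4J-lens: conversion of the interfaces `G.LensL`, `G.LensP`, `G.Alg2` (`S4/Defs.lean`) to the universal
jet variables, and the differential relations contained in a lens datum.   PURE ALGEBRA (MvPolynomial / Polynomial).  Blueprint: helper264.

PLAN.
* `(G.jet0 z) ∘ Sum.inl = jetAt G.L0 z` and `(G.jet0 z) ∘ Sum.inr = jetAtHA G.X0 G.A z` hold by `rfl`/`funext` (`Sum.elim`), so
  `MvPolynomial.eval_rename` turns `eval (G.jet0 z) (rename Sum.inl q)` into `eval (jetAt G.L0 z) q`.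
* new polynomials: `Pi.map (MvPolynomial.rename Sum.inl).toRingHom` etc.; `Polynomial.map_map`, `Polynomial.map_mul`, `Polynomial.derivative_map`;
  `MvPolynomial.rename_injective` gives `natDegree_map_eq_of_injective`, `leadingCoeff_map_of_injective`.
* supports: `MvPolynomial.vars_rename` (`(rename f p).vars ⊆ p.vars.image f`) + `MvPolynomial.mem_supported`.
* `σ.Supp` is membership in the subalgebra `MvPolynomial.supported ℂ σ.allow`: closed under `+, *, -, C`, finite sums; coefficients of products of polynomials: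
  `Polynomial.coeff_mul`, `Polynomial.coeff_derivative`; `Polynomial.eval_eq_sum_range` for `Pi.eval (X v)`.
* `eval J (Pi.eval (X v)) = (Pi.map (eval J)).eval (J v)`: `Polynomial.hom_eval₂` / `Polynomial.eval_map`, `Polynomial.eval₂_at_apply`-style.
* `G.jet0 z (Sum.inl (j,c,0,0)) = crd c (G.L0 (z.1 + j * z.2, z.2))` by `rfl` (`pd 0 0 u = u`).
-/
import Claimed.Agent.R269.S4.WallJet

set_option autoImplicit false

namespace Claimed.Agent.R269

open Complex Filter Topology Set Polynomial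
open scoped ENNReal Real

theorem ShiftSet.abs_zero_le (σ : ShiftSet) : |(0 : ℤ)| ≤ (σ.N : ℤ) := by simp

/-- the shift set of LENS-L with endpoints `m`, `n`. -/
def ShiftSet.lensL (m n : ℤ) : ShiftSet where
  sL := {m, n}
  sX := ∅
  N := max m.natAbs n.natAbs
  bdL := by
    intro j hj
    rcases hj with rfl | hj
    · rw [Int.abs_eq_natAbs]; exact_mod_cast le_max_left _ _
    · rw [Set.mem_singleton_iff.1 hj, Int.abs_eq_natAbs]; exact_mod_cast le_max_right _ _
  bdX := by simp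

/-- the shift set of LENS-P with endpoint impacts `m + 1/2`, `n + 1/2`. -/
def ShiftSet.lensX (m n : ℤ) : ShiftSet where
  sL := ∅
  sX := {m, n}
  N := max m.natAbs n.natAbs + 1
  bdL := by simp
  bdX := by
    intro j hj
    rcases hj with rfl | hj
    · rw [Int.abs_eq_natAbs]; push_cast; gcongr; exact_mod_cast le_max_left _ _
    · rw [Set.mem_singleton_iff.1 hj, Int.abs_eq_natAbs]; push_cast; gcongr
      exact_mod_cast le_max_right _ _

variable {G : Glance}

theorem s4j_supp_rename {τ : Type} (k : τ → Var) (σ : ShiftSet) {q : MvPolynomial τ ℂ}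
    (hq : ∀ i ∈ q.vars, k i ∈ σ.allow) : σ.Supp (MvPolynomial.rename k q) := by
  classical
  refine MvPolynomial.mem_supported.2 ?_
  intro v hv
  have h1 := MvPolynomial.vars_rename k q (Finset.mem_coe.1 hv)
  obtain ⟨i, hi, rfl⟩ := Finset.mem_image.1 h1
  exact hq i hi

theorem s4j_eval_comp_rename {τ : Type} (k : τ → Var) (J : Var → ℂ) :
    (MvPolynomial.eval J).comp (MvPolynomial.rename k : MvPolynomial τ ℂ →ₐ[ℂ] MvPolynomial Var ℂ).toRingHom
      = MvPolynomial.eval (J ∘ k) := by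
  ext q
  · simp
  · simp

/-- a lens datum from data in a subset of the variables. -/
theorem s4j_lens_of_rename {τ : Type} (k : τ → Var) (hk : Function.Injective k)
    (J' : ℂ × ℂ → τ → ℂ) (hJ : ∀ z, G.jet0 z ∘ k = J' z) (c : Fin 2) (σ : ShiftSet)
    (Pi A B : Polynomial (MvPolynomial τ ℂ)) (D : MvPolynomial τ ℂ)
    (hPi : ∀ l, ∀ i ∈ (Pi.coeff l).vars, k i ∈ σ.allow)
    (hA : ∀ l, ∀ i ∈ (A.coeff l).vars, k i ∈ σ.allow)
    (hB : ∀ l, ∀ i ∈ (B.coeff l).vars, k i ∈ σ.allow)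
    (hD : ∀ i ∈ D.vars, k i ∈ σ.allow) (deg : 1 ≤ Pi.natDegree)
    (bez : ∀ z ∈ G.dom σ.N,
      (A * Pi + B * derivative Pi - C D).map (MvPolynomial.eval (J' z)) = 0)
    (nondeg : ∃ z ∈ G.dom σ.N, MvPolynomial.eval (J' z) D ≠ 0 ∧
      MvPolynomial.eval (J' z) Pi.leadingCoeff ≠ 0)
    (root : ∀ z ∈ G.dom σ.N, (Pi.map (MvPolynomial.eval (J' z))).eval (crd c (G.L0 z)) = 0) :
    Nonempty (G.Lens c σ) := by
  set ρ : MvPolynomial τ ℂ →+* MvPolynomial Var ℂ :=
    (MvPolynomial.rename k : MvPolynomial τ ℂ →ₐ[ℂ] MvPolynomial Var ℂ).toRingHom with hρ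
  have hinj : Function.Injective ρ := MvPolynomial.rename_injective k hk
  have hcomp : ∀ z, (MvPolynomial.eval (G.jet0 z)).comp ρ = MvPolynomial.eval (J' z) := by
    intro z
    rw [hρ, s4j_eval_comp_rename, hJ]
  have hev : ∀ z q, MvPolynomial.eval (G.jet0 z) (ρ q) = MvPolynomial.eval (J' z) q := by
    intro z q
    rw [← hcomp z]
    rfl
  refine ⟨{
    Pi := Pi.map ρ
    A := A.map ρ
    B := B.map ρ
    D := ρ D
    deg := by rw [Polynomial.natDegree_map_eq_of_injective hinj]; exact deg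
    supp_Pi := fun l => by rw [Polynomial.coeff_map]; exact s4j_supp_rename k σ (hPi l)
    supp_A := fun l => by rw [Polynomial.coeff_map]; exact s4j_supp_rename k σ (hA l)
    supp_B := fun l => by rw [Polynomial.coeff_map]; exact s4j_supp_rename k σ (hB l)
    supp_D := s4j_supp_rename k σ hD
    bezout := ?_
    nondeg := ?_
    root := ?_ }⟩
  · intro z hz
    have h1 : A.map ρ * Pi.map ρ + B.map ρ * derivative (Pi.map ρ) - C (ρ D)
        = (A * Pi + B * derivative Pi - C D).map ρ := by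
      simp only [Polynomial.map_sub, Polynomial.map_add, Polynomial.map_mul,
        Polynomial.derivative_map, Polynomial.map_C]
    rw [h1, Polynomial.map_map, hcomp]
    exact bez z hz
  · obtain ⟨z, hz, h1, h2⟩ := nondeg
    refine ⟨z, hz, ?_, ?_⟩
    · rw [hev]; exact h1
    · rw [Polynomial.leadingCoeff_map_of_injective hinj, hev]; exact h2
  · intro z hz
    rw [Polynomial.map_map, hcomp]
    exact root z hz

theorem s4j_lens_of_LensL (h : G.LensL) {m n : ℤ} (hm : m < 0) (hn : 0 < n) (c : Fin 2) :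
    Nonempty (G.Lens c (ShiftSet.lensL m n)) := by
  obtain ⟨Pi, A, B, D, h1, h2, h3, h4, h5, h6, h7, h8⟩ := h m n hm hn c (max m.natAbs n.natAbs)
    (by rw [Int.abs_eq_natAbs]; exact_mod_cast le_max_left _ _)
    (by rw [Int.abs_eq_natAbs]; exact_mod_cast le_max_right _ _)
  have key : ∀ i : Idx, (i.1 = m ∨ i.1 = n) → (Sum.inl i : Var) ∈ (ShiftSet.lensL m n).allow := by
    intro i hi
    refine ⟨?_, ?_⟩
    · intro i' hi'
      have : i = i' := Sum.inl.inj hi'
      subst this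
      exact hi
    · intro i' hi'
      exact absurd hi' (by simp)
  exact s4j_lens_of_rename (Sum.inl : Idx → Var) Sum.inl_injective (fun z => jetAt G.L0 z)
    (fun z => rfl) c (ShiftSet.lensL m n) Pi A B D (fun l i hi => key i (h1 l i hi))
    (fun l i hi => key i (h2 l i hi)) (fun l i hi => key i (h3 l i hi))
    (fun i hi => key i (h4 i hi)) h5 h6 h7 h8

theorem s4j_lens_of_LensP (h : G.LensP) {m n : ℤ} (hm : m ≤ -1) (hn : 0 ≤ n) (c : Fin 2) :
    Nonempty (G.Lens c (ShiftSet.lensX m n)) := by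
  obtain ⟨Pi, A, B, D, h1, h2, h3, h4, h5, h6, h7, h8⟩ := h m n hm hn c
    (max m.natAbs n.natAbs + 1)
    (by rw [Int.abs_eq_natAbs]; push_cast; gcongr; exact_mod_cast le_max_left _ _)
    (by rw [Int.abs_eq_natAbs]; push_cast; gcongr; exact_mod_cast le_max_right _ _)
  have key : ∀ v : Idx ⊕ ℕ, (∀ i : Idx, v = Sum.inl i → (i.1 = m ∨ i.1 = n)) →
      (Sum.inr v : Var) ∈ (ShiftSet.lensX m n).allow := by
    intro v hv
    refine ⟨?_, ?_⟩
    · intro i' hi'
      exact absurd hi' (by simp)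
    · intro i' hi'
      exact hv i' (Sum.inr.inj hi')
  exact s4j_lens_of_rename (Sum.inr : Idx ⊕ ℕ → Var) Sum.inr_injective
    (fun z => jetAtHA G.X0 G.A z) (fun z => rfl) c (ShiftSet.lensX m n) Pi A B D
    (fun l v hv => key v fun i hi => h1 l i (hi ▸ hv))
    (fun l v hv => key v fun i hi => h2 l i (hi ▸ hv))
    (fun l v hv => key v fun i hi => h3 l i (hi ▸ hv))
    (fun v hv => key v fun i hi => h4 i (hi ▸ hv)) h5 h6 h7 h8

/-- ALG2 in universal form: `L_1 Q = P` with `P`, `Q` in the jets of the `L_j`, `j ≤ 0` or `j > K₀`. -/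
theorem s4j_alg2 (h : G.Alg2) (K₀ : ℕ) (c : Fin 2) :
    ∃ (σ : ShiftSet) (h1 : |(1 : ℤ)| ≤ (σ.N : ℤ)) (P Q : MvPolynomial Var ℂ),
      (∀ j ∈ σ.sL, j ≤ 0 ∨ (K₀ : ℤ) < j) ∧ σ.sX = ∅ ∧ σ.Supp P ∧ G.IsNonRel σ Q ∧
      G.IsRel (σ.insertL 1 h1) (MvPolynomial.X (Sum.inl (1, c, 0, 0)) * Q - P) := by
  obtain ⟨P, Q, N, hN, hP, hQ, ⟨z₀, hz₀, hne⟩, hrel⟩ := h K₀ c
  set σ : ShiftSet :=
    { sL := {j | (j ≤ 0 ∨ (K₀ : ℤ) < j) ∧ |j| ≤ (N : ℤ)}
      sX := ∅
      N := N
      bdL := fun j hj => hj.2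
      bdX := by simp } with hσ
  have h1 : |(1 : ℤ)| ≤ (σ.N : ℤ) := by
    rw [abs_one]
    exact_mod_cast hN
  have key : ∀ i : Idx, ((i.1 ≤ 0 ∨ (K₀ : ℤ) < i.1) ∧ |i.1| ≤ (N : ℤ)) →
      (Sum.inl i : Var) ∈ σ.allow := by
    intro i hi
    refine ⟨?_, ?_⟩
    · intro i' hi'
      have : i = i' := Sum.inl.inj hi'
      subst this
      exact hi
    · intro i' hi'
      exact absurd hi' (by simp)
  have hev : ∀ z (q : MvPolynomial Idx ℂ), MvPolynomial.eval (G.jet0 z)
      (MvPolynomial.rename (Sum.inl : Idx → Var) q) = MvPolynomial.eval (jetAt G.L0 z) q := by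
    intro z q
    rw [MvPolynomial.eval_rename]
    rfl
  have sP : σ.Supp (MvPolynomial.rename (Sum.inl : Idx → Var) P) :=
    s4j_supp_rename _ σ fun i hi => key i (hP i hi)
  have sQ : σ.Supp (MvPolynomial.rename (Sum.inl : Idx → Var) Q) :=
    s4j_supp_rename _ σ fun i hi => key i (hQ i hi)
  refine ⟨σ, h1, MvPolynomial.rename Sum.inl P, MvPolynomial.rename Sum.inl Q, fun j hj => hj.1,
    rfl, sP, ⟨sQ, z₀, hz₀, by rw [hev]; exact hne⟩, ?_, ?_⟩
  · have m1 : σ.sL ⊆ (σ.insertL 1 h1).sL := fun j hj => Or.inr hj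
    have m2 : σ.sX ⊆ (σ.insertL 1 h1).sX := fun j hj => hj
    refine Subalgebra.sub_mem _ (Subalgebra.mul_mem _ ?_ (ShiftSet.Supp.mono m1 m2 sQ))
      (ShiftSet.Supp.mono m1 m2 sP)
    refine MvPolynomial.X_mem_supported.2 ⟨?_, ?_⟩
    · intro i' hi'
      have : ((1 : ℤ), c, 0, 0) = i' := Sum.inl.inj hi'
      subst this
      exact Or.inl rfl
    · intro i' hi'
      exact absurd hi' (by simp)
  · intro z hz
    have hz' : z ∈ G.dom N := hz
    rw [map_sub, map_mul, MvPolynomial.eval_X, hev, hev, ← hrel z hz', sub_eq_zero]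
    congr 1
    show crd c (G.L0 (z.1 + ((1 : ℤ) : ℂ) * z.2, z.2)) = _
    rw [Int.cast_one, one_mul]

end Claimed.Agent.R269
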