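/-
Row 269, P1 Section 4, unit 4J: the lens configurations attached to an initial patch (glue, no leaf).   helper264.

Initial patch `P₁` on the bidisc `ball y₁ ε ×ˢ ball t₀ ε`.  For `m < 0 < n` and `k, k' : ℤ` the open set
  `Ω = {z | (z.1 + m z.2 - 2πk, z.2) ∈ bidisc ∧ (z.1 + n z.2 - 2πk', z.2) ∈ bidisc}`
carries the translated patches at the two endpoint shifts.
-/
import Claimed.Agent.R269.S4.WallCtx
import Claimed.Agent.R269.S4.WallLens

set_option autoImplicit false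

namespace Claimed.Agent.R269

open Complex Filter Topology Set
open scoped ENNReal Real

variable {G : Glance}

/-- the set `Ω` for the shifts `a`, `b` (complex numbers) and the translations `k`, `k'`. -/
def wallΩ (y₁ t₀ : ℂ) (ε : ℝ) (a b : ℂ) (k k' : ℤ) : Set (ℂ × ℂ) :=
  {z | (z.1 + a * z.2 - 2 * π * k, z.2) ∈ Metric.ball y₁ ε ×ˢ Metric.ball t₀ ε ∧
    (z.1 + b * z.2 - 2 * π * k', z.2) ∈ Metric.ball y₁ ε ×ˢ Metric.ball t₀ ε}

theorem isOpen_wallΩ (y₁ t₀ : ℂ) (ε : ℝ) (a b : ℂ) (k k' : ℤ) :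
    IsOpen (wallΩ y₁ t₀ ε a b k k') := by
  have ho : IsOpen (Metric.ball y₁ ε ×ˢ Metric.ball t₀ ε) := Metric.isOpen_ball.prod Metric.isOpen_ball
  refine IsOpen.inter (ho.preimage (f := fun z : ℂ × ℂ => (z.1 + a * z.2 - 2 * π * k, z.2)) ?_)
    (ho.preimage (f := fun z : ℂ × ℂ => (z.1 + b * z.2 - 2 * π * k', z.2)) ?_) <;> fun_prop

theorem s4j_cfgL (K : Ctx4C G) (h : G.LensL) {y₁ t₀ : ℂ} {ε : ℝ} {P₁ : ℂ × ℂ → ℂ × ℂ}
    (hP : K.mL.IsPatch P₁ (Metric.ball y₁ ε ×ˢ Metric.ball t₀ ε))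
    (hε : Metric.ball t₀ ε ⊆ Metric.ball (0 : ℂ) G.r₁) {m n : ℤ} (hm : m < 0) (hn : 0 < n)
    (k k' : ℤ) : ∃ cfg : LensCfg K, cfg.Ω = wallΩ y₁ t₀ ε m n k k' := by
  classical
  refine ⟨{
    σ := ShiftSet.lensL m n
    zero_not_mem := ?_
    Ω := wallΩ y₁ t₀ ε m n k k'
    isOpen := isOpen_wallΩ _ _ _ _ _ _ _
    param := fun z hz => hε hz.1.2
    PL := fun j => if j = m then (fun w => P₁ (w.1 - 2 * π * k, w.2))
      else (fun w => P₁ (w.1 - 2 * π * k', w.2))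
    PX := fun _ => P₁
    patch := ?_
    lens := fun c => Classical.choice (s4j_lens_of_LensL h hm hn c) }, rfl⟩
  · intro h0
    rcases h0 with h0 | h0
    · omega
    · have := Set.mem_singleton_iff.1 h0
      omega
  · intro z hz
    refine ⟨?_, ?_⟩
    · intro j hj
      rcases hj with rfl | hj
      · refine ⟨{w | (w.1 - 2 * π * k, w.2) ∈ Metric.ball y₁ ε ×ˢ Metric.ball t₀ ε}, hz.1, ?_⟩
        simp only [↓reduceIte]
        exact K.mL.isPatch_translate hP k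
      · have hj' : j = n := Set.mem_singleton_iff.1 hj
        subst hj'
        have hne : j ≠ m := by omega
        refine ⟨{w | (w.1 - 2 * π * k', w.2) ∈ Metric.ball y₁ ε ×ˢ Metric.ball t₀ ε}, hz.2, ?_⟩
        simp only [hne, ↓reduceIte]
        exact K.mL.isPatch_translate hP k'
    · intro j hj
      exact absurd hj (Set.notMem_empty j)

theorem s4j_cfgX (K : Ctx4C G) (h : G.LensP) {y₁ t₀ : ℂ} {ε : ℝ} {P₁ : ℂ × ℂ → ℂ × ℂ}
    (hP : K.mX.IsPatch P₁ (Metric.ball y₁ ε ×ˢ Metric.ball t₀ ε))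
    (hε : Metric.ball t₀ ε ⊆ Metric.ball (0 : ℂ) G.r₁) {m n : ℤ} (hm : m ≤ -1) (hn : 0 ≤ n)
    (k k' : ℤ) :
    ∃ cfg : LensCfg K, cfg.Ω = wallΩ y₁ t₀ ε ((m : ℂ) + 1 / 2) ((n : ℂ) + 1 / 2) k k' := by
  classical
  refine ⟨{
    σ := ShiftSet.lensX m n
    zero_not_mem := Set.notMem_empty _
    Ω := wallΩ y₁ t₀ ε ((m : ℂ) + 1 / 2) ((n : ℂ) + 1 / 2) k k'
    isOpen := isOpen_wallΩ _ _ _ _ _ _ _
    param := fun z hz => hε hz.1.2
    PL := fun _ => P₁
    PX := fun j => if j = m then (fun w => P₁ (w.1 - 2 * π * k, w.2))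
      else (fun w => P₁ (w.1 - 2 * π * k', w.2))
    patch := ?_
    lens := fun c => Classical.choice (s4j_lens_of_LensP h hm hn c) }, rfl⟩
  intro z hz
  refine ⟨?_, ?_⟩
  · intro j hj
    exact absurd hj (Set.notMem_empty j)
  · intro j hj
    rcases hj with rfl | hj
    · refine ⟨{w | (w.1 - 2 * π * k, w.2) ∈ Metric.ball y₁ ε ×ˢ Metric.ball t₀ ε}, hz.1, ?_⟩
      simp only [↓reduceIte]
      exact K.mX.isPatch_translate hP k
    · have hj' : j = n := Set.mem_singleton_iff.1 hj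
      subst hj'
      have hne : j ≠ m := by omega
      refine ⟨{w | (w.1 - 2 * π * k', w.2) ∈ Metric.ball y₁ ε ×ˢ Metric.ball t₀ ε}, hz.2, ?_⟩
      simp only [hne, ↓reduceIte]
      exact K.mX.isPatch_translate hP k'

end Claimed.Agent.R269
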