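/-
Row 269, P1 Section 4, unit 4J, leaf LF-S4-4J-comb: the combinatorics of step (A2).   HOST-FREE (Mathlib only).   Blueprint: helper264.

PLAN.  Suppose `x ∈ B`.
 * `B ∩ [0, 2π]` is finite: it is closed-discrete in a compact set (`hdisc`: no accumulation points; by contradiction with `Set.Infinite.exists_accPt_of_subset_isCompact`).
 * `J := {i : ℤ | x + i t ∈ B}` is finite: `i ↦ x + i t - 2π ⌊(x + i t)/(2π)⌋ ∈ B ∩ [0,2π)` (`hper`) is injective, as `(i - i') t ∈ 2π ℤ` forces `i = i'` (irrationality).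
 * `i₀ := min J`, `i₁ := max J`, `x' := x + i₀ t ∈ B`; `hstep x' (i₁ - i₀ + 1).toNat` gives `x' ∉ B`.
-/
import Mathlib

set_option autoImplicit false

namespace Claimed.Agent.R269

open Filter Topology Set
open scoped Real

theorem s4j_comb (B : Set ℝ) (t : ℝ) (hirr : Irrational (t / (2 * π)))
    (hper : ∀ x, x ∈ B → ∀ k : ℤ, x + 2 * π * k ∈ B)
    (hdisc : ∀ x, ∀ᶠ x' in 𝓝[≠] x, x' ∉ B)
    (hstep : ∀ x, ∀ K₀ : ℕ, (∀ i : ℤ, i ≤ -1 → x + i * t ∉ B) →
      (∀ i : ℤ, (K₀ : ℤ) ≤ i → x + i * t ∉ B) → x ∉ B) : B = ∅ := by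
  by_contra hne
  obtain ⟨x, hx⟩ := Set.nonempty_iff_ne_empty.2 hne
  have hpi : 0 < 2 * π := by positivity
  -- finiteness on a period
  have hfin : (B ∩ Set.Icc 0 (2 * π)).Finite := by
    by_contra hinf
    obtain ⟨p, -, hp⟩ := Set.Infinite.exists_accPt_of_subset_isCompact hinf
      (isCompact_Icc (a := (0 : ℝ)) (b := 2 * π)) Set.inter_subset_right
    rw [accPt_iff_frequently_nhdsNE] at hp
    obtain ⟨q, hq1, hq2⟩ := (hp.and_eventually (hdisc p)).exists
    exact hq2 hq1.1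
  set J : Set ℤ := {i | x + i * t ∈ B} with hJ
  set φ : ℤ → ℝ := fun i => x + i * t + 2 * π * ((-⌊(x + i * t) / (2 * π)⌋ : ℤ) : ℝ) with hφ
  have hmaps : Set.MapsTo φ J (B ∩ Set.Icc 0 (2 * π)) := by
    intro i hi
    refine ⟨hper _ hi _, ?_, ?_⟩
    · have h1 := Int.floor_le ((x + i * t) / (2 * π))
      rw [le_div_iff₀ hpi] at h1
      simp only [hφ]; push_cast; linarith
    · have h1 := Int.lt_floor_add_one ((x + i * t) / (2 * π))
      rw [div_lt_iff₀ hpi] at h1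
      simp only [hφ]; push_cast; linarith
  have hinj : Set.InjOn φ J := by
    intro i _ i' _ h
    by_contra hii
    apply hirr
    simp only [hφ] at h
    set k := ⌊(x + i * t) / (2 * π)⌋
    set k' := ⌊(x + i' * t) / (2 * π)⌋
    have hd : ((i : ℝ) - i') ≠ 0 := by
      intro h0
      apply hii
      have : (i : ℝ) = i' := by linarith
      exact_mod_cast this
    refine ⟨((k - k' : ℤ) : ℚ) / ((i - i' : ℤ) : ℚ), ?_⟩
    push_cast at h ⊢
    rw [div_eq_div_iff hd hpi.ne']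
    linarith
  have hJfin : J.Finite := Set.Finite.of_injOn hmaps hinj hfin
  obtain ⟨b, hb⟩ := hJfin.bddAbove
  obtain ⟨a, ha⟩ := hJfin.bddBelow
  have h0J : (0 : ℤ) ∈ J := by
    show x + ((0 : ℤ) : ℝ) * t ∈ B
    simpa using hx
  obtain ⟨i₀, hi₀, hmin⟩ := Int.exists_least_of_bdd (P := fun i => i ∈ J) ⟨a, fun z hz => ha hz⟩
    ⟨0, h0J⟩
  have hi₀b : i₀ ≤ b := hb hi₀
  refine hstep (x + i₀ * t) (b - i₀ + 1).toNat ?_ ?_ hi₀
  · intro i hi hmem
    have e : x + i₀ * t + i * t = x + ((i₀ + i : ℤ) : ℝ) * t := by push_cast; ring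
    rw [e] at hmem
    have := hmin (i₀ + i) hmem
    omega
  · intro i hi hmem
    have e : x + i₀ * t + i * t = x + ((i₀ + i : ℤ) : ℝ) * t := by push_cast; ring
    rw [e] at hmem
    have h1 : i₀ + i ≤ b := hb hmem
    have h2 : ((b - i₀ + 1).toNat : ℤ) = b - i₀ + 1 := Int.toNat_of_nonneg (by omega)
    omega

end Claimed.Agent.R269
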