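/-
Row 269, P1 Section 4, unit 4J, leaf LF-S4-4J-simple: Bezout identity ⇒ simple roots at a regular point.   Blueprint: helper264.

Notation: `J := jetU PL PX G.A`, `Glance.cf J q` = normal form (`mnf`) of `w ↦ eval (J w) q`, `z₁ = (y,t₂)`.

PLAN.
 * for every `q` with `σ.Supp q`: `w ↦ eval (J w) q` is `Mero2At z₁` (`s4j_local_mero`), so `cf J q =ᶠ[genF z₁] eval (J ·) q` (`Mero2At.mnf_eqAt`, `.eventuallyEq`).
 * `Λ.bezoutRel l` + `s4j_local`: generically all coefficients (finitely many: `l ≤ natDegree`) of `(A Π + B Π' - C D).map (eval (J w))` vanish, i.e. this polynomial is `0`.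
   Evaluate at the fixed number `x`:  `Â(w) p̂(w) + B̂(w) p̂'(w) = D̂(w)` generically, with `Â(w) = ∑_{l ≤ natDegree A} cf J (A.coeff l) w x^l`, etc.
   (`Polynomial.eval_eq_sum_range`, `Polynomial.eval_map`, `Polynomial.derivative_eval`/`Polynomial.derivative_map`; natDegrees of the mapped polynomials may drop: use
   `Polynomial.eval_eq_sum_range'` with the bound `natDegree + 1`).
 * both sides are analytic at `z₁` (`hreg`), so the identity holds at `z₁` (`eventuallyEq_nhds_of_genF`, `.self_of_nhds`).  `D̂(z₁) ≠ 0`.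
   If `p̂(z₁) = 0` (= `hx`) then `B̂(z₁) p̂'(z₁) = D̂(z₁) ≠ 0`.
-/
import Claimed.Agent.R269.S4.WallLocal
import Claimed.Agent.R269.S4.WallRel

set_option autoImplicit false

namespace Claimed.Agent.R269

open Complex Filter Topology Set Polynomial
open scoped ENNReal Real

variable {G : Glance}

theorem s4j_eval₂_derivative {R S : Type*} [CommSemiring R] [CommSemiring S] (e : R →+* S)
    (p : Polynomial R) (x : S) :
    (derivative p).eval₂ e x
      = ∑ i ∈ Finset.range (p.natDegree + 1), e (p.coeff i) * ((i : S) * x ^ (i - 1)) := by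
  rw [Polynomial.derivative_apply, Polynomial.sum_over_range _ (by simp), Polynomial.eval₂_finsetSum]
  refine Finset.sum_congr rfl fun i _ => ?_
  rw [Polynomial.eval₂_mul, Polynomial.eval₂_C, Polynomial.eval₂_pow, Polynomial.eval₂_X, map_mul,
    map_natCast, mul_assoc]

theorem s4j_simple (K : Ctx4C G) {c : Fin 2} {σ : ShiftSet} (Λ : G.Lens c σ)
    {PL PX : ℤ → ℂ × ℂ → ℂ × ℂ} (t₂ : ℝ) (ht₂ : |t₂| < K.ρ) (y : ℂ) (hy0 : -(G.s / 2) < y.im)
    (hy : ENNReal.ofReal y.im ≤ G.hL t₂) (hp : K.JetPatch σ PL PX (y, (t₂ : ℂ)))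
    (hreg : Λ.RegAt (jetU PL PX G.A) (y, (t₂ : ℂ))) (x : ℂ)
    (hx : ∑ i ∈ Finset.range (Λ.Pi.natDegree + 1),
      Glance.cf (jetU PL PX G.A) (Λ.Pi.coeff i) (y, (t₂ : ℂ)) * x ^ i = 0) :
    ∑ i ∈ Finset.range (Λ.Pi.natDegree + 1),
      Glance.cf (jetU PL PX G.A) (Λ.Pi.coeff i) (y, (t₂ : ℂ)) * ((i : ℂ) * x ^ (i - 1)) ≠ 0 := by
  classical
  set z₁ : ℂ × ℂ := (y, (t₂ : ℂ)) with hz₁
  set J := jetU PL PX G.A with hJ
  have ht : z₁.2 ∈ Metric.ball (0 : ℂ) G.r₁ := K.mem_ball_r₁ t₂ ht₂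
  set Ah : ℂ × ℂ → ℂ := fun w =>
    ∑ l ∈ Finset.range (Λ.A.natDegree + 1), Glance.cf J (Λ.A.coeff l) w * x ^ l with hAh
  set Bh : ℂ × ℂ → ℂ := fun w =>
    ∑ l ∈ Finset.range (Λ.B.natDegree + 1), Glance.cf J (Λ.B.coeff l) w * x ^ l with hBh
  set ph : ℂ × ℂ → ℂ := fun w =>
    ∑ l ∈ Finset.range (Λ.Pi.natDegree + 1), Glance.cf J (Λ.Pi.coeff l) w * x ^ l with hph
  set ph' : ℂ × ℂ → ℂ := fun w =>
    ∑ l ∈ Finset.range (Λ.Pi.natDegree + 1),
      Glance.cf J (Λ.Pi.coeff l) w * ((l : ℂ) * x ^ (l - 1)) with hph'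
  have anA : AnalyticAt ℂ Ah z₁ :=
    Finset.analyticAt_fun_sum _ fun l _ => (hreg.an_A l).mul analyticAt_const
  have anB : AnalyticAt ℂ Bh z₁ :=
    Finset.analyticAt_fun_sum _ fun l _ => (hreg.an_B l).mul analyticAt_const
  have anp : AnalyticAt ℂ ph z₁ :=
    Finset.analyticAt_fun_sum _ fun l _ => (hreg.an_Pi l).mul analyticAt_const
  have anp' : AnalyticAt ℂ ph' z₁ :=
    Finset.analyticAt_fun_sum _ fun l _ => (hreg.an_Pi l).mul analyticAt_const
  have cfeq : ∀ q : MvPolynomial Var ℂ, σ.Supp q →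
      Glance.cf J q =ᶠ[genF z₁] fun w => MvPolynomial.eval (J w) q := fun q hq =>
    (s4j_local_mero K hq ht hp).mnf_eqAt.eventuallyEq
  set Bz := Λ.A * Λ.Pi + Λ.B * derivative Λ.Pi - C Λ.D with hBz
  have g1 : ∀ᶠ w in genF z₁, ∀ l ∈ Finset.range (Λ.A.natDegree + 1),
      Glance.cf J (Λ.A.coeff l) w = MvPolynomial.eval (J w) (Λ.A.coeff l) :=
    (Filter.eventually_all_finset _).2 fun l _ => cfeq _ (Λ.supp_A l)
  have g2 : ∀ᶠ w in genF z₁, ∀ l ∈ Finset.range (Λ.B.natDegree + 1),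
      Glance.cf J (Λ.B.coeff l) w = MvPolynomial.eval (J w) (Λ.B.coeff l) :=
    (Filter.eventually_all_finset _).2 fun l _ => cfeq _ (Λ.supp_B l)
  have g3 : ∀ᶠ w in genF z₁, ∀ l ∈ Finset.range (Λ.Pi.natDegree + 1),
      Glance.cf J (Λ.Pi.coeff l) w = MvPolynomial.eval (J w) (Λ.Pi.coeff l) :=
    (Filter.eventually_all_finset _).2 fun l _ => cfeq _ (Λ.supp_Pi l)
  have g4 : ∀ᶠ w in genF z₁, ∀ l ∈ Finset.range (Bz.natDegree + 1),
      MvPolynomial.eval (J w) (Bz.coeff l) = 0 :=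
    (Filter.eventually_all_finset _).2 fun l _ => s4j_local K (Λ.bezoutRel l) t₂ ht₂ y hy0 hy hp
  have hgen : (fun w => Ah w * ph w + Bh w * ph' w - Glance.cf J Λ.D w) =ᶠ[genF z₁] fun _ => 0 := by
    filter_upwards [g1, g2, g3, g4, cfeq _ Λ.supp_D] with w w1 w2 w3 w4 w5
    have e0 : Bz.map (MvPolynomial.eval (J w)) = 0 := by
      ext l
      rw [Polynomial.coeff_map, Polynomial.coeff_zero]
      by_cases hl : l < Bz.natDegree + 1
      · exact w4 l (Finset.mem_range.2 hl)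
      · rw [Polynomial.coeff_eq_zero_of_natDegree_lt (by omega), map_zero]
    have e1 : Ah w = (Λ.A.map (MvPolynomial.eval (J w))).eval x := by
      rw [Polynomial.eval_map, Polynomial.eval₂_eq_sum_range]
      exact Finset.sum_congr rfl fun l hl => by rw [w1 l hl]
    have e2 : Bh w = (Λ.B.map (MvPolynomial.eval (J w))).eval x := by
      rw [Polynomial.eval_map, Polynomial.eval₂_eq_sum_range]
      exact Finset.sum_congr rfl fun l hl => by rw [w2 l hl]
    have e3 : ph w = (Λ.Pi.map (MvPolynomial.eval (J w))).eval x := by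
      rw [Polynomial.eval_map, Polynomial.eval₂_eq_sum_range]
      exact Finset.sum_congr rfl fun l hl => by rw [w3 l hl]
    have e4 : ph' w = ((derivative Λ.Pi).map (MvPolynomial.eval (J w))).eval x := by
      rw [Polynomial.eval_map, s4j_eval₂_derivative]
      exact Finset.sum_congr rfl fun l hl => by rw [w3 l hl]
    have e5 := congrArg (Polynomial.eval x) e0
    rw [hBz, Polynomial.map_sub, Polynomial.map_add, Polynomial.map_mul, Polynomial.map_mul,
      Polynomial.map_C, Polynomial.eval_sub, Polynomial.eval_add, Polynomial.eval_mul,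
      Polynomial.eval_mul, Polynomial.eval_C, Polynomial.eval_zero] at e5
    show Ah w * ph w + Bh w * ph' w - Glance.cf J Λ.D w = 0
    rw [e1, e2, e3, e4, w5]
    exact e5
  have hat := (eventuallyEq_nhds_of_genF (((anA.mul anp).add (anB.mul anp')).sub hreg.an_D)
    analyticAt_const hgen).self_of_nhds
  have hat' : Ah z₁ * ph z₁ + Bh z₁ * ph' z₁ - Glance.cf J Λ.D z₁ = 0 := hat
  intro hcon
  have hx' : ph z₁ = 0 := hx
  have hcon' : ph' z₁ = 0 := hcon
  rw [hx', hcon', mul_zero, mul_zero, add_zero, zero_sub, neg_eq_zero] at hat'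
  exact hreg.ne_D hat'

end Claimed.Agent.R269
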