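/-
Row 269, P1 Section 4, unit 4J: step (A1), analytic core (glue, no `sorry`): at a REGULAR wall point of a lens datum the coordinate `c` of the line field continues
analytically.   helper264.   From `s4j_simple`, `s4j_rootrel`, `MaxExt.conn`, `exists_analytic_root` (toolkit).
-/
import Claimed.Agent.R269.S4.WallSimple
import Claimed.Agent.R269.S4.WallRootRel

set_option autoImplicit false

namespace Claimed.Agent.R269

open Complex Filter Topology Set Polynomial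
open scoped ENNReal Real

variable {G : Glance}

/-- the coordinates of the maximal extension are meromorphic on the tube. -/
theorem s4j_crd_mero (K : Ctx4C G) (c : Fin 2) :
    Mero2On (fun w => crd c (K.mL.F w)) (G.tubeU G.L0) := by
  intro z hz
  by_cases h : c = 0
  · simpa [crd, h] using K.mL.mero.1 z hz
  · simpa [crd, h] using K.mL.mero.2 z hz

/-- **(A1), analytic core.** -/
theorem s4j_root (K : Ctx4C G) {c : Fin 2} {σ : ShiftSet} (h0 : (0 : ℤ) ∉ σ.sL) (Λ : G.Lens c σ)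
    {PL PX : ℤ → ℂ × ℂ → ℂ × ℂ} (t₂ : ℝ) (ht₂ : |t₂| < K.ρ) (y : ℂ) (hy0 : -(G.s / 2) < y.im)
    (hy : ENNReal.ofReal y.im ≤ G.hL t₂) (hp : K.JetPatch σ PL PX (y, (t₂ : ℂ)))
    (hreg : Λ.RegAt (jetU PL PX G.A) (y, (t₂ : ℂ))) :
    ∃ U : ℂ × ℂ → ℂ, AnalyticAt ℂ U (y, (t₂ : ℂ)) ∧
      ∀ᶠ z in 𝓝 (y, (t₂ : ℂ)), z ∈ G.tubeU G.L0 → Mero2EqAt (fun w => crd c (K.mL.F w)) U z := by
  classical
  set z₁ : ℂ × ℂ := (y, (t₂ : ℂ)) with hz₁
  set J := jetU PL PX G.A with hJ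
  set d := Λ.Pi.natDegree with hd
  set a : ℕ → ℂ × ℂ → ℂ := fun i => Glance.cf J (Λ.Pi.coeff i) with ha
  have ht : (t₂ : ℂ) ∈ Metric.ball (0 : ℂ) G.r₁ := K.mem_ball_r₁ t₂ ht₂
  -- a neighbourhood on which the patches persist and the coefficients are analytic
  have hev : ∀ᶠ z in 𝓝 z₁, K.JetPatch σ PL PX z ∧ ∀ i ∈ Finset.range (d + 1), AnalyticAt ℂ (a i) z := by
    refine hp.eventually.and ?_
    rw [Filter.eventually_all_finset]
    intro i _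
    exact (hreg.an_Pi i).eventually_analyticAt
  obtain ⟨N₀, hN₀sub, hN₀o, hzN₀, hne, hpc⟩ := K.mL.conn ht hy0 hy _ hev
  set O : Set (ℂ × ℂ) := G.tubeU G.L0 ∩ N₀ with hO
  have hOo : IsOpen O := K.mL.isOpen_tube.inter hN₀o
  have hu : Mero2On (fun w => crd c (K.mL.F w)) O := fun z hz => s4j_crd_mero K c z hz.1
  -- the root relation on `O`
  have hΨ : Mero2On (fun w => ∑ i ∈ Finset.range (d + 1), a i w * (crd c (K.mL.F w)) ^ i) O := by
    intro z hz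
    exact Mero2At.sum fun i hi => (((hN₀sub hz.2).2 i hi).mero2At).mul ((hu z hz).pow i)
  have hroot : ∀ z ∈ O, ∀ᶠ w in genF z,
      ∑ i ∈ Finset.range (d + 1), a i w * (crd c (K.mL.F w)) ^ i = 0 := by
    have hbelow := K.mL.below_mem ht hy0 hy
    have hcont : Tendsto (fun τ : ℝ => (y - (τ : ℂ) * I, (t₂ : ℂ))) (𝓝[>] (0 : ℝ)) (𝓝 z₁) := by
      have : Tendsto (fun τ : ℝ => (y - (τ : ℂ) * I, (t₂ : ℂ))) (𝓝 (0 : ℝ))
          (𝓝 (y - ((0 : ℝ) : ℂ) * I, (t₂ : ℂ))) := by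
        apply Continuous.tendsto
        fun_prop
      simp only [ofReal_zero, zero_mul, sub_zero] at this
      exact this.mono_left nhdsWithin_le_nhds
    have hin : ∀ᶠ τ : ℝ in 𝓝[>] (0 : ℝ), (y - (τ : ℂ) * I, (t₂ : ℂ)) ∈ N₀ :=
      hcont (hN₀o.mem_nhds hzN₀)
    obtain ⟨τ, hτ1, hτ2⟩ := (hbelow.and hin).exists
    have hz' : (y - (τ : ℂ) * I, (t₂ : ℂ)) ∈ O := ⟨hτ1, hτ2⟩
    have h1 := s4j_rootrel K h0 Λ t₂ ht₂ (y - (τ : ℂ) * I) hτ1 (hN₀sub hτ2).1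
    exact Mero2On.eventually_eq_zero_of_isPreconnected hpc hΨ hz' h1
  -- `O` is connected at `z₁`
  have hconn : ∀ N ∈ 𝓝 z₁, ∃ N' ⊆ N, IsOpen N' ∧ z₁ ∈ N' ∧ (O ∩ N').Nonempty ∧
      IsPreconnected (O ∩ N') := by
    intro N hN
    obtain ⟨N', hsub, ho, hz, hne', hpc'⟩ :=
      K.mL.conn ht hy0 hy (N ∩ N₀) (Filter.inter_mem hN (hN₀o.mem_nhds hzN₀))
    have hEq : O ∩ N' = G.tubeU G.L0 ∩ N' := by
      ext w
      constructor
      · rintro ⟨⟨h1, -⟩, h3⟩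
        exact ⟨h1, h3⟩
      · rintro ⟨h1, h3⟩
        exact ⟨⟨h1, (hsub h3).2⟩, h3⟩
    exact ⟨N', fun w hw => (hsub hw).1, ho, hz, hEq ▸ hne', hEq ▸ hpc'⟩
  obtain ⟨U, hU, hUeq⟩ := exists_analytic_root (d := d) (a := a) (z₁ := z₁)
    (fun i _ => hreg.an_Pi i) hreg.ne_lc
    (fun x hx => s4j_simple K Λ t₂ ht₂ y hy0 hy hp hreg x hx) hOo hconn hu hroot
  refine ⟨U, hU, ?_⟩
  filter_upwards [hUeq, hN₀o.mem_nhds hzN₀] with z h1 h2 h3
  exact h1 ⟨h3, h2⟩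

end Claimed.Agent.R269
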