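/-
Row 269, P1 Section 4, unit 4J, leaf LF-S4-4J-rot: irrational rotations visit every arc, with positive and with negative times.
HOST-FREE (Mathlib only).   Blueprint: helper264.

PLAN.  `α := t/(2π)` irrational.  The subgroup `{n t + 2π k}` of `ℝ` is dense (`AddSubgroup.dense_of_no_min` / `dense_addSubgroupClosure_pair_iff`), so there are
 `n₀, k₀` with `0 < g := n₀ t - 2π k₀ < min r (2π)`  (take an element of the subgroup in `(0, min r 2π)`); `n₀ ≠ 0` since `0 < g < 2π`.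
 The multiples `j g`, `j ≥ 1`, have step `< r`, so for every target `τ := a - x` some `j ≥ 1` and `k₁` satisfy `|j g - 2π k₁ - τ| < r`: choose `k₁` with `τ + 2π k₁ > g` and `j := ⌊(τ + 2π k₁)/g⌋₊ ≥ 1`.
 This gives a solution with `n = j n₀`, of the sign of `n₀`.  For the other sign use `-g`: multiples `-j g` and `k₁` with `τ + 2π k₁ < -g`.
-/
import Mathlib

set_option autoImplicit false

namespace Claimed.Agent.R269

open Filter Topology Set
open scoped Real

theorem s4j_rot_small (t : ℝ) (hirr : Irrational (t / (2 * π))) (ε : ℝ) (hε : 0 < ε) :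
    ∃ n k : ℤ, 0 < n ∧ |n * t - 2 * π * k| < ε := by
  have hd := dense_addSubgroupClosure_pair_iff.2 hirr
  have hpi : 0 < 2 * π := by positivity
  obtain ⟨g, hg1, hg2⟩ := hd.exists_mem_open (isOpen_Ioo (a := (0 : ℝ)) (b := min ε (2 * π)))
    ⟨min ε (2 * π) / 2, by
      have : 0 < min ε (2 * π) := lt_min hε hpi
      constructor <;> linarith⟩
  obtain ⟨n, k, hnk⟩ := AddSubgroup.mem_closure_pair.1 hg1
  simp only [zsmul_eq_mul] at hnk
  have hg0 : 0 < g := hg2.1
  have hgε : g < ε := lt_of_lt_of_le hg2.2 (min_le_left _ _)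
  have hgπ : g < 2 * π := lt_of_lt_of_le hg2.2 (min_le_right _ _)
  have hn : n ≠ 0 := by
    rintro rfl
    simp only [Int.cast_zero, zero_mul, zero_add] at hnk
    rcases le_or_gt k 0 with hk | hk
    · have : (k : ℝ) ≤ 0 := by exact_mod_cast hk
      nlinarith
    · have : (1 : ℝ) ≤ (k : ℝ) := by exact_mod_cast hk
      nlinarith
  rcases lt_or_gt_of_ne hn with hneg | hpos
  · refine ⟨-n, k, by omega, ?_⟩
    have : ((-n : ℤ) : ℝ) * t - 2 * π * k = -g := by rw [← hnk]; push_cast; ring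
    rw [this, abs_neg, abs_of_pos hg0]
    exact hgε
  · refine ⟨n, -k, hpos, ?_⟩
    have : (n : ℝ) * t - 2 * π * ((-k : ℤ) : ℝ) = g := by rw [← hnk]; push_cast; ring
    rw [this, abs_of_pos hg0]
    exact hgε

theorem s4j_rot (t : ℝ) (hirr : Irrational (t / (2 * π))) (x a r : ℝ) (hr : 0 < r) :
    (∃ n k : ℤ, 0 < n ∧ |x + n * t - 2 * π * k - a| < r) ∧
      ∃ m k : ℤ, m < 0 ∧ |x + m * t - 2 * π * k - a| < r := by
  have hd := dense_addSubgroupClosure_pair_iff.2 hirr
  obtain ⟨g, hg1, hg2⟩ := hd.exists_mem_open (isOpen_Ioo (a := a - x - r) (b := a - x + r))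
    ⟨a - x, by constructor <;> linarith⟩
  obtain ⟨n₀, k₀, hnk⟩ := AddSubgroup.mem_closure_pair.1 hg1
  simp only [zsmul_eq_mul] at hnk
  have hgm : |g - (a - x)| < r := by
    rw [abs_lt]
    constructor <;> linarith [hg2.1, hg2.2]
  set m := r - |g - (a - x)| with hm
  have hmpos : 0 < m := by linarith
  set M : ℤ := |n₀| + 1 with hM
  have hMpos : 0 < M := by positivity
  have hMR : (0 : ℝ) < (M : ℝ) := by exact_mod_cast hMpos
  obtain ⟨n₁, k₁, hn₁, hsmall⟩ := s4j_rot_small t hirr (m / M) (div_pos hmpos hMR)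
  have hsmall' : (M : ℝ) * |n₁ * t - 2 * π * k₁| < m := by
    rw [lt_div_iff₀ hMR] at hsmall
    linarith
  have hMn : M ≤ M * n₁ := by nlinarith
  have habs1 : -n₀ ≤ |n₀| := neg_le_abs n₀
  have habs2 : n₀ ≤ |n₀| := le_abs_self n₀
  constructor
  · refine ⟨n₀ + M * n₁, -k₀ + M * k₁, by omega, ?_⟩
    have e : x + ((n₀ + M * n₁ : ℤ) : ℝ) * t - 2 * π * ((-k₀ + M * k₁ : ℤ) : ℝ) - a
        = (g - (a - x)) + M * (n₁ * t - 2 * π * k₁) := by
      rw [← hnk]; push_cast; ring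
    rw [e]
    refine lt_of_le_of_lt (abs_add_le _ _) ?_
    rw [abs_mul, abs_of_pos hMR]
    linarith
  · refine ⟨n₀ - M * n₁, -k₀ - M * k₁, by omega, ?_⟩
    have e : x + ((n₀ - M * n₁ : ℤ) : ℝ) * t - 2 * π * ((-k₀ - M * k₁ : ℤ) : ℝ) - a
        = (g - (a - x)) + (-(M : ℝ)) * (n₁ * t - 2 * π * k₁) := by
      rw [← hnk]; push_cast; ring
    rw [e]
    refine lt_of_le_of_lt (abs_add_le _ _) ?_
    rw [abs_mul, abs_neg, abs_of_pos hMR]
    linarith

end Claimed.Agent.R269
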