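/-
Row 269, P1 Section 4, unit 4J: ASSEMBLY of Theorem 4.8 (no joint patch at a real parameter) from
  `G.LensL`, `G.LensP`, `G.Alg2` (`S4/Defs.lean`), `Ctx4C G` (unit 4C, `S4/WallDefs.lean`), `s4k_transfer` (`S4/Transfer.lean`)
and the leaves LF-S4-4J-* (`S4/Wall*.lean`).   helper264.   No `sorry` in this file.

  s4j_A1one, s4j_A1fam     (A1) for one lens configuration / a countable family: off a countable set of parameters the bad wall points are discrete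
  s4j_A1_L, s4j_A1_X       (A1) from an initial patch of the line field / of the impact field (irrational rotation)
  s4j_A23                  (A2) + (A3): discrete bad set + irrational parameter ⇒ contradiction
  s4j_stepA                STEP A: the width is `≥ H₁ + ε/2` at all nearby real parameters off a countable set
  s4j_no_patch_L/X         Theorem 4.8
-/
import Claimed.Agent.R269.S4.WallRoot
import Claimed.Agent.R269.S4.WallCount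
import Claimed.Agent.R269.S4.WallComb
import Claimed.Agent.R269.S4.WallRot
import Claimed.Agent.R269.S4.WallAlg
import Claimed.Agent.R269.S4.WallCfg
import Claimed.Agent.R269.S4.Transfer

set_option autoImplicit false

namespace Claimed.Agent.R269

open Complex Filter Topology Set
open scoped ENNReal Real

variable {G : Glance}

theorem s4j_A1one (K : Ctx4C G) (cfg : LensCfg K) :
    ∃ B : Set ℂ, B.Countable ∧ ∀ t₂ : ℝ, (t₂ : ℂ) ∉ B → |t₂| < K.ρ → ∀ y : ℂ,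
      ENNReal.ofReal y.im = G.hL t₂ → (y, (t₂ : ℂ)) ∈ cfg.Ω →
      ∀ᶠ y' in 𝓝[≠] y, y'.im = y.im → K.Good t₂ y' := by
  obtain ⟨B0, hB0, h0⟩ := s4j_countable (cfg.lens 0) (PL := cfg.PL) (PX := cfg.PX) (Ω := cfg.Ω)
    (fun z hz => (cfg.patch z hz).jetEq_self) cfg.param
  obtain ⟨B1, hB1, h1⟩ := s4j_countable (cfg.lens 1) (PL := cfg.PL) (PX := cfg.PX) (Ω := cfg.Ω)
    (fun z hz => (cfg.patch z hz).jetEq_self) cfg.param
  refine ⟨B0 ∪ B1, hB0.union hB1, ?_⟩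
  intro t₂ htB ht₂ y hy hΩ
  have hs : 0 < G.s := G.r₁_pos.trans G.r₁_lt
  have hy0 : -(G.s / 2) < y.im := by
    have := K.le_im_of_wall t₂ ht₂ hy
    linarith
  have hp := cfg.patch _ hΩ
  have e0 := h0 (y, (t₂ : ℂ)) hΩ (fun h => htB (Or.inl h))
    (s4j_local_ne K (cfg.lens 0).nonRel_D t₂ ht₂ y hy0 hy.le hp)
    (s4j_local_ne K (cfg.lens 0).nonRel_lc t₂ ht₂ y hy0 hy.le hp)
  have e1 := h1 (y, (t₂ : ℂ)) hΩ (fun h => htB (Or.inr h))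
    (s4j_local_ne K (cfg.lens 1).nonRel_D t₂ ht₂ y hy0 hy.le hp)
    (s4j_local_ne K (cfg.lens 1).nonRel_lc t₂ ht₂ y hy0 hy.le hp)
  have eΩ : ∀ᶠ y' in 𝓝[≠] y, (y', (t₂ : ℂ)) ∈ cfg.Ω := by
    have hc : Continuous fun y' : ℂ => (y', (t₂ : ℂ)) := by fun_prop
    exact ((hc.tendsto y).eventually (cfg.isOpen.mem_nhds hΩ)).filter_mono nhdsWithin_le_nhds
  filter_upwards [e0, e1, eΩ] with y' r0 r1 hΩ' him
  have hy' : ENNReal.ofReal y'.im = G.hL t₂ := by rw [him]; exact hy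
  have hy0' : -(G.s / 2) < y'.im := by rw [him]; exact hy0
  obtain ⟨U0, hU0, hE0⟩ := s4j_root K cfg.zero_not_mem (cfg.lens 0) t₂ ht₂ y' hy0' hy'.le
    (cfg.patch _ hΩ') r0
  obtain ⟨U1, hU1, hE1⟩ := s4j_root K cfg.zero_not_mem (cfg.lens 1) t₂ ht₂ y' hy0' hy'.le
    (cfg.patch _ hΩ') r1
  have hev := hU0.eventually_analyticAt.and (hU1.eventually_analyticAt.and (hE0.and hE1))
  obtain ⟨W, hWsub, hWo, hzW⟩ := mem_nhds_iff.1 hev
  refine ⟨W, fun w => (U0 w, U1 w), hzW, hWo,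
    ⟨fun z hz => (hWsub hz).1.mero2At, fun z hz => (hWsub hz).2.1.mero2At⟩, ?_⟩
  intro z hz
  exact ⟨by simpa [crd] using ((hWsub hz.1).2.2.1 hz.2).symm,
    by simpa [crd] using ((hWsub hz.1).2.2.2 hz.2).symm⟩

theorem s4j_A1fam (K : Ctx4C G) {ι : Type} [Countable ι] (cfg : ι → LensCfg K) :
    ∃ C : Set ℝ, C.Countable ∧ ∀ t₂ : ℝ, t₂ ∉ C → |t₂| < K.ρ → ∀ y : ℂ,
      ENNReal.ofReal y.im = G.hL t₂ → (∃ d, (y, (t₂ : ℂ)) ∈ (cfg d).Ω) →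
      ∀ᶠ y' in 𝓝[≠] y, y'.im = y.im → K.Good t₂ y' := by
  choose B hB h using fun d => s4j_A1one K (cfg d)
  refine ⟨⋃ d, (fun t : ℝ => (t : ℂ)) ⁻¹' (B d), Set.countable_iUnion fun d =>
    (hB d).preimage_of_injOn (Complex.ofReal_injective.injOn), ?_⟩
  rintro t₂ htC ht₂ y hy ⟨d, hd⟩
  exact h d t₂ (fun hmem => htC (Set.mem_iUnion.2 ⟨d, hmem⟩)) ht₂ y hy hd

theorem mem_wallΩ_of {y₁ t₀ : ℂ} {ε : ℝ} {y : ℂ} {t₂ : ℝ} (ht : (t₂ : ℂ) ∈ Metric.ball t₀ ε)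
    (him : |y.im - y₁.im| < ε / 2) {a b : ℝ} {k k' : ℤ}
    (ha : |y.re + a * t₂ - 2 * π * k - y₁.re| < ε / 2)
    (hb : |y.re + b * t₂ - 2 * π * k' - y₁.re| < ε / 2) :
    (y, (t₂ : ℂ)) ∈ wallΩ y₁ t₀ ε a b k k' := by
  have key : ∀ (a : ℝ) (k : ℤ), |y.re + a * t₂ - 2 * π * k - y₁.re| < ε / 2 →
      y + (a : ℂ) * (t₂ : ℂ) - 2 * π * k ∈ Metric.ball y₁ ε := by
    intro a k ha
    rw [Metric.mem_ball, dist_eq_norm]
    refine lt_of_le_of_lt (Complex.norm_le_abs_re_add_abs_im _) ?_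
    have h1 : (y + (a : ℂ) * (t₂ : ℂ) - 2 * π * k - y₁).re = y.re + a * t₂ - 2 * π * k - y₁.re := by
      simp
    have h2 : (y + (a : ℂ) * (t₂ : ℂ) - 2 * π * k - y₁).im = y.im - y₁.im := by
      simp
    rw [h1, h2]
    linarith
  exact ⟨⟨key a k ha, ht⟩, ⟨key b k' hb, ht⟩⟩

theorem s4j_A1_L (K : Ctx4C G) (h : G.LensL) {y₁ t₀ : ℂ} {ε : ℝ} {P₁ : ℂ × ℂ → ℂ × ℂ}
    (hP : K.mL.IsPatch P₁ (Metric.ball y₁ ε ×ˢ Metric.ball t₀ ε))
    (hε : Metric.ball t₀ ε ⊆ Metric.ball (0 : ℂ) G.r₁) (hε0 : 0 < ε) :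
    ∃ C : Set ℝ, C.Countable ∧ ∀ t₂ : ℝ, t₂ ∉ C → Irrational (t₂ / (2 * π)) → |t₂| < K.ρ →
      (t₂ : ℂ) ∈ Metric.ball t₀ ε → ∀ y : ℂ, ENNReal.ofReal y.im = G.hL t₂ →
      |y.im - y₁.im| < ε / 2 → ∀ᶠ y' in 𝓝[≠] y, y'.im = y.im → K.Good t₂ y' := by
  classical
  let ι := {d : ℤ × ℤ × ℤ × ℤ // d.1 < 0 ∧ 0 < d.2.1}
  choose cfg hcfg using fun d : ι => s4j_cfgL K h hP hε d.2.1 d.2.2 d.1.2.2.1 d.1.2.2.2
  obtain ⟨C, hC, hmain⟩ := s4j_A1fam K cfg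
  refine ⟨C, hC, ?_⟩
  intro t₂ htC hirr ht₂ htb y hy him
  obtain ⟨⟨n, k', hn, hnk⟩, ⟨m, k, hm, hmk⟩⟩ := s4j_rot t₂ hirr y.re y₁.re (ε / 2) (by linarith)
  refine hmain t₂ htC ht₂ y hy ⟨⟨(m, n, k, k'), hm, hn⟩, ?_⟩
  rw [hcfg]
  have := mem_wallΩ_of (y₁ := y₁) (t₀ := t₀) (y := y) htb him (a := (m : ℝ)) (b := (n : ℝ))
    (k := k) (k' := k') hmk hnk
  simpa using this

theorem s4j_A1_X (K : Ctx4C G) (h : G.LensP) {y₁ t₀ : ℂ} {ε : ℝ} {P₁ : ℂ × ℂ → ℂ × ℂ}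
    (hP : K.mX.IsPatch P₁ (Metric.ball y₁ ε ×ˢ Metric.ball t₀ ε))
    (hε : Metric.ball t₀ ε ⊆ Metric.ball (0 : ℂ) G.r₁) (hε0 : 0 < ε) :
    ∃ C : Set ℝ, C.Countable ∧ ∀ t₂ : ℝ, t₂ ∉ C → Irrational (t₂ / (2 * π)) → |t₂| < K.ρ →
      (t₂ : ℂ) ∈ Metric.ball t₀ ε → ∀ y : ℂ, ENNReal.ofReal y.im = G.hL t₂ →
      |y.im - y₁.im| < ε / 2 → ∀ᶠ y' in 𝓝[≠] y, y'.im = y.im → K.Good t₂ y' := by
  classical
  let ι := {d : ℤ × ℤ × ℤ × ℤ // d.1 ≤ -1 ∧ 0 ≤ d.2.1}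
  choose cfg hcfg using fun d : ι => s4j_cfgX K h hP hε d.2.1 d.2.2 d.1.2.2.1 d.1.2.2.2
  obtain ⟨C, hC, hmain⟩ := s4j_A1fam K cfg
  refine ⟨C, hC, ?_⟩
  intro t₂ htC hirr ht₂ htb y hy him
  obtain ⟨⟨n, k', hn, hnk⟩, ⟨m, k, hm, hmk⟩⟩ :=
    s4j_rot t₂ hirr (y.re + t₂ / 2) y₁.re (ε / 2) (by linarith)
  refine hmain t₂ htC ht₂ y hy ⟨⟨(m, n, k, k'), by omega, hn.le⟩, ?_⟩
  rw [hcfg]
  have := mem_wallΩ_of (y₁ := y₁) (t₀ := t₀) (y := y) htb him (a := (m : ℝ) + 1 / 2)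
    (b := (n : ℝ) + 1 / 2) (k := k) (k' := k')
    (by convert hmk using 2; ring) (by convert hnk using 2; ring)
  simpa using this

theorem s4j_A23 (K : Ctx4C G) (h3 : G.Alg2) (t₂ : ℝ) (ht₂ : |t₂| < K.ρ)
    (hirr : Irrational (t₂ / (2 * π))) (H₂ : ℝ) (hH : G.hL t₂ = ENNReal.ofReal H₂)
    (hA1 : ∀ y : ℂ, y.im = H₂ → ∀ᶠ y' in 𝓝[≠] y, y'.im = H₂ → K.Good t₂ y') : False := by
  set B : Set ℝ := {x | ¬ K.Good t₂ ((x : ℂ) + H₂ * I)} with hB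
  have him : ∀ x : ℝ, ((x : ℂ) + H₂ * I).im = H₂ := fun x => by simp
  have hempty : B = ∅ := by
    apply s4j_comb B t₂ hirr
    · intro x hx k hg
      apply hx
      have := K.good_add_two_pi hg (-k)
      convert this using 1
      push_cast
      ring
    · intro x
      have h1 := hA1 ((x : ℂ) + H₂ * I) (him x)
      have hc : Tendsto (fun x' : ℝ => (x' : ℂ) + H₂ * I) (𝓝[≠] x) (𝓝[≠] ((x : ℂ) + H₂ * I)) := by
        apply tendsto_nhdsWithin_of_tendsto_nhds_of_eventually_within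
        · have : Continuous fun x' : ℝ => (x' : ℂ) + H₂ * I := by fun_prop
          exact (this.tendsto x).mono_left nhdsWithin_le_nhds
        · filter_upwards [self_mem_nhdsWithin] with x' hx' heq
          apply hx'
          have := congrArg Complex.re heq
          simpa using this
      filter_upwards [hc.eventually h1] with x' hx' hbad
      exact hbad (hx' (him x'))
    · intro x K₀ hneg hpos hbad
      apply hbad
      apply s4j_alg2_step K h3 t₂ ht₂ _ (by rw [him, hH]) K₀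
      · intro i hi
        have := not_not.1 (hneg i hi)
        convert this using 1
        push_cast
        ring
      · intro i hi
        have := not_not.1 (hpos i hi)
        convert this using 1
        push_cast
        ring
  refine K.mL.glue (t₂ : ℂ) H₂ (K.mem_ball_r₁ t₂ ht₂) hH ?_
  intro y hy
  have hx : y.re ∉ B := by rw [hempty]; exact Set.notMem_empty _
  have hg : K.Good t₂ ((y.re : ℂ) + H₂ * I) := not_not.1 hx
  have hyeq : (y.re : ℂ) + H₂ * I = y := by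
    apply Complex.ext <;> simp [hy]
  rw [hyeq] at hg
  exact hg

theorem s4j_stepA (K : Ctx4C G) (h3 : G.Alg2) (t₀ : ℝ) (ht₀ : |t₀| < K.ρ) (H₁ : ℝ)
    (hH₁ : G.hL t₀ = ENNReal.ofReal H₁) (ε : ℝ) (hε : 0 < ε) (C₁ : Set ℝ) (hC₁ : C₁.Countable)
    (hA1 : ∀ t₂ : ℝ, t₂ ∉ C₁ → Irrational (t₂ / (2 * π)) → |t₂| < K.ρ →
      (t₂ : ℂ) ∈ Metric.ball (t₀ : ℂ) ε → ∀ y : ℂ, ENNReal.ofReal y.im = G.hL t₂ →
      |y.im - H₁| < ε / 2 → ∀ᶠ y' in 𝓝[≠] y, y'.im = y.im → K.Good t₂ y') :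
    ∃ κ : ℝ, 0 < κ ∧ Metric.ball (t₀ : ℂ) κ ⊆ Metric.ball (0 : ℂ) K.ρ ∧
      ∃ C : Set ℝ, C.Countable ∧ ∀ x : ℝ, |x - t₀| < κ → x ∉ C →
        ENNReal.ofReal (H₁ + ε / 2) ≤ G.hL x := by
  have hs : 0 < G.s := G.r₁_pos.trans G.r₁_lt
  have hH₁pos : 0 < H₁ := by
    have := K.le_im_of_wall t₀ ht₀ (y := (⟨0, H₁⟩ : ℂ)) hH₁.symm
    simp only at this
    linarith
  have hmem : (t₀ : ℂ) ∈ Metric.ball (0 : ℂ) K.ρ := by
    simpa [Metric.mem_ball, dist_zero_right] using ht₀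
  have hlt₀ : ENNReal.ofReal (H₁ - ε / 2) < G.hL t₀ := by
    rw [hH₁]; exact (ENNReal.ofReal_lt_ofReal_iff hH₁pos).2 (by linarith)
  have hlsc : ∀ᶠ t in 𝓝[Metric.ball (0 : ℂ) K.ρ] (t₀ : ℂ), ENNReal.ofReal (H₁ - ε / 2) < G.hL t :=
    K.lsc_L (t₀ : ℂ) hmem (ENNReal.ofReal (H₁ - ε / 2)) hlt₀
  rw [Metric.isOpen_ball.nhdsWithin_eq hmem] at hlsc
  obtain ⟨κ₁, hκ₁, hball⟩ := Metric.eventually_nhds_iff.1 hlsc
  set κ := min κ₁ (min ε (K.ρ - |t₀|)) with hκ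
  have hκpos : 0 < κ := lt_min hκ₁ (lt_min hε (by linarith))
  have hsub : Metric.ball (t₀ : ℂ) κ ⊆ Metric.ball (0 : ℂ) K.ρ := by
    intro t ht
    rw [Metric.mem_ball, dist_zero_right]
    rw [Metric.mem_ball, dist_eq_norm] at ht
    have h1 : ‖t‖ ≤ ‖t - t₀‖ + ‖(t₀ : ℂ)‖ := by
      have := norm_add_le (t - t₀) (t₀ : ℂ)
      simpa using this
    have h2 : ‖(t₀ : ℂ)‖ = |t₀| := by simp
    have h3 : κ ≤ K.ρ - |t₀| := (min_le_right _ _).trans (min_le_right _ _)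
    linarith
  refine ⟨κ, hκpos, hsub, C₁ ∪ {x | ¬ Irrational (x / (2 * π))}, hC₁.union ?_, ?_⟩
  · have : {x : ℝ | ¬ Irrational (x / (2 * π))} ⊆ (fun q : ℚ => (q : ℝ) * (2 * π)) '' Set.univ := by
      intro x hx
      simp only [Irrational, Set.mem_ofPred_eq, not_not, Set.mem_range] at hx
      obtain ⟨q, hq⟩ := hx
      refine ⟨q, trivial, ?_⟩
      show (q : ℝ) * (2 * π) = x
      rw [hq]
      field_simp
    exact (Set.countable_univ.image _).mono this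
  · intro x hx hxC
    by_contra hlt
    rw [not_le] at hlt
    have hxC₁ : x ∉ C₁ := fun h => hxC (Or.inl h)
    have hirr : Irrational (x / (2 * π)) := by
      by_contra h
      exact hxC (Or.inr h)
    have hdist : dist (x : ℂ) (t₀ : ℂ) < κ := by
      rw [dist_eq_norm, ← Complex.ofReal_sub, Complex.norm_real]
      exact hx
    have hxρ : |x| < K.ρ := by
      have := hsub (Metric.mem_ball.2 hdist)
      simpa [Metric.mem_ball, dist_zero_right] using this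
    have hfin : G.hL x ≠ ⊤ := ne_top_of_lt hlt
    set H₂ := (G.hL x).toReal with hH₂def
    have hH₂ : G.hL x = ENNReal.ofReal H₂ := (ENNReal.ofReal_toReal hfin).symm
    have hlow := hball (lt_of_lt_of_le hdist (min_le_left _ _))
    rw [hH₂] at hlow hlt
    have hlow' : H₁ - ε / 2 < H₂ := (ENNReal.ofReal_lt_ofReal_iff'.1 hlow).1
    have hup' : H₂ < H₁ + ε / 2 := (ENNReal.ofReal_lt_ofReal_iff'.1 hlt).1
    refine s4j_A23 K h3 x hxρ hirr H₂ hH₂ ?_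
    intro y hy
    have := hA1 x hxC₁ hirr hxρ
      (Metric.mem_ball.2 (lt_of_lt_of_le hdist ((min_le_right _ _).trans (min_le_left _ _)))) y
      (by rw [hy]; exact hH₂.symm) (by rw [hy, abs_lt]; constructor <;> linarith)
    rw [hy] at this
    exact this

/-- **P1 Theorem 4.8 for the line field.** -/
theorem s4j_no_patch_L (K : Ctx4C G) (h1 : G.LensL) (h3 : G.Alg2) (t₀ : ℝ) (ht₀ : |t₀| < K.ρ)
    (y₁ : ℂ) (hy₁ : ENNReal.ofReal y₁.im = G.hL t₀) : ¬ G.JointPatchAt G.L0 y₁ t₀ := by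
  intro hJ
  obtain ⟨ε₀, P₁, hε₀, hP₀⟩ := K.mL.of_joint y₁ t₀ hJ
  have hr : |t₀| < G.r₁ := lt_of_lt_of_le ht₀ K.ρ_le
  set ε := min ε₀ (G.r₁ - |t₀|) with hεdef
  have hε : 0 < ε := lt_min hε₀ (by linarith)
  have hP : K.mL.IsPatch P₁ (Metric.ball y₁ ε ×ˢ Metric.ball (t₀ : ℂ) ε) :=
    hP₀.mono (Metric.isOpen_ball.prod Metric.isOpen_ball)
      (Set.prod_mono (Metric.ball_subset_ball (min_le_left _ _))
        (Metric.ball_subset_ball (min_le_left _ _)))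
  have hsub : Metric.ball (t₀ : ℂ) ε ⊆ Metric.ball (0 : ℂ) G.r₁ := by
    intro t ht
    rw [Metric.mem_ball, dist_zero_right]
    rw [Metric.mem_ball, dist_eq_norm] at ht
    have h1 : ‖t‖ ≤ ‖t - t₀‖ + ‖(t₀ : ℂ)‖ := by
      have := norm_add_le (t - t₀) (t₀ : ℂ)
      simpa using this
    have h2 : ‖(t₀ : ℂ)‖ = |t₀| := by simp
    have h3 : ε ≤ G.r₁ - |t₀| := min_le_right _ _
    linarith
  obtain ⟨C₁, hC₁, hA1⟩ := s4j_A1_L K h1 hP hsub hε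
  obtain ⟨κ, hκ, hκsub, C, hC, hM⟩ := s4j_stepA K h3 t₀ ht₀ y₁.im hy₁.symm ε hε C₁ hC₁ hA1
  have := s4k_transfer G.hL t₀ κ hκ (K.lsc_L.mono hκsub)
    (fun c r hr hcb => K.supermean_L c r hr (hcb.trans hκsub)) C hC _ hM
  rw [← hy₁] at this
  have h4 := K.le_im_of_wall t₀ ht₀ hy₁
  have hs : 0 < G.s := G.r₁_pos.trans G.r₁_lt
  have := (ENNReal.ofReal_le_ofReal_iff (by linarith)).1 this
  linarith

/-- **P1 Theorem 4.8 for the impact field.** -/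
theorem s4j_no_patch_X (K : Ctx4C G) (h2 : G.LensP) (h3 : G.Alg2) (t₀ : ℝ) (ht₀ : |t₀| < K.ρ)
    (y₁ : ℂ) (hy₁ : ENNReal.ofReal y₁.im = G.hX t₀) : ¬ G.JointPatchAt G.X0 y₁ t₀ := by
  intro hJ
  have hy₁L : ENNReal.ofReal y₁.im = G.hL t₀ := hy₁.trans (K.hX_eq_hL t₀ ht₀)
  obtain ⟨ε₀, P₁, hε₀, hP₀⟩ := K.mX.of_joint y₁ t₀ hJ
  have hr : |t₀| < G.r₁ := lt_of_lt_of_le ht₀ K.ρ_le
  set ε := min ε₀ (G.r₁ - |t₀|) with hεdef
  have hε : 0 < ε := lt_min hε₀ (by linarith)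
  have hP : K.mX.IsPatch P₁ (Metric.ball y₁ ε ×ˢ Metric.ball (t₀ : ℂ) ε) :=
    hP₀.mono (Metric.isOpen_ball.prod Metric.isOpen_ball)
      (Set.prod_mono (Metric.ball_subset_ball (min_le_left _ _))
        (Metric.ball_subset_ball (min_le_left _ _)))
  have hsub : Metric.ball (t₀ : ℂ) ε ⊆ Metric.ball (0 : ℂ) G.r₁ := by
    intro t ht
    rw [Metric.mem_ball, dist_zero_right]
    rw [Metric.mem_ball, dist_eq_norm] at ht
    have h1 : ‖t‖ ≤ ‖t - t₀‖ + ‖(t₀ : ℂ)‖ := by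
      have := norm_add_le (t - t₀) (t₀ : ℂ)
      simpa using this
    have h2 : ‖(t₀ : ℂ)‖ = |t₀| := by simp
    have h3 : ε ≤ G.r₁ - |t₀| := min_le_right _ _
    linarith
  obtain ⟨C₁, hC₁, hA1⟩ := s4j_A1_X K h2 hP hsub hε
  obtain ⟨κ, hκ, hκsub, C, hC, hM⟩ := s4j_stepA K h3 t₀ ht₀ y₁.im hy₁L.symm ε hε C₁ hC₁ hA1
  have hM' : ∀ x : ℝ, |x - t₀| < κ → x ∉ C → ENNReal.ofReal (y₁.im + ε / 2) ≤ G.hX x := by
    intro x hx hxC
    have hxρ : |x| < K.ρ := by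
      have hdist : dist (x : ℂ) (t₀ : ℂ) < κ := by
        rw [dist_eq_norm, ← Complex.ofReal_sub, Complex.norm_real]
        exact hx
      have := hκsub (Metric.mem_ball.2 hdist)
      simpa [Metric.mem_ball, dist_zero_right] using this
    rw [K.hX_eq_hL x hxρ]
    exact hM x hx hxC
  have := s4k_transfer G.hX t₀ κ hκ (K.lsc_X.mono hκsub)
    (fun c r hr hcb => K.supermean_X c r hr (hcb.trans hκsub)) C hC _ hM'
  rw [← hy₁] at this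
  have h4 := K.le_im_of_wall t₀ ht₀ hy₁L
  have hs : 0 < G.s := G.r₁_pos.trans G.r₁_lt
  have := (ENNReal.ofReal_le_ofReal_iff (by linarith)).1 this
  linarith

end Claimed.Agent.R269
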