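/-
Row 269, P1 Section 4, unit 4C, file SuperA: PROPOSITION 4.7, the real-variable part.  HOST-FREE (Mathlib only).   Statements: helper19.
LEAF PACKAGES: LF-S4-4C-yosida (`s4c_yosida`), LF-S4-4C-trig (`s4c_trig_approx`), LF-S4-4C-harm (`s4c_im_pos`, `s4c_im_mean`), LF-S4-4C-sm (`s4c_supermean_of_fill`).

`FillProp u ρ`: for every closed disc in `ball 0 ρ` and every entire `g` with `Im g > 0` on the disc and `Im g + d < u` on the circle (`d > 0`): `Im g(c) ≤ u(c)`.
`s4c_supermean_of_fill`: a lower semicontinuous `u ≥ η > 0` with `FillProp` satisfies the supermean inequality.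

PROOF of `s4c_supermean_of_fill`.  Fix `c, r`.  Let `u_n` be the Lipschitz regularisations of `s4c_yosida`: continuous, real valued, `0 ≤ u_n`, `ofReal (u_n t) ≤ u t`, increasing,
`⨆ n, ofReal (u_n t) = u t`.  By monotone convergence (`MeasureTheory.lintegral_iSup` / `lintegral_iSup'`) it suffices to show, for each `n`,
`∫⁻ θ in Ioc 0 2π, ofReal (u_n (c + r e^{iθ})) ≤ ofReal (2π) * u c`.   Let `v := max u_n η` (continuous, `ofReal v ≤ u`), `0 < ε < η/3`.  `s4c_trig_approx` gives an entire `g` with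
`|Im g - (v - 2ε)| < ε` on the circle, so `0 < η - 3ε < Im g` and `Im g + ε < v ≤ u` there.  `s4c_im_pos`: `Im g > 0` on the closed disc.  `FillProp` with `d = ε`: `ofReal (Im g c) ≤ u c`.
`s4c_im_mean`: `∫_0^{2π} Im g (c + r e^{iθ}) dθ = 2π Im g(c)`.  Hence `∫ (u_n - 3ε) ≤ ∫ Im g = 2π Im g(c)`, i.e. `∫⁻ ofReal u_n ≤ ofReal (2π) * u c + ofReal (6πε)`
(`MeasureTheory.ofReal_integral_eq_lintegral_ofReal`, `intervalIntegral.integral_of_le`); let `ε → 0` (`ENNReal.le_of_forall_pos_le_add`; trivial if `u c = ∞`).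
-/
import Mathlib

set_option autoImplicit false

open Complex Filter Topology Set MeasureTheory
open scoped ENNReal Real

namespace Claimed.Agent.R269

/-- the filling property of analytic discs. -/
def FillProp (u : ℂ → ℝ≥0∞) (ρ : ℝ) : Prop :=
  ∀ (c : ℂ) (r : ℝ), 0 < r → Metric.closedBall c r ⊆ Metric.ball (0 : ℂ) ρ →
    ∀ g : ℂ → ℂ, Differentiable ℂ g → ∀ d : ℝ, 0 < d →
      (∀ t ∈ Metric.closedBall c r, 0 < (g t).im) →
      (∀ t ∈ Metric.sphere c r, ENNReal.ofReal ((g t).im + d) < u t) →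
      ENNReal.ofReal (g c).im ≤ u c

/-- the Lipschitz regularisation -/
noncomputable def s4cY (u : ℂ → ℝ≥0∞) (n : ℕ) (t : ℂ) : ℝ :=
  ⨅ t' : ℂ, ((min (u t') (n : ℝ≥0∞)).toReal + (n : ℝ) * ‖t - t'‖)

theorem s4cY_term_nonneg (u : ℂ → ℝ≥0∞) (n : ℕ) (t t' : ℂ) :
    0 ≤ (min (u t') (n : ℝ≥0∞)).toReal + (n : ℝ) * ‖t - t'‖ := by positivity

theorem s4cY_bdd (u : ℂ → ℝ≥0∞) (n : ℕ) (t : ℂ) :
    BddBelow (Set.range fun t' : ℂ => (min (u t') (n : ℝ≥0∞)).toReal + (n : ℝ) * ‖t - t'‖) :=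
  ⟨0, by rintro _ ⟨t', rfl⟩; exact s4cY_term_nonneg u n t t'⟩

theorem s4cY_nonneg (u : ℂ → ℝ≥0∞) (n : ℕ) (t : ℂ) : 0 ≤ s4cY u n t :=
  le_ciInf fun t' => s4cY_term_nonneg u n t t'

theorem s4cY_cont (u : ℂ → ℝ≥0∞) (n : ℕ) : Continuous (s4cY u n) := by
  have hL : LipschitzWith (n : NNReal) (s4cY u n) := by
    refine LipschitzWith.of_le_add_mul _ fun x y => ?_
    have h1 : s4cY u n x - (n : ℝ) * dist x y ≤ s4cY u n y := by
      refine le_ciInf fun t' => ?_
      have h2 : s4cY u n x ≤ (min (u t') (n : ℝ≥0∞)).toReal + (n : ℝ) * ‖x - t'‖ := ciInf_le (s4cY_bdd u n x) t'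
      have h3 : ‖x - t'‖ ≤ dist x y + ‖y - t'‖ := by
        rw [dist_eq_norm]
        calc ‖x - t'‖ = ‖(x - y) + (y - t')‖ := by congr 1; ring
          _ ≤ _ := norm_add_le _ _
      have h4 : (n : ℝ) * ‖x - t'‖ ≤ (n : ℝ) * (dist x y + ‖y - t'‖) :=
        mul_le_mul_of_nonneg_left h3 (Nat.cast_nonneg n)
      linarith
    have h5 : ((n : NNReal) : ℝ) = (n : ℝ) := by simp
    rw [h5]
    linarith
  exact hL.continuous

theorem s4cY_mono (u : ℂ → ℝ≥0∞) (t : ℂ) : Monotone fun n => s4cY u n t := by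
  intro n k hnk
  refine ciInf_mono (s4cY_bdd u n t) fun t' => ?_
  have h1 : (n : ℝ≥0∞) ≤ (k : ℝ≥0∞) := by exact_mod_cast hnk
  have h2 : (min (u t') (n : ℝ≥0∞)).toReal ≤ (min (u t') (k : ℝ≥0∞)).toReal :=
    ENNReal.toReal_mono (ne_top_of_le_ne_top (ENNReal.natCast_ne_top k) (min_le_right _ _))
      (min_le_min le_rfl h1)
  have h3 : (n : ℝ) * ‖t - t'‖ ≤ (k : ℝ) * ‖t - t'‖ :=
    mul_le_mul_of_nonneg_right (by exact_mod_cast hnk) (norm_nonneg _)
  linarith

theorem s4cY_le (u : ℂ → ℝ≥0∞) (n : ℕ) (t : ℂ) : ENNReal.ofReal (s4cY u n t) ≤ u t := by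
  have h1 : s4cY u n t ≤ (min (u t) (n : ℝ≥0∞)).toReal + (n : ℝ) * ‖t - t‖ := ciInf_le (s4cY_bdd u n t) t
  rw [sub_self, norm_zero, mul_zero, add_zero] at h1
  calc ENNReal.ofReal (s4cY u n t) ≤ ENNReal.ofReal (min (u t) (n : ℝ≥0∞)).toReal := ENNReal.ofReal_le_ofReal h1
    _ = min (u t) (n : ℝ≥0∞) :=
        ENNReal.ofReal_toReal (ne_top_of_le_ne_top (ENNReal.natCast_ne_top n) (min_le_right _ _))
    _ ≤ u t := min_le_left _ _

theorem s4cY_ge {u : ℂ → ℝ≥0∞} (hu : LowerSemicontinuous u) (t : ℂ) (y : ℝ) (hy0 : 0 ≤ y)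
    (hy : ENNReal.ofReal y < u t) : ∃ n, y ≤ s4cY u n t := by
  have h1 : ∀ᶠ t' in 𝓝 t, ENNReal.ofReal y < u t' := hu t _ hy
  obtain ⟨δ, hδ, hball⟩ := Metric.eventually_nhds_iff.1 h1
  obtain ⟨n, hn⟩ := exists_nat_ge (max y (y / δ))
  have hn1 : y ≤ (n : ℝ) := (le_max_left _ _).trans hn
  have hn2 : y ≤ (n : ℝ) * δ := by
    have := (le_max_right _ _).trans hn
    rwa [div_le_iff₀ hδ] at this
  refine ⟨n, le_ciInf fun t' => ?_⟩
  by_cases hd : dist t' t < δ
  · have h2 := hball hd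
    have h3 : ENNReal.ofReal y ≤ min (u t') (n : ℝ≥0∞) := by
      refine le_min h2.le ?_
      rw [← ENNReal.ofReal_natCast]
      exact ENNReal.ofReal_le_ofReal hn1
    have h4 := ENNReal.toReal_mono (ne_top_of_le_ne_top (ENNReal.natCast_ne_top n) (min_le_right _ _)) h3
    rw [ENNReal.toReal_ofReal hy0] at h4
    have : 0 ≤ (n : ℝ) * ‖t - t'‖ := by positivity
    linarith
  · push Not at hd
    rw [dist_comm, dist_eq_norm] at hd
    have h2 : (n : ℝ) * δ ≤ (n : ℝ) * ‖t - t'‖ := mul_le_mul_of_nonneg_left hd (Nat.cast_nonneg n)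
    have h3 : 0 ≤ (min (u t') (n : ℝ≥0∞)).toReal := ENNReal.toReal_nonneg
    linarith

/-- **Lipschitz regularisation** of a lower semicontinuous function: `u_n t = inf_{t'} (min (u t') n + n |t - t'|)`. -/
theorem s4c_yosida {u : ℂ → ℝ≥0∞} (hu : LowerSemicontinuous u) :
    ∃ v : ℕ → ℂ → ℝ, (∀ n, Continuous (v n)) ∧ (∀ n t, 0 ≤ v n t) ∧ (∀ t, Monotone fun n => v n t) ∧
      ∀ t, ⨆ n, ENNReal.ofReal (v n t) = u t := by
  refine ⟨s4cY u, s4cY_cont u, s4cY_nonneg u, s4cY_mono u, fun t => ?_⟩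
  refine le_antisymm (iSup_le fun n => s4cY_le u n t) ?_
  refine le_of_forall_lt fun a ha => ?_
  obtain ⟨b, hab, hbu⟩ := exists_between ha
  have hbtop : b ≠ ⊤ := ne_top_of_lt hbu
  have hb : ENNReal.ofReal b.toReal = b := ENNReal.ofReal_toReal hbtop
  obtain ⟨n, hn⟩ := s4cY_ge hu t b.toReal ENNReal.toReal_nonneg (by rw [hb]; exact hbu)
  calc a < b := hab
    _ = ENNReal.ofReal b.toReal := hb.symm
    _ ≤ ENNReal.ofReal (s4cY u n t) := ENNReal.ofReal_le_ofReal hn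
    _ ≤ ⨆ n, ENNReal.ofReal (s4cY u n t) := le_iSup (fun n => ENNReal.ofReal (s4cY u n t)) n


/-- trigonometric polynomials are imaginary parts of polynomials on the circle -/
theorem s4c_span_im (c : ℂ) {r : ℝ} (hr : 0 < r) (p : C(AddCircle (1 : ℝ), ℂ))
    (hp : p ∈ Submodule.span ℂ (Set.range (@fourier (1 : ℝ)))) :
    ∃ g₁ g₂ : ℂ → ℂ, Differentiable ℂ g₁ ∧ Differentiable ℂ g₂ ∧ ∀ x : AddCircle (1 : ℝ),
      (g₁ (c + r * (AddCircle.toCircle x : ℂ))).im = (p x).re ∧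
      (g₂ (c + r * (AddCircle.toCircle x : ℂ))).im = (p x).im := by
  have hr0 : (r : ℂ) ≠ 0 := by exact_mod_cast hr.ne'
  have hz : ∀ z : ℂ, (c + r * z - c) / r = z := by
    intro z
    rw [add_sub_cancel_left, mul_div_cancel_left₀ _ hr0]
  induction hp using Submodule.span_induction with
  | mem p hp =>
    obtain ⟨n, rfl⟩ := hp
    have hf : ∀ (m : ℕ) (x : AddCircle (1 : ℝ)), (fourier (m : ℤ) x : ℂ) = (AddCircle.toCircle x : ℂ) ^ m := by
      intro m x
      rw [fourier_apply, AddCircle.toCircle_zsmul, zpow_natCast, Circle.coe_pow]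
    obtain ⟨m, rfl | rfl⟩ := n.eq_nat_or_neg
    · refine ⟨fun t => I * ((t - c) / r) ^ m, fun t => ((t - c) / r) ^ m, by fun_prop, by fun_prop, fun x => ?_⟩
      simp only [hz, hf]
      constructor
      · simp
      · trivial
    · refine ⟨fun t => I * ((t - c) / r) ^ m, fun t => -((t - c) / r) ^ m, by fun_prop, by fun_prop, fun x => ?_⟩
      simp only [hz, fourier_neg, hf]
      constructor
      · rw [Complex.conj_re]; simp
      · rw [Complex.conj_im]; simp
  | zero => exact ⟨fun _ => 0, fun _ => 0, by fun_prop, by fun_prop, fun x => by simp⟩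
  | add p q _ _ ihp ihq =>
    obtain ⟨g₁, g₂, d₁, d₂, h⟩ := ihp
    obtain ⟨k₁, k₂, e₁, e₂, h'⟩ := ihq
    refine ⟨fun t => g₁ t + k₁ t, fun t => g₂ t + k₂ t, d₁.add e₁, d₂.add e₂, fun x => ?_⟩
    simp only [Complex.add_im, ContinuousMap.add_apply, Complex.add_re, (h x).1, (h x).2, (h' x).1, (h' x).2]
    exact ⟨trivial, trivial⟩
  | smul a p _ ihp =>
    obtain ⟨g₁, g₂, d₁, d₂, h⟩ := ihp
    refine ⟨fun t => (a.re : ℂ) * g₁ t - (a.im : ℂ) * g₂ t, fun t => (a.re : ℂ) * g₂ t + (a.im : ℂ) * g₁ t,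
      (d₁.const_mul _).sub (d₂.const_mul _), (d₂.const_mul _).add (d₁.const_mul _), fun x => ?_⟩
    constructor
    · show ((a.re : ℂ) * g₁ (c + r * (AddCircle.toCircle x : ℂ)) - (a.im : ℂ) * g₂ (c + r * (AddCircle.toCircle x : ℂ))).im
        = (a * p x).re
      rw [Complex.sub_im, Complex.im_ofReal_mul, Complex.im_ofReal_mul, (h x).1, (h x).2, Complex.mul_re]
    · show ((a.re : ℂ) * g₂ (c + r * (AddCircle.toCircle x : ℂ)) + (a.im : ℂ) * g₁ (c + r * (AddCircle.toCircle x : ℂ))).im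
        = (a * p x).im
      rw [Complex.add_im, Complex.im_ofReal_mul, Complex.im_ofReal_mul, (h x).1, (h x).2, Complex.mul_im]

theorem s4c_trig_approx {f : ℂ → ℝ} (hf : Continuous f) (c : ℂ) {r : ℝ} (hr : 0 < r) {ε : ℝ}
    (hε : 0 < ε) :
    ∃ g : ℂ → ℂ, Differentiable ℂ g ∧ ∀ t ∈ Metric.sphere c r, |(g t).im - f t| < ε := by
  have : Fact ((0 : ℝ) < 1) := ⟨one_pos⟩
  have hr0 : (r : ℂ) ≠ 0 := by exact_mod_cast hr.ne'
  obtain ⟨F, hF⟩ : ∃ F : C(AddCircle (1 : ℝ), ℂ), ∀ x, F x = (f (c + r * (AddCircle.toCircle x : ℂ)) : ℂ) := by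
    refine ⟨⟨fun x => (f (c + r * (AddCircle.toCircle x : ℂ)) : ℂ), ?_⟩, fun x => rfl⟩
    have h1 : Continuous fun x : AddCircle (1 : ℝ) => (AddCircle.toCircle x : ℂ) := by
      have h2 := (fourier (T := (1 : ℝ)) 1).continuous
      have h3 : ⇑(fourier (T := (1 : ℝ)) 1) = fun x : AddCircle (1 : ℝ) => (AddCircle.toCircle x : ℂ) :=
        funext fun x => fourier_one
      rwa [h3] at h2
    exact Complex.continuous_ofReal.comp (hf.comp (continuous_const.add (continuous_const.mul h1)))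
  have hcl : F ∈ closure ((Submodule.span ℂ (Set.range (@fourier (1 : ℝ))) : Submodule ℂ C(AddCircle (1 : ℝ), ℂ)) :
      Set C(AddCircle (1 : ℝ), ℂ)) := by
    have h1 : F ∈ (Submodule.span ℂ (Set.range (@fourier (1 : ℝ)))).topologicalClosure := by
      rw [span_fourier_closure_eq_top]
      exact Submodule.mem_top
    exact h1
  obtain ⟨p, hp, hd⟩ := Metric.mem_closure_iff.1 hcl ε hε
  obtain ⟨g₁, _, d₁, _, h⟩ := s4c_span_im c hr p hp
  refine ⟨g₁, d₁, fun t ht => ?_⟩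
  -- the point of the circle
  have hw : ‖(t - c) / r‖ = 1 := by
    rw [norm_div, Complex.norm_real, Real.norm_eq_abs, abs_of_pos hr, ← dist_eq_norm, Metric.mem_sphere.1 ht,
      div_self hr.ne']
  obtain ⟨w, hwdef⟩ : ∃ w : Circle, (w : ℂ) = (t - c) / r := ⟨⟨(t - c) / r, mem_sphere_zero_iff_norm.2 hw⟩, rfl⟩
  obtain ⟨x, hx⟩ : ∃ x : AddCircle (1 : ℝ), AddCircle.toCircle x = w :=
    ⟨(AddCircle.homeomorphCircle one_ne_zero).symm w, by
      rw [← AddCircle.homeomorphCircle_apply one_ne_zero, Homeomorph.apply_symm_apply]⟩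
  have ht' : c + r * (AddCircle.toCircle x : ℂ) = t := by
    rw [hx, hwdef, mul_div_cancel₀ _ hr0]
    ring
  have h1 := (h x).1
  rw [ht'] at h1
  have h2 := hF x
  rw [ht'] at h2
  have h3 : dist (F x) (p x) < ε := lt_of_le_of_lt (ContinuousMap.dist_apply_le_dist x) hd
  rw [h1]
  have h4 : (p x).re - f t = (p x - F x).re := by rw [Complex.sub_re, h2, Complex.ofReal_re]
  rw [h4]
  refine lt_of_le_of_lt (Complex.abs_re_le_norm _) ?_
  rwa [← dist_eq_norm, dist_comm]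


theorem s4c_im_pos {g : ℂ → ℂ} (hg : Differentiable ℂ g) {c : ℂ} {r : ℝ} (hr : 0 < r)
    (h : ∀ t ∈ Metric.sphere c r, 0 < (g t).im) : ∀ t ∈ Metric.closedBall c r, 0 < (g t).im := by
  intro t ht
  have hne : (Metric.sphere c r).Nonempty := NormedSpace.sphere_nonempty.2 hr.le
  obtain ⟨a, ha, hamin⟩ := (isCompact_sphere c r).exists_isMinOn hne
    (Complex.continuous_im.comp hg.continuous).continuousOn
  have hm : 0 < (g a).im := h a ha
  have hF : Differentiable ℂ fun z => Complex.exp (I * g z) := (hg.const_mul I).cexp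
  have hnorm : ∀ z, ‖Complex.exp (I * g z)‖ = Real.exp (-(g z).im) := by
    intro z
    rw [Complex.norm_exp]
    congr 1
    simp
  have hb := Complex.norm_le_of_forall_mem_frontier_norm_le (U := Metric.ball c r) Metric.isBounded_ball
    hF.diffContOnCl (C := Real.exp (-(g a).im)) (fun z hz => by
      rw [frontier_ball c hr.ne'] at hz
      rw [hnorm]
      have : (g a).im ≤ (g z).im := hamin hz
      exact Real.exp_le_exp.2 (by linarith)) (z := t) (by rw [closure_ball c hr.ne']; exact ht)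
  rw [hnorm, Real.exp_le_exp] at hb
  linarith

theorem s4c_im_mean {g : ℂ → ℂ} (hg : Differentiable ℂ g) (c : ℂ) (r : ℝ) :
    ∫ θ in (0 : ℝ)..(2 * π), (g (c + r * Complex.exp (θ * I))).im = 2 * π * (g c).im := by
  have hcont : Continuous fun θ : ℝ => g (c + r * Complex.exp (θ * I)) := by
    refine hg.continuous.comp ?_
    fun_prop
  have hint : IntervalIntegrable (fun θ : ℝ => g (c + r * Complex.exp (θ * I))) volume 0 (2 * π) :=
    hcont.intervalIntegrable _ _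
  have hav := (hg.diffContOnCl (s := Metric.ball c |r|)).circleAverage
  rw [Real.circleAverage_def] at hav
  have hpi : (2 * π : ℝ) ≠ 0 := by positivity
  have hI : ∫ θ in (0 : ℝ)..(2 * π), g (c + r * Complex.exp (θ * I)) = (2 * π : ℝ) • g c := by
    rw [← hav, smul_smul, mul_inv_cancel₀ hpi, one_smul]
    rfl
  have h1 := Complex.imCLM.intervalIntegral_comp_comm hint
  simp only [Complex.imCLM_apply] at h1
  rw [h1, hI]
  simp


theorem s4c_circle_mem_sphere (c : ℂ) (r : ℝ) (hr : 0 ≤ r) (θ : ℝ) :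
    c + r * Complex.exp (θ * I) ∈ Metric.sphere c r := by
  rw [Metric.mem_sphere, dist_eq_norm, add_sub_cancel_left, norm_mul, Complex.norm_exp_ofReal_mul_I, mul_one,
    Complex.norm_real, Real.norm_eq_abs, abs_of_nonneg hr]

/-- one continuous minorant -/
theorem s4c_supermean_step {u : ℂ → ℝ≥0∞} {ρ η : ℝ} (hη : 0 < η)
    (hpos : ∀ t ∈ Metric.ball (0 : ℂ) ρ, ENNReal.ofReal η ≤ u t) (hfill : FillProp u ρ)
    (v : ℂ → ℝ) (hvc : Continuous v) (hvu : ∀ t, ENNReal.ofReal (v t) ≤ u t)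
    (c : ℂ) (r : ℝ) (hr : 0 < r) (hsub : Metric.closedBall c r ⊆ Metric.ball (0 : ℂ) ρ) (ε : ℝ) (hε : 0 < ε)
    (hε' : 3 * ε < η) :
    ∫⁻ θ in Set.Ioc (0 : ℝ) (2 * π), ENNReal.ofReal (v (c + r * Complex.exp (θ * I)))
      ≤ ENNReal.ofReal (2 * π) * u c + ENNReal.ofReal (6 * π * ε) := by
  have hpi : (0 : ℝ) ≤ 2 * π := by positivity
  have hVc : Continuous fun t => max (v t) η - 2 * ε := (hvc.max continuous_const).sub continuous_const
  obtain ⟨g, hg, hgV⟩ := s4c_trig_approx hVc c hr hε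
  have hs1 : ∀ t ∈ Metric.sphere c r, max (v t) η - 3 * ε < (g t).im ∧ (g t).im + ε < max (v t) η := by
    intro t ht
    have := abs_lt.1 (hgV t ht)
    constructor <;> linarith [this.1, this.2]
  have hspos : ∀ t ∈ Metric.sphere c r, 0 < (g t).im := by
    intro t ht
    have := (hs1 t ht).1
    have h2 := le_max_right (v t) η
    linarith
  have hball := s4c_im_pos hg hr hspos
  have hcirc : ∀ t ∈ Metric.sphere c r, ENNReal.ofReal ((g t).im + ε) < u t := by
    intro t ht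
    have h1 : ENNReal.ofReal ((g t).im + ε) < ENNReal.ofReal (max (v t) η) :=
      (ENNReal.ofReal_lt_ofReal_iff (lt_of_lt_of_le hη (le_max_right _ _))).2 (hs1 t ht).2
    refine lt_of_lt_of_le h1 ?_
    rcases max_choice (v t) η with h | h
    · rw [h]; exact hvu t
    · rw [h]; exact hpos t (hsub (Metric.sphere_subset_closedBall ht))
  have hc := hfill c r hr hsub g hg ε hε hball hcirc
  have hmean := s4c_im_mean hg c r
  have hcont : Continuous fun θ : ℝ => (g (c + r * Complex.exp (θ * I))).im + 3 * ε := by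
    refine (Complex.continuous_im.comp (hg.continuous.comp ?_)).add continuous_const
    fun_prop
  have hint : IntervalIntegrable (fun θ : ℝ => (g (c + r * Complex.exp (θ * I))).im + 3 * ε) volume 0 (2 * π) :=
    hcont.intervalIntegrable _ _
  have hint' : IntervalIntegrable (fun θ : ℝ => (g (c + r * Complex.exp (θ * I))).im) volume 0 (2 * π) := by
    have : Continuous fun θ : ℝ => (g (c + r * Complex.exp (θ * I))).im := by
      refine Complex.continuous_im.comp (hg.continuous.comp ?_)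
      fun_prop
    exact this.intervalIntegrable _ _
  have hI : ∫ θ in Set.Ioc (0 : ℝ) (2 * π), ((g (c + r * Complex.exp (θ * I))).im + 3 * ε)
      = 2 * π * (g c).im + 6 * π * ε := by
    rw [← intervalIntegral.integral_of_le hpi, intervalIntegral.integral_add hint' intervalIntegrable_const, hmean,
      intervalIntegral.integral_const]
    simp
    ring
  have hnn : ∀ θ : ℝ, 0 ≤ (g (c + r * Complex.exp (θ * I))).im + 3 * ε := by
    intro θ
    have := hspos _ (s4c_circle_mem_sphere c r hr.le θ)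
    linarith
  have hle : ∀ θ : ℝ, v (c + r * Complex.exp (θ * I)) ≤ (g (c + r * Complex.exp (θ * I))).im + 3 * ε := by
    intro θ
    have := (hs1 _ (s4c_circle_mem_sphere c r hr.le θ)).1
    have h2 := le_max_left (v (c + r * Complex.exp (θ * I))) η
    linarith
  calc ∫⁻ θ in Set.Ioc (0 : ℝ) (2 * π), ENNReal.ofReal (v (c + r * Complex.exp (θ * I)))
      ≤ ∫⁻ θ in Set.Ioc (0 : ℝ) (2 * π), ENNReal.ofReal ((g (c + r * Complex.exp (θ * I))).im + 3 * ε) :=
        lintegral_mono fun θ => ENNReal.ofReal_le_ofReal (hle θ)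
    _ = ENNReal.ofReal (∫ θ in Set.Ioc (0 : ℝ) (2 * π), ((g (c + r * Complex.exp (θ * I))).im + 3 * ε)) :=
        (ofReal_integral_eq_lintegral_ofReal ((intervalIntegrable_iff_integrableOn_Ioc_of_le hpi).1 hint)
          (Eventually.of_forall hnn)).symm
    _ = ENNReal.ofReal (2 * π * (g c).im + 6 * π * ε) := by rw [hI]
    _ ≤ ENNReal.ofReal (2 * π * (g c).im) + ENNReal.ofReal (6 * π * ε) := ENNReal.ofReal_add_le
    _ = ENNReal.ofReal (2 * π) * ENNReal.ofReal (g c).im + ENNReal.ofReal (6 * π * ε) := by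
        rw [ENNReal.ofReal_mul hpi]
    _ ≤ _ := by gcongr

/-- **From filling to the supermean inequality.** -/
theorem s4c_supermean_of_fill {u : ℂ → ℝ≥0∞} (hu : LowerSemicontinuous u) {ρ η : ℝ} (hη : 0 < η)
    (hpos : ∀ t ∈ Metric.ball (0 : ℂ) ρ, ENNReal.ofReal η ≤ u t) (hfill : FillProp u ρ) :
    ∀ (t₀ : ℂ) (r : ℝ), 0 < r → Metric.closedBall t₀ r ⊆ Metric.ball (0 : ℂ) ρ →
      ∫⁻ θ in Set.Ioc (0 : ℝ) (2 * π), u (t₀ + r * Complex.exp (θ * I))
        ≤ ENNReal.ofReal (2 * π) * u t₀ := by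
  intro c r hr hsub
  obtain ⟨v, hvc, _, hvm, hvs⟩ := s4c_yosida hu
  have hvu : ∀ n t, ENNReal.ofReal (v n t) ≤ u t := fun n t => by
    rw [← hvs t]
    exact le_iSup (fun n => ENNReal.ofReal (v n t)) n
  have hcc : Continuous fun θ : ℝ => c + r * Complex.exp (θ * I) := by fun_prop
  have h1 : ∫⁻ θ in Set.Ioc (0 : ℝ) (2 * π), u (c + r * Complex.exp (θ * I))
      = ⨆ n, ∫⁻ θ in Set.Ioc (0 : ℝ) (2 * π), ENNReal.ofReal (v n (c + r * Complex.exp (θ * I))) := by
    rw [← lintegral_iSup]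
    · exact lintegral_congr fun θ => (hvs _).symm
    · intro n
      exact ENNReal.measurable_ofReal.comp ((hvc n).comp hcc).measurable
    · intro n k hnk θ
      exact ENNReal.ofReal_le_ofReal (hvm _ hnk)
  rw [h1]
  refine iSup_le fun n => ?_
  refine ENNReal.le_of_forall_pos_le_add fun ε' hε' _ => ?_
  have hεR : (0 : ℝ) < (ε' : ℝ) := hε'
  have hpi := Real.pi_pos
  obtain ⟨ε, hεdef⟩ : ∃ ε : ℝ, ε = min (η / 4) ((ε' : ℝ) / (6 * π)) := ⟨_, rfl⟩
  have hε0 : 0 < ε := by rw [hεdef]; exact lt_min (by positivity) (by positivity)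
  have hε1 : 3 * ε < η := by
    have : ε ≤ η / 4 := by rw [hεdef]; exact min_le_left _ _
    linarith
  have hε2 : 6 * π * ε ≤ (ε' : ℝ) := by
    have : ε ≤ (ε' : ℝ) / (6 * π) := by rw [hεdef]; exact min_le_right _ _
    rw [le_div_iff₀ (by positivity)] at this
    linarith
  refine (s4c_supermean_step hη hpos hfill (v n) (hvc n) (hvu n) c r hr hsub ε hε0 hε1).trans ?_
  have h2 : ENNReal.ofReal (6 * π * ε) ≤ (ε' : ℝ≥0∞) := by
    rw [← ENNReal.ofReal_coe_nnreal]
    exact ENNReal.ofReal_le_ofReal hε2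
  gcongr


end Claimed.Agent.R269
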