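/-
Row 269, P1 Section 4, unit 4C, file WidthBasic: elementary theory of primary extensions and widths (P1 Definition 4.1 and
the remarks after it).   Statements and proofs: helper19.   SORRY-FREE.

Everything is for an arbitrary branch `F₀`; `G.IsBase F₀` is assumed only where needed.
Tools: R269/Lib/Mero2.lean (identity theorem, normal form `mnf`), the pair API of S4/WidthDefs.lean.

PROOFS.
* `s4c_uniq`: `z = (y,t)`; choose a ball `B ⊆ V ∩ V'` about `t` and apply `Mero2On₂.eqAt_of_isPreconnected` on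
  `W = hband (-(s/2)) (min b b') ×ˢ B` (convex) with base point `z₀ = (i·c, t)`, `c` between `-(s/2)` and `min (s/2) (min b b')`:
  near `z₀` both functions are equal to `F₀` (`agrees`), so `Mero2At₂.eqAt_of_eventuallyEq` applies.
* `s4c_ext_of_mero`: meromorphy from `Mero2At₂.mnf₂_eqAt`; for `agrees` at `(y,t)` use the identity theorem on
  `hstrip (s/2) ×ˢ B` (`B ⊆ V` a ball about `t`) for `P` and `F₀`, then `mnf₂_eq_of_analyticAt`.
* `ExtendsTo.neg`: `F' := fun w => F (shear (fun _ => 0) 0 (-1) w)`, `V' := -V`; `IsBase.even`.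
* `IsPrimaryExt.shift`: `F' := fun w => F (shear (fun _ => 2πk) 0 1 w)`; `IsBase.per` (induction on `k`).
-/
import Claimed.Agent.R269.S4.WidthBase

set_option autoImplicit false

open Complex ComplexConjugate Filter Topology Set
open scoped ENNReal Real

namespace Claimed.Agent.R269

namespace Glance

variable {G : Glance} {F₀ : ℂ × ℂ → ℂ × ℂ}

theorem IsPrimaryExt.mono {b b' : ℝ} {V V' : Set ℂ} {F : ℂ × ℂ → ℂ × ℂ}
    (h : G.IsPrimaryExt F₀ b V F) (hb : b' ≤ b) (hV' : IsOpen V') (hVV : V' ⊆ V) :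
    G.IsPrimaryExt F₀ b' V' F where
  isOpen := hV'
  sub := hVV.trans h.sub
  mero := h.mero.mono fun z hz => ⟨⟨hz.1.1, hz.1.2.trans_le hb⟩, hVV hz.2⟩
  agrees := fun z hz => h.agrees z ⟨hz.1, hVV hz.2⟩

theorem ExtendsTo.mono {t : ℂ} {b b' : ℝ} (h : G.ExtendsTo F₀ t b) (hb : b' ≤ b) :
    G.ExtendsTo F₀ t b' := by
  obtain ⟨V, F, ht, hF⟩ := h
  exact ⟨V, F, ht, hF.mono hb hF.isOpen Subset.rfl⟩

theorem ExtendsTo.mem_ball {t : ℂ} {b : ℝ} (h : G.ExtendsTo F₀ t b) :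
    t ∈ Metric.ball (0 : ℂ) G.r₁ := by
  obtain ⟨V, F, ht, hF⟩ := h
  exact hF.sub ht

theorem ExtendsTo.eventually {t : ℂ} {b : ℝ} (h : G.ExtendsTo F₀ t b) :
    ∀ᶠ t' in 𝓝 t, G.ExtendsTo F₀ t' b := by
  obtain ⟨V, F, ht, hF⟩ := h
  filter_upwards [hF.isOpen.mem_nhds ht] with t' ht'
  exact ⟨V, F, ht', hF⟩

/-- an extension on a ball about `t`. -/
theorem ExtendsTo.exists_ball {t : ℂ} {b : ℝ} (h : G.ExtendsTo F₀ t b) :
    ∃ (ε : ℝ) (F : ℂ × ℂ → ℂ × ℂ), 0 < ε ∧ G.IsPrimaryExt F₀ b (Metric.ball t ε) F := by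
  obtain ⟨V, F, ht, hF⟩ := h
  obtain ⟨ε, hε, hεV⟩ := Metric.isOpen_iff.1 hF.isOpen t ht
  exact ⟨ε, F, hε, hF.mono le_rfl Metric.isOpen_ball hεV⟩

/-- the base branch is a primary extension of itself. -/
theorem IsBase.isPrimaryExt (hB : G.IsBase F₀) :
    G.IsPrimaryExt F₀ (3 * G.s / 2) (Metric.ball (0 : ℂ) G.r₁) F₀ where
  isOpen := Metric.isOpen_ball
  sub := Subset.rfl
  mero := by
    have hs := G.s4c_s_pos
    have hsub : hband (-(G.s / 2)) (3 * G.s / 2) ×ˢ Metric.ball (0 : ℂ) G.r₁ ⊆ G.ini := by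
      rintro z ⟨⟨h1, h2⟩, h3⟩
      refine ⟨?_, h3⟩
      show |z.1.im| < 3 * G.s / 2
      rw [abs_lt]
      constructor <;> linarith
    exact ⟨fun z hz => (hB.an₁ z (hsub hz)).mero2At, fun z hz => (hB.an₂ z (hsub hz)).mero2At⟩
  agrees := fun _ _ => rfl

theorem IsBase.extendsTo (hB : G.IsBase F₀) {t : ℂ} (ht : t ∈ Metric.ball (0 : ℂ) G.r₁) :
    G.ExtendsTo F₀ t (3 * G.s / 2) :=
  ⟨_, F₀, ht, hB.isPrimaryExt⟩

theorem s4c_le_width_of_ext {t : ℂ} {b : ℝ} (hb : G.s / 2 < b) (h : G.ExtendsTo F₀ t b) :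
    ENNReal.ofReal b ≤ G.width F₀ t :=
  le_sSup ⟨b, hb, h, rfl⟩

theorem s4c_exists_ext_of_lt {t : ℂ} {c : ℝ≥0∞} (h : c < G.width F₀ t) :
    ∃ b : ℝ, G.s / 2 < b ∧ c < ENNReal.ofReal b ∧ G.ExtendsTo F₀ t b := by
  obtain ⟨w, ⟨b, hb, hext, rfl⟩, hw⟩ := lt_sSup_iff.1 h
  exact ⟨b, hb, hw, hext⟩

theorem s4c_mem_ball_of_lt {t : ℂ} {c : ℝ≥0∞} (h : c < G.width F₀ t) :
    t ∈ Metric.ball (0 : ℂ) G.r₁ := by
  obtain ⟨b, -, -, hext⟩ := s4c_exists_ext_of_lt h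
  exact hext.mem_ball

theorem s4c_width_eq_zero {t : ℂ} (ht : t ∉ Metric.ball (0 : ℂ) G.r₁) : G.width F₀ t = 0 := by
  by_contra h
  exact ht (s4c_mem_ball_of_lt (pos_iff_ne_zero.2 h))

/-- a real height strictly below the width is reached. -/
theorem s4c_ext_of_lt {t : ℂ} {b : ℝ} (h : ENNReal.ofReal b < G.width F₀ t) :
    G.ExtendsTo F₀ t b := by
  obtain ⟨b', -, hbb, hext⟩ := s4c_exists_ext_of_lt h
  exact hext.mono (le_of_lt (ENNReal.ofReal_lt_ofReal_iff'.1 hbb).1)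

theorem IsBase.le_width (hB : G.IsBase F₀) {t : ℂ} (ht : t ∈ Metric.ball (0 : ℂ) G.r₁) :
    ENNReal.ofReal (3 * G.s / 2) ≤ G.width F₀ t :=
  s4c_le_width_of_ext (by have := G.s4c_s_pos; linarith) (hB.extendsTo ht)

theorem IsBase.width_pos (hB : G.IsBase F₀) {t : ℂ} (ht : t ∈ Metric.ball (0 : ℂ) G.r₁) :
    0 < G.width F₀ t :=
  lt_of_lt_of_le (ENNReal.ofReal_pos.2 (by have := G.s4c_s_pos; linarith)) (hB.le_width ht)

/-- the widths are lower semicontinuous (everywhere). -/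
theorem s4c_lsc (G : Glance) (F₀ : ℂ × ℂ → ℂ × ℂ) : LowerSemicontinuous (G.width F₀) := by
  intro t c hc
  obtain ⟨b, hb, hcb, hext⟩ := s4c_exists_ext_of_lt hc
  filter_upwards [hext.eventually] with t' ht'
  exact hcb.trans_le (s4c_le_width_of_ext hb ht')

/-- **Uniqueness** of primary extensions (as germs). -/
theorem s4c_uniq {b b' : ℝ} {V V' : Set ℂ} {F F' : ℂ × ℂ → ℂ × ℂ} (h : G.IsPrimaryExt F₀ b V F)
    (h' : G.IsPrimaryExt F₀ b' V' F') {z : ℂ × ℂ} (hz : z ∈ hband (-(G.s / 2)) b ×ˢ V)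
    (hz' : z ∈ hband (-(G.s / 2)) b' ×ˢ V') : Mero2EqAt₂ F F' z := by
  have hs := G.s4c_s_pos
  obtain ⟨ε, hε, hεV⟩ := Metric.isOpen_iff.1 (h.isOpen.inter h'.isOpen) z.2 ⟨hz.2, hz'.2⟩
  have hWc : IsPreconnected (hband (-(G.s / 2)) (min b b') ×ˢ Metric.ball z.2 ε) :=
    ((s4c_convex_hband _ _).prod (convex_ball _ _)).isPreconnected
  have hmin : -(G.s / 2) < min b b' := lt_min (hz.1.1.trans hz.1.2) (hz'.1.1.trans hz'.1.2)
  obtain ⟨c, hc1, hc2⟩ := exists_between (lt_min hmin (show -(G.s / 2) < G.s / 2 by linarith))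
  have hc3 : c < min b b' := hc2.trans_le (min_le_left _ _)
  have hc4 : c < G.s / 2 := hc2.trans_le (min_le_right _ _)
  have him : ((c : ℂ) * I).im = c := by simp
  have hz₀W : (((c : ℂ) * I, z.2) : ℂ × ℂ) ∈ hband (-(G.s / 2)) (min b b') ×ˢ Metric.ball z.2 ε :=
    ⟨⟨by rw [him]; exact hc1, by rw [him]; exact hc3⟩, Metric.mem_ball_self hε⟩
  have hsubF : hband (-(G.s / 2)) (min b b') ×ˢ Metric.ball z.2 ε ⊆ hband (-(G.s / 2)) b ×ˢ V :=
    fun w hw => ⟨⟨hw.1.1, hw.1.2.trans_le (min_le_left _ _)⟩, (hεV hw.2).1⟩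
  have hsubF' : hband (-(G.s / 2)) (min b b') ×ˢ Metric.ball z.2 ε ⊆ hband (-(G.s / 2)) b' ×ˢ V' :=
    fun w hw => ⟨⟨hw.1.1, hw.1.2.trans_le (min_le_right _ _)⟩, (hεV hw.2).2⟩
  have hbasic : (((c : ℂ) * I, z.2) : ℂ × ℂ) ∈ hstrip (G.s / 2) ×ˢ (V ∩ V') := by
    refine ⟨?_, hz.2, hz'.2⟩
    show |((c : ℂ) * I).im| < G.s / 2
    rw [him, abs_lt]
    exact ⟨hc1, hc4⟩
  have hev : F =ᶠ[𝓝 (((c : ℂ) * I, z.2) : ℂ × ℂ)] F' := by
    filter_upwards [((s4c_isOpen_hstrip _).prod (h.isOpen.inter h'.isOpen)).mem_nhds hbasic] with w hw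
    rw [h.agrees w ⟨hw.1, hw.2.1⟩, h'.agrees w ⟨hw.1, hw.2.2⟩]
  have h0 : Mero2EqAt₂ F F' (((c : ℂ) * I, z.2) : ℂ × ℂ) :=
    (mero2On₂_iff.1 h.mero _ (hsubF hz₀W)).eqAt_of_eventuallyEq hev
  exact Mero2On₂.eqAt_of_isPreconnected hWc (h.mero.mono hsubF) (h'.mero.mono hsubF') hz₀W h0 z
    ⟨⟨hz.1.1, lt_min hz.1.2 hz'.1.2⟩, Metric.mem_ball_self hε⟩

/-- **Extension from a meromorphic function**: a pair `P`, meromorphic on `{-s/2 < Im y < b} × V`, which has the germ of `F₀` at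
the points `(0,t)`, `t ∈ V`, gives the primary extension `mnf₂ P`. -/
theorem s4c_ext_of_mero (hB : G.IsBase F₀) {b : ℝ} (hb : G.s / 2 ≤ b) {V : Set ℂ} (hV : IsOpen V)
    (hVr : V ⊆ Metric.ball (0 : ℂ) G.r₁) {P : ℂ × ℂ → ℂ × ℂ}
    (hP : Mero2On₂ P (hband (-(G.s / 2)) b ×ˢ V)) (h0 : ∀ t ∈ V, Mero2EqAt₂ P F₀ (0, t)) :
    G.IsPrimaryExt F₀ b V (mnf₂ P) where
  isOpen := hV
  sub := hVr
  mero := mero2On₂_iff.2 fun z hz => (mero2On₂_iff.1 hP z hz).mnf₂_eqAt.left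
  agrees := by
    intro z hz
    have hs := G.s4c_s_pos
    obtain ⟨ε, hε, hεV⟩ := Metric.isOpen_iff.1 hV z.2 hz.2
    have hWc : IsPreconnected (hstrip (G.s / 2) ×ˢ Metric.ball z.2 ε) :=
      ((s4c_convex_hstrip _).prod (convex_ball _ _)).isPreconnected
    have hsub : hstrip (G.s / 2) ×ˢ Metric.ball z.2 ε ⊆ hband (-(G.s / 2)) b ×ˢ V := by
      rintro w ⟨hw1, hw2⟩
      have hw1' : |w.1.im| < G.s / 2 := hw1
      rw [abs_lt] at hw1'
      exact ⟨⟨hw1'.1, hw1'.2.trans_le hb⟩, hεV hw2⟩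
    have hsub' : hstrip (G.s / 2) ×ˢ Metric.ball z.2 ε ⊆ G.ini := by
      rintro w ⟨hw1, hw2⟩
      have hw1' : |w.1.im| < G.s / 2 := hw1
      exact ⟨show |w.1.im| < 3 * G.s / 2 by linarith, hVr (hεV hw2)⟩
    have hF₀ : Mero2On₂ F₀ (hstrip (G.s / 2) ×ˢ Metric.ball z.2 ε) :=
      ⟨fun w hw => (hB.an₁ w (hsub' hw)).mero2At, fun w hw => (hB.an₂ w (hsub' hw)).mero2At⟩
    have hz₀ : ((0, z.2) : ℂ × ℂ) ∈ hstrip (G.s / 2) ×ˢ Metric.ball z.2 ε := by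
      refine ⟨?_, Metric.mem_ball_self hε⟩
      show |(0 : ℂ).im| < G.s / 2
      simp only [Complex.zero_im, abs_zero]
      linarith
    have hzW : z ∈ hstrip (G.s / 2) ×ˢ Metric.ball z.2 ε := ⟨hz.1, Metric.mem_ball_self hε⟩
    have h1 := Mero2On₂.eqAt_of_isPreconnected hWc (hP.mono hsub) hF₀ hz₀ (h0 z.2 hz.2) z hzW
    exact mnf₂_eq_of_analyticAt (hB.an₁ z (hsub' hzW)) (hB.an₂ z (hsub' hzW)) h1

theorem s4c_add_mem_ini {z : ℂ × ℂ} (hz : z ∈ G.ini) (x : ℝ) : (z.1 + x, z.2) ∈ G.ini := by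
  refine ⟨?_, hz.2⟩
  have h1 : |z.1.im| < 3 * G.s / 2 := hz.1
  show |(z.1 + x).im| < 3 * G.s / 2
  simpa using h1

/-- periodicity for all integer multiples. -/
theorem IsBase.per_int (hB : G.IsBase F₀) {z : ℂ × ℂ} (hz : z ∈ G.ini) (k : ℤ) :
    F₀ (z.1 + 2 * π * k, z.2) = F₀ z := by
  induction k using Int.induction_on with
  | zero => simp
  | succ n ih =>
    have h1 : (z.1 + ((2 * π * n : ℝ) : ℂ), z.2) ∈ G.ini := s4c_add_mem_ini hz _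
    have h2 := hB.per _ h1
    simp only at h2
    have e1 : z.1 + 2 * (π : ℂ) * ((n : ℤ) + 1 : ℤ) = z.1 + ((2 * π * n : ℝ) : ℂ) + 2 * π := by
      push_cast
      ring
    have e2 : z.1 + 2 * (π : ℂ) * ((n : ℤ) : ℤ) = z.1 + ((2 * π * n : ℝ) : ℂ) := by
      push_cast
      ring
    rw [← ih, e1, e2, h2]
  | pred n ih =>
    have h1 : (z.1 + ((2 * π * (-n - 1) : ℝ) : ℂ), z.2) ∈ G.ini := s4c_add_mem_ini hz _
    have h2 := hB.per _ h1
    simp only at h2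
    have e1 : z.1 + 2 * (π : ℂ) * ((-(n : ℤ) - 1 : ℤ)) = z.1 + ((2 * π * (-n - 1) : ℝ) : ℂ) := by
      push_cast
      ring
    have e2 : z.1 + 2 * (π : ℂ) * ((-(n : ℤ) : ℤ)) = z.1 + ((2 * π * (-n - 1) : ℝ) : ℂ) + 2 * π := by
      push_cast
      ring
    rw [← ih, e1, e2, h2]

/-- evenness in `t`. -/
theorem IsPrimaryExt.neg (hB : G.IsBase F₀) {b : ℝ} {V : Set ℂ} {F : ℂ × ℂ → ℂ × ℂ}
    (hF : G.IsPrimaryExt F₀ b V F) :
    G.IsPrimaryExt F₀ b (Neg.neg ⁻¹' V) (fun w => F (shear (fun _ => 0) 0 (-1) w)) := by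
  have hs := G.s4c_s_pos
  have hsh : ∀ w : ℂ × ℂ, shear (fun _ => 0) 0 (-1) w = (w.1, -w.2) := fun w => by simp [shear]
  refine ⟨hF.isOpen.preimage continuous_neg, ?_, ?_, ?_⟩
  · intro t' ht'
    have := hF.sub ht'
    simpa using this
  · refine mero2On₂_iff.2 fun z hz => ?_
    refine Mero2At₂.comp_shear ?_ analyticAt_const (by norm_num)
    refine mero2On₂_iff.1 hF.mero _ ?_
    rw [hsh]
    exact ⟨hz.1, hz.2⟩
  · intro z hz
    have hz1 : |z.1.im| < G.s / 2 := hz.1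
    have hzi : z ∈ G.ini := by
      refine ⟨show |z.1.im| < 3 * G.s / 2 by linarith, ?_⟩
      have := hF.sub hz.2
      simpa using this
    show F (shear (fun _ => 0) 0 (-1) z) = F₀ z
    rw [hsh, hF.agrees (z.1, -z.2) ⟨hz.1, hz.2⟩, hB.even z hzi]

theorem ExtendsTo.neg (hB : G.IsBase F₀) {t : ℂ} {b : ℝ} (h : G.ExtendsTo F₀ t b) :
    G.ExtendsTo F₀ (-t) b := by
  obtain ⟨V, F, ht, hF⟩ := h
  exact ⟨Neg.neg ⁻¹' V, _, by simpa using ht, hF.neg hB⟩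

theorem s4c_width_neg (hB : G.IsBase F₀) (t : ℂ) : G.width F₀ (-t) = G.width F₀ t := by
  have key : ∀ t b, G.ExtendsTo F₀ (-t) b ↔ G.ExtendsTo F₀ t b := fun t b =>
    ⟨fun h => by simpa using h.neg hB, fun h => h.neg hB⟩
  unfold Glance.width
  simp only [key]

/-- translation by multiples of the period. -/
theorem IsPrimaryExt.shift (hB : G.IsBase F₀) {b : ℝ} {V : Set ℂ} {F : ℂ × ℂ → ℂ × ℂ}
    (h : G.IsPrimaryExt F₀ b V F) (k : ℤ) :
    G.IsPrimaryExt F₀ b V (fun w => F (w.1 + 2 * π * k, w.2)) := by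
  have hs := G.s4c_s_pos
  have hsh : ∀ w : ℂ × ℂ, shear (fun _ => 2 * π * k) 0 1 w = (w.1 + 2 * π * k, w.2) := fun w => by
    simp [shear]
  have him : ∀ y : ℂ, (y + 2 * π * k).im = y.im := fun y => by
    have : (2 * (π : ℂ) * k) = ((2 * π * k : ℝ) : ℂ) := by push_cast; ring
    rw [this]
    simp
  refine ⟨h.isOpen, h.sub, ?_, ?_⟩
  · refine mero2On₂_iff.2 fun z hz => ?_
    have h1 : Mero2At₂ (fun w => F (shear (fun _ => 2 * π * k) 0 1 w)) z := by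
      refine Mero2At₂.comp_shear ?_ analyticAt_const one_ne_zero
      refine mero2On₂_iff.1 h.mero _ ?_
      rw [hsh]
      exact ⟨⟨by rw [him]; exact hz.1.1, by rw [him]; exact hz.1.2⟩, hz.2⟩
    simpa only [hsh] using h1
  · intro z hz
    have hz1 : |z.1.im| < G.s / 2 := hz.1
    have hzi : z ∈ G.ini := ⟨show |z.1.im| < 3 * G.s / 2 by linarith, h.sub hz.2⟩
    show F (z.1 + 2 * π * k, z.2) = F₀ z
    rw [h.agrees (z.1 + 2 * π * k, z.2)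
      ⟨show |(z.1 + 2 * π * k).im| < G.s / 2 by rw [him]; exact hz1, hz.2⟩, hB.per_int hzi]

end Glance

end Claimed.Agent.R269
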