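/-
Row 269, P1 Section 4, unit 4C, file WidthMax: the maximal primary extension `G.maxExt F₀` on the upper tube `G.utube F₀`,
regions between graphs, and the basic tool `s4c_tube_of_mero`.   Statements and proofs: helper19.   SORRY-FREE.

  `isOpen_subgr`, `isPreconnected_subgr`   regions `{t ∈ S, a t < Im y < b t}` (`a < b` on `S` for connectedness)
  `maxExt_eq_mnf`, `maxExt_eqAt`, `maxExt_eq_base`, `maxExt_mero`, `mnf₂_maxExt`, `maxExt_add_two_pi`, `maxExt_neg`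
  `isOpen_utube`, `box_subset_utube`, `subgr_subset_utube`, `exists_ext_of_mem_utube`
  `s4c_tube_of_mero`    `Q` meromorphic below a continuous graph `β > 0` with the germ of `F₀` at `(0,t)`  ⟹  `β ≤ h_F`, `Q ~ maxExt`.
-/
import Claimed.Agent.R269.S4.WidthBasic

set_option autoImplicit false

open Complex ComplexConjugate Filter Topology Set
open scoped ENNReal Real

namespace Claimed.Agent.R269

section Subgr

theorem mem_subgr {S : Set ℂ} {a b : ℂ → ℝ} {z : ℂ × ℂ} :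
    z ∈ subgr S a b ↔ z.2 ∈ S ∧ a z.2 < z.1.im ∧ z.1.im < b z.2 := Iff.rfl

theorem isOpen_subgr {S : Set ℂ} (hS : IsOpen S) {a b : ℂ → ℝ} (ha : ContinuousOn a S)
    (hb : ContinuousOn b S) : IsOpen (subgr S a b) := by
  have hU : IsOpen (Prod.snd ⁻¹' S : Set (ℂ × ℂ)) := hS.preimage continuous_snd
  have hmaps : MapsTo (Prod.snd : ℂ × ℂ → ℂ) (Prod.snd ⁻¹' S) S := fun _ h => h
  have hi : ContinuousOn (fun z : ℂ × ℂ => z.1.im) (Prod.snd ⁻¹' S) :=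
    (Complex.continuous_im.comp continuous_fst).continuousOn
  have h1 : ContinuousOn (fun z : ℂ × ℂ => z.1.im - a z.2) (Prod.snd ⁻¹' S) :=
    hi.sub (ha.comp continuous_snd.continuousOn hmaps)
  have h2 : ContinuousOn (fun z : ℂ × ℂ => b z.2 - z.1.im) (Prod.snd ⁻¹' S) :=
    (hb.comp continuous_snd.continuousOn hmaps).sub hi
  have h3 := (h1.isOpen_inter_preimage hU isOpen_Ioi (t := Ioi (0 : ℝ))).inter
    (h2.isOpen_inter_preimage hU isOpen_Ioi (t := Ioi (0 : ℝ)))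
  convert h3 using 1
  ext z
  simp only [subgr, mem_ofPred_eq, mem_inter_iff, mem_preimage, mem_Ioi, sub_pos]
  tauto

theorem isPreconnected_subgr {S : Set ℂ} (hS : IsPreconnected S) {a b : ℂ → ℝ}
    (ha : ContinuousOn a S) (hb : ContinuousOn b S) (hab : ∀ t ∈ S, a t < b t) :
    IsPreconnected (subgr S a b) := by
  have hP : IsPreconnected (S ×ˢ ((univ : Set ℝ) ×ˢ Ioo (0 : ℝ) 1)) :=
    hS.prod (isPreconnected_univ.prod isPreconnected_Ioo)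
  set φ : ℂ × ℝ × ℝ → ℂ × ℂ := fun p =>
    ((p.2.1 : ℂ) + ((a p.1 + p.2.2 * (b p.1 - a p.1) : ℝ) : ℂ) * I, p.1) with hφ
  have hmaps : MapsTo (Prod.fst : ℂ × ℝ × ℝ → ℂ) (S ×ˢ ((univ : Set ℝ) ×ˢ Ioo (0 : ℝ) 1)) S :=
    fun _ h => h.1
  have ha' : ContinuousOn (fun p : ℂ × ℝ × ℝ => a p.1) (S ×ˢ ((univ : Set ℝ) ×ˢ Ioo (0 : ℝ) 1)) :=
    ha.comp continuous_fst.continuousOn hmaps
  have hb' : ContinuousOn (fun p : ℂ × ℝ × ℝ => b p.1) (S ×ˢ ((univ : Set ℝ) ×ˢ Ioo (0 : ℝ) 1)) :=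
    hb.comp continuous_fst.continuousOn hmaps
  have hτ : ContinuousOn (fun p : ℂ × ℝ × ℝ => p.2.2) (S ×ˢ ((univ : Set ℝ) ×ˢ Ioo (0 : ℝ) 1)) :=
    (continuous_snd.comp continuous_snd).continuousOn
  have hx : ContinuousOn (fun p : ℂ × ℝ × ℝ => ((p.2.1 : ℝ) : ℂ))
      (S ×ˢ ((univ : Set ℝ) ×ˢ Ioo (0 : ℝ) 1)) :=
    (Complex.continuous_ofReal.comp (continuous_fst.comp continuous_snd)).continuousOn
  have hr : ContinuousOn (fun p : ℂ × ℝ × ℝ => a p.1 + p.2.2 * (b p.1 - a p.1))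
      (S ×ˢ ((univ : Set ℝ) ×ˢ Ioo (0 : ℝ) 1)) := ha'.add (hτ.mul (hb'.sub ha'))
  have hφc : ContinuousOn φ (S ×ˢ ((univ : Set ℝ) ×ˢ Ioo (0 : ℝ) 1)) := by
    refine ContinuousOn.prodMk ?_ continuous_fst.continuousOn
    exact hx.add ((Complex.continuous_ofReal.comp_continuousOn hr).mul continuousOn_const)
  have himg : φ '' (S ×ˢ ((univ : Set ℝ) ×ˢ Ioo (0 : ℝ) 1)) = subgr S a b := by
    ext z
    constructor
    · rintro ⟨p, ⟨hp1, -, hp2, hp3⟩, rfl⟩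
      have hd := hab p.1 hp1
      refine ⟨hp1, ?_, ?_⟩
      · simp only [hφ, Complex.add_im, Complex.ofReal_im, Complex.mul_im, Complex.ofReal_re,
          Complex.I_im, Complex.I_re, mul_one, mul_zero, add_zero, zero_add]
        nlinarith
      · simp only [hφ, Complex.add_im, Complex.ofReal_im, Complex.mul_im, Complex.ofReal_re,
          Complex.I_im, Complex.I_re, mul_one, mul_zero, add_zero, zero_add]
        nlinarith
    · rintro ⟨h1, h2, h3⟩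
      have hd := hab z.2 h1
      have hd' : 0 < b z.2 - a z.2 := by linarith
      refine ⟨(z.2, z.1.re, (z.1.im - a z.2) / (b z.2 - a z.2)), ⟨h1, mem_univ _, ?_, ?_⟩, ?_⟩
      · exact div_pos (by linarith) hd'
      · rw [div_lt_one hd']
        linarith
      · simp only [hφ]
        have e1 : a z.2 + (z.1.im - a z.2) / (b z.2 - a z.2) * (b z.2 - a z.2) = z.1.im := by
          field_simp
          ring
        rw [e1, Complex.re_add_im]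
  rw [← himg]
  exact hP.image φ hφc

theorem subgr_const (S : Set ℂ) (a b : ℝ) : subgr S (fun _ => a) (fun _ => b) = hband a b ×ˢ S := by
  ext z
  simp only [mem_subgr, mem_prod, hband, mem_ofPred_eq]
  tauto

end Subgr

namespace Glance

variable {G : Glance} {F₀ : ℂ × ℂ → ℂ × ℂ}

section Max

theorem maxExt_of_lt {z : ℂ × ℂ} (hz : z.1.im < G.s / 2) : G.maxExt F₀ z = F₀ z := by
  unfold maxExt
  rw [if_pos hz]

theorem IsBase.mero2At₂ (hB : G.IsBase F₀) {z : ℂ × ℂ} (hz : z ∈ G.ini) : Mero2At₂ F₀ z :=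
  ⟨(hB.an₁ z hz).mero2At, (hB.an₂ z hz).mero2At⟩

/-- on the domain of a primary extension `F`, `maxExt` is the normal form of `F`. -/
theorem maxExt_eq_mnf (hB : G.IsBase F₀) {b : ℝ} {V : Set ℂ} {F : ℂ × ℂ → ℂ × ℂ}
    (h : G.IsPrimaryExt F₀ b V F) {z : ℂ × ℂ} (hz : z ∈ hband (-(G.s / 2)) b ×ˢ V) :
    G.maxExt F₀ z = mnf₂ F z := by
  have hs := G.s4c_s_pos
  unfold maxExt
  split_ifs with h1 h2
  · have hzb : z ∈ hstrip (G.s / 2) ×ˢ V := ⟨abs_lt.2 ⟨hz.1.1, h1⟩, hz.2⟩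
    have hzi : z ∈ G.ini := by
      refine ⟨?_, h.sub hz.2⟩
      show |z.1.im| < 3 * G.s / 2
      rw [abs_lt]
      exact ⟨by linarith [hz.1.1], by linarith⟩
    have hev : F₀ =ᶠ[𝓝 z] F := by
      filter_upwards [((s4c_isOpen_hstrip _).prod h.isOpen).mem_nhds hzb] with w hw
      exact (h.agrees w hw).symm
    exact (mnf₂_eq_of_analyticAt (hB.an₁ z hzi) (hB.an₂ z hzi)
      ((hB.mero2At₂ hzi).eqAt_of_eventuallyEq hev).symm).symm
  · obtain ⟨b', V', hF', hz'⟩ := h2.choose_spec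
    exact mnf₂_congr (s4c_uniq hF' h hz' hz)
  · exact absurd ⟨F, b, V, h, hz⟩ h2

theorem maxExt_eqAt (hB : G.IsBase F₀) {b : ℝ} {V : Set ℂ} {F : ℂ × ℂ → ℂ × ℂ}
    (h : G.IsPrimaryExt F₀ b V F) {z : ℂ × ℂ} (hz : z ∈ hband (-(G.s / 2)) b ×ˢ V) :
    Mero2EqAt₂ (G.maxExt F₀) F z := by
  have hF : Mero2At₂ F z := ⟨h.mero.1 z hz, h.mero.2 z hz⟩
  have hopen : IsOpen (hband (-(G.s / 2)) b ×ˢ V) := (isOpen_hband _ _).prod h.isOpen
  have h1 : mnf₂ F =ᶠ[𝓝 z] G.maxExt F₀ := by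
    filter_upwards [hopen.mem_nhds hz] with w hw
    exact (maxExt_eq_mnf hB h hw).symm
  exact (hF.mnf₂_eqAt.left.eqAt_of_eventuallyEq h1).symm.trans hF.mnf₂_eqAt

/-- `maxExt = F₀` on the whole initial domain. -/
theorem maxExt_eq_base (hB : G.IsBase F₀) {z : ℂ × ℂ} (hz : z ∈ G.ini) : G.maxExt F₀ z = F₀ z := by
  have hs := G.s4c_s_pos
  by_cases h1 : z.1.im < G.s / 2
  · exact maxExt_of_lt h1
  · have hz1 : |z.1.im| < 3 * G.s / 2 := hz.1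
    rw [abs_lt] at hz1
    have hz' : z ∈ hband (-(G.s / 2)) (3 * G.s / 2) ×ˢ Metric.ball (0 : ℂ) G.r₁ :=
      ⟨⟨by linarith [not_lt.1 h1], hz1.2⟩, hz.2⟩
    rw [maxExt_eq_mnf hB hB.isPrimaryExt hz']
    exact mnf₂_eq_of_analyticAt (hB.an₁ z hz) (hB.an₂ z hz) (hB.mero2At₂ hz).refl

theorem maxExt_eventuallyEq_base (hB : G.IsBase F₀) {z : ℂ × ℂ} (hz : z ∈ G.ini) :
    G.maxExt F₀ =ᶠ[𝓝 z] F₀ := by
  filter_upwards [G.s4c_isOpen_ini.mem_nhds hz] with w hw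
  exact maxExt_eq_base hB hw

theorem maxExt_eqAt_base (hB : G.IsBase F₀) {z : ℂ × ℂ} (hz : z ∈ G.ini) :
    Mero2EqAt₂ (G.maxExt F₀) F₀ z :=
  ((hB.mero2At₂ hz).eqAt_of_eventuallyEq (maxExt_eventuallyEq_base hB hz).symm).symm

theorem mem_utube {z : ℂ × ℂ} :
    z ∈ G.utube F₀ ↔ -(3 * G.s / 2) < z.1.im ∧ ENNReal.ofReal z.1.im < G.width F₀ z.2 := Iff.rfl

theorem isOpen_utube (G : Glance) (F₀ : ℂ × ℂ → ℂ × ℂ) : IsOpen (G.utube F₀) := by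
  have hs := G.s4c_s_pos
  rw [isOpen_iff_mem_nhds]
  intro z hz
  obtain ⟨b, hb, hzb, V, F, hzV, hF⟩ := s4c_exists_ext_of_lt hz.2
  have hzb' : z.1.im < b := (ENNReal.ofReal_lt_ofReal_iff'.1 hzb).1
  have hN : IsOpen (hband (-(3 * G.s / 2)) b ×ˢ V) := (isOpen_hband _ _).prod hF.isOpen
  refine Filter.mem_of_superset (hN.mem_nhds ⟨⟨hz.1, hzb'⟩, hzV⟩) ?_
  rintro w ⟨⟨hw1, hw2⟩, hw3⟩
  refine ⟨hw1, lt_of_lt_of_le ?_ (s4c_le_width_of_ext hb ⟨V, F, hw3, hF⟩)⟩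
  exact (ENNReal.ofReal_lt_ofReal_iff (by linarith)).2 hw2

theorem exists_ext_of_mem_utube {z : ℂ × ℂ} (hz : z ∈ G.utube F₀) :
    ∃ (b ε : ℝ) (F : ℂ × ℂ → ℂ × ℂ), G.s / 2 < b ∧ z.1.im < b ∧ 0 < ε ∧
      G.IsPrimaryExt F₀ b (Metric.ball z.2 ε) F := by
  obtain ⟨b, hb, hzb, hext⟩ := s4c_exists_ext_of_lt hz.2
  obtain ⟨ε, F, hε, hF⟩ := hext.exists_ball
  exact ⟨b, ε, F, hb, (ENNReal.ofReal_lt_ofReal_iff'.1 hzb).1, hε, hF⟩

/-- a point of the tube below `s/2` lies in the initial domain. -/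
theorem mem_ini_of_mem_utube {z : ℂ × ℂ} (hz : z ∈ G.utube F₀) (h1 : z.1.im < 3 * G.s / 2) :
    z ∈ G.ini :=
  ⟨abs_lt.2 ⟨hz.1, h1⟩, s4c_mem_ball_of_lt hz.2⟩

/-- `maxExt` is meromorphic on the upper tube. -/
theorem maxExt_mero (hB : G.IsBase F₀) : Mero2On₂ (G.maxExt F₀) (G.utube F₀) := by
  have hs := G.s4c_s_pos
  refine mero2On₂_iff.2 fun z hz => ?_
  by_cases h1 : z.1.im < G.s / 2
  · exact (maxExt_eqAt_base hB (mem_ini_of_mem_utube hz (by linarith))).left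
  · obtain ⟨b, ε, F, -, hzb, hε, hF⟩ := exists_ext_of_mem_utube hz
    exact (maxExt_eqAt hB hF ⟨⟨by linarith [not_lt.1 h1], hzb⟩, Metric.mem_ball_self hε⟩).left

theorem mnf₂_maxExt (hB : G.IsBase F₀) {z : ℂ × ℂ} (hz : z ∈ G.utube F₀) :
    mnf₂ (G.maxExt F₀) z = G.maxExt F₀ z := by
  have hs := G.s4c_s_pos
  by_cases h1 : z.1.im < G.s / 2
  · have hzi := mem_ini_of_mem_utube hz (by linarith)
    rw [maxExt_eq_base hB hzi]
    exact mnf₂_eq_of_analyticAt (hB.an₁ z hzi) (hB.an₂ z hzi) (maxExt_eqAt_base hB hzi)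
  · obtain ⟨b, ε, F, -, hzb, hε, hF⟩ := exists_ext_of_mem_utube hz
    have hz' : z ∈ hband (-(G.s / 2)) b ×ˢ Metric.ball z.2 ε :=
      ⟨⟨by linarith [not_lt.1 h1], hzb⟩, Metric.mem_ball_self hε⟩
    rw [maxExt_eq_mnf hB hF hz']
    exact mnf₂_congr (maxExt_eqAt hB hF hz')

/-- boxes below the width. -/
theorem box_subset_utube {b : ℝ} {V : Set ℂ} (h : ∀ t ∈ V, ENNReal.ofReal b ≤ G.width F₀ t)
    (hpos : ∀ t ∈ V, 0 < G.width F₀ t) :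
    hband (-(3 * G.s / 2)) b ×ˢ V ⊆ G.utube F₀ := by
  rintro w ⟨⟨hw1, hw2⟩, hw3⟩
  refine ⟨hw1, ?_⟩
  rcases le_or_gt w.1.im 0 with h0 | h0
  · rw [ENNReal.ofReal_of_nonpos h0]
    exact hpos _ hw3
  · exact lt_of_lt_of_le ((ENNReal.ofReal_lt_ofReal_iff (by linarith)).2 hw2) (h _ hw3)

theorem s4c_im_add_two_pi (y : ℂ) (k : ℤ) : (y + 2 * π * k).im = y.im := by
  have : (2 * (π : ℂ) * k) = ((2 * π * k : ℝ) : ℂ) := by push_cast; ring
  rw [this]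
  simp

theorem utube_add_two_pi {z : ℂ × ℂ} (k : ℤ) :
    (z.1 + 2 * π * k, z.2) ∈ G.utube F₀ ↔ z ∈ G.utube F₀ := by
  simp only [mem_utube, s4c_im_add_two_pi]

theorem maxExt_add_two_pi (hB : G.IsBase F₀) {z : ℂ × ℂ} (hz : z ∈ G.utube F₀) (k : ℤ) :
    G.maxExt F₀ (z.1 + 2 * π * k, z.2) = G.maxExt F₀ z := by
  have hs := G.s4c_s_pos
  by_cases h1 : z.1.im < G.s / 2
  · rw [maxExt_of_lt h1, maxExt_of_lt (by rw [s4c_im_add_two_pi]; exact h1),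
      hB.per_int (mem_ini_of_mem_utube hz (by linarith))]
  · obtain ⟨b, ε, F, -, hzb, hε, hF⟩ := exists_ext_of_mem_utube hz
    have hz' : z ∈ hband (-(G.s / 2)) b ×ˢ Metric.ball z.2 ε :=
      ⟨⟨by linarith [not_lt.1 h1], hzb⟩, Metric.mem_ball_self hε⟩
    have hz'' : (z.1 + 2 * π * k, z.2) ∈ hband (-(G.s / 2)) b ×ˢ Metric.ball z.2 ε :=
      ⟨⟨by rw [s4c_im_add_two_pi]; exact hz'.1.1, by rw [s4c_im_add_two_pi]; exact hz'.1.2⟩, hz'.2⟩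
    have hsh : ∀ w : ℂ × ℂ, shear (fun _ => 2 * π * k) 0 1 w = (w.1 + 2 * π * k, w.2) := fun w => by
      simp [shear]
    rw [maxExt_eq_mnf hB hF hz'', maxExt_eq_mnf hB (hF.shift hB k) hz']
    have h2 := mnf₂_comp_shear (F := F) (a := fun _ => 2 * π * k) (t₀ := 0) (r := 1) (z := z)
      analyticAt_const one_ne_zero
    simp only [hsh] at h2
    exact h2.symm

theorem utube_neg (hB : G.IsBase F₀) {z : ℂ × ℂ} : (z.1, -z.2) ∈ G.utube F₀ ↔ z ∈ G.utube F₀ := by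
  simp only [mem_utube, s4c_width_neg hB]

theorem maxExt_neg (hB : G.IsBase F₀) {z : ℂ × ℂ} (hz : z ∈ G.utube F₀) :
    G.maxExt F₀ (z.1, -z.2) = G.maxExt F₀ z := by
  have hs := G.s4c_s_pos
  by_cases h1 : z.1.im < G.s / 2
  · rw [maxExt_of_lt h1, maxExt_of_lt (z := (z.1, -z.2)) h1,
      hB.even z (mem_ini_of_mem_utube hz (by linarith))]
  · obtain ⟨b, ε, F, -, hzb, hε, hF⟩ := exists_ext_of_mem_utube hz
    have hz' : z ∈ hband (-(G.s / 2)) b ×ˢ Metric.ball z.2 ε :=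
      ⟨⟨by linarith [not_lt.1 h1], hzb⟩, Metric.mem_ball_self hε⟩
    have hz'' : (z.1, -z.2) ∈ hband (-(G.s / 2)) b ×ˢ (Neg.neg ⁻¹' Metric.ball z.2 ε) :=
      ⟨hz'.1, by simpa using hε⟩
    have hsh : ∀ w : ℂ × ℂ, shear (fun _ => 0) 0 (-1) w = (w.1, -w.2) := fun w => by simp [shear]
    rw [maxExt_eq_mnf hB hF hz', maxExt_eq_mnf hB (hF.neg hB) hz'']
    have h2 := mnf₂_comp_shear (F := F) (a := fun _ => 0) (t₀ := 0) (r := -1) (z := (z.1, -z.2))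
      analyticAt_const (by norm_num)
    rw [h2, hsh]
    simp

theorem ini_subset_utube (hB : G.IsBase F₀) : G.ini ⊆ G.utube F₀ := by
  rintro z ⟨h1, h2⟩
  have h1' : |z.1.im| < 3 * G.s / 2 := h1
  rw [abs_lt] at h1'
  refine ⟨h1'.1, lt_of_lt_of_le ?_ (hB.le_width h2)⟩
  exact (ENNReal.ofReal_lt_ofReal_iff (by have := G.s4c_s_pos; linarith)).2 h1'.2

end Max

section Tube

/-- regions below the width lie in the tube. -/
theorem subgr_subset_utube (hB : G.IsBase F₀) {S : Set ℂ} (hSr : S ⊆ Metric.ball (0 : ℂ) G.r₁)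
    {a β : ℂ → ℝ} (ha : ∀ t ∈ S, -(3 * G.s / 2) ≤ a t)
    (hβ : ∀ t ∈ S, ENNReal.ofReal (β t) ≤ G.width F₀ t) : subgr S a β ⊆ G.utube F₀ := by
  rintro z ⟨h1, h2, h3⟩
  refine ⟨lt_of_le_of_lt (ha _ h1) h2, ?_⟩
  rcases le_or_gt z.1.im 0 with h0 | h0
  · rw [ENNReal.ofReal_of_nonpos h0]
    exact hB.width_pos (hSr h1)
  · exact lt_of_lt_of_le ((ENNReal.ofReal_lt_ofReal_iff (by linarith)).2 h3) (hβ _ h1)

/-- a ball about `t` on which `b < β`. -/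
theorem s4c_exists_ball_lt {S : Set ℂ} (hS : IsOpen S) {β : ℂ → ℝ} (hβ : ContinuousOn β S) {t : ℂ}
    (ht : t ∈ S) {b : ℝ} (hb : b < β t) :
    ∃ ε : ℝ, 0 < ε ∧ Metric.ball t ε ⊆ S ∧ ∀ t' ∈ Metric.ball t ε, b < β t' := by
  have h1 : IsOpen (S ∩ β ⁻¹' Ioi b) := hβ.isOpen_inter_preimage hS isOpen_Ioi
  obtain ⟨ε, hε, hsub⟩ := Metric.isOpen_iff.1 h1 t ⟨ht, hb⟩
  exact ⟨ε, hε, fun t' ht' => (hsub ht').1, fun t' ht' => (hsub ht').2⟩

theorem s4c_tube_of_mero (hB : G.IsBase F₀) {S : Set ℂ} (hS : IsOpen S)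
    (hSr : S ⊆ Metric.ball (0 : ℂ) G.r₁) {β : ℂ → ℝ} (hβ : ContinuousOn β S)
    (hβ0 : ∀ t ∈ S, 0 < β t) {Q : ℂ × ℂ → ℂ × ℂ}
    (hQ : Mero2On₂ Q (subgr S (fun _ => -(G.s / 2)) β))
    (hQ0 : ∀ t ∈ S, Mero2EqAt₂ Q F₀ (0, t)) :
    (∀ t ∈ S, ENNReal.ofReal (β t) ≤ G.width F₀ t) ∧
      ∀ z ∈ subgr S (fun _ => -(G.s / 2)) β, Mero2EqAt₂ Q (G.maxExt F₀) z := by
  have hs := G.s4c_s_pos
  have aux1 : ∀ t ∈ S, ∀ b : ℝ, G.s / 2 < b → b < β t → ENNReal.ofReal b ≤ G.width F₀ t := by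
    intro t ht b hb hbβ
    obtain ⟨ε, hε, hεS, hεβ⟩ := s4c_exists_ball_lt hS hβ ht hbβ
    have hsub : hband (-(G.s / 2)) b ×ˢ Metric.ball t ε ⊆ subgr S (fun _ => -(G.s / 2)) β :=
      fun w hw => ⟨hεS hw.2, hw.1.1, hw.1.2.trans (hεβ _ hw.2)⟩
    have hext := s4c_ext_of_mero hB hb.le Metric.isOpen_ball (hεS.trans hSr) (hQ.mono hsub)
      fun t' ht' => hQ0 t' (hεS ht')
    exact s4c_le_width_of_ext hb ⟨_, _, Metric.mem_ball_self hε, hext⟩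
  have part1 : ∀ t ∈ S, ENNReal.ofReal (β t) ≤ G.width F₀ t := by
    intro t ht
    by_cases h1 : β t ≤ 3 * G.s / 2
    · exact le_trans (ENNReal.ofReal_le_ofReal h1) (hB.le_width (hSr ht))
    · have h1' : 3 * G.s / 2 < β t := not_le.1 h1
      refine le_of_forall_lt_imp_le_of_dense fun c hc => ?_
      obtain ⟨r, -, hcr, hrβ⟩ := ENNReal.lt_iff_exists_real_btwn.1 hc
      have hrβ' : r < β t := (ENNReal.ofReal_lt_ofReal_iff'.1 hrβ).1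
      have h2 := aux1 t ht (max r G.s) (lt_of_lt_of_le (by linarith) (le_max_right _ _))
        (max_lt hrβ' (by linarith))
      exact le_trans (le_trans hcr.le (ENNReal.ofReal_le_ofReal (le_max_left _ _))) h2
  refine ⟨part1, ?_⟩
  intro z hz
  obtain ⟨hzS, hz1, hz2⟩ := hz
  obtain ⟨b₁, hb1, hb2⟩ := exists_between (max_lt hz2 (hβ0 _ hzS))
  obtain ⟨ε, hε, hεS, hεβ⟩ := s4c_exists_ball_lt hS hβ hzS hb2
  have hsub : hband (-(G.s / 2)) b₁ ×ˢ Metric.ball z.2 ε ⊆ subgr S (fun _ => -(G.s / 2)) β :=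
    fun w hw => ⟨hεS hw.2, hw.1.1, hw.1.2.trans (hεβ _ hw.2)⟩
  have hsubU : subgr S (fun _ => -(G.s / 2)) β ⊆ G.utube F₀ :=
    subgr_subset_utube hB hSr (fun _ _ => by linarith) part1
  have hWc : IsPreconnected (hband (-(G.s / 2)) b₁ ×ˢ Metric.ball z.2 ε) :=
    ((s4c_convex_hband _ _).prod (convex_ball _ _)).isPreconnected
  have h0W : ((0, z.2) : ℂ × ℂ) ∈ hband (-(G.s / 2)) b₁ ×ˢ Metric.ball z.2 ε := by
    refine ⟨⟨?_, ?_⟩, Metric.mem_ball_self hε⟩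
    · show -(G.s / 2) < (0 : ℂ).im
      simp only [Complex.zero_im]
      linarith
    · show (0 : ℂ).im < b₁
      simp only [Complex.zero_im]
      exact lt_of_le_of_lt (le_max_right _ _) hb1
  have h0i : ((0, z.2) : ℂ × ℂ) ∈ G.ini := by
    refine ⟨?_, hSr hzS⟩
    show |(0 : ℂ).im| < 3 * G.s / 2
    simp only [Complex.zero_im, abs_zero]
    linarith
  exact Mero2On₂.eqAt_of_isPreconnected hWc (hQ.mono hsub)
    ((maxExt_mero hB).mono (hsub.trans hsubU)) h0W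
    ((hQ0 _ hzS).trans (maxExt_eqAt_base hB h0i).symm) z
    ⟨⟨hz1, lt_of_le_of_lt (le_max_left _ _) hb1⟩, Metric.mem_ball_self hε⟩

end Tube

end Glance

end Claimed.Agent.R269
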