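/-
Row 269, P1 Section 4, unit 4C, file SuperB: PROPOSITION 4.7, the analytic-disc part ("filling").   Statements: helper19.
LEAF PACKAGES: LF-S4-4C-step (theorem `s4c_step`), LF-S4-4C-fill (the rest).
Paper: 04-continuation.tex l.906-967.  THE ROUTE BELOW IS SIMPLER THAN THE PAPER'S: no base points `x₀`, no small `w`-discs, no compactness modulo `2π`, no gluing of
many extensions: LEVI (`levi_mero₂`, R269/Lib/Levi.lean) is applied with the parameter domain `D = ` a horizontal STRIP, and all statements are inequalities for the width,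
because the continued function is always `maxExt F₀`.

`s4c_step`.  DATA: a disc `ball c R ⊆ ball 0 r₁`, `0 ≤ r₀ < R`, `0 < d ≤ s/2`, entire functions `g₁, g₂` with `0 ≤ Im g₁ ≤ Im g₂ < Im g₁ + d/2` on the disc,
   (ann)  `ofReal (Im g₂ t + d) ≤ h_F(t)` on the annulus `r₀ < |t - c| < R`,      (old)  `ofReal (Im g₁ t + d) ≤ h_F(t)` on the disc.
 CLAIM: `ofReal (Im g₂ t + d) ≤ h_F(t)` on the disc.
 PROOF.  `Fm := maxExt F₀`, `Φ := shear g₂ 0 1`, i.e. `Φ (w,t) = (w + g₂ t, t)`;  `D := hstrip d`, `D₀ := hband (-d) (-(d/2))`.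
  (1) `Φ (D ×ˢ annulus c r₀ R) ⊆ utube`: `-3s/2 < -d < Im w + Im g₂ t < Im g₂ t + d ≤ h_F(t)` (`subgr_subset_utube` or directly).
  (2) `Φ (D₀ ×ˢ ball c R) ⊆ utube`: `-d < Im w + Im g₂ t < -(d/2) + Im g₁ t + d/2 < Im g₁ t + d ≤ h_F(t)`.
  (3) `levi_mero₂` with `F = Ft = Fm ∘ Φ` (`Mero2At₂.comp_shear`, `maxExt_mero`; the compatibility `heq` is `Mero2At₂.refl`) gives `Fh` on `D ×ˢ ball c R`, `Fh ~ Fm ∘ Φ` on `D ×ˢ annulus`.
  (4) `Ψ := shear (fun t => - g₂ t) 0 1` is the inverse of `Φ`; `P := Fh ∘ Ψ` is meromorphic on `Ω' := subgr (ball c R) (Im g₂ - d) (Im g₂ + d)` and `P ~ Fm` at the points of `Ω'` over the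
      annulus (`Mero2EqAt₂.comp_shear`; `Fm ∘ Φ ∘ Ψ = Fm` as functions).
  (5) `R₁ := subgr (ball c R) (-(s/2)) (Im g₁ + d) ⊆ utube`.  `O := R₁ ∩ Ω' = subgr (ball c R) (max (-(s/2)) (Im g₂ - d)) (Im g₁ + d)` is preconnected
      (`isPreconnected_subgr`) and contains a point over the annulus; identity theorem: `P ~ Fm` on `O`.
  (6) `Mero2.exists_glue₂₂` glues `Fm` on `R₁` and `P` on `Ω'` to `Q` on `R₁ ∪ Ω' ⊇ subgr (ball c R) (-(s/2)) (Im g₂ + d)`; `Q ~ Fm ~ F₀` at `(0,t) ∈ R₁` (`maxExt_eqAt_base`).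
  (7) `s4c_tube_of_mero` with `S = ball c R`, `β = Im g₂ + d`.

`s4c_fill`: choose the annulus (`s4c_annulus`), `N` with `M/N < d/2` (`M` a bound of `Im g` on `ball c R`), and apply `s4c_step` to `g₁ = (k/N) g`, `g₂ = ((k+1)/N) g`, `k < N`
(`s4c_fill_ind`).  Start: `ofReal d ≤ ofReal (3s/2) ≤ h_F`.
-/
import Claimed.Agent.R269.S4.WidthMax

set_option autoImplicit false

open Complex ComplexConjugate Filter Topology Set
open scoped ENNReal Real

namespace Claimed.Agent.R269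

theorem s4c_isOpen_lt_lsc {u : ℂ → ℝ≥0∞} (hu : LowerSemicontinuous u) {f : ℂ → ℝ}
    (hf : Continuous f) : IsOpen {t | ENNReal.ofReal (f t) < u t} := by
  rw [isOpen_iff_mem_nhds]
  intro t₀ ht₀
  obtain ⟨c, hc1, hc2⟩ := exists_between (show ENNReal.ofReal (f t₀) < u t₀ from ht₀)
  have h1 : ∀ᶠ t in 𝓝 t₀, ENNReal.ofReal (f t) < c :=
    (ENNReal.continuous_ofReal.comp hf).continuousAt.eventually (gt_mem_nhds hc1)
  have h2 : ∀ᶠ t in 𝓝 t₀, c < u t := hu t₀ c hc2
  filter_upwards [h1, h2] with t a b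
  exact a.trans b

/-- HOST-FREE.  `u` lower semicontinuous, `f` continuous, `ofReal (f t) < u t` on a circle: the same holds on an annulus about the circle.
(`{t | ofReal (f t) < u t}` is open: choose a constant between; the sphere is compact: `IsCompact.exists_thickening_subset_open`.) -/
theorem s4c_annulus {u : ℂ → ℝ≥0∞} (hu : LowerSemicontinuous u) {f : ℂ → ℝ} (hf : Continuous f)
    {c : ℂ} {r : ℝ} (hr : 0 < r) (h : ∀ t ∈ Metric.sphere c r, ENNReal.ofReal (f t) < u t) :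
    ∃ δ : ℝ, 0 < δ ∧ δ < r ∧ ∀ t ∈ annulus c (r - δ) (r + δ), ENNReal.ofReal (f t) < u t := by
  obtain ⟨δ, hδ, hsub⟩ := (isCompact_sphere c r).exists_thickening_subset_open
    (s4c_isOpen_lt_lsc hu hf) h
  refine ⟨min δ (r / 2), lt_min hδ (by linarith), lt_of_le_of_lt (min_le_right _ _) (by linarith), ?_⟩
  rintro t ⟨ht1, ht2⟩
  have hδ1 : min δ (r / 2) ≤ δ := min_le_left _ _
  have hδ2 : min δ (r / 2) ≤ r / 2 := min_le_right _ _
  have hn : 0 < ‖t - c‖ := by linarith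
  refine hsub ?_
  rw [Metric.mem_thickening_iff]
  refine ⟨c + ((r / ‖t - c‖ : ℝ) : ℂ) * (t - c), ?_, ?_⟩
  · rw [mem_sphere_iff_norm, add_sub_cancel_left, norm_mul, Complex.norm_real,
      Real.norm_of_nonneg (by positivity)]
    field_simp
  · rw [dist_eq_norm]
    have e1 : t - (c + ((r / ‖t - c‖ : ℝ) : ℂ) * (t - c))
        = (((1 - r / ‖t - c‖ : ℝ)) : ℂ) * (t - c) := by
      push_cast
      ring
    rw [e1, norm_mul, Complex.norm_real, Real.norm_eq_abs]
    have e2 : |1 - r / ‖t - c‖| * ‖t - c‖ = |‖t - c‖ - r| := by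
      have : 1 - r / ‖t - c‖ = (‖t - c‖ - r) / ‖t - c‖ := by
        field_simp
      rw [this, abs_div, abs_of_pos hn]
      field_simp
    rw [e2, abs_lt]
    constructor <;> linarith

/-- HOST-FREE.  An open condition which holds on a closed disc holds on a slightly larger open disc. -/
theorem s4c_fatten {U : Set ℂ} (hU : IsOpen U) {c : ℂ} {r : ℝ} (h : Metric.closedBall c r ⊆ U) :
    ∃ δ : ℝ, 0 < δ ∧ Metric.ball c (r + δ) ⊆ U := by
  rcases lt_or_ge r 0 with hr | hr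
  · refine ⟨-r, by linarith, ?_⟩
    rw [add_neg_cancel, Metric.ball_zero]
    exact empty_subset _
  · obtain ⟨δ, hδ, hsub⟩ := (isCompact_closedBall c r).exists_thickening_subset_open hU h
    refine ⟨δ, hδ, ?_⟩
    rw [thickening_closedBall hδ hr] at hsub
    rwa [add_comm]

namespace Glance

variable {G : Glance} {F₀ : ℂ × ℂ → ℂ × ℂ}

/-- membership in the tube from a real bound. -/
theorem mem_utube_of_lt (hB : G.IsBase F₀) {y t : ℂ} (ht : t ∈ Metric.ball (0 : ℂ) G.r₁) {β : ℝ}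
    (h1 : -(3 * G.s / 2) < y.im) (h2 : y.im < β) (h3 : ENNReal.ofReal β ≤ G.width F₀ t) :
    (y, t) ∈ G.utube F₀ := by
  refine ⟨h1, ?_⟩
  rcases le_or_gt y.im 0 with h0 | h0
  · show ENNReal.ofReal y.im < G.width F₀ t
    rw [ENNReal.ofReal_of_nonpos h0]
    exact hB.width_pos ht
  · exact lt_of_lt_of_le ((ENNReal.ofReal_lt_ofReal_iff (by linarith)).2 h2) h3

/-- **One step of the ascent** (plan in the header). -/
theorem s4c_step (hB : G.IsBase F₀) {c : ℂ} {r₀ R d : ℝ} (hr₀ : 0 ≤ r₀) (hR : r₀ < R)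
    (hball : Metric.ball c R ⊆ Metric.ball (0 : ℂ) G.r₁) (hd : 0 < d) (hds : d ≤ G.s / 2)
    {g₁ g₂ : ℂ → ℂ} (hg₁ : Differentiable ℂ g₁) (hg₂ : Differentiable ℂ g₂)
    (h0 : ∀ t ∈ Metric.ball c R, 0 ≤ (g₁ t).im)
    (h12 : ∀ t ∈ Metric.ball c R, (g₁ t).im ≤ (g₂ t).im)
    (h21 : ∀ t ∈ Metric.ball c R, (g₂ t).im < (g₁ t).im + d / 2)
    (hann : ∀ t ∈ annulus c r₀ R, ENNReal.ofReal ((g₂ t).im + d) ≤ G.width F₀ t)
    (hold : ∀ t ∈ Metric.ball c R, ENNReal.ofReal ((g₁ t).im + d) ≤ G.width F₀ t) :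
    ∀ t ∈ Metric.ball c R, ENNReal.ofReal ((g₂ t).im + d) ≤ G.width F₀ t := by
  have hs := G.s4c_s_pos
  have hΦ : ∀ w : ℂ × ℂ, shear g₂ 0 1 w = (w.1 + g₂ w.2, w.2) := fun w => by simp [shear]
  have hΨ : ∀ w : ℂ × ℂ, shear (fun t => -g₂ t) 0 1 w = (w.1 + -g₂ w.2, w.2) := fun w => by
    simp [shear]
  have hΦΨ : ∀ w : ℂ × ℂ, shear g₂ 0 1 (shear (fun t => -g₂ t) 0 1 w) = w := fun w => by
    rw [hΨ, hΦ]
    simp
  have hannb : ∀ t ∈ annulus c r₀ R, t ∈ Metric.ball c R := fun t ht => by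
    rw [mem_ball_iff_norm]
    exact ht.2
  have hc₁ : Continuous fun t => (g₁ t).im := Complex.continuous_im.comp hg₁.continuous
  have hc₂ : Continuous fun t => (g₂ t).im := Complex.continuous_im.comp hg₂.continuous
  -- (1), (2)
  have m1 : ∀ w ∈ hstrip d ×ˢ annulus c r₀ R, shear g₂ 0 1 w ∈ G.utube F₀ := by
    rintro w ⟨hw1, hw2⟩
    have hw1' : |w.1.im| < d := hw1
    rw [abs_lt] at hw1'
    have hb := hannb _ hw2
    rw [hΦ]
    refine mem_utube_of_lt hB (hball hb) (β := (g₂ w.2).im + d) ?_ ?_ (hann _ hw2)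
    · rw [Complex.add_im]
      linarith [h0 _ hb, h12 _ hb]
    · rw [Complex.add_im]
      linarith
  have m2 : ∀ w ∈ hband (-d) (-(d / 2)) ×ˢ Metric.ball c R, shear g₂ 0 1 w ∈ G.utube F₀ := by
    rintro w ⟨⟨hw1, hw1'⟩, hb⟩
    rw [hΦ]
    refine mem_utube_of_lt hB (hball hb) (β := (g₁ w.2).im + d) ?_ ?_ (hold _ hb)
    · rw [Complex.add_im]
      linarith [h0 _ hb, h12 _ hb]
    · rw [Complex.add_im]
      linarith [h21 _ hb]
  have hmero := mero2On₂_iff.1 (maxExt_mero hB)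
  -- (3)
  have hF : Mero2On₂ (fun w => G.maxExt F₀ (shear g₂ 0 1 w)) (hstrip d ×ˢ annulus c r₀ R) :=
    mero2On₂_iff.2 fun w hw =>
      Mero2At₂.comp_shear (hmero _ (m1 w hw)) (hg₂.analyticAt _) one_ne_zero
  have hFt : Mero2On₂ (fun w => G.maxExt F₀ (shear g₂ 0 1 w))
      (hband (-d) (-(d / 2)) ×ˢ Metric.ball c R) :=
    mero2On₂_iff.2 fun w hw =>
      Mero2At₂.comp_shear (hmero _ (m2 w hw)) (hg₂.analyticAt _) one_ne_zero
  have hD₀D : hband (-d) (-(d / 2)) ⊆ hstrip d := by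
    rintro y ⟨hy1, hy2⟩
    show |y.im| < d
    rw [abs_lt]
    exact ⟨hy1, by linarith⟩
  have hne : (hband (-d) (-(d / 2))).Nonempty := by
    refine ⟨((-(3 * d / 4) : ℝ) : ℂ) * I, ?_, ?_⟩
    · simp only [Complex.mul_im, Complex.ofReal_re, Complex.I_im, Complex.ofReal_im, Complex.I_re]
      linarith
    · simp only [Complex.mul_im, Complex.ofReal_re, Complex.I_im, Complex.ofReal_im, Complex.I_re]
      linarith
  obtain ⟨Fh, hFh, hFhA, -⟩ := levi_mero₂ (s4c_isOpen_hstrip d) (s4c_convex_hstrip d).isPreconnected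
    (isOpen_hband _ _) hD₀D hne hr₀ hR hF hFt
    (fun z hz => (mero2On₂_iff.1 hF z ⟨hD₀D hz.1, hz.2⟩).refl)
  -- (4)
  have hΩ'mem : ∀ z ∈ subgr (Metric.ball c R) (fun t => (g₂ t).im - d) (fun t => (g₂ t).im + d),
      (shear (fun t => -g₂ t) 0 1 z).1 ∈ hstrip d := by
    rintro z ⟨-, hz2, hz3⟩
    rw [hΨ]
    show |(z.1 + -g₂ z.2).im| < d
    rw [Complex.add_im, Complex.neg_im, abs_lt]
    constructor <;> linarith
  have hΨ2 : ∀ z : ℂ × ℂ, (shear (fun t => -g₂ t) 0 1 z).2 = z.2 := fun z => by rw [hΨ]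
  have hPmero : Mero2On₂ (fun w => Fh (shear (fun t => -g₂ t) 0 1 w))
      (subgr (Metric.ball c R) (fun t => (g₂ t).im - d) (fun t => (g₂ t).im + d)) :=
    mero2On₂_iff.2 fun z hz =>
      Mero2At₂.comp_shear (mero2On₂_iff.1 hFh _ ⟨hΩ'mem z hz, by rw [hΨ2]; exact hz.1⟩)
        (hg₂.neg.analyticAt _) one_ne_zero
  have hPann : ∀ z ∈ subgr (Metric.ball c R) (fun t => (g₂ t).im - d) (fun t => (g₂ t).im + d),
      z.2 ∈ annulus c r₀ R →
      Mero2EqAt₂ (fun w => Fh (shear (fun t => -g₂ t) 0 1 w)) (G.maxExt F₀) z := by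
    intro z hz hza
    have h1 := Mero2EqAt₂.comp_shear (a := fun t => -g₂ t) (t₀ := 0) (r := 1) (z := z)
      (hFhA _ ⟨hΩ'mem z hz, by rw [hΨ2]; exact hza⟩) (hg₂.neg.analyticAt _) one_ne_zero
    simpa only [hΦΨ] using h1
  -- (5)
  have hR₁U : subgr (Metric.ball c R) (fun _ => -(G.s / 2)) (fun t => (g₁ t).im + d) ⊆ G.utube F₀ :=
    subgr_subset_utube hB hball (fun _ _ => by linarith) hold
  have hOc : IsPreconnected (subgr (Metric.ball c R)
      (fun t => max (-(G.s / 2)) ((g₂ t).im - d)) (fun t => (g₁ t).im + d)) := by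
    refine isPreconnected_subgr (convex_ball c R).isPreconnected ?_ ?_ ?_
    · exact (continuous_const.max (hc₂.sub continuous_const)).continuousOn
    · exact (hc₁.add continuous_const).continuousOn
    · intro t ht
      exact max_lt (by linarith [h0 t ht]) (by linarith [h21 t ht])
  have hOR₁ : subgr (Metric.ball c R) (fun t => max (-(G.s / 2)) ((g₂ t).im - d))
      (fun t => (g₁ t).im + d) ⊆
      subgr (Metric.ball c R) (fun _ => -(G.s / 2)) (fun t => (g₁ t).im + d) :=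
    fun z hz => ⟨hz.1, lt_of_le_of_lt (le_max_left _ _) hz.2.1, hz.2.2⟩
  have hOΩ' : subgr (Metric.ball c R) (fun t => max (-(G.s / 2)) ((g₂ t).im - d))
      (fun t => (g₁ t).im + d) ⊆
      subgr (Metric.ball c R) (fun t => (g₂ t).im - d) (fun t => (g₂ t).im + d) :=
    fun z hz => ⟨hz.1, lt_of_le_of_lt (le_max_right _ _) hz.2.1,
      by linarith [hz.2.2, h12 _ hz.1]⟩
  have ht₁ : c + (((r₀ + R) / 2 : ℝ) : ℂ) ∈ annulus c r₀ R := by
    have : ‖c + (((r₀ + R) / 2 : ℝ) : ℂ) - c‖ = (r₀ + R) / 2 := by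
      rw [add_sub_cancel_left, Complex.norm_real, Real.norm_of_nonneg (by linarith)]
    constructor
    · show r₀ < ‖c + (((r₀ + R) / 2 : ℝ) : ℂ) - c‖
      rw [this]; linarith
    · show ‖c + (((r₀ + R) / 2 : ℝ) : ℂ) - c‖ < R
      rw [this]; linarith
  have ht₁b := hannb _ ht₁
  obtain ⟨m, hm1, hm2⟩ := exists_between (show max (-(G.s / 2))
      ((g₂ (c + (((r₀ + R) / 2 : ℝ) : ℂ))).im - d) < (g₁ (c + (((r₀ + R) / 2 : ℝ) : ℂ))).im + d from
    max_lt (by linarith [h0 _ ht₁b]) (by linarith [h21 _ ht₁b]))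
  have him : ((m : ℂ) * I).im = m := by simp
  have hz₁O : (((m : ℂ) * I, c + (((r₀ + R) / 2 : ℝ) : ℂ)) : ℂ × ℂ) ∈ subgr (Metric.ball c R)
      (fun t => max (-(G.s / 2)) ((g₂ t).im - d)) (fun t => (g₁ t).im + d) :=
    ⟨ht₁b, by simpa only [him] using hm1, by simpa only [him] using hm2⟩
  have hPO := Mero2On₂.eqAt_of_isPreconnected hOc (hPmero.mono hOΩ')
    ((maxExt_mero hB).mono (hOR₁.trans hR₁U)) hz₁O (hPann _ (hOΩ' hz₁O) ht₁)
  -- (6)
  obtain ⟨Q, hQ, hQ1, -⟩ := Mero2.exists_glue₂₂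
    (isOpen_subgr Metric.isOpen_ball continuousOn_const (hc₁.add continuous_const).continuousOn)
    (isOpen_subgr Metric.isOpen_ball (hc₂.sub continuous_const).continuousOn
      (hc₂.add continuous_const).continuousOn)
    ((maxExt_mero hB).mono hR₁U) hPmero
    (fun z hz => (hPO z ⟨hz.1.1, max_lt hz.1.2.1 hz.2.2.1, hz.1.2.2⟩).symm)
  -- (7)
  have hsub : subgr (Metric.ball c R) (fun _ => -(G.s / 2)) (fun t => (g₂ t).im + d) ⊆
      subgr (Metric.ball c R) (fun _ => -(G.s / 2)) (fun t => (g₁ t).im + d) ∪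
      subgr (Metric.ball c R) (fun t => (g₂ t).im - d) (fun t => (g₂ t).im + d) := by
    intro z hz
    by_cases h : z.1.im < (g₁ z.2).im + d
    · exact Or.inl ⟨hz.1, hz.2.1, h⟩
    · exact Or.inr ⟨hz.1, by linarith [not_lt.1 h, h21 _ hz.1], hz.2.2⟩
  refine (s4c_tube_of_mero hB Metric.isOpen_ball hball (β := fun t => (g₂ t).im + d)
    (hc₂.add continuous_const).continuousOn (fun t ht => by linarith [h0 t ht, h12 t ht])
    (hQ.mono hsub) ?_).1
  intro t ht
  have h0R : ((0, t) : ℂ × ℂ) ∈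
      subgr (Metric.ball c R) (fun _ => -(G.s / 2)) (fun t => (g₁ t).im + d) := by
    refine ⟨ht, ?_, ?_⟩
    · show -(G.s / 2) < (0 : ℂ).im
      simp only [Complex.zero_im]
      linarith
    · show (0 : ℂ).im < (g₁ t).im + d
      simp only [Complex.zero_im]
      linarith [h0 t ht]
  have h0i : ((0, t) : ℂ × ℂ) ∈ G.ini := by
    refine ⟨?_, hball ht⟩
    show |(0 : ℂ).im| < 3 * G.s / 2
    simp only [Complex.zero_im, abs_zero]
    linarith
  exact (hQ1 _ h0R).trans (maxExt_eqAt_base hB h0i)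

/-- the induction: `g_k = (k/N) g`. -/
theorem s4c_fill_ind (hB : G.IsBase F₀) {c : ℂ} {r₀ R d : ℝ} (hr₀ : 0 ≤ r₀) (hR : r₀ < R)
    (hball : Metric.ball c R ⊆ Metric.ball (0 : ℂ) G.r₁) (hd : 0 < d) (hds : d ≤ G.s / 2)
    {g : ℂ → ℂ} (hg : Differentiable ℂ g) (h0 : ∀ t ∈ Metric.ball c R, 0 ≤ (g t).im)
    (hann : ∀ t ∈ annulus c r₀ R, ENNReal.ofReal ((g t).im + d) ≤ G.width F₀ t)
    {N : ℕ} (hN : 0 < N) (hM : ∀ t ∈ Metric.ball c R, (g t).im / N < d / 2) (k : ℕ) (hk : k ≤ N) :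
    ∀ t ∈ Metric.ball c R, ENNReal.ofReal ((k : ℝ) / N * (g t).im + d) ≤ G.width F₀ t := by
  have hNpos : (0 : ℝ) < N := Nat.cast_pos.2 hN
  induction k with
  | zero =>
    intro t ht
    have hs := G.s4c_s_pos
    refine le_trans (ENNReal.ofReal_le_ofReal ?_) (hB.le_width (hball ht))
    simp only [Nat.cast_zero, zero_div, zero_mul, zero_add]
    linarith
  | succ k ih =>
    have ih' := ih (Nat.le_of_succ_le hk)
    have hk1 : ((k + 1 : ℕ) : ℝ) / N ≤ 1 := by
      rw [div_le_one hNpos]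
      exact_mod_cast hk
    have him : ∀ (a : ℝ) (t : ℂ), (((a : ℂ)) * g t).im = a * (g t).im := fun a t => by
      simp [Complex.mul_im]
    have key := s4c_step hB hr₀ hR hball hd hds
      (g₁ := fun t => (((k : ℝ) / N : ℝ) : ℂ) * g t) (g₂ := fun t => ((((k + 1 : ℕ) : ℝ) / N : ℝ) : ℂ) * g t)
      (hg.const_mul _) (hg.const_mul _)
      (fun t ht => by
        rw [him]
        exact mul_nonneg (by positivity) (h0 t ht))
      (fun t ht => by
        rw [him, him]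
        refine mul_le_mul_of_nonneg_right ?_ (h0 t ht)
        rw [div_le_div_iff_of_pos_right hNpos]
        push_cast
        linarith)
      (fun t ht => by
        rw [him, him]
        have h1 := hM t ht
        have h2 : ((k + 1 : ℕ) : ℝ) / N * (g t).im = (k : ℝ) / N * (g t).im + (g t).im / N := by
          push_cast
          ring
        rw [h2]
        linarith)
      (fun t ht => by
        rw [him]
        refine le_trans (ENNReal.ofReal_le_ofReal ?_) (hann t ht)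
        have h1 : 0 ≤ (g t).im := h0 t (by
          rw [Metric.mem_ball, dist_eq_norm]
          exact ht.2)
        nlinarith)
      (fun t ht => by
        rw [him]
        exact ih' t ht)
    intro t ht
    have := key t ht
    rwa [him] at this

/-- **Filling.**  `g` entire, `Im g > 0` on the closed disc, `Im g + d` strictly below the width on the circle.  Then `Im g(c) ≤ h_F(c)` at the centre. -/
theorem s4c_fill (hB : G.IsBase F₀) {c : ℂ} {r : ℝ} (hr : 0 < r)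
    (hball : Metric.closedBall c r ⊆ Metric.ball (0 : ℂ) G.r₁) {g : ℂ → ℂ} (hg : Differentiable ℂ g)
    {d : ℝ} (hd : 0 < d) (hpos : ∀ t ∈ Metric.closedBall c r, 0 < (g t).im)
    (hlt : ∀ t ∈ Metric.sphere c r, ENNReal.ofReal ((g t).im + d) < G.width F₀ t) :
    ENNReal.ofReal (g c).im ≤ G.width F₀ c := by
  have hs := G.s4c_s_pos
  have hc : Continuous fun t => (g t).im := Complex.continuous_im.comp hg.continuous
  set d' : ℝ := min d (G.s / 2) with hd'
  have hd'pos : 0 < d' := lt_min hd (by linarith)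
  have hd'd : d' ≤ d := min_le_left _ _
  have hd's : d' ≤ G.s / 2 := min_le_right _ _
  obtain ⟨δ₁, hδ₁, hδ₁r, hA⟩ := s4c_annulus (s4c_lsc G F₀) (hc.add continuous_const) (c := c) hr
    (fun t ht => lt_of_le_of_lt (ENNReal.ofReal_le_ofReal (by linarith)) (hlt t ht) :
      ∀ t ∈ Metric.sphere c r, ENNReal.ofReal ((g t).im + d') < G.width F₀ t)
  have hUo : IsOpen ({t | 0 < (g t).im} ∩ Metric.ball (0 : ℂ) G.r₁) :=
    (isOpen_lt continuous_const hc).inter Metric.isOpen_ball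
  obtain ⟨δ₂, hδ₂, hU⟩ := s4c_fatten hUo (c := c) (r := r) fun t ht => ⟨hpos t ht, hball ht⟩
  set R : ℝ := r + min δ₁ δ₂ with hRdef
  have hmin : 0 < min δ₁ δ₂ := lt_min hδ₁ hδ₂
  have hRU : Metric.ball c R ⊆ {t | 0 < (g t).im} ∩ Metric.ball (0 : ℂ) G.r₁ :=
    (Metric.ball_subset_ball (by rw [hRdef]; linarith [min_le_right δ₁ δ₂])).trans hU
  -- a bound for `Im g`
  obtain ⟨M, hM⟩ := (isCompact_closedBall c R).exists_bound_of_continuousOn hc.continuousOn
  obtain ⟨N, hN⟩ := exists_nat_gt (2 * (|M| + 1) / d')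
  have hNpos : 0 < N := by
    rcases Nat.eq_zero_or_pos N with h | h
    · exfalso
      rw [h] at hN
      have : 0 < 2 * (|M| + 1) / d' := by positivity
      simp only [Nat.cast_zero] at hN
      linarith
    · exact h
  have hNpos' : (0 : ℝ) < N := Nat.cast_pos.2 hNpos
  have key := s4c_fill_ind hB (c := c) (r₀ := r - δ₁) (R := R) (d := d') (by linarith)
    (by rw [hRdef]; linarith) (hRU.trans inter_subset_right) hd'pos hd's hg
    (fun t ht => (hRU ht).1.le)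
    (fun t ht => (hA t ⟨ht.1, lt_of_lt_of_le ht.2 (by rw [hRdef]; linarith [min_le_left δ₁ δ₂])⟩).le)
    hNpos
    (fun t ht => by
      have h1 : ‖(g t).im‖ ≤ M := hM t (Metric.ball_subset_closedBall ht)
      have h2 : (g t).im ≤ |M| := le_trans (le_abs_self _) (le_trans h1 (le_abs_self _))
      rw [div_lt_iff₀ hNpos']
      rw [div_lt_iff₀ hd'pos] at hN
      nlinarith)
    N le_rfl c (Metric.mem_ball_self (by rw [hRdef]; linarith))
  refine le_trans (ENNReal.ofReal_le_ofReal ?_) key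
  rw [div_self hNpos'.ne', one_mul]
  linarith

end Glance

end Claimed.Agent.R269
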