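/-
Row 269, P1 Section 4, unit 4C, file WidthTwo: the TWO-SIDED maximal extensions `G.Xm`, `G.Lm` = fields `X`, `L` of `Sec4` (S5/Pre.lean).
Statements: helper19.   LEAF PACKAGES: LF-S4-4C-two (section General), LF-S4-4C-twoXL (section XL).  No paper reading.

The lower half of the tube is obtained from the upper half by the real symmetry `F₀ (conj z) = T⁻¹ ...`:
   `X0 (conj z) = conj (X0 z)`;   `L0 = (E,P)`:  `E (conj z) = 1 / conj (E z)`, `P (conj z) = conj (P z) / conj (E z)`.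
`G.twoRaw F₀ T z := maxExt F₀ z` for `Im y ≥ 0`, `T (maxExt F₀ (conj z))` for `Im y < 0`;  `G.twoExt F₀ T := mnf₂ (twoRaw F₀ T)` (normal form:
pointwise statements such as `SliceMero` are false for functions with junk values, see the remark in Lib/Mero2b.lean).

PROOFS.
* `twoRaw_mero`: `z = (y,t) ∈ tube₂`.  `Im y > 0`: `twoRaw = maxExt` near `z`, `z ∈ utube`.  `Im y < 0`: `twoRaw = T ∘ maxExt ∘ cj₂` near `z`,
  `cj₂ z ∈ utube`, hypothesis `hT`.  `Im y = 0`: `z ∈ ini` (the widths are positive, so `t, conj t ∈ ball 0 r₁`); near `z` both branches are equal to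
  `F₀` (`maxExt_eq_base`, `hT0`; `cj₂` maps `ini` to `ini`).
* `tube₂_box`: lower semicontinuity (`s4c_exists_ext_of_lt`, `ExtendsTo.eventually`) at `t` and at `conj t`.
* `twoExt_slice`: `SliceMero` is a pointwise notion; apply `sliceMero_mnf` (Lib/Mero2b.lean) on the box of `tube₂_box`, `B = hband (-b') b`,
  `S = hstrip (s/2)`, where `twoRaw = F₀` is analytic.
-/
import Claimed.Agent.R269.S4.WidthMax

set_option autoImplicit false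

open Complex ComplexConjugate Filter Topology Set
open scoped ENNReal Real

namespace Claimed.Agent.R269

/-- the real structure on lines in the chart `(E,P)`: `(E,P) ↦ (1/conj E, conj P/conj E)`. -/
noncomputable def twL (v : ℂ × ℂ) : ℂ × ℂ := ((conj v.1)⁻¹, conj v.2 / conj v.1)

namespace Glance

variable {G : Glance} {F₀ : ℂ × ℂ → ℂ × ℂ}

section General

/-- the two-sided tube `-h_F(conj t) < Im y < h_F(t)`. -/
def tube₂ (G : Glance) (F₀ : ℂ × ℂ → ℂ × ℂ) : Set (ℂ × ℂ) :=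
  {z | ENNReal.ofReal z.1.im < G.width F₀ z.2 ∧ ENNReal.ofReal (-z.1.im) < G.width F₀ (conj z.2)}

open Classical in
/-- the two-sided extension before normalisation. -/
noncomputable def twoRaw (G : Glance) (F₀ : ℂ × ℂ → ℂ × ℂ) (T : ℂ × ℂ → ℂ × ℂ) (z : ℂ × ℂ) : ℂ × ℂ :=
  if 0 ≤ z.1.im then G.maxExt F₀ z else T (G.maxExt F₀ (cj₂ z))

/-- the two-sided maximal extension. -/
noncomputable def twoExt (G : Glance) (F₀ : ℂ × ℂ → ℂ × ℂ) (T : ℂ × ℂ → ℂ × ℂ) : ℂ × ℂ → ℂ × ℂ :=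
  mnf₂ (G.twoRaw F₀ T)

theorem cj₂_mem_ini {z : ℂ × ℂ} (hz : z ∈ G.ini) : cj₂ z ∈ G.ini := by
  refine ⟨?_, ?_⟩
  · show |(conj z.1).im| < 3 * G.s / 2
    rw [Complex.conj_im, abs_neg]
    exact hz.1
  · have h2 := hz.2
    rw [mem_ball_zero_iff] at h2 ⊢
    show ‖conj z.2‖ < G.r₁
    rwa [Complex.norm_conj]

theorem twoRaw_eq_base (hB : G.IsBase F₀) {T : ℂ × ℂ → ℂ × ℂ}
    (hT0 : ∀ z ∈ G.ini, T (F₀ (cj₂ z)) = F₀ z) {z : ℂ × ℂ} (hz : z ∈ G.ini) :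
    G.twoRaw F₀ T z = F₀ z := by
  unfold twoRaw
  split_ifs with h
  · exact maxExt_eq_base hB hz
  · rw [maxExt_eq_base hB (cj₂_mem_ini hz), hT0 z hz]

theorem continuous_cj₂ : Continuous cj₂ :=
  (Complex.continuous_conj.comp continuous_fst).prodMk (Complex.continuous_conj.comp continuous_snd)

theorem s4c_isOpen_im_pos : IsOpen {z : ℂ × ℂ | 0 < z.1.im} :=
  isOpen_lt continuous_const (Complex.continuous_im.comp continuous_fst)

theorem s4c_isOpen_im_neg : IsOpen {z : ℂ × ℂ | z.1.im < 0} :=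
  isOpen_lt (Complex.continuous_im.comp continuous_fst) continuous_const

theorem twoRaw_mero (hB : G.IsBase F₀) {T : ℂ × ℂ → ℂ × ℂ}
    (hT : ∀ (F : ℂ × ℂ → ℂ × ℂ) (z : ℂ × ℂ), Mero2At₂ F (cj₂ z) → Mero2At₂ (fun w => T (F (cj₂ w))) z)
    (hT0 : ∀ z ∈ G.ini, T (F₀ (cj₂ z)) = F₀ z) : Mero2On₂ (G.twoRaw F₀ T) (G.tube₂ F₀) := by
  have hs := G.s4c_s_pos
  refine mero2On₂_iff.2 fun z hz => ?_
  rcases lt_trichotomy z.1.im 0 with h | h | h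
  · have hzu : cj₂ z ∈ G.utube F₀ := by
      refine ⟨?_, ?_⟩
      · show -(3 * G.s / 2) < (conj z.1).im
        rw [Complex.conj_im]
        linarith
      · show ENNReal.ofReal (conj z.1).im < G.width F₀ (conj z.2)
        rw [Complex.conj_im]
        exact hz.2
    have h1 := hT _ z (mero2On₂_iff.1 (maxExt_mero hB) _ hzu)
    have h2 : (fun w => T (G.maxExt F₀ (cj₂ w))) =ᶠ[𝓝 z] G.twoRaw F₀ T := by
      filter_upwards [s4c_isOpen_im_neg.mem_nhds h] with w hw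
      have hw' : w.1.im < 0 := hw
      unfold twoRaw
      rw [if_neg (not_le.2 hw')]
    exact (h1.eqAt_of_eventuallyEq h2).right
  · have hzi : z ∈ G.ini := by
      refine ⟨?_, s4c_mem_ball_of_lt hz.1⟩
      show |z.1.im| < 3 * G.s / 2
      rw [h, abs_zero]
      linarith
    have h2 : F₀ =ᶠ[𝓝 z] G.twoRaw F₀ T := by
      filter_upwards [G.s4c_isOpen_ini.mem_nhds hzi] with w hw
      exact (twoRaw_eq_base hB hT0 hw).symm
    exact ((hB.mero2At₂ hzi).eqAt_of_eventuallyEq h2).right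
  · have hzu : z ∈ G.utube F₀ := ⟨by linarith, hz.1⟩
    have h2 : G.maxExt F₀ =ᶠ[𝓝 z] G.twoRaw F₀ T := by
      filter_upwards [s4c_isOpen_im_pos.mem_nhds h] with w hw
      have hw' : 0 < w.1.im := hw
      unfold twoRaw
      rw [if_pos hw'.le]
    exact ((mero2On₂_iff.1 (maxExt_mero hB) _ hzu).eqAt_of_eventuallyEq h2).right

theorem twoExt_mero (hB : G.IsBase F₀) {T : ℂ × ℂ → ℂ × ℂ}
    (hT : ∀ (F : ℂ × ℂ → ℂ × ℂ) (z : ℂ × ℂ), Mero2At₂ F (cj₂ z) → Mero2At₂ (fun w => T (F (cj₂ w))) z)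
    (hT0 : ∀ z ∈ G.ini, T (F₀ (cj₂ z)) = F₀ z) : Mero2On₂ (G.twoExt F₀ T) (G.tube₂ F₀) :=
  mero2On₂_iff.2 fun z hz => (mero2On₂_iff.1 (twoRaw_mero hB hT hT0) z hz).mnf₂_eqAt.left

/-- `twoExt = F₀` on the initial domain. -/
theorem twoExt_eq_base (hB : G.IsBase F₀) {T : ℂ × ℂ → ℂ × ℂ}
    (hT0 : ∀ z ∈ G.ini, T (F₀ (cj₂ z)) = F₀ z) {z : ℂ × ℂ} (hz : z ∈ G.ini) :
    G.twoExt F₀ T z = F₀ z := by
  have h1 : F₀ =ᶠ[𝓝 z] G.twoRaw F₀ T := by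
    filter_upwards [G.s4c_isOpen_ini.mem_nhds hz] with w hw
    exact (twoRaw_eq_base hB hT0 hw).symm
  exact mnf₂_eq_of_analyticAt (hB.an₁ z hz) (hB.an₂ z hz)
    ((hB.mero2At₂ hz).eqAt_of_eventuallyEq h1).symm

/-- `twoExt = maxExt` on the upper half of the tube. -/
theorem twoExt_eq_maxExt (hB : G.IsBase F₀) {T : ℂ × ℂ → ℂ × ℂ}
    (hT0 : ∀ z ∈ G.ini, T (F₀ (cj₂ z)) = F₀ z) {z : ℂ × ℂ} (hz : z ∈ G.utube F₀) :
    G.twoExt F₀ T z = G.maxExt F₀ z := by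
  have hs := G.s4c_s_pos
  rcases le_or_gt z.1.im 0 with h | h
  · have hzi := mem_ini_of_mem_utube hz (by linarith)
    rw [twoExt_eq_base hB hT0 hzi, maxExt_eq_base hB hzi]
  · have h2 : G.maxExt F₀ =ᶠ[𝓝 z] G.twoRaw F₀ T := by
      filter_upwards [s4c_isOpen_im_pos.mem_nhds h] with w hw
      have hw' : 0 < w.1.im := hw
      unfold twoRaw
      rw [if_pos hw'.le]
    rw [← mnf₂_maxExt hB hz]
    exact (mnf₂_congr ((mero2On₂_iff.1 (maxExt_mero hB) _ hz).eqAt_of_eventuallyEq h2)).symm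

/-- boxes in the two-sided tube. -/
theorem tube₂_box (hB : G.IsBase F₀) {z : ℂ × ℂ} (hz : z ∈ G.tube₂ F₀) :
    ∃ (b b' : ℝ) (V : Set ℂ), G.s / 2 < b ∧ G.s / 2 < b' ∧ IsOpen V ∧ V ⊆ Metric.ball (0 : ℂ) G.r₁ ∧
      z ∈ hband (-b') b ×ˢ V ∧ hband (-b') b ×ˢ V ⊆ G.tube₂ F₀ := by
  have hs := G.s4c_s_pos
  obtain ⟨b, hb, hzb, V₁, F₁, hV₁, hF₁⟩ := s4c_exists_ext_of_lt hz.1
  obtain ⟨b', hb', hzb', V₂, F₂, hV₂, hF₂⟩ := s4c_exists_ext_of_lt hz.2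
  refine ⟨b, b', V₁ ∩ (fun t => conj t) ⁻¹' V₂, hb, hb',
    hF₁.isOpen.inter (hF₂.isOpen.preimage Complex.continuous_conj),
    inter_subset_left.trans hF₁.sub, ⟨⟨?_, ?_⟩, hV₁, hV₂⟩, ?_⟩
  · have := (ENNReal.ofReal_lt_ofReal_iff'.1 hzb').1
    linarith
  · exact (ENNReal.ofReal_lt_ofReal_iff'.1 hzb).1
  · rintro w ⟨⟨hw1, hw2⟩, hw3, hw4⟩
    refine ⟨lt_of_lt_of_le ?_ (s4c_le_width_of_ext hb ⟨V₁, F₁, hw3, hF₁⟩),
      lt_of_lt_of_le ?_ (s4c_le_width_of_ext hb' ⟨V₂, F₂, hw4, hF₂⟩)⟩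
    · exact (ENNReal.ofReal_lt_ofReal_iff (by linarith)).2 hw2
    · exact (ENNReal.ofReal_lt_ofReal_iff (by linarith)).2 (by linarith)

theorem isOpen_tube₂ (hB : G.IsBase F₀) : IsOpen (G.tube₂ F₀) := by
  rw [isOpen_iff_mem_nhds]
  intro z hz
  obtain ⟨b, b', V, -, -, hV, -, hzV, hsub⟩ := tube₂_box hB hz
  exact Filter.mem_of_superset (((isOpen_hband _ _).prod hV).mem_nhds hzV) hsub

theorem twoExt_slice (hB : G.IsBase F₀) {T : ℂ × ℂ → ℂ × ℂ}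
    (hT : ∀ (F : ℂ × ℂ → ℂ × ℂ) (z : ℂ × ℂ), Mero2At₂ F (cj₂ z) → Mero2At₂ (fun w => T (F (cj₂ w))) z)
    (hT0 : ∀ z ∈ G.ini, T (F₀ (cj₂ z)) = F₀ z) :
    SliceMero (fun z => (G.twoExt F₀ T z).1) (G.tube₂ F₀) ∧
      SliceMero (fun z => (G.twoExt F₀ T z).2) (G.tube₂ F₀) := by
  have hs := G.s4c_s_pos
  have hm := twoRaw_mero hB hT hT0
  have hsub : ∀ V : Set ℂ, V ⊆ Metric.ball (0 : ℂ) G.r₁ →
      hband (-(G.s / 2)) (G.s / 2) ×ˢ V ⊆ G.ini := by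
    rintro V hV w ⟨⟨h1, h2⟩, h3⟩
    refine ⟨?_, hV h3⟩
    show |w.1.im| < 3 * G.s / 2
    rw [abs_lt]
    constructor <;> linarith
  have hev : ∀ w ∈ G.ini, F₀ =ᶠ[𝓝 w] G.twoRaw F₀ T := by
    intro w hw
    filter_upwards [G.s4c_isOpen_ini.mem_nhds hw] with w' hw'
    exact (twoRaw_eq_base hB hT0 hw').symm
  constructor
  · intro z hz
    obtain ⟨b, b', V, hb, hb', hV, hVr, hzV, hsubV⟩ := tube₂_box hB hz
    exact sliceMero_mnf_hband (F := fun w => (G.twoRaw F₀ T w).1) (a' := -(G.s / 2)) (b' := G.s / 2)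
      (by linarith) (by linarith) hb.le (fun w hw => hm.1 w (hsubV hw))
      (fun w hw => (hB.an₁ w (hsub V hVr hw)).congr
        ((hev w (hsub V hVr hw)).mono fun w' hw' => by simp only [hw'])) z hzV
  · intro z hz
    obtain ⟨b, b', V, hb, hb', hV, hVr, hzV, hsubV⟩ := tube₂_box hB hz
    exact sliceMero_mnf_hband (F := fun w => (G.twoRaw F₀ T w).2) (a' := -(G.s / 2)) (b' := G.s / 2)
      (by linarith) (by linarith) hb.le (fun w hw => hm.2 w (hsubV hw))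
      (fun w hw => (hB.an₂ w (hsub V hVr hw)).congr
        ((hev w (hsub V hVr hw)).mono fun w' hw' => by simp only [hw'])) z hzV

end General

section XL

variable (G)

/-- THE maximal primary extension of the impact map on the two-sided tube (field `X` of `Sec4`). -/
noncomputable def Xm : ℂ × ℂ → ℂ × ℂ := G.twoExt G.X0 cj₂

/-- THE maximal primary extension of the line map on the two-sided tube (field `L` of `Sec4`). -/
noncomputable def Lm : ℂ × ℂ → ℂ × ℂ := G.twoExt G.L0 twL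

theorem s4c_cj₂_mero (F : ℂ × ℂ → ℂ × ℂ) (z : ℂ × ℂ) (h : Mero2At₂ F (cj₂ z)) :
    Mero2At₂ (fun w => cj₂ (F (cj₂ w))) z := h.conj_conj

theorem s4c_twL_mero (F : ℂ × ℂ → ℂ × ℂ) (z : ℂ × ℂ) (h : Mero2At₂ F (cj₂ z)) :
    Mero2At₂ (fun w => twL (F (cj₂ w))) z :=
  ⟨h.conj_conj.1.inv, h.conj_conj.2.div h.conj_conj.1⟩

theorem s4c_cj₂_base : ∀ z ∈ G.ini, cj₂ (G.X0 (cj₂ z)) = G.X0 z := by
  intro z hz
  have h := G.s4c_X0_conj hz
  show cj₂ (G.X0 (conj z.1, conj z.2)) = G.X0 z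
  rw [h]
  simp [cj₂]

theorem s4c_twL_base : ∀ z ∈ G.ini, twL (G.L0 (cj₂ z)) = G.L0 z := by
  intro z hz
  have h := G.s4c_L0_conj hz
  have h0 := G.s4c_L0_fst_ne_zero z
  show twL (G.L0 (conj z.1, conj z.2)) = G.L0 z
  rw [h]
  ext
  · simp [twL]
  · simp only [twL, Complex.conj_conj]
    field_simp

theorem tube_eq (ρ : ℝ) : G.tube ρ = {z | z.2 ∈ Metric.ball (0 : ℂ) ρ} ∩ G.tube₂ G.X0 := rfl

theorem tubeL_eq (ρ : ℝ) : G.tubeL ρ = {z | z.2 ∈ Metric.ball (0 : ℂ) ρ} ∩ G.tube₂ G.L0 := rfl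

theorem s4c_Xm_slice₁ (ρ : ℝ) : SliceMero (fun z => (G.Xm z).1) (G.tube ρ) := fun z hz =>
  (twoExt_slice G.s4c_X0_base s4c_cj₂_mero G.s4c_cj₂_base).1 z hz.2

theorem s4c_Xm_slice₂ (ρ : ℝ) : SliceMero (fun z => (G.Xm z).2) (G.tube ρ) := fun z hz =>
  (twoExt_slice G.s4c_X0_base s4c_cj₂_mero G.s4c_cj₂_base).2 z hz.2

theorem s4c_Lm_slice₁ (ρ : ℝ) : SliceMero (fun z => (G.Lm z).1) (G.tubeL ρ) := fun z hz =>
  (twoExt_slice G.s4c_L0_base s4c_twL_mero G.s4c_twL_base).1 z hz.2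

theorem s4c_Lm_slice₂ (ρ : ℝ) : SliceMero (fun z => (G.Lm z).2) (G.tubeL ρ) := fun z hz =>
  (twoExt_slice G.s4c_L0_base s4c_twL_mero G.s4c_twL_base).2 z hz.2

theorem s4c_basic_subset_ini {ρ : ℝ} (hρ : ρ ≤ G.r₁) :
    hstrip (G.s / 2) ×ˢ Metric.ball (0 : ℂ) ρ ⊆ G.ini := by
  rintro z ⟨h1, h2⟩
  have hs := G.s4c_s_pos
  have h1' : |z.1.im| < G.s / 2 := h1
  exact ⟨show |z.1.im| < 3 * G.s / 2 by linarith, Metric.ball_subset_ball hρ h2⟩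

theorem s4c_Xm_base {ρ : ℝ} (hρ : ρ ≤ G.r₁) :
    ∀ z ∈ hstrip (G.s / 2) ×ˢ Metric.ball (0 : ℂ) ρ, G.Xm z = G.X0 z := fun _ hz =>
  twoExt_eq_base G.s4c_X0_base G.s4c_cj₂_base (G.s4c_basic_subset_ini hρ hz)

theorem s4c_Lm_base {ρ : ℝ} (hρ : ρ ≤ G.r₁) :
    ∀ z ∈ hstrip (G.s / 2) ×ˢ Metric.ball (0 : ℂ) ρ, G.Lm z = G.L0 z := fun _ hz =>
  twoExt_eq_base G.s4c_L0_base G.s4c_twL_base (G.s4c_basic_subset_ini hρ hz)

theorem s4c_Xm_eq_maxExt {z : ℂ × ℂ} (hz : z ∈ G.utube G.X0) : G.Xm z = G.maxExt G.X0 z :=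
  twoExt_eq_maxExt G.s4c_X0_base G.s4c_cj₂_base hz

theorem s4c_Lm_eq_maxExt {z : ℂ × ℂ} (hz : z ∈ G.utube G.L0) : G.Lm z = G.maxExt G.L0 z :=
  twoExt_eq_maxExt G.s4c_L0_base G.s4c_twL_base hz

end XL

end Glance

end Claimed.Agent.R269
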