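/-
Row 269, P1 Section 4, unit 4C, file WidthPatch: patches.   Statements: helper19.
LEAF PACKAGES: LF-S4-4C-good (section Good), LF-S4-4C-glue (section Glue).  No paper reading.

`G.Good F₀ y₁ t₀` (S4/WidthDefs.lean): some `P`, meromorphic at `(y₁,t₀)`, has the germs of `maxExt F₀` at all nearby points of the upper tube.
  `Good.exists_bidisc`       unfolding on a bidisc
  `s4c_good_of_low`          CRITERION: agreement at ONE point of the low part of a bidisc suffices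
  `s4c_good_of_jointPatch`, `s4c_jointPatch_of_good`     comparison with the captain's `JointPatchAt` (R269/Cplx.lean, with the conjunct `-(s/2) < b`)
  `Good.add_two_pi`          periodicity
  `s4c_glue`                 GLUE lemma (A3 of notes269/S4-architecture.md): not all points of a finite wall are good.

PROOFS.
* `s4c_good_of_low`.  Step 1: `P ~ maxExt` on `U₁ = (ball y₁ ε ∩ hband (-(3s/2)) b) ×ˢ ball t₀ δ` (convex, open, contained in the tube by `box_subset_utube`, contains `z₀`):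
  identity theorem `Mero2On₂.eqAt_of_isPreconnected`.  Step 2: let `z = (y,t)` be in the bidisc and in the tube.  If `Im y < b` then `z ∈ U₁`.  Otherwise
  `exists_ext_of_mem_utube` gives `b'' > Im y ≥ b` and `δ''` with a primary extension on `ball t δ''`; the set
  `U₂ = (ball y₁ ε ∩ hband (-(3s/2)) b'') ×ˢ (ball t δ'' ∩ ball t₀ δ)` is convex, open, contained in the tube, contains `z` and the point `(z₀.1, t) ∈ U₁`: identity theorem.
* `s4c_good_of_jointPatch`: `JointPatchAt` gives `ε, P, b, V, F`; choose `δ ≤ ε` with `ball t₀ δ ⊆ V`; the widths are `≥ b` on `V` (`s4c_le_width_of_ext` if `s/2 < b`,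
  `IsBase.le_width` otherwise); `z₀ := (y₁ - i c, t₀)` with `max (Im y₁ - ε) (-(s/2)) < Im y₁ - c < b`; `P ~ F ~ maxExt` at `z₀` (`maxExt_eqAt`); `s4c_good_of_low`, `Good.of_bidisc`.
* `s4c_jointPatch_of_good`: `Good.exists_bidisc` gives `ε, P`; choose `b` with `max (Im y₁ - ε) (-(s/2)) < b < Im y₁`; `ofReal b < width t₀`, so `s4c_ext_of_lt` gives `V, F`;
  at `z` in `hband (-(s/2)) b ×ˢ V`: `z ∈ utube` (`s4c_le_width_of_ext`/`IsBase.le_width`), `P ~ maxExt ~ F`.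
* `s4c_glue`: plan in the docstrings of `s4c_uniform_good` and `s4c_glue`.
-/
import Claimed.Agent.R269.S4.WidthTwo

set_option autoImplicit false

open Complex ComplexConjugate Filter Topology Set
open scoped ENNReal Real

namespace Claimed.Agent.R269

namespace Glance

variable {G : Glance} {F₀ : ℂ × ℂ → ℂ × ℂ}

section Good

/-- points of the tube are good. -/
theorem Good.of_mem_utube (hB : G.IsBase F₀) {y₁ t₀ : ℂ} (h : (y₁, t₀) ∈ G.utube F₀) :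
    G.Good F₀ y₁ t₀ :=
  ⟨G.maxExt F₀, mero2On₂_iff.1 (maxExt_mero hB) _ h,
    Eventually.of_forall fun z hz => (mero2On₂_iff.1 (maxExt_mero hB) z hz).refl⟩

/-- convex boxes are preconnected. -/
theorem s4c_isPreconnected_box {A B : Set ℂ} (hA : Convex ℝ A) (hB : Convex ℝ B) :
    IsPreconnected (A ×ˢ B) := (hA.prod hB).isPreconnected

theorem s4c_convex_ball_inter_hband (y₁ : ℂ) (ε a b : ℝ) : Convex ℝ (Metric.ball y₁ ε ∩ hband a b) :=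
  (convex_ball y₁ ε).inter (s4c_convex_hband a b)

/-- the width over the parameter set of a primary extension. -/
theorem IsPrimaryExt.le_width (hB : G.IsBase F₀) {b : ℝ} {V : Set ℂ} {F : ℂ × ℂ → ℂ × ℂ}
    (hF : G.IsPrimaryExt F₀ b V F) {t : ℂ} (ht : t ∈ V) : ENNReal.ofReal b ≤ G.width F₀ t := by
  have hs := G.s4c_s_pos
  rcases lt_or_ge (G.s / 2) b with h | h
  · exact s4c_le_width_of_ext h ⟨V, F, ht, hF⟩
  · exact le_trans (ENNReal.ofReal_le_ofReal (by linarith)) (hB.le_width (hF.sub ht))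

/-- unfolding on a bidisc (two radii). -/
theorem Good.exists_bidisc {y₁ t₀ : ℂ} (h : G.Good F₀ y₁ t₀) :
    ∃ (ε : ℝ) (P : ℂ × ℂ → ℂ × ℂ), 0 < ε ∧ Mero2On₂ P (Metric.ball y₁ ε ×ˢ Metric.ball t₀ ε) ∧
      ∀ z ∈ Metric.ball y₁ ε ×ˢ Metric.ball t₀ ε, z ∈ G.utube F₀ →
        Mero2EqAt₂ P (G.maxExt F₀) z := by
  obtain ⟨P, hP, hev⟩ := h
  obtain ⟨ε, hε, hball⟩ := Metric.eventually_nhds_iff_ball.1 (hP.eventually.and hev)
  rw [← ball_prod_same] at hball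
  exact ⟨ε, P, hε, mero2On₂_iff.2 fun z hz => (hball z hz).1, fun z hz => (hball z hz).2⟩

theorem Good.of_bidisc {y₁ t₀ : ℂ} {ε δ : ℝ} (hε : 0 < ε) (hδ : 0 < δ) {P : ℂ × ℂ → ℂ × ℂ}
    (hP : Mero2On₂ P (Metric.ball y₁ ε ×ˢ Metric.ball t₀ δ))
    (h : ∀ z ∈ Metric.ball y₁ ε ×ˢ Metric.ball t₀ δ, z ∈ G.utube F₀ →
      Mero2EqAt₂ P (G.maxExt F₀) z) : G.Good F₀ y₁ t₀ := by
  have hopen : IsOpen (Metric.ball y₁ ε ×ˢ Metric.ball t₀ δ) := Metric.isOpen_ball.prod Metric.isOpen_ball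
  have hmem : (y₁, t₀) ∈ Metric.ball y₁ ε ×ˢ Metric.ball t₀ δ :=
    ⟨Metric.mem_ball_self hε, Metric.mem_ball_self hδ⟩
  exact ⟨P, mero2On₂_iff.1 hP _ hmem, Filter.Eventually.mono (hopen.mem_nhds hmem) fun z hz => h z hz⟩

/-- **Criterion.**  `P` meromorphic on a bidisc about `(y₁,t₀)`; the widths are `≥ b` over the `t`-disc, where `b > Im y₁ - ε`; `P` has the germ of the
maximal extension at ONE point `z₀` of the bidisc with `-3s/2 < Im y < b`.  Then `(y₁,t₀)` is good (with this `P`). -/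
theorem s4c_good_of_low (hB : G.IsBase F₀) {y₁ t₀ : ℂ} {ε δ b : ℝ} (hε : 0 < ε) (hδ : 0 < δ)
    (hδr : Metric.ball t₀ δ ⊆ Metric.ball (0 : ℂ) G.r₁) {P : ℂ × ℂ → ℂ × ℂ}
    (hP : Mero2On₂ P (Metric.ball y₁ ε ×ˢ Metric.ball t₀ δ))
    (hb : ∀ t ∈ Metric.ball t₀ δ, ENNReal.ofReal b ≤ G.width F₀ t) {z₀ : ℂ × ℂ}
    (hz₀ : z₀ ∈ Metric.ball y₁ ε ×ˢ Metric.ball t₀ δ) (hz₀b : z₀.1.im < b)
    (hz₀s : -(3 * G.s / 2) < z₀.1.im) (h : Mero2EqAt₂ P (G.maxExt F₀) z₀) :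
    ∀ z ∈ Metric.ball y₁ ε ×ˢ Metric.ball t₀ δ, z ∈ G.utube F₀ → Mero2EqAt₂ P (G.maxExt F₀) z := by
  have hs := G.s4c_s_pos
  have hm := maxExt_mero hB
  -- Step 1
  have hU₁c : IsPreconnected ((Metric.ball y₁ ε ∩ hband (-(3 * G.s / 2)) b) ×ˢ Metric.ball t₀ δ) :=
    s4c_isPreconnected_box (s4c_convex_ball_inter_hband _ _ _ _) (convex_ball _ _)
  have hU₁u : (Metric.ball y₁ ε ∩ hband (-(3 * G.s / 2)) b) ×ˢ Metric.ball t₀ δ ⊆ G.utube F₀ :=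
    fun w hw => box_subset_utube hb (fun t ht => hB.width_pos (hδr ht)) ⟨hw.1.2, hw.2⟩
  have hU₁P : (Metric.ball y₁ ε ∩ hband (-(3 * G.s / 2)) b) ×ˢ Metric.ball t₀ δ ⊆
      Metric.ball y₁ ε ×ˢ Metric.ball t₀ δ := fun w hw => ⟨hw.1.1, hw.2⟩
  have step1 := Mero2On₂.eqAt_of_isPreconnected hU₁c (hP.mono hU₁P) (hm.mono hU₁u)
    (z₀ := z₀) ⟨⟨hz₀.1, hz₀s, hz₀b⟩, hz₀.2⟩ h
  -- Step 2
  intro z hz hzu
  by_cases hzb : z.1.im < b
  · exact step1 z ⟨⟨hz.1, hzu.1, hzb⟩, hz.2⟩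
  · obtain ⟨b'', ε'', F, hb'', hzb'', hε'', hF⟩ := exists_ext_of_mem_utube hzu
    have hU₂c : IsPreconnected ((Metric.ball y₁ ε ∩ hband (-(3 * G.s / 2)) b'') ×ˢ
        (Metric.ball z.2 ε'' ∩ Metric.ball t₀ δ)) :=
      s4c_isPreconnected_box (s4c_convex_ball_inter_hband _ _ _ _)
        ((convex_ball _ _).inter (convex_ball _ _))
    have hU₂u : (Metric.ball y₁ ε ∩ hband (-(3 * G.s / 2)) b'') ×ˢ
        (Metric.ball z.2 ε'' ∩ Metric.ball t₀ δ) ⊆ G.utube F₀ :=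
      fun w hw => box_subset_utube (V := Metric.ball z.2 ε'' ∩ Metric.ball t₀ δ)
        (fun t ht => hF.le_width hB ht.1) (fun t ht => hB.width_pos (hδr ht.2)) ⟨hw.1.2, hw.2⟩
    have hU₂P : (Metric.ball y₁ ε ∩ hband (-(3 * G.s / 2)) b'') ×ˢ
        (Metric.ball z.2 ε'' ∩ Metric.ball t₀ δ) ⊆ Metric.ball y₁ ε ×ˢ Metric.ball t₀ δ :=
      fun w hw => ⟨hw.1.1, hw.2.2⟩
    have hz₁ : ((z₀.1, z.2) : ℂ × ℂ) ∈ (Metric.ball y₁ ε ∩ hband (-(3 * G.s / 2)) b'') ×ˢ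
        (Metric.ball z.2 ε'' ∩ Metric.ball t₀ δ) :=
      ⟨⟨hz₀.1, hz₀s, by
        show z₀.1.im < b''
        linarith [not_lt.1 hzb]⟩, Metric.mem_ball_self hε'', hz.2⟩
    exact Mero2On₂.eqAt_of_isPreconnected hU₂c (hP.mono hU₂P) (hm.mono hU₂u) hz₁
      (step1 _ ⟨⟨hz₀.1, hz₀s, hz₀b⟩, hz.2⟩) z
      ⟨⟨hz.1, hzu.1, hzb''⟩, Metric.mem_ball_self hε'', hz.2⟩

/-- a point below `y₁` at height `m`. -/
theorem s4c_mem_ball_of_im {y₁ : ℂ} {ε m : ℝ} (h1 : y₁.im - ε < m) (h2 : m < y₁.im + ε) :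
    ((y₁.re : ℂ) + m * I) ∈ Metric.ball y₁ ε := by
  rw [mem_ball_iff_norm]
  have e : ((y₁.re : ℂ) + m * I) - y₁ = ((m - y₁.im : ℝ) : ℂ) * I := by
    apply Complex.ext <;> simp
  rw [e, norm_mul, Complex.norm_I, mul_one, Complex.norm_real, Real.norm_eq_abs, abs_lt]
  constructor <;> linarith

theorem s4c_im_re_add (x m : ℝ) : ((x : ℂ) + m * I).im = m := by simp

/-- the captain's patches are good points. -/
theorem s4c_good_of_jointPatch (hB : G.IsBase F₀) {y₁ t₀ : ℂ} (h : G.JointPatchAt F₀ y₁ t₀) :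
    G.Good F₀ y₁ t₀ := by
  have hs := G.s4c_s_pos
  obtain ⟨ε, P, b, V, F, hε, hP, h1, h2, h3, ht₀, hF, hEq⟩ := h
  obtain ⟨δ₀, hδ₀, hδ₀V⟩ := Metric.isOpen_iff.1 hF.isOpen t₀ ht₀
  have hδ : 0 < min δ₀ ε := lt_min hδ₀ hε
  have hδV : Metric.ball t₀ (min δ₀ ε) ⊆ V :=
    (Metric.ball_subset_ball (min_le_left _ _)).trans hδ₀V
  have hδε : Metric.ball t₀ (min δ₀ ε) ⊆ Metric.ball t₀ ε := Metric.ball_subset_ball (min_le_right _ _)
  obtain ⟨m, hm1, hm2⟩ := exists_between (max_lt h1 h2)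
  have hm3 : y₁.im - ε < m := lt_of_le_of_lt (le_max_left _ _) hm1
  have hm4 : -(G.s / 2) < m := lt_of_le_of_lt (le_max_right _ _) hm1
  have hy₀ : ((y₁.re : ℂ) + m * I) ∈ Metric.ball y₁ ε := s4c_mem_ball_of_im hm3 (by linarith)
  have hP' : Mero2On₂ P (Metric.ball y₁ ε ×ˢ Metric.ball t₀ (min δ₀ ε)) :=
    hP.mono fun w hw => ⟨hw.1, hδε hw.2⟩
  have hband₀ : ((y₁.re : ℂ) + m * I) ∈ hband (-(G.s / 2)) b :=
    ⟨by rw [s4c_im_re_add]; exact hm4, by rw [s4c_im_re_add]; exact hm2⟩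
  have hgerm : Mero2EqAt₂ P (G.maxExt F₀) ((y₁.re : ℂ) + m * I, t₀) :=
    (hEq _ ⟨⟨hy₀, hband₀⟩, Metric.mem_ball_self hε, ht₀⟩).trans
      (maxExt_eqAt hB hF ⟨hband₀, ht₀⟩).symm
  refine Good.of_bidisc hε hδ hP' (s4c_good_of_low hB hε hδ (hδV.trans hF.sub) hP'
    (fun t ht => hF.le_width hB (hδV ht)) (z₀ := ((y₁.re : ℂ) + m * I, t₀))
    ⟨hy₀, Metric.mem_ball_self hδ⟩ ?_ ?_ hgerm)
  · show ((y₁.re : ℂ) + m * I).im < b
    rw [s4c_im_re_add]; exact hm2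
  · show -(3 * G.s / 2) < ((y₁.re : ℂ) + m * I).im
    rw [s4c_im_re_add]; linarith

/-- good points of the closure of the tube carry patches in the captain's sense. -/
theorem s4c_jointPatch_of_good (hB : G.IsBase F₀) {y₁ t₀ : ℂ} (h : G.Good F₀ y₁ t₀)
    (ht₀ : t₀ ∈ Metric.ball (0 : ℂ) G.r₁) (hy : -(G.s / 2) < y₁.im)
    (hw : ENNReal.ofReal y₁.im ≤ G.width F₀ t₀) : G.JointPatchAt F₀ y₁ t₀ := by
  have hs := G.s4c_s_pos
  obtain ⟨ε, P, hε, hP, hEq⟩ := h.exists_bidisc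
  obtain ⟨b, hb1, hb2⟩ := exists_between (max_lt (show y₁.im - ε < y₁.im by linarith) hy)
  have hb3 : y₁.im - ε < b := lt_of_le_of_lt (le_max_left _ _) hb1
  have hb4 : -(G.s / 2) < b := lt_of_le_of_lt (le_max_right _ _) hb1
  have hbw : ENNReal.ofReal b < G.width F₀ t₀ := by
    rcases le_or_gt b 0 with h0 | h0
    · rw [ENNReal.ofReal_of_nonpos h0]
      exact hB.width_pos ht₀
    · exact lt_of_lt_of_le ((ENNReal.ofReal_lt_ofReal_iff (by linarith)).2 hb2) hw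
  obtain ⟨V, F, ht₀V, hF⟩ := s4c_ext_of_lt hbw
  refine ⟨ε, P, b, V, F, hε, hP, hb3, hb4, hb2.le, ht₀V, hF, ?_⟩
  rintro z ⟨⟨hz1, hz2⟩, hz3, hz4⟩
  have hzu : z ∈ G.utube F₀ :=
    box_subset_utube (V := V) (fun t ht => hF.le_width hB ht)
      (fun t ht => hB.width_pos (hF.sub ht)) ⟨⟨by linarith [hz2.1], hz2.2⟩, hz4⟩
  exact (hEq z ⟨hz1, hz3⟩ hzu).trans (maxExt_eqAt hB hF ⟨hz2, hz4⟩)

/-- translation of a patch by `2πk`. -/
theorem s4c_patch_shift (hB : G.IsBase F₀) {y₁ t₀ : ℂ} {ε : ℝ} {P : ℂ × ℂ → ℂ × ℂ}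
    (hP : Mero2On₂ P (Metric.ball y₁ ε ×ˢ Metric.ball t₀ ε))
    (h : ∀ z ∈ Metric.ball y₁ ε ×ˢ Metric.ball t₀ ε, z ∈ G.utube F₀ →
      Mero2EqAt₂ P (G.maxExt F₀) z) (k : ℤ) :
    Mero2On₂ (fun w => P (shear (fun _ => 2 * π * (-k : ℤ)) 0 1 w))
        (Metric.ball (y₁ + 2 * π * k) ε ×ˢ Metric.ball t₀ ε) ∧
      ∀ z ∈ Metric.ball (y₁ + 2 * π * k) ε ×ˢ Metric.ball t₀ ε, z ∈ G.utube F₀ →
        Mero2EqAt₂ (fun w => P (shear (fun _ => 2 * π * (-k : ℤ)) 0 1 w)) (G.maxExt F₀) z := by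
  have hsh : ∀ w : ℂ × ℂ, shear (fun _ => 2 * π * (-k : ℤ)) 0 1 w = (w.1 + 2 * π * (-k : ℤ), w.2) :=
    fun w => by simp [shear]
  have hmem : ∀ z ∈ Metric.ball (y₁ + 2 * π * k) ε ×ˢ Metric.ball t₀ ε,
      shear (fun _ => 2 * π * (-k : ℤ)) 0 1 z ∈ Metric.ball y₁ ε ×ˢ Metric.ball t₀ ε := by
    rintro z ⟨hz1, hz2⟩
    rw [hsh]
    refine ⟨?_, hz2⟩
    rw [mem_ball_iff_norm] at hz1 ⊢
    have e : z.1 + 2 * π * (-k : ℤ) - y₁ = z.1 - (y₁ + 2 * π * k) := by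
      push_cast
      ring
    show ‖z.1 + 2 * π * (-k : ℤ) - y₁‖ < ε
    rw [e]
    exact hz1
  refine ⟨mero2On₂_iff.2 fun z hz =>
    Mero2At₂.comp_shear (mero2On₂_iff.1 hP _ (hmem z hz)) analyticAt_const one_ne_zero, ?_⟩
  intro z hz hzu
  have hzu' : shear (fun _ => 2 * π * (-k : ℤ)) 0 1 z ∈ G.utube F₀ := by
    rw [hsh]
    exact (utube_add_two_pi (-k)).2 hzu
  have h1 := Mero2EqAt₂.comp_shear (a := fun _ => 2 * π * (-k : ℤ)) (t₀ := 0) (r := 1) (z := z)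
    (h _ (hmem z hz) hzu') analyticAt_const one_ne_zero
  have h2 : (fun w => G.maxExt F₀ (shear (fun _ => 2 * π * (-k : ℤ)) 0 1 w)) =ᶠ[𝓝 z]
      G.maxExt F₀ := by
    filter_upwards [(isOpen_utube G F₀).mem_nhds hzu] with w hw
    rw [hsh]
    exact maxExt_add_two_pi hB hw (-k)
  exact h1.trans (h1.right.eqAt_of_eventuallyEq h2)

/-- periodicity. -/
theorem Good.add_two_pi (hB : G.IsBase F₀) {y₁ t₀ : ℂ} (h : G.Good F₀ y₁ t₀) (k : ℤ) :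
    G.Good F₀ (y₁ + 2 * π * k) t₀ := by
  obtain ⟨ε, P, hε, hP, hEq⟩ := h.exists_bidisc
  obtain ⟨h1, h2⟩ := s4c_patch_shift hB hP hEq k
  exact Good.of_bidisc hε hε h1 h2

/-- goodness is an open condition. -/
theorem Good.eventually {y₁ t₀ : ℂ} (h : G.Good F₀ y₁ t₀) :
    ∀ᶠ z in 𝓝 (y₁, t₀), G.Good F₀ z.1 z.2 := by
  obtain ⟨P, hP, hev⟩ := h
  filter_upwards [hP.eventually, hev.eventually_nhds] with z a b
  exact ⟨P, a, b⟩

end Good

section Glue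

/-- **Uniform radius.**  If all points of the horizontal line `Im y = H` over `t₂` are good, there is one `ε` such that every bidisc
`ball (x + iH) ε × ball t₂ ε` carries a patch.
Proof: `Good.exists_bidisc` at `x + iH`, `x ∈ [0,2π]`; finitely many discs `ball (x_i + iH) (ε_i/2)` cover the compact segment; `ε := min ε_i / 2`;
for general `x` translate by `2πk` (`maxExt_add_two_pi`, `utube_add_two_pi`, `Mero2EqAt₂.comp_shear` with `shear (fun _ => -2πk) 0 1`). -/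
theorem s4c_uniform_good (hB : G.IsBase F₀) {t₂ : ℂ} {H : ℝ}
    (hgood : ∀ y₁ : ℂ, y₁.im = H → G.Good F₀ y₁ t₂) :
    ∃ ε : ℝ, 0 < ε ∧ ∀ x : ℝ, ∃ P : ℂ × ℂ → ℂ × ℂ,
      Mero2On₂ P (Metric.ball ((x : ℂ) + H * I) ε ×ˢ Metric.ball t₂ ε) ∧
      ∀ z ∈ Metric.ball ((x : ℂ) + H * I) ε ×ˢ Metric.ball t₂ ε, z ∈ G.utube F₀ →
        Mero2EqAt₂ P (G.maxExt F₀) z := by
  have h1 : ∀ x : ℝ, ∃ (ε : ℝ) (P : ℂ × ℂ → ℂ × ℂ), 0 < ε ∧
      Mero2On₂ P (Metric.ball ((x : ℂ) + H * I) ε ×ˢ Metric.ball t₂ ε) ∧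
      ∀ z ∈ Metric.ball ((x : ℂ) + H * I) ε ×ˢ Metric.ball t₂ ε, z ∈ G.utube F₀ →
        Mero2EqAt₂ P (G.maxExt F₀) z := fun x =>
    (hgood _ (s4c_im_re_add x H)).exists_bidisc
  choose ε P hε hP hEq using h1
  have hK : IsCompact ((fun x : ℝ => (((x : ℂ) + H * I, t₂) : ℂ × ℂ)) '' Icc 0 (2 * π)) :=
    isCompact_Icc.image (by fun_prop)
  obtain ⟨δ, hδ, hleb⟩ := lebesgue_number_lemma_of_metric hK
    (c := fun x : ℝ => Metric.ball ((x : ℂ) + H * I) (ε x) ×ˢ Metric.ball t₂ (ε x))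
    (fun x => Metric.isOpen_ball.prod Metric.isOpen_ball)
    (by
      rintro _ ⟨x, -, rfl⟩
      exact mem_iUnion.2 ⟨x, Metric.mem_ball_self (hε x), Metric.mem_ball_self (hε x)⟩)
  -- patches of radius `δ` over `[0,2π]`
  have h2 : ∀ x ∈ Icc (0 : ℝ) (2 * π), ∃ P : ℂ × ℂ → ℂ × ℂ,
      Mero2On₂ P (Metric.ball ((x : ℂ) + H * I) δ ×ˢ Metric.ball t₂ δ) ∧
      ∀ z ∈ Metric.ball ((x : ℂ) + H * I) δ ×ˢ Metric.ball t₂ δ, z ∈ G.utube F₀ →
        Mero2EqAt₂ P (G.maxExt F₀) z := by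
    intro x hx
    obtain ⟨i, hi⟩ := hleb _ ⟨x, hx, rfl⟩
    rw [← ball_prod_same] at hi
    exact ⟨P i, (hP i).mono hi, fun z hz => hEq i z (hi hz)⟩
  refine ⟨δ, hδ, fun x => ?_⟩
  have hpi : 0 < 2 * π := Real.two_pi_pos
  have hx₀ : x - 2 * π * (⌊x / (2 * π)⌋ : ℤ) ∈ Icc (0 : ℝ) (2 * π) := by
    have e1 := Int.floor_le (x / (2 * π))
    have e2 := Int.lt_floor_add_one (x / (2 * π))
    rw [le_div_iff₀ hpi] at e1
    rw [div_lt_iff₀ hpi] at e2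
    constructor <;> nlinarith
  obtain ⟨P₀, hP₀, hEq₀⟩ := h2 _ hx₀
  obtain ⟨h3, h4⟩ := s4c_patch_shift hB hP₀ hEq₀ ⌊x / (2 * π)⌋
  have e : (((x - 2 * π * (⌊x / (2 * π)⌋ : ℤ) : ℝ) : ℂ) + H * I) + 2 * π * (⌊x / (2 * π)⌋ : ℤ)
      = (x : ℂ) + H * I := by
    push_cast
    ring
  rw [e] at h3 h4
  exact ⟨_, h3, h4⟩

theorem s4c_H_ge (hB : G.IsBase F₀) {t₂ : ℂ} (ht₂ : t₂ ∈ Metric.ball (0 : ℂ) G.r₁) {H : ℝ}
    (hH : G.width F₀ t₂ = ENNReal.ofReal H) : 3 * G.s / 2 ≤ H := by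
  have hs := G.s4c_s_pos
  have h1 := hB.le_width ht₂
  rw [hH] at h1
  by_contra hcon
  have h2 : ENNReal.ofReal H < ENNReal.ofReal (3 * G.s / 2) :=
    (ENNReal.ofReal_lt_ofReal_iff (by linarith)).2 (not_le.1 hcon)
  exact absurd h1 (not_le.2 h2)

/-- two patches centred on the wall agree on the overlap of their bidiscs.
Proof: the overlap `(ball (x+iH) ε ∩ ball (x'+iH) ε) ×ˢ ball t₂ ε` is convex; if it is nonempty it contains a point `(y*,t₂)` with `Im y* < H` (the intersection of the two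
discs is open and symmetric in the line `Im y = H`) and `Im y* > -3s/2` (choose it close to the line); this point lies in the tube. -/
theorem s4c_patch_overlap (hB : G.IsBase F₀) {t₂ : ℂ} (ht₂ : t₂ ∈ Metric.ball (0 : ℂ) G.r₁) {H : ℝ}
    (hH : G.width F₀ t₂ = ENNReal.ofReal H) {ε : ℝ} (hε : 0 < ε) {x x' : ℝ} {P P' : ℂ × ℂ → ℂ × ℂ}
    (hP : Mero2On₂ P (Metric.ball ((x : ℂ) + H * I) ε ×ˢ Metric.ball t₂ ε))
    (hP' : Mero2On₂ P' (Metric.ball ((x' : ℂ) + H * I) ε ×ˢ Metric.ball t₂ ε))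
    (h : ∀ z ∈ Metric.ball ((x : ℂ) + H * I) ε ×ˢ Metric.ball t₂ ε, z ∈ G.utube F₀ →
      Mero2EqAt₂ P (G.maxExt F₀) z)
    (h' : ∀ z ∈ Metric.ball ((x' : ℂ) + H * I) ε ×ˢ Metric.ball t₂ ε, z ∈ G.utube F₀ →
      Mero2EqAt₂ P' (G.maxExt F₀) z) :
    ∀ z ∈ (Metric.ball ((x : ℂ) + H * I) ε ×ˢ Metric.ball t₂ ε) ∩
      (Metric.ball ((x' : ℂ) + H * I) ε ×ˢ Metric.ball t₂ ε), Mero2EqAt₂ P P' z := by
  have hs := G.s4c_s_pos
  have hHs := s4c_H_ge hB ht₂ hH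
  intro z hz
  -- the distance of the centres
  have hd : |x - x'| < 2 * ε := by
    have h1 : ‖z.1 - ((x : ℂ) + H * I)‖ < ε := mem_ball_iff_norm.1 hz.1.1
    have h2 : ‖z.1 - ((x' : ℂ) + H * I)‖ < ε := mem_ball_iff_norm.1 hz.2.1
    have e : ((x - x' : ℝ) : ℂ) = (z.1 - ((x' : ℂ) + H * I)) - (z.1 - ((x : ℂ) + H * I)) := by
      push_cast
      ring
    have h3 : |x - x'| = ‖((x - x' : ℝ) : ℂ)‖ := by rw [Complex.norm_real, Real.norm_eq_abs]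
    rw [h3, e]
    linarith [norm_sub_le (z.1 - ((x' : ℂ) + H * I)) (z.1 - ((x : ℂ) + H * I))]
  set η : ℝ := min ((ε - |x - x'| / 2) / 2) H with hη
  have hη0 : 0 < η := lt_min (by linarith) (by linarith)
  have hη1 : η ≤ (ε - |x - x'| / 2) / 2 := min_le_left _ _
  have hη2 : η ≤ H := min_le_right _ _
  set ys : ℂ := (((x + x') / 2 : ℝ) : ℂ) + ((H - η : ℝ) : ℂ) * I with hys
  have hysim : ys.im = H - η := s4c_im_re_add _ _
  have hb1 : ∀ x₁ : ℝ, |(x + x') / 2 - x₁| = |x - x'| / 2 → ys ∈ Metric.ball ((x₁ : ℂ) + H * I) ε := by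
    intro x₁ hx₁
    rw [mem_ball_iff_norm]
    have e : ys - ((x₁ : ℂ) + H * I) = (((x + x') / 2 - x₁ : ℝ) : ℂ) + ((-η : ℝ) : ℂ) * I := by
      rw [hys]
      push_cast
      ring
    rw [e]
    refine lt_of_le_of_lt (norm_add_le _ _) ?_
    rw [norm_mul, Complex.norm_I, mul_one, Complex.norm_real, Complex.norm_real, Real.norm_eq_abs,
      Real.norm_eq_abs, hx₁, abs_neg, abs_of_pos hη0]
    linarith
  have hy1 : ys ∈ Metric.ball ((x : ℂ) + H * I) ε := hb1 x (by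
    have : (x + x') / 2 - x = -((x - x') / 2) := by ring
    rw [this, abs_neg, abs_div, abs_of_pos (zero_lt_two' ℝ)])
  have hy2 : ys ∈ Metric.ball ((x' : ℂ) + H * I) ε := hb1 x' (by
    have : (x + x') / 2 - x' = (x - x') / 2 := by ring
    rw [this, abs_div, abs_of_pos (zero_lt_two' ℝ)])
  have hyu : ((ys, t₂) : ℂ × ℂ) ∈ G.utube F₀ := by
    refine ⟨?_, ?_⟩
    · show -(3 * G.s / 2) < ys.im
      rw [hysim]; linarith
    · show ENNReal.ofReal ys.im < G.width F₀ t₂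
      rw [hysim, hH]
      exact (ENNReal.ofReal_lt_ofReal_iff (by linarith)).2 (by linarith)
  have ht : t₂ ∈ Metric.ball t₂ ε := Metric.mem_ball_self hε
  have hOc : IsPreconnected ((Metric.ball ((x : ℂ) + H * I) ε ∩ Metric.ball ((x' : ℂ) + H * I) ε) ×ˢ
      Metric.ball t₂ ε) :=
    s4c_isPreconnected_box ((convex_ball _ _).inter (convex_ball _ _)) (convex_ball _ _)
  exact Mero2On₂.eqAt_of_isPreconnected hOc (hP.mono fun w hw => ⟨hw.1.1, hw.2⟩)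
    (hP'.mono fun w hw => ⟨hw.1.2, hw.2⟩) (z₀ := (ys, t₂)) ⟨⟨hy1, hy2⟩, ht⟩
    ((h _ ⟨hy1, ht⟩ hyu).trans (h' _ ⟨hy2, ht⟩ hyu).symm) z ⟨⟨hz.1.1, hz.2.1⟩, hz.1.2⟩

/-- **GLUE lemma (A3).**  At a finite wall `Im y = H = h_F(t₂)` not all points are good.
Proof.  `ε` from `s4c_uniform_good`.  Glue (`Mero2.exists_glue_pairs`, index type `Option ℝ`) `maxExt F₀` on `utube F₀` with the patches `P_x` on their bidiscs; compatibility by
the patch property and `s4c_patch_overlap`.  Let `V := {t ∈ ball t₂ ε ∩ ball 0 r₁ | ofReal (H - ε/2) < width F₀ t}` (open by `s4c_lsc`, contains `t₂`).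
`hband (-(s/2)) (H + ε/2) ×ˢ V` is covered: `Im y ≤ H - ε/2` in the tube, otherwise `(y,t) ∈ ball (Re y + iH) ε ×ˢ ball t₂ ε`.
`s4c_ext_of_mero` (germ of `F₀` at `(0,t)`: `maxExt_eqAt_base`) gives `ExtendsTo F₀ t₂ (H + ε/2)`, so `ofReal (H + ε/2) ≤ width F₀ t₂ = ofReal H`: contradiction
(`H ≥ 3s/2 > 0` by `IsBase.le_width`). -/
theorem s4c_glue (hB : G.IsBase F₀) {t₂ : ℂ} (ht₂ : t₂ ∈ Metric.ball (0 : ℂ) G.r₁) {H : ℝ}
    (hH : G.width F₀ t₂ = ENNReal.ofReal H) (hgood : ∀ y₁ : ℂ, y₁.im = H → G.Good F₀ y₁ t₂) :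
    False := by
  have hs := G.s4c_s_pos
  have hHs := s4c_H_ge hB ht₂ hH
  obtain ⟨ε, hε, hpatch⟩ := s4c_uniform_good hB hgood
  choose P hP hEq using hpatch
  have hm := maxExt_mero hB
  obtain ⟨Fg, hFg, hFgE⟩ := Mero2.exists_glue_pairs
    (fun i : Option ℝ => i.elim (G.utube F₀)
      (fun x => Metric.ball ((x : ℂ) + H * I) ε ×ˢ Metric.ball t₂ ε))
    (by
      rintro (_ | x)
      · exact isOpen_utube G F₀
      · exact Metric.isOpen_ball.prod Metric.isOpen_ball)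
    (fun i : Option ℝ => i.elim (G.maxExt F₀) P)
    (by
      rintro (_ | x)
      · exact hm
      · exact hP x)
    (by
      rintro (_ | x) (_ | x') z hz
      · exact (mero2On₂_iff.1 hm z hz.1).refl
      · exact (hEq x' z hz.2 hz.1).symm
      · exact hEq x z hz.1 hz.2
      · exact s4c_patch_overlap hB ht₂ hH hε (hP x) (hP x') (hEq x) (hEq x') z hz)
  have hVo : IsOpen ((Metric.ball t₂ ε ∩ Metric.ball (0 : ℂ) G.r₁) ∩
      G.width F₀ ⁻¹' Ioi (ENNReal.ofReal (H - ε / 2))) :=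
    (Metric.isOpen_ball.inter Metric.isOpen_ball).inter ((s4c_lsc G F₀).isOpen_preimage _)
  have ht₂V : t₂ ∈ (Metric.ball t₂ ε ∩ Metric.ball (0 : ℂ) G.r₁) ∩
      G.width F₀ ⁻¹' Ioi (ENNReal.ofReal (H - ε / 2)) := by
    refine ⟨⟨Metric.mem_ball_self hε, ht₂⟩, ?_⟩
    show ENNReal.ofReal (H - ε / 2) < G.width F₀ t₂
    rw [hH]
    exact (ENNReal.ofReal_lt_ofReal_iff (by linarith)).2 (by linarith)
  have hcov : hband (-(G.s / 2)) (H + ε / 2) ×ˢ ((Metric.ball t₂ ε ∩ Metric.ball (0 : ℂ) G.r₁) ∩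
      G.width F₀ ⁻¹' Ioi (ENNReal.ofReal (H - ε / 2))) ⊆
      ⋃ i : Option ℝ, i.elim (G.utube F₀)
        (fun x => Metric.ball ((x : ℂ) + H * I) ε ×ˢ Metric.ball t₂ ε) := by
    rintro z ⟨⟨hz1, hz2⟩, ⟨hz3, hz4⟩, hz5⟩
    have hz5' : ENNReal.ofReal (H - ε / 2) < G.width F₀ z.2 := hz5
    by_cases hc : z.1.im ≤ H - ε / 2
    · refine mem_iUnion.2 ⟨none, ?_⟩
      exact ⟨by linarith, lt_of_le_of_lt (ENNReal.ofReal_le_ofReal hc) hz5'⟩
    · refine mem_iUnion.2 ⟨some z.1.re, ?_, hz3⟩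
      rw [mem_ball_iff_norm]
      have e : z.1 - ((z.1.re : ℂ) + H * I) = ((z.1.im - H : ℝ) : ℂ) * I := by
        apply Complex.ext <;> simp
      rw [e, norm_mul, Complex.norm_I, mul_one, Complex.norm_real, Real.norm_eq_abs, abs_lt]
      constructor <;> linarith [not_le.1 hc]
  have hext := s4c_ext_of_mero hB (b := H + ε / 2) (by linarith) hVo
    (fun t ht => ht.1.2) (hFg.mono hcov) (fun t ht => by
      have h0i : ((0, t) : ℂ × ℂ) ∈ G.ini := by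
        refine ⟨?_, ht.1.2⟩
        show |(0 : ℂ).im| < 3 * G.s / 2
        simp only [Complex.zero_im, abs_zero]
        linarith
      exact (hFgE none _ (ini_subset_utube hB h0i)).trans (maxExt_eqAt_base hB h0i))
  have hle := s4c_le_width_of_ext (by linarith) ⟨_, _, ht₂V, hext⟩
  rw [hH] at hle
  have hlt : ENNReal.ofReal H < ENNReal.ofReal (H + ε / 2) :=
    (ENNReal.ofReal_lt_ofReal_iff (by linarith)).2 (by linarith)
  exact absurd hle (not_le.2 hlt)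

/-- the contrapositive form used in the wall analysis. -/
theorem s4c_exists_bad (hB : G.IsBase F₀) {t₂ : ℂ} (ht₂ : t₂ ∈ Metric.ball (0 : ℂ) G.r₁) {H : ℝ}
    (hH : G.width F₀ t₂ = ENNReal.ofReal H) : ∃ y₁ : ℂ, y₁.im = H ∧ ¬ G.Good F₀ y₁ t₂ := by
  by_contra hcon
  push Not at hcon
  exact s4c_glue hB ht₂ hH hcon

end Glue

end Glance

end Claimed.Agent.R269
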