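/-
Row 269, P1 Section 4, unit 4C, file WidthRelA: the GEOMETRY of Lemma 4.1 on the initial domain.   Statements: helper19.
LEAF PACKAGES: LF-S4-4C-relalg (section Alg: pure algebra / closure), LF-S4-4C-incid (section Incid), LF-S4-4C-nz (section NZ).
No paper reading; everything is a computation with the fields of `Glance`.

Isotropic coordinates of a point `v = (x₁,x₂)`: `zc v = x₁ + i x₂`, `wc v = x₁ - i x₂`.  The line with chart coordinates `(E,P) = (exp 2iΘ, p exp iΘ)` is `zc + E wc = 2P`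
(indeed `cos Θ x₁ + sin Θ x₂ = (zc e^{-iΘ} + wc e^{iΘ})/2`).
  `meetL l₁ l₂`      the intersection point of two lines
  `reflL a b τ`      the reflection, at the point `b` with tangent direction `τ`, of the line through `a` and `b`:
                     `E₀ = -(zc a - zc b)/(wc a - wc b)`, `E₁ = (zc τ/wc τ)²/E₀`, `P₁ = (zc b + E₁ wc b)/2`.
  shifts             `sh q (y,t) = (y + q t, t) = shear (fun t => q * t) 0 1 (y,t)`.

FACTS.  With `ψ = ψm z = (Θ(y-t/2,t) + Θ(y+t/2,t))/2`, `d = (Θ(y+t/2,t) - Θ(y-t/2,t))/2`, `X0 z = h(ψ) n_ψ + h'(ψ) e_ψ`: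
  `zc (X0 z) = (h(ψ) + i h'(ψ)) e^{iψ}`, `wc (X0 z) = (h(ψ) - i h'(ψ)) e^{-iψ}`;
  `refl_in` at `y₀ = y - t/2` says `p(y-t/2,t) = h(ψ) cos d - h'(ψ) sin d`, which is `zc + E wc = 2P` for `(E,P) = L0 (y-t/2,t)` (multiply by `2 e^{i(ψ-d)}`);
  `refl_out` gives the same for `L0 (y+t/2,t)`;
  `∂_y X0 = (h + h'')(ψ) ∂_yψ · e_ψ`, `zc e_ψ = i e^{iψ}`, `wc e_ψ = -i e^{-iψ}`, so `(zc τ/wc τ)² = e^{4iψ} = E(y-t/2,t) E(y+t/2,t)`.
-/
import Claimed.Agent.R269.S4.WidthMax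

set_option autoImplicit false

open Complex ComplexConjugate Filter Topology Set
open scoped ENNReal Real

namespace Claimed.Agent.R269

/-- isotropic coordinate `x₁ + i x₂`. -/
noncomputable def zc (v : ℂ × ℂ) : ℂ := v.1 + I * v.2

/-- isotropic coordinate `x₁ - i x₂`. -/
noncomputable def wc (v : ℂ × ℂ) : ℂ := v.1 - I * v.2

/-- the point with isotropic coordinates `(Z,W)`. -/
noncomputable def ofZW (Z W : ℂ) : ℂ × ℂ := ((Z + W) / 2, (Z - W) / (2 * I))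

/-- intersection of two lines in the chart `(E,P)`. -/
noncomputable def meetL (l₁ l₂ : ℂ × ℂ) : ℂ × ℂ :=
  ofZW (2 * l₁.2 - l₁.1 * (2 * (l₁.2 - l₂.2) / (l₁.1 - l₂.1))) (2 * (l₁.2 - l₂.2) / (l₁.1 - l₂.1))

/-- the `E`-coordinate of the reflected line. -/
noncomputable def reflE (a b τ : ℂ × ℂ) : ℂ := (zc τ / wc τ) ^ 2 / (-(zc a - zc b) / (wc a - wc b))

/-- reflection at `b` (tangent `τ`) of the line through `a`, `b`. -/
noncomputable def reflL (a b τ : ℂ × ℂ) : ℂ × ℂ := (reflE a b τ, (zc b + reflE a b τ * wc b) / 2)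

/-- the shift `(y,t) ↦ (y + q t, t)`. -/
noncomputable def sh (q : ℂ) : ℂ × ℂ → ℂ × ℂ := shear (fun t => q * t) 0 1

theorem sh_apply (q : ℂ) (z : ℂ × ℂ) : sh q z = (z.1 + q * z.2, z.2) := by
  simp [sh, shear]

/-- `∂_y` of a pair. -/
noncomputable def pdy₂ (F : ℂ × ℂ → ℂ × ℂ) (z : ℂ × ℂ) : ℂ × ℂ :=
  (pdy (fun w => (F w).1) z, pdy (fun w => (F w).2) z)

section Alg

theorem ofZW_zc_wc (v : ℂ × ℂ) : ofZW (zc v) (wc v) = v := by
  unfold ofZW zc wc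
  ext
  · simp
  · simp only
    have : (2 : ℂ) * I ≠ 0 := by simp
    field_simp
    ring

/-- a point on two different lines is their intersection. -/
theorem meetL_eq {v l₁ l₂ : ℂ × ℂ} (h₁ : zc v + l₁.1 * wc v = 2 * l₁.2)
    (h₂ : zc v + l₂.1 * wc v = 2 * l₂.2) (hne : l₁.1 ≠ l₂.1) : meetL l₁ l₂ = v := by
  have hne' : l₁.1 - l₂.1 ≠ 0 := sub_ne_zero.2 hne
  have hw : 2 * (l₁.2 - l₂.2) / (l₁.1 - l₂.1) = wc v := by
    rw [div_eq_iff hne']
    linear_combination h₂ - h₁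
  unfold meetL
  rw [hw]
  have hz : 2 * l₁.2 - l₁.1 * wc v = zc v := by linear_combination -h₁
  rw [hz, ofZW_zc_wc]

/-- the reflection law in the chart. -/
theorem reflL_eq {a b τ l₀ l₁ : ℂ × ℂ} (ha : zc a + l₀.1 * wc a = 2 * l₀.2)
    (hb : zc b + l₀.1 * wc b = 2 * l₀.2) (hb₁ : zc b + l₁.1 * wc b = 2 * l₁.2)
    (hne : wc a ≠ wc b) (h0 : l₀.1 ≠ 0) (hτ : wc τ ≠ 0) (hrefl : zc τ ^ 2 = l₀.1 * l₁.1 * wc τ ^ 2) :
    reflL a b τ = l₁ := by
  have hne' : wc a - wc b ≠ 0 := sub_ne_zero.2 hne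
  have hE0 : -(zc a - zc b) / (wc a - wc b) = l₀.1 := by
    rw [div_eq_iff hne']
    linear_combination hb - ha
  have hE : reflE a b τ = l₁.1 := by
    unfold reflE
    rw [hE0, div_pow, hrefl]
    field_simp
  unfold reflL
  rw [hE]
  ext
  · rfl
  · simp only
    linear_combination hb₁ / 2

theorem Mero2At₂.meetL {F F' : ℂ × ℂ → ℂ × ℂ} {z : ℂ × ℂ} (hF : Mero2At₂ F z) (hF' : Mero2At₂ F' z) :
    Mero2At₂ (fun w => meetL (F w) (F' w)) z := by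
  have hW : Mero2At (fun w => 2 * ((F w).2 - (F' w).2) / ((F w).1 - (F' w).1)) z :=
    ((mero2At_const 2 z).mul (hF.2.sub hF'.2)).div (hF.1.sub hF'.1)
  have hZ : Mero2At (fun w => 2 * (F w).2 - (F w).1 * (2 * ((F w).2 - (F' w).2) / ((F w).1 - (F' w).1))) z :=
    ((mero2At_const 2 z).mul hF.2).sub (hF.1.mul hW)
  exact ⟨(hZ.add hW).div (mero2At_const 2 z), (hZ.sub hW).div (mero2At_const (2 * I) z)⟩

theorem Mero2At₂.s4c_zc {F : ℂ × ℂ → ℂ × ℂ} {z : ℂ × ℂ} (hF : Mero2At₂ F z) :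
    Mero2At (fun w => zc (F w)) z := hF.1.add ((mero2At_const I z).mul hF.2)

theorem Mero2At₂.s4c_wc {F : ℂ × ℂ → ℂ × ℂ} {z : ℂ × ℂ} (hF : Mero2At₂ F z) :
    Mero2At (fun w => wc (F w)) z := hF.1.sub ((mero2At_const I z).mul hF.2)

theorem Mero2At₂.reflL {A B T : ℂ × ℂ → ℂ × ℂ} {z : ℂ × ℂ} (hA : Mero2At₂ A z) (hB : Mero2At₂ B z)
    (hT : Mero2At₂ T z) : Mero2At₂ (fun w => reflL (A w) (B w) (T w)) z := by
  have hE : Mero2At (fun w => reflE (A w) (B w) (T w)) z :=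
    ((hT.s4c_zc.div hT.s4c_wc).pow 2).div ((hA.s4c_zc.sub hB.s4c_zc).neg.div (hA.s4c_wc.sub hB.s4c_wc))
  exact ⟨hE, (hB.s4c_zc.add (hE.mul hB.s4c_wc)).div (mero2At_const 2 z)⟩

theorem Mero2At₂.pdy₂ {F : ℂ × ℂ → ℂ × ℂ} {z : ℂ × ℂ} (hF : Mero2At₂ F z) : Mero2At₂ (pdy₂ F) z :=
  ⟨hF.1.pdy, hF.2.pdy⟩

theorem Mero2At₂.comp_sh {F : ℂ × ℂ → ℂ × ℂ} {q : ℂ} {z : ℂ × ℂ} (hF : Mero2At₂ F (sh q z)) :
    Mero2At₂ (fun w => F (sh q w)) z :=
  Mero2At₂.comp_shear hF (by fun_prop) one_ne_zero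

theorem pdy₂_congr_nhds {F P : ℂ × ℂ → ℂ × ℂ} {z : ℂ × ℂ} (h : F =ᶠ[𝓝 z] P) :
    pdy₂ F z = pdy₂ P z :=
  Prod.ext (pdy_congr_nhds (F := fun w => (F w).1) (P := fun w => (P w).1)
      (h.mono fun w hw => by simp only [hw]))
    (pdy_congr_nhds (F := fun w => (F w).2) (P := fun w => (P w).2)
      (h.mono fun w hw => by simp only [hw]))

theorem continuous_sh (q : ℂ) : Continuous (sh q) := by
  have : sh q = fun z : ℂ × ℂ => (z.1 + q * z.2, z.2) := funext (sh_apply q)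
  rw [this]
  fun_prop

end Alg

namespace Glance

variable (G : Glance)

section Incid

theorem s4c_exp_I_mul (ψ : ℂ) : Complex.exp (I * ψ) = Complex.cos ψ + Complex.sin ψ * I := by
  rw [mul_comm, Complex.exp_mul_I]

theorem s4c_exp_neg_I_mul (ψ : ℂ) :
    Complex.exp (-(I * ψ)) = Complex.cos ψ - Complex.sin ψ * I := by
  have : -(I * ψ) = (-ψ) * I := by ring
  rw [this, Complex.exp_mul_I, Complex.cos_neg, Complex.sin_neg]
  ring

theorem s4c_zc_suppPt (h : ℂ → ℂ) (ψ : ℂ) :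
    zc (suppPt h ψ) = (h ψ + I * deriv h ψ) * Complex.exp (I * ψ) := by
  rw [s4c_exp_I_mul]
  unfold zc suppPt
  simp only
  linear_combination (-(deriv h ψ) * Complex.sin ψ) * Complex.I_mul_I

theorem s4c_wc_suppPt (h : ℂ → ℂ) (ψ : ℂ) :
    wc (suppPt h ψ) = (h ψ - I * deriv h ψ) * Complex.exp (-(I * ψ)) := by
  rw [s4c_exp_neg_I_mul]
  unfold wc suppPt
  simp only
  linear_combination (-(deriv h ψ) * Complex.sin ψ) * Complex.I_mul_I

/-- the incidence identity for the incoming line. -/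
theorem s4c_incid_alg_in (H H' θ θ' : ℂ) :
    (H + I * H') * Complex.exp (I * ((θ + θ') / 2))
        + Complex.exp (2 * I * θ) * ((H - I * H') * Complex.exp (-(I * ((θ + θ') / 2))))
      = 2 * ((H * Complex.cos ((θ' - θ) / 2) - H' * Complex.sin ((θ' - θ) / 2))
          * Complex.exp (I * θ)) := by
  have e1 : Complex.exp ((θ' - θ) / 2 * I) * Complex.exp (I * θ)
      = Complex.exp (I * ((θ + θ') / 2)) := by
    rw [← Complex.exp_add]
    congr 1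
    ring
  have e2 : Complex.exp (-((θ' - θ) / 2) * I) * Complex.exp (I * θ)
      = Complex.exp (2 * I * θ) * Complex.exp (-(I * ((θ + θ') / 2))) := by
    rw [← Complex.exp_add, ← Complex.exp_add]
    congr 1
    ring
  rw [Complex.cos, Complex.sin]
  linear_combination (-(H + I * H')) * e1 - (H - I * H') * e2

/-- the incidence identity for the outgoing line. -/
theorem s4c_incid_alg_out (H H' θ θ' : ℂ) :
    (H + I * H') * Complex.exp (I * ((θ + θ') / 2))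
        + Complex.exp (2 * I * θ') * ((H - I * H') * Complex.exp (-(I * ((θ + θ') / 2))))
      = 2 * ((H * Complex.cos ((θ' - θ) / 2) + H' * Complex.sin ((θ' - θ) / 2))
          * Complex.exp (I * θ')) := by
  have e1 : Complex.exp (-((θ' - θ) / 2) * I) * Complex.exp (I * θ')
      = Complex.exp (I * ((θ + θ') / 2)) := by
    rw [← Complex.exp_add]
    congr 1
    ring
  have e2 : Complex.exp ((θ' - θ) / 2 * I) * Complex.exp (I * θ')
      = Complex.exp (2 * I * θ') * Complex.exp (-(I * ((θ + θ') / 2))) := by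
    rw [← Complex.exp_add, ← Complex.exp_add]
    congr 1
    ring
  rw [Complex.cos, Complex.sin]
  linear_combination (-(H + I * H')) * e1 - (H - I * H') * e2

theorem s4c_sh_neg_half (z : ℂ × ℂ) : sh (-1 / 2) z = (z.1 - z.2 / 2, z.2) := by
  rw [sh_apply]
  congr 1
  ring

theorem s4c_sh_half (z : ℂ × ℂ) : sh (1 / 2) z = (z.1 + z.2 / 2, z.2) := by
  rw [sh_apply]
  congr 1
  ring

/-- the impact `X0 (y,t)` lies on the line `L0 (y - t/2, t)`. -/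
theorem s4c_incid_minus {z : ℂ × ℂ} (hy : z.1 - z.2 / 2 ∈ hstrip G.s)
    (ht : z.2 ∈ Metric.ball (0 : ℂ) G.r₁) :
    zc (G.X0 z) + (G.L0 (sh (-1 / 2) z)).1 * wc (G.X0 z) = 2 * (G.L0 (sh (-1 / 2) z)).2 := by
  have h1 := G.refl_in _ hy _ ht
  have e : z.1 - z.2 / 2 + z.2 = z.1 + z.2 / 2 := by ring
  rw [e] at h1
  rw [s4c_sh_neg_half, s4c_X0_eq, s4c_zc_suppPt, s4c_wc_suppPt]
  unfold L0
  simp only
  rw [h1]
  exact s4c_incid_alg_in _ _ _ _

/-- the impact `X0 (y,t)` lies on the line `L0 (y + t/2, t)`. -/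
theorem s4c_incid_plus {z : ℂ × ℂ} (hy : z.1 - z.2 / 2 ∈ hstrip G.s)
    (ht : z.2 ∈ Metric.ball (0 : ℂ) G.r₁) :
    zc (G.X0 z) + (G.L0 (sh (1 / 2) z)).1 * wc (G.X0 z) = 2 * (G.L0 (sh (1 / 2) z)).2 := by
  have h1 := G.refl_out _ hy _ ht
  have e : z.1 - z.2 / 2 + z.2 = z.1 + z.2 / 2 := by ring
  rw [e] at h1
  rw [s4c_sh_half, s4c_X0_eq, s4c_zc_suppPt, s4c_wc_suppPt]
  unfold L0
  simp only
  rw [h1]
  exact s4c_incid_alg_out _ _ _ _

/-- the speed `κ = (h + h'')(ψ) ∂_yψ` of the impact. -/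
noncomputable def κm (z : ℂ × ℂ) : ℂ :=
  (G.hc (G.ψm z) + deriv (deriv G.hc) (G.ψm z)) * pdy G.ψm z

/-- `∂_y X0 = κ e_ψ`. -/
theorem s4c_pdy_X0 {z : ℂ × ℂ} (hz : z ∈ G.ini) :
    pdy₂ G.X0 z = (G.κm z * (-Complex.sin (G.ψm z)), G.κm z * Complex.cos (G.ψm z)) := by
  have hψ : HasDerivAt (fun y => G.ψm (y, z.2)) (pdy G.ψm z) z.1 :=
    (differentiableAt_slice_fst (G.s4c_ψm_analytic z hz).differentiableAt).hasDerivAt
  have hmem := G.s4c_ψm_mem hz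
  have hh : HasDerivAt G.hc (deriv G.hc (G.ψm (z.1, z.2))) (G.ψm (z.1, z.2)) :=
    (G.s4c_hc_analytic _ hmem).differentiableAt.hasDerivAt
  have hh' : HasDerivAt (deriv G.hc) (deriv (deriv G.hc) (G.ψm (z.1, z.2))) (G.ψm (z.1, z.2)) :=
    (G.s4c_deriv_hc_analytic _ hmem).differentiableAt.hasDerivAt
  have h1 : HasDerivAt (fun y => G.hc (G.ψm (y, z.2))) (deriv G.hc (G.ψm z) * pdy G.ψm z) z.1 :=
    hh.comp z.1 hψ
  have h2 : HasDerivAt (fun y => deriv G.hc (G.ψm (y, z.2)))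
      (deriv (deriv G.hc) (G.ψm z) * pdy G.ψm z) z.1 :=
    HasDerivAt.comp (h₂ := deriv G.hc) (h := fun y => G.ψm (y, z.2)) z.1 hh' hψ
  have hc := hψ.ccos
  have hs := hψ.csin
  have d1 := ((h1.mul hc).sub (h2.mul hs)).deriv
  have d2 := ((h1.mul hs).add (h2.mul hc)).deriv
  unfold pdy₂ κm
  ext
  · show deriv (fun y => (G.X0 (y, z.2)).1) z.1 = _
    refine Eq.trans d1 ?_
    simp only
    ring
  · show deriv (fun y => (G.X0 (y, z.2)).2) z.1 = _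
    refine Eq.trans d2 ?_
    simp only
    ring

theorem s4c_wc_pdy_X0 {z : ℂ × ℂ} (hz : z ∈ G.ini) :
    wc (pdy₂ G.X0 z) = -I * G.κm z * Complex.exp (-(I * G.ψm z)) := by
  rw [G.s4c_pdy_X0 hz, s4c_exp_neg_I_mul]
  unfold wc
  simp only
  linear_combination (-(G.κm z) * Complex.sin (G.ψm z)) * Complex.I_mul_I

theorem s4c_zc_pdy_X0 {z : ℂ × ℂ} (hz : z ∈ G.ini) :
    zc (pdy₂ G.X0 z) = I * G.κm z * Complex.exp (I * G.ψm z) := by
  rw [G.s4c_pdy_X0 hz, s4c_exp_I_mul]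
  unfold zc
  simp only
  linear_combination (-(G.κm z) * Complex.sin (G.ψm z)) * Complex.I_mul_I

/-- the reflection law for the tangent `τ = ∂_y X0`. -/
theorem s4c_refl_law {z : ℂ × ℂ} (hz : z ∈ G.ini) :
    zc (pdy₂ G.X0 z) ^ 2
      = (G.L0 (sh (-1 / 2) z)).1 * (G.L0 (sh (1 / 2) z)).1 * wc (pdy₂ G.X0 z) ^ 2 := by
  rw [G.s4c_zc_pdy_X0 hz, G.s4c_wc_pdy_X0 hz, s4c_sh_neg_half, s4c_sh_half]
  unfold L0
  simp only
  have e : Complex.exp (I * G.ψm z) ^ 2 = Complex.exp (2 * I * G.Θ (z.1 - z.2 / 2) z.2)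
      * Complex.exp (2 * I * G.Θ (z.1 + z.2 / 2) z.2) * Complex.exp (-(I * G.ψm z)) ^ 2 := by
    rw [← Complex.exp_nat_mul, ← Complex.exp_nat_mul, ← Complex.exp_add, ← Complex.exp_add]
    congr 1
    unfold ψm
    push_cast
    ring
  linear_combination (I * G.κm z) ^ 2 * e

theorem s4c_κm_analytic : AnalyticOnNhd ℂ G.κm G.ini := by
  intro z hz
  have hψ := G.s4c_ψm_analytic z hz
  have h1 : AnalyticAt ℂ (fun w => G.hc (G.ψm w)) z :=
    (G.s4c_hc_analytic _ (G.s4c_ψm_mem hz)).comp hψ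
  have h2 : AnalyticAt ℂ (fun w => deriv (deriv G.hc) (G.ψm w)) z :=
    (G.s4c_deriv_hc_analytic.deriv _ (G.s4c_ψm_mem hz)).comp hψ
  exact (h1.add h2).mul (analyticAt_pdy hψ)

theorem s4c_ψm_zero (y : ℂ) : G.ψm (y, 0) = G.Θ y 0 := by
  unfold ψm
  simp

theorem s4c_pdy_ψm_zero (y : ℂ) : pdy G.ψm (y, 0) = deriv (fun y => G.Θ y 0) y := by
  unfold pdy
  simp only [s4c_ψm_zero]

/-- at real glancing points the speed is `r(φ) φ' > 0`. -/
theorem s4c_κm_real (x : ℝ) : G.κm ((x : ℂ), 0) ≠ 0 := by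
  have h := G.normalised x
  have hc : (G.c : ℂ) ≠ 0 := by exact_mod_cast G.c_pos.ne'
  rw [← h] at hc
  unfold κm
  rw [s4c_ψm_zero, s4c_pdy_ψm_zero]
  exact mul_ne_zero (left_ne_zero_of_mul hc) (pow_ne_zero_iff (by norm_num) |>.1 (right_ne_zero_of_mul hc))

end Incid

section NZ

/-- an analytic function on the (convex) initial domain which is nonzero somewhere is nowhere locally zero. -/
theorem s4c_nz_of_ne {k : ℂ × ℂ → ℂ} (hk : AnalyticOnNhd ℂ k G.ini) {z₁ : ℂ × ℂ} (hz₁ : z₁ ∈ G.ini)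
    (h : k z₁ ≠ 0) : ∀ z ∈ G.ini, NZAt k z := by
  intro z hz h0
  exact h (hk.eqOn_zero_of_preconnected_of_eventuallyEq_zero G.s4c_convex_ini.isPreconnected hz h0 hz₁)

theorem s4c_κm_nz : ∀ z ∈ G.ini, NZAt G.κm z :=
  G.s4c_nz_of_ne G.s4c_κm_analytic (z₁ := ((0 : ℝ), 0))
    ⟨by simp [hstrip, G.s4c_s_pos], by simp [G.r₁_pos]⟩ (G.s4c_κm_real 0)

theorem s4c_real_mem_ini (x : ℝ) : (((x : ℂ), 0) : ℂ × ℂ) ∈ G.ini :=
  ⟨by simp [hstrip, G.s4c_s_pos], by simp [G.r₁_pos]⟩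

/-- A difference `u (y + q t, t) - u (y + q' t, t)`, `q ≠ q'`, of shifts of an analytic function with `∂_y u (x,0) ≠ 0` is nowhere locally zero on the convex
domain `D = {(y,t) | |Im y| + c |t| < 3s/2, |t| < r₁}`, `c ≥ |q|, |q'|`.  We only need it at the points `(0,t)`.
Proof: `k w := u (sh q w) - u (sh q' w)` is analytic on the convex open set `D ∋ (0,t), (x,0)`; if it vanished near `(0,t)` it would vanish on `D`; but
`d/dt k (x,t) |_{t=0} = (q - q') ∂_y u (x,0) ≠ 0`. -/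
theorem s4c_diff_nz {u : ℂ × ℂ → ℂ} (hu : AnalyticOnNhd ℂ u G.ini) {x : ℝ}
    (hx : pdy u ((x : ℂ), 0) ≠ 0) {q q' : ℂ} (hqq : q ≠ q') (hq : ‖q‖ ≤ 3 / 2) (hq' : ‖q'‖ ≤ 3 / 2)
    {t : ℂ} (ht : t ∈ Metric.ball (0 : ℂ) G.r₁) :
    NZAt (fun w => u (sh q w) - u (sh q' w)) (0, t) := by
  have hs := G.s4c_s_pos
  have hr := G.r₁_lt
  have hr0 := G.r₁_pos
  -- the domain
  have hmem : ∀ q : ℂ, ‖q‖ ≤ 3 / 2 → ∀ w ∈ hstrip (3 * (G.s - G.r₁) / 2) ×ˢ Metric.ball (0 : ℂ) G.r₁,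
      sh q w ∈ G.ini := by
    rintro q hq w ⟨hw1, hw2⟩
    rw [sh_apply]
    refine ⟨?_, hw2⟩
    have h1 : |w.1.im| < 3 * (G.s - G.r₁) / 2 := hw1
    have h2 : ‖w.2‖ < G.r₁ := mem_ball_zero_iff.1 hw2
    have h3 : |(q * w.2).im| ≤ 3 / 2 * ‖w.2‖ := by
      refine le_trans (Complex.abs_im_le_norm _) ?_
      rw [norm_mul]
      exact mul_le_mul_of_nonneg_right hq (norm_nonneg _)
    show |(w.1 + q * w.2).im| < 3 * G.s / 2
    rw [Complex.add_im]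
    have h4 := abs_add_le w.1.im (q * w.2).im
    linarith
  have han : ∀ q : ℂ, ‖q‖ ≤ 3 / 2 → AnalyticOnNhd ℂ (fun w => u (sh q w))
      (hstrip (3 * (G.s - G.r₁) / 2) ×ˢ Metric.ball (0 : ℂ) G.r₁) := by
    intro q hq w hw
    exact (hu _ (hmem q hq w hw)).comp (analyticAt_shear (by fun_prop))
  have hk : AnalyticOnNhd ℂ (fun w => u (sh q w) - u (sh q' w))
      (hstrip (3 * (G.s - G.r₁) / 2) ×ˢ Metric.ball (0 : ℂ) G.r₁) :=
    fun w hw => (han q hq w hw).sub (han q' hq' w hw)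
  have hDc : IsPreconnected (hstrip (3 * (G.s - G.r₁) / 2) ×ˢ Metric.ball (0 : ℂ) G.r₁) :=
    ((s4c_convex_hstrip _).prod (convex_ball _ _)).isPreconnected
  have hDo : IsOpen (hstrip (3 * (G.s - G.r₁) / 2) ×ˢ Metric.ball (0 : ℂ) G.r₁) :=
    (s4c_isOpen_hstrip _).prod Metric.isOpen_ball
  have h0t : ((0, t) : ℂ × ℂ) ∈ hstrip (3 * (G.s - G.r₁) / 2) ×ˢ Metric.ball (0 : ℂ) G.r₁ := by
    refine ⟨?_, ht⟩
    show |(0 : ℂ).im| < 3 * (G.s - G.r₁) / 2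
    simp only [Complex.zero_im, abs_zero]
    linarith
  have hx0 : (((x : ℂ), 0) : ℂ × ℂ) ∈ hstrip (3 * (G.s - G.r₁) / 2) ×ˢ Metric.ball (0 : ℂ) G.r₁ := by
    refine ⟨?_, Metric.mem_ball_self hr0⟩
    show |(x : ℂ).im| < 3 * (G.s - G.r₁) / 2
    simp only [Complex.ofReal_im, abs_zero]
    linarith
  intro hzero
  have hall := hk.eqOn_zero_of_preconnected_of_eventuallyEq_zero hDc h0t hzero
  -- the derivative in `t` at `(x,0)`
  have hud : DifferentiableAt ℂ u ((x : ℂ), 0) := (hu _ (G.s4c_real_mem_ini x)).differentiableAt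
  have hder : ∀ q : ℂ, HasDerivAt (fun τ : ℂ => u ((x : ℂ) + q * τ, τ))
      (fderiv ℂ u ((x : ℂ), 0) (q, 1)) 0 := by
    intro q
    have h1 : HasDerivAt (fun τ : ℂ => (((x : ℂ) + q * τ, τ) : ℂ × ℂ)) (q, 1) 0 := by
      have h2 : HasDerivAt (fun τ : ℂ => (x : ℂ) + q * τ) q 0 := by
        simpa using ((hasDerivAt_id (0 : ℂ)).const_mul q).const_add (x : ℂ)
      exact h2.prodMk (hasDerivAt_id 0)
    have h3 : HasFDerivAt u (fderiv ℂ u ((x : ℂ), 0))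
        ((fun τ : ℂ => (((x : ℂ) + q * τ, τ) : ℂ × ℂ)) 0) := by
      simpa using hud.hasFDerivAt
    exact HasFDerivAt.comp_hasDerivAt (f := fun τ : ℂ => (((x : ℂ) + q * τ, τ) : ℂ × ℂ)) 0 h3 h1
  have hd := (hder q).sub (hder q')
  have hz : (fun τ : ℂ => u ((x : ℂ) + q * τ, τ) - u ((x : ℂ) + q' * τ, τ)) =ᶠ[𝓝 0] fun _ => 0 := by
    have hc : Continuous fun τ : ℂ => (((x : ℂ), τ) : ℂ × ℂ) := by fun_prop
    filter_upwards [hc.continuousAt.eventually (hDo.mem_nhds hx0)] with τ hτ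
    have := hall hτ
    simpa [sh_apply] using this
  have hd0 := (hz.hasDerivAt_iff.2 (hasDerivAt_const (0 : ℂ) (0 : ℂ))).unique hd
  have e1 : fderiv ℂ u ((x : ℂ), 0) (q, 1) - fderiv ℂ u ((x : ℂ), 0) (q', 1)
      = (q - q') * pdy u ((x : ℂ), 0) := by
    rw [pdy_eq_fderiv hud, ← map_sub]
    have : ((q, 1) : ℂ × ℂ) - (q', 1) = (q - q') • ((1, 0) : ℂ × ℂ) := by
      ext <;> simp
    rw [this, map_smul, smul_eq_mul]
  rw [e1] at hd0
  exact mul_ne_zero (sub_ne_zero.2 hqq) hx hd0.symm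

/-- `∂_y E (x,0) = 2 i φ'(x) E ≠ 0`. -/
theorem s4c_pdy_E_real (x : ℝ) : pdy (fun w => (G.L0 w).1) ((x : ℂ), 0) ≠ 0 := by
  have hz := G.s4c_real_mem_ini x
  have hΘ : DifferentiableAt ℂ (fun y => G.Θ y 0) (x : ℂ) :=
    differentiableAt_slice_fst (g := fun w : ℂ × ℂ => G.Θ w.1 w.2) (z := ((x : ℂ), 0))
      (G.s4c_Θ_analytic _ ⟨G.s4c_fst_mem hz, hz.2⟩).differentiableAt
  have h1 : HasDerivAt (fun y => Complex.exp (2 * I * G.Θ y 0))
      (Complex.exp (2 * I * G.Θ x 0) * (2 * I * deriv (fun y => G.Θ y 0) x)) (x : ℂ) :=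
    (hΘ.hasDerivAt.const_mul (2 * I)).cexp
  have h2 : pdy (fun w => (G.L0 w).1) ((x : ℂ), 0)
      = Complex.exp (2 * I * G.Θ x 0) * (2 * I * deriv (fun y => G.Θ y 0) x) := h1.deriv
  rw [h2]
  have h3 : deriv (fun y => G.Θ y 0) (x : ℂ) ≠ 0 := by
    intro h0
    have := G.φ'_pos x
    rw [h0] at this
    simp at this
  exact mul_ne_zero (Complex.exp_ne_zero _) (mul_ne_zero (by simp) h3)

theorem s4c_pdy_wc (F : ℂ × ℂ → ℂ × ℂ) {z : ℂ × ℂ} (h1 : DifferentiableAt ℂ (fun w => (F w).1) z)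
    (h2 : DifferentiableAt ℂ (fun w => (F w).2) z) :
    pdy (fun w => wc (F w)) z = wc (pdy₂ F z) := by
  have d1 := (differentiableAt_slice_fst h1).hasDerivAt
  have d2 := (differentiableAt_slice_fst h2).hasDerivAt
  exact (d1.sub (d2.const_mul I)).deriv

/-- `∂_y wc(X0) (x,0) = -i κ e^{-iφ} ≠ 0`. -/
theorem s4c_pdy_wc_real (x : ℝ) : pdy (fun w => wc (G.X0 w)) ((x : ℂ), 0) ≠ 0 := by
  have hz := G.s4c_real_mem_ini x
  rw [s4c_pdy_wc G.X0 (G.s4c_X0_base.an₁ _ hz).differentiableAt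
    (G.s4c_X0_base.an₂ _ hz).differentiableAt, G.s4c_wc_pdy_X0 hz]
  exact mul_ne_zero (mul_ne_zero (by simp) (G.s4c_κm_real x)) (Complex.exp_ne_zero _)

end NZ

end Glance

end Claimed.Agent.R269
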