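/-
Row 269, P1 Section 4, unit 4C, file WidthRelB: LEMMA 4.1, `h_L(t) = h_X(t) + |Im t|/2` for `|t| < ρc = r₁/2`.   Statements: helper19.
LEAF PACKAGES: LF-S4-4C-relbase (section Base), LF-S4-4C-relext (section Ext), LF-S4-4C-relfin (section Fin).
Paper: 04-continuation.tex l.77-106 (20 lines); everything needed is below.

  `G.QX z := meetL (Lx (y - t/2, t)) (Lx (y + t/2, t))`,                                   `Lx = maxExt L0`
  `G.QL z := reflL (Xx (y - 3t/2, t)) (Xx (y - t/2, t)) (∂_y Xx (y - t/2, t))`,              `Xx = maxExt X0`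
* `s4c_QX_base`, `s4c_QL_base`: these rational expressions have the germ of `X0`, `L0` at the points `(0,t)`.
* `s4c_ext_X_of_L`: if `L` extends to height `b` near `t` and `b' + |Im t|/2 < b` then `QX` is meromorphic on `hband (-(s/2)) b' ×ˢ V'`, `V'` a small ball about `t`
  (the shifted points have `-3s/2 < -(s/2) - r₁/2 < Im (y ± t'/2) < b' + |Im t'|/2 < b`, so they lie in `utube L0`); `s4c_ext_of_mero`.
* `s4c_ext_L_of_X`: `Im t ≥ 0`, `|t| < r₁/2`: the shifted points have `Im (y - t'/2), Im (y - 3t'/2) < b' - Im t'/2 + (small) < b` and `> -(s/2) - 3r₁/4 > -3s/2`.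
* `s4c_width_rel`: `ENNReal` bookkeeping + evenness (`s4c_width_neg`) for `Im t < 0`.
-/
import Claimed.Agent.R269.S4.WidthRelA
import Claimed.Agent.R269.S4.WidthPatch

set_option autoImplicit false

open Complex ComplexConjugate Filter Topology Set
open scoped ENNReal Real

namespace Claimed.Agent.R269

namespace Glance

variable (G : Glance)

/-- the impact as intersection of the two (continued) lines. -/
noncomputable def QX (z : ℂ × ℂ) : ℂ × ℂ :=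
  meetL (G.maxExt G.L0 (sh (-1 / 2) z)) (G.maxExt G.L0 (sh (1 / 2) z))

/-- the line `L(y,t)` as reflection at `X(y - t/2,t)` of the line through `X(y - 3t/2,t)`, `X(y - t/2,t)`. -/
noncomputable def QL (z : ℂ × ℂ) : ℂ × ℂ :=
  reflL (G.maxExt G.X0 (sh (-3 / 2) z)) (G.maxExt G.X0 (sh (-1 / 2) z))
    (pdy₂ (G.maxExt G.X0) (sh (-1 / 2) z))

section Base

/-- a pair which agrees generically with a meromorphic pair has its germ. -/
theorem s4c_eqAt₂_of_genF {Q H : ℂ × ℂ → ℂ × ℂ} {z : ℂ × ℂ} (hH : Mero2At₂ H z)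
    (h : ∀ᶠ w in genF z, Q w = H w) : Mero2EqAt₂ Q H z :=
  ⟨(mero2EqAt_iff_genF.2 ⟨hH.1, h.mono fun w hw => by simp only [hw]⟩).symm,
    (mero2EqAt_iff_genF.2 ⟨hH.2, h.mono fun w hw => by simp only [hw]⟩).symm⟩

theorem sh_sh (q q' : ℂ) (z : ℂ × ℂ) : sh q (sh q' z) = sh (q + q') z := by
  simp only [sh_apply]
  congr 1
  ring

theorem analyticAt_sh (q : ℂ) (z : ℂ × ℂ) : AnalyticAt ℂ (sh q) z :=
  analyticAt_shear (by fun_prop)

theorem le_map_sh (q : ℂ) (z : ℂ × ℂ) : 𝓝 (sh q z) ≤ map (sh q) (𝓝 z) :=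
  le_map_shear (by fun_prop) one_ne_zero

/-- the shifted points of a point near `(0,t)` lie in the initial domain. -/
theorem s4c_sh_mem_ini {t : ℂ} (ht : t ∈ Metric.ball (0 : ℂ) G.r₁) {q : ℂ} (hq : ‖q‖ ≤ 3 / 2) :
    ∀ᶠ w in 𝓝 ((0 : ℂ), t), sh q w ∈ G.ini := by
  refine (continuous_sh q).continuousAt.eventually (G.s4c_isOpen_ini.mem_nhds ?_)
  rw [sh_apply]
  refine ⟨?_, ht⟩
  have h2 : ‖t‖ < G.r₁ := mem_ball_zero_iff.1 ht
  have h3 : |(q * t).im| ≤ 3 / 2 * ‖t‖ := by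
    refine le_trans (Complex.abs_im_le_norm _) ?_
    rw [norm_mul]
    exact mul_le_mul_of_nonneg_right hq (norm_nonneg _)
  show |((0 : ℂ) + q * t).im| < 3 * G.s / 2
  rw [zero_add]
  linarith [G.r₁_lt]

theorem s4c_sh_mem_strip_aux {t q : ℂ} (h : ‖q‖ * ‖t‖ < G.s) :
    ∀ᶠ w in 𝓝 ((0 : ℂ), t), w.1 + q * w.2 ∈ hstrip G.s := by
  have hc : Continuous fun w : ℂ × ℂ => w.1 + q * w.2 := by fun_prop
  refine hc.continuousAt.eventually ((s4c_isOpen_hstrip G.s).mem_nhds ?_)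
  show |((0 : ℂ) + q * t).im| < G.s
  rw [zero_add]
  refine lt_of_le_of_lt (Complex.abs_im_le_norm _) ?_
  rwa [norm_mul]

/-- near `(0,t)`, `|t| < r₁/2`, the base points `y - t'/2 - t'/2`, `y - 3t'/2 - t'/2` of the reflection equations lie in `hstrip s`. -/
theorem s4c_sh_mem_strip {t : ℂ} (ht : t ∈ Metric.ball (0 : ℂ) G.ρc) {q : ℂ} (hq : ‖q‖ ≤ 2) :
    ∀ᶠ w in 𝓝 ((0 : ℂ), t), w.1 + q * w.2 ∈ hstrip G.s := by
  refine G.s4c_sh_mem_strip_aux ?_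
  have h2 : ‖t‖ < G.r₁ / 2 := mem_ball_zero_iff.1 ht
  have h3 : ‖q‖ * ‖t‖ ≤ 2 * ‖t‖ := mul_le_mul_of_nonneg_right hq (norm_nonneg _)
  linarith [G.r₁_lt]

theorem s4c_snd_mem {t : ℂ} {r : ℝ} (ht : t ∈ Metric.ball (0 : ℂ) r) :
    ∀ᶠ w in 𝓝 ((0 : ℂ), t), w.2 ∈ Metric.ball (0 : ℂ) r :=
  continuous_snd.continuousAt.eventually (Metric.isOpen_ball.mem_nhds ht)

/-- `QX` has the germ of `X0` at `(0,t)`.
Proof: near `(0,t)`, `maxExt L0 (sh (∓1/2) w) = L0 (sh (∓1/2) w)` (`s4c_sh_mem_ini`, `maxExt_eq_base`); `k w := E (sh (-1/2) w) - E (sh (1/2) w)` is analytic and `NZAt`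
(`s4c_diff_nz` with `u = E`, `s4c_pdy_E_real`); where `k w ≠ 0`: `meetL_eq` with `s4c_incid_minus/plus`.  Conclude with `mero2EqAt_iff_genF`
(`X0` analytic at `(0,t)`), componentwise. -/
theorem s4c_QX_base {t : ℂ} (ht : t ∈ Metric.ball (0 : ℂ) G.r₁) :
    Mero2EqAt₂ G.QX G.X0 (0, t) := by
  have hs := G.s4c_s_pos
  have hBL := G.s4c_L0_base
  have n1 : ‖(-1 / 2 : ℂ)‖ ≤ 3 / 2 := by
    rw [norm_div, norm_neg]; norm_num
  have n2 : ‖(1 / 2 : ℂ)‖ ≤ 3 / 2 := by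
    rw [norm_div]; norm_num
  have h0i : ((0, t) : ℂ × ℂ) ∈ G.ini := by
    refine ⟨?_, ht⟩
    show |(0 : ℂ).im| < 3 * G.s / 2
    simp only [Complex.zero_im, abs_zero]
    linarith
  have ev1 := G.s4c_sh_mem_ini ht n1
  have ev2 := G.s4c_sh_mem_ini ht n2
  have ev3 : ∀ᶠ w in 𝓝 ((0 : ℂ), t), w.1 + (-1 / 2 : ℂ) * w.2 ∈ hstrip G.s := by
    refine G.s4c_sh_mem_strip_aux ?_
    have h2 : ‖t‖ < G.r₁ := mem_ball_zero_iff.1 ht
    have : ‖(-1 / 2 : ℂ)‖ = 1 / 2 := by rw [norm_div, norm_neg]; norm_num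
    rw [this]
    linarith [G.r₁_lt, norm_nonneg t]
  have ev4 := s4c_snd_mem ht
  have hk : AnalyticAt ℂ (fun w => (G.L0 (sh (-1 / 2) w)).1 - (G.L0 (sh (1 / 2) w)).1) (0, t) :=
    (AnalyticAt.comp (g := fun w => (G.L0 w).1) (hBL.an₁ _ ev1.self_of_nhds) (analyticAt_sh _ _)).sub
      (AnalyticAt.comp (g := fun w => (G.L0 w).1) (hBL.an₁ _ ev2.self_of_nhds) (analyticAt_sh _ _))
  have hnz : NZAt (fun w => (G.L0 (sh (-1 / 2) w)).1 - (G.L0 (sh (1 / 2) w)).1) (0, t) :=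
    G.s4c_diff_nz (u := fun w => (G.L0 w).1) hBL.an₁ (G.s4c_pdy_E_real 0) (by norm_num) n1 n2 ht
  refine s4c_eqAt₂_of_genF (G.s4c_X0_base.mero2At₂ h0i) ?_
  filter_upwards [ev1.genF, ev2.genF, ev3.genF, ev4.genF, eventually_genF_ne_zero hk hnz]
    with w a b c d e
  have c' : w.1 - w.2 / 2 ∈ hstrip G.s := by
    have : w.1 - w.2 / 2 = w.1 + (-1 / 2 : ℂ) * w.2 := by ring
    rw [this]; exact c
  unfold QX
  rw [maxExt_eq_base hBL a, maxExt_eq_base hBL b]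
  exact meetL_eq (G.s4c_incid_minus c' d) (G.s4c_incid_plus c' d) (sub_ne_zero.1 e)

theorem s4c_wcX0_analytic : AnalyticOnNhd ℂ (fun w => wc (G.X0 w)) G.ini := fun z hz =>
  (G.s4c_X0_base.an₁ z hz).sub (analyticAt_const.mul (G.s4c_X0_base.an₂ z hz))

/-- `QL` has the germ of `L0` at `(0,t)`, `|t| < r₁/2`.
Proof: near `(0,t)`: `maxExt X0 = X0` near the shifted points (so also `pdy₂ (maxExt X0) = pdy₂ X0` there, `pdy₂_congr_nhds`, `maxExt_eventuallyEq_base`).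
Generic conditions: `k₂ w := wc (X0 (sh (-3/2) w)) - wc (X0 (sh (-1/2) w))` (`s4c_diff_nz`, `s4c_pdy_wc_real`) and `k₃ w := κm (sh (-1/2) w)`
(`s4c_κm_nz` composed with the shear: `tendsto_genF_shear`, or `NZAt` transported by the local biholomorphism).  Where `k₂ k₃ ≠ 0`: `reflL_eq` with
`a = X0 (sh (-3/2) w)`, `b = X0 (sh (-1/2) w)`, `l₀ = L0 (sh (-1) w)`, `l₁ = L0 w`:
`ha = s4c_incid_plus` at `sh (-3/2) w`, `hb = s4c_incid_minus` at `sh (-1/2) w`, `hb₁ = s4c_incid_plus` at `sh (-1/2) w`, `hrefl = s4c_refl_law` at `sh (-1/2) w`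
(`sh (1/2) (sh (-3/2) w) = sh (-1) w`, etc.: `sh_apply`, `ring`), `hτ` from `s4c_wc_pdy_X0`. -/
theorem s4c_QL_base {t : ℂ} (ht : t ∈ Metric.ball (0 : ℂ) G.ρc) :
    Mero2EqAt₂ G.QL G.L0 (0, t) := by
  have hs := G.s4c_s_pos
  have hBX := G.s4c_X0_base
  have ht1 : t ∈ Metric.ball (0 : ℂ) G.r₁ :=
    Metric.ball_subset_ball (by unfold ρc; linarith [G.r₁_pos]) ht
  have n1 : ‖(-1 / 2 : ℂ)‖ ≤ 3 / 2 := by
    rw [norm_div, norm_neg]; norm_num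
  have n3 : ‖(-3 / 2 : ℂ)‖ ≤ 3 / 2 := by
    rw [norm_div, norm_neg]; norm_num
  have h0i : ((0, t) : ℂ × ℂ) ∈ G.ini := by
    refine ⟨?_, ht1⟩
    show |(0 : ℂ).im| < 3 * G.s / 2
    simp only [Complex.zero_im, abs_zero]
    linarith
  have ev1 := G.s4c_sh_mem_ini ht1 n1
  have ev3 := G.s4c_sh_mem_ini ht1 n3
  have ev5 := G.s4c_sh_mem_strip ht (q := -2) (by rw [norm_neg]; norm_num)
  have ev6 := G.s4c_sh_mem_strip ht (q := -1) (by rw [norm_neg]; norm_num)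
  have ev4 := s4c_snd_mem ht1
  have hk₂ : AnalyticAt ℂ (fun w => wc (G.X0 (sh (-3 / 2) w)) - wc (G.X0 (sh (-1 / 2) w))) (0, t) :=
    (AnalyticAt.comp (g := fun w => wc (G.X0 w)) (G.s4c_wcX0_analytic _ ev3.self_of_nhds)
      (analyticAt_sh _ _)).sub
      (AnalyticAt.comp (g := fun w => wc (G.X0 w)) (G.s4c_wcX0_analytic _ ev1.self_of_nhds)
        (analyticAt_sh _ _))
  have hnz₂ : NZAt (fun w => wc (G.X0 (sh (-3 / 2) w)) - wc (G.X0 (sh (-1 / 2) w))) (0, t) :=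
    G.s4c_diff_nz (u := fun w => wc (G.X0 w)) G.s4c_wcX0_analytic (G.s4c_pdy_wc_real 0)
      (by norm_num) n3 n1 ht1
  have hk₃ : AnalyticAt ℂ (fun w => G.κm (sh (-1 / 2) w)) (0, t) :=
    AnalyticAt.comp (g := G.κm) (G.s4c_κm_analytic _ ev1.self_of_nhds) (analyticAt_sh _ _)
  have hnz₃ : NZAt (fun w => G.κm (sh (-1 / 2) w)) (0, t) :=
    (G.s4c_κm_nz _ ev1.self_of_nhds).comp_of_le_map (le_map_sh _ _)
  refine s4c_eqAt₂_of_genF (G.s4c_L0_base.mero2At₂ h0i) ?_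
  filter_upwards [ev1.genF, ev3.genF, ev4.genF, ev5.genF, ev6.genF,
    eventually_genF_ne_zero hk₂ hnz₂, eventually_genF_ne_zero hk₃ hnz₃] with w a b d c5 c6 e2 e3
  unfold QL
  rw [maxExt_eq_base hBX a, maxExt_eq_base hBX b,
    pdy₂_congr_nhds (maxExt_eventuallyEq_base hBX a)]
  have s1 : sh (1 / 2) (sh (-3 / 2) w) = sh (-1) w := by rw [sh_sh]; norm_num
  have s2 : sh (-1 / 2) (sh (-1 / 2) w) = sh (-1) w := by rw [sh_sh]; norm_num
  have s3 : sh (1 / 2) (sh (-1 / 2) w) = w := by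
    rw [sh_sh, sh_apply]
    norm_num
  have m3 : (sh (-3 / 2) w).1 - (sh (-3 / 2) w).2 / 2 ∈ hstrip G.s := by
    have : (sh (-3 / 2) w).1 - (sh (-3 / 2) w).2 / 2 = w.1 + -2 * w.2 := by
      simp only [sh_apply]; ring
    rw [this]; exact c5
  have m1 : (sh (-1 / 2) w).1 - (sh (-1 / 2) w).2 / 2 ∈ hstrip G.s := by
    have : (sh (-1 / 2) w).1 - (sh (-1 / 2) w).2 / 2 = w.1 + -1 * w.2 := by
      simp only [sh_apply]; ring
    rw [this]; exact c6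
  have d3 : (sh (-3 / 2) w).2 ∈ Metric.ball (0 : ℂ) G.r₁ := by rw [sh_apply]; exact d
  have d1 : (sh (-1 / 2) w).2 ∈ Metric.ball (0 : ℂ) G.r₁ := by rw [sh_apply]; exact d
  have ha := G.s4c_incid_plus m3 d3
  have hb := G.s4c_incid_minus m1 d1
  have hb₁ := G.s4c_incid_plus m1 d1
  have hrefl := G.s4c_refl_law a
  rw [s1] at ha
  rw [s2] at hb
  rw [s3] at hb₁
  rw [s2, s3] at hrefl
  refine reflL_eq ha hb hb₁ (sub_ne_zero.1 e2) (G.s4c_L0_fst_ne_zero _) ?_ hrefl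
  rw [G.s4c_wc_pdy_X0 a]
  exact mul_ne_zero (mul_ne_zero (by simp) e3) (Complex.exp_ne_zero _)

end Base

section Ext

/-- `QX` is meromorphic where both shifted points lie in the tube of `L`. -/
theorem s4c_QX_mero {z : ℂ × ℂ} (h₁ : sh (-1 / 2) z ∈ G.utube G.L0)
    (h₂ : sh (1 / 2) z ∈ G.utube G.L0) : Mero2At₂ G.QX z :=
  Mero2At₂.meetL (Mero2At₂.comp_sh (mero2On₂_iff.1 (maxExt_mero G.s4c_L0_base) _ h₁))
    (Mero2At₂.comp_sh (mero2On₂_iff.1 (maxExt_mero G.s4c_L0_base) _ h₂))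

/-- `QL` is meromorphic where both shifted points lie in the tube of `X`. -/
theorem s4c_QL_mero {z : ℂ × ℂ} (h₁ : sh (-3 / 2) z ∈ G.utube G.X0)
    (h₂ : sh (-1 / 2) z ∈ G.utube G.X0) : Mero2At₂ G.QL z :=
  Mero2At₂.reflL (Mero2At₂.comp_sh (mero2On₂_iff.1 (maxExt_mero G.s4c_X0_base) _ h₁))
    (Mero2At₂.comp_sh (mero2On₂_iff.1 (maxExt_mero G.s4c_X0_base) _ h₂))
    (Mero2At₂.comp_sh (F := pdy₂ (G.maxExt G.X0))
      (mero2On₂_iff.1 (maxExt_mero G.s4c_X0_base) _ h₂).pdy₂)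

theorem s4c_sh_im (q : ℝ) (z : ℂ × ℂ) : (sh (q : ℂ) z).1.im = z.1.im + q * z.2.im := by
  rw [sh_apply]
  simp

/-- intersection: `h_X ≥ h_L - |Im t|/2`. -/
theorem s4c_ext_X_of_L {t : ℂ} {b b' : ℝ} (h : G.ExtendsTo G.L0 t b) (hb' : G.s / 2 ≤ b')
    (hbb : b' + |t.im| / 2 < b) : G.ExtendsTo G.X0 t b' := by
  have hs := G.s4c_s_pos
  have hr := G.r₁_lt
  obtain ⟨V, F, htV, hF⟩ := h
  have hBL := G.s4c_L0_base
  have hO : IsOpen {t' : ℂ | b' + |t'.im| / 2 < b} :=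
    isOpen_lt (by fun_prop) continuous_const
  have hV'r : V ∩ {t' : ℂ | b' + |t'.im| / 2 < b} ⊆ Metric.ball (0 : ℂ) G.r₁ :=
    inter_subset_left.trans hF.sub
  have hbox := box_subset_utube (G := G) (F₀ := G.L0) (b := b) (V := V)
    (fun t ht => hF.le_width hBL ht) (fun t ht => hBL.width_pos (hF.sub ht))
  have e1 : ((-1 / 2 : ℂ)) = ((-1 / 2 : ℝ) : ℂ) := by push_cast; ring
  have e2 : ((1 / 2 : ℂ)) = ((1 / 2 : ℝ) : ℂ) := by push_cast; ring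
  refine ⟨V ∩ {t' : ℂ | b' + |t'.im| / 2 < b}, mnf₂ G.QX, ⟨htV, hbb⟩,
    s4c_ext_of_mero G.s4c_X0_base hb' (hF.isOpen.inter hO) hV'r (mero2On₂_iff.2 ?_)
      (fun t' ht' => G.s4c_QX_base (hV'r ht'))⟩
  rintro z ⟨⟨hz1, hz2⟩, hz3, hz4⟩
  have hz4' : b' + |z.2.im| / 2 < b := hz4
  have hn : ‖z.2‖ < G.r₁ := mem_ball_zero_iff.1 (hF.sub hz3)
  have hi : |z.2.im| ≤ ‖z.2‖ := Complex.abs_im_le_norm _
  have hi1 := le_abs_self z.2.im
  have hi2 := neg_abs_le z.2.im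
  refine G.s4c_QX_mero (hbox ⟨⟨?_, ?_⟩, ?_⟩) (hbox ⟨⟨?_, ?_⟩, ?_⟩)
  · rw [e1, s4c_sh_im]; linarith
  · rw [e1, s4c_sh_im]; linarith
  · rw [sh_apply]; exact hz3
  · rw [e2, s4c_sh_im]; linarith
  · rw [e2, s4c_sh_im]; linarith
  · rw [sh_apply]; exact hz3

/-- reflection: `h_L ≥ h_X + Im t/2` for `Im t ≥ 0`. -/
theorem s4c_ext_L_of_X {t : ℂ} (ht : t ∈ Metric.ball (0 : ℂ) G.ρc) (hi : 0 ≤ t.im) {b b' : ℝ}
    (h : G.ExtendsTo G.X0 t b) (hb' : G.s / 2 ≤ b') (hbb : b' < b + t.im / 2) :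
    G.ExtendsTo G.L0 t b' := by
  have hs := G.s4c_s_pos
  have hr := G.r₁_lt
  obtain ⟨V, F, htV, hF⟩ := h
  have hBX := G.s4c_X0_base
  have hO1 : IsOpen {t' : ℂ | b' < b + t'.im / 2} := isOpen_lt continuous_const (by fun_prop)
  have hO2 : IsOpen {t' : ℂ | b' < b + 3 * t'.im / 2} := isOpen_lt continuous_const (by fun_prop)
  have hO : IsOpen {t' : ℂ | b' < b + t'.im / 2 ∧ b' < b + 3 * t'.im / 2} := hO1.inter hO2
  have hV'r : (V ∩ Metric.ball (0 : ℂ) G.ρc) ∩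
      {t' : ℂ | b' < b + t'.im / 2 ∧ b' < b + 3 * t'.im / 2} ⊆ Metric.ball (0 : ℂ) G.r₁ :=
    fun t' ht' => hF.sub ht'.1.1
  have hbox := box_subset_utube (G := G) (F₀ := G.X0) (b := b) (V := V)
    (fun t ht => hF.le_width hBX ht) (fun t ht => hBX.width_pos (hF.sub ht))
  have e1 : ((-1 / 2 : ℂ)) = ((-1 / 2 : ℝ) : ℂ) := by push_cast; ring
  have e3 : ((-3 / 2 : ℂ)) = ((-3 / 2 : ℝ) : ℂ) := by push_cast; ring
  refine ⟨(V ∩ Metric.ball (0 : ℂ) G.ρc) ∩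
      {t' : ℂ | b' < b + t'.im / 2 ∧ b' < b + 3 * t'.im / 2}, mnf₂ G.QL,
    ⟨⟨htV, ht⟩, hbb, by linarith⟩,
    s4c_ext_of_mero G.s4c_L0_base hb' ((hF.isOpen.inter Metric.isOpen_ball).inter hO) hV'r
      (mero2On₂_iff.2 ?_) (fun t' ht' => G.s4c_QL_base ht'.1.2)⟩
  rintro z ⟨⟨hz1, hz2⟩, ⟨hz3, hz5⟩, hz4, hz6⟩
  have hn : ‖z.2‖ < G.r₁ / 2 := mem_ball_zero_iff.1 hz5
  have hi : |z.2.im| ≤ ‖z.2‖ := Complex.abs_im_le_norm _
  have hi1 := le_abs_self z.2.im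
  have hi2 := neg_abs_le z.2.im
  refine G.s4c_QL_mero (hbox ⟨⟨?_, ?_⟩, ?_⟩) (hbox ⟨⟨?_, ?_⟩, ?_⟩)
  · rw [e3, s4c_sh_im]; linarith
  · rw [e3, s4c_sh_im]; linarith
  · rw [sh_apply]; exact hz3
  · rw [e1, s4c_sh_im]; linarith
  · rw [e1, s4c_sh_im]; linarith
  · rw [sh_apply]; exact hz3

/-- the same for both signs of `Im t` (evenness). -/
theorem s4c_ext_L_of_X' {t : ℂ} (ht : t ∈ Metric.ball (0 : ℂ) G.ρc) {b b' : ℝ}
    (h : G.ExtendsTo G.X0 t b) (hb' : G.s / 2 ≤ b') (hbb : b' < b + |t.im| / 2) :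
    G.ExtendsTo G.L0 t b' := by
  rcases le_total 0 t.im with hi | hi
  · rw [abs_of_nonneg hi] at hbb
    exact G.s4c_ext_L_of_X ht hi h hb' hbb
  · rw [abs_of_nonpos hi] at hbb
    have ht' : -t ∈ Metric.ball (0 : ℂ) G.ρc := by simpa using ht
    have h1 := G.s4c_ext_L_of_X ht' (by simpa using hi) (h.neg G.s4c_X0_base) hb'
      (by simpa using hbb)
    simpa using h1.neg G.s4c_L0_base

end Ext

section Fin

/-- `ENNReal` bookkeeping, host-free: two "widths" defined as suprema of reached heights. -/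
theorem s4c_rel_aux {A B : ℝ → Prop} {σ m : ℝ} (hσ : 0 < σ) (hm : 0 ≤ m)
    (hA0 : A (3 * σ)) (hB0 : B (3 * σ))
    (hAB : ∀ b b', A b → σ ≤ b' → b' + m < b → B b')
    (hBA : ∀ b b', B b → σ ≤ b' → b' < b + m → A b') :
    sSup {w : ℝ≥0∞ | ∃ b : ℝ, σ < b ∧ A b ∧ w = ENNReal.ofReal b}
      = sSup {w : ℝ≥0∞ | ∃ b : ℝ, σ < b ∧ B b ∧ w = ENNReal.ofReal b} + ENNReal.ofReal m := by
  apply le_antisymm
  · refine sSup_le ?_
    rintro _ ⟨b, hb, hAb, rfl⟩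
    rcases le_or_gt b (3 * σ + m) with h | h
    · calc ENNReal.ofReal b ≤ ENNReal.ofReal (3 * σ + m) := ENNReal.ofReal_le_ofReal h
        _ = ENNReal.ofReal (3 * σ) + ENNReal.ofReal m := ENNReal.ofReal_add (by linarith) hm
        _ ≤ _ := by
          gcongr
          exact le_sSup ⟨3 * σ, by linarith, hB0, rfl⟩
    · have h1 : ENNReal.ofReal (b - m) ≤
          sSup {w : ℝ≥0∞ | ∃ b : ℝ, σ < b ∧ B b ∧ w = ENNReal.ofReal b} := by
        refine le_of_forall_lt_imp_le_of_dense fun c hc => ?_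
        obtain ⟨r, -, hcr, hrβ⟩ := ENNReal.lt_iff_exists_real_btwn.1 hc
        have hrβ' : r < b - m := (ENNReal.ofReal_lt_ofReal_iff'.1 hrβ).1
        have h2 : B (max r (2 * σ)) := hAB b _ hAb (le_trans (by linarith) (le_max_right _ _)) (by
          have : max r (2 * σ) < b - m := max_lt hrβ' (by linarith)
          linarith)
        exact le_trans (le_trans hcr.le (ENNReal.ofReal_le_ofReal (le_max_left _ _)))
          (le_sSup ⟨_, lt_of_lt_of_le (by linarith) (le_max_right _ _), h2, rfl⟩)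
      calc ENNReal.ofReal b = ENNReal.ofReal (b - m + m) := by rw [sub_add_cancel]
        _ = ENNReal.ofReal (b - m) + ENNReal.ofReal m := ENNReal.ofReal_add (by linarith) hm
        _ ≤ _ := by gcongr
  · have hne : {w : ℝ≥0∞ | ∃ b : ℝ, σ < b ∧ B b ∧ w = ENNReal.ofReal b}.Nonempty :=
      ⟨_, 3 * σ, by linarith, hB0, rfl⟩
    rw [ENNReal.sSup_add hne]
    refine iSup₂_le ?_
    rintro _ ⟨b, hb, hBb, rfl⟩
    rw [← ENNReal.ofReal_add (by linarith) hm]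
    refine le_of_forall_lt_imp_le_of_dense fun c hc => ?_
    obtain ⟨r, -, hcr, hrβ⟩ := ENNReal.lt_iff_exists_real_btwn.1 hc
    have hrβ' : r < b + m := (ENNReal.ofReal_lt_ofReal_iff'.1 hrβ).1
    have h2 : A (max r ((σ + b) / 2)) := hBA b _ hBb (le_trans (by linarith) (le_max_right _ _))
      (max_lt hrβ' (by linarith))
    exact le_trans (le_trans hcr.le (ENNReal.ofReal_le_ofReal (le_max_left _ _)))
      (le_sSup ⟨_, lt_of_lt_of_le (by linarith) (le_max_right _ _), h2, rfl⟩)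

/-- **P1 Lemma 4.1.** -/
theorem s4c_width_rel : ∀ t ∈ Metric.ball (0 : ℂ) G.ρc,
    G.hL t = G.hX t + ENNReal.ofReal (|t.im| / 2) := by
  intro t ht
  have hs := G.s4c_s_pos
  have ht1 : t ∈ Metric.ball (0 : ℂ) G.r₁ :=
    Metric.ball_subset_ball (by unfold ρc; linarith [G.r₁_pos]) ht
  have h3 : 3 * (G.s / 2) = 3 * G.s / 2 := by ring
  exact s4c_rel_aux (A := fun b => G.ExtendsTo G.L0 t b) (B := fun b => G.ExtendsTo G.X0 t b)
    (σ := G.s / 2) (m := |t.im| / 2) (by linarith) (by positivity)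
    (by rw [h3]; exact G.s4c_L0_base.extendsTo ht1) (by rw [h3]; exact G.s4c_X0_base.extendsTo ht1)
    (fun b b' h hb' hbb => G.s4c_ext_X_of_L h hb' hbb)
    (fun b b' h hb' hbb => G.s4c_ext_L_of_X' ht h hb' hbb)

end Fin

end Glance

end Claimed.Agent.R269
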