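/-
Row 269, P1 Section 4, unit 4C: THE EXPORT.   Owner: helper19.   No `sorry` in this file.

  `s4c_lsc_X/L`, `s4c_supermean_X/L`, `s4c_width_rel` (S4/WidthRelB.lean), `G.Xm`, `G.Lm` (S4/WidthTwo.lean)
  `Sec4.ofWalls`     assembles `Sec4 G` (S5/Pre.lean) from the three remaining inputs: `no_patch_X`, `no_patch_L` (unit 4J), `nat_bdry` (unit 4L, for `X := G.Xm`).
All statements of 4C hold for every `ρ ≤ G.ρc = r₁/2` (only Lemma 4.1 needs `ρ ≤ ρc`; the others hold for `ρ ≤ r₁`).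
-/
import Claimed.Agent.R269.S4.WidthPatch
import Claimed.Agent.R269.S4.WidthRelB
import Claimed.Agent.R269.S4.SuperA
import Claimed.Agent.R269.S4.SuperB

set_option autoImplicit false

open Complex ComplexConjugate Filter Topology Set
open scoped ENNReal Real

namespace Claimed.Agent.R269

namespace Glance

variable (G : Glance)

theorem s4c_lsc_X (ρ : ℝ) : LowerSemicontinuousOn G.hX (Metric.ball 0 ρ) :=
  (s4c_lsc G G.X0).lowerSemicontinuousOn _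

theorem s4c_lsc_L (ρ : ℝ) : LowerSemicontinuousOn G.hL (Metric.ball 0 ρ) :=
  (s4c_lsc G G.L0).lowerSemicontinuousOn _

theorem s4c_fillProp {F₀ : ℂ × ℂ → ℂ × ℂ} (hB : G.IsBase F₀) {ρ : ℝ} (hρ : ρ ≤ G.r₁) :
    FillProp (G.width F₀) ρ := fun _ _ hr hball _ hg _ hd hpos hlt =>
  s4c_fill hB hr (hball.trans (Metric.ball_subset_ball hρ)) hg hd hpos hlt

/-- **P1 Proposition 4.7** for a general base. -/
theorem s4c_supermean {F₀ : ℂ × ℂ → ℂ × ℂ} (hB : G.IsBase F₀) {ρ : ℝ} (hρ : ρ ≤ G.r₁) :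
    SuperMeanOn (G.width F₀) ρ :=
  s4c_supermean_of_fill (s4c_lsc G F₀) (η := 3 * G.s / 2) (by have := G.s4c_s_pos; linarith)
    (fun _ ht => hB.le_width (Metric.ball_subset_ball hρ ht)) (G.s4c_fillProp hB hρ)

theorem s4c_supermean_X {ρ : ℝ} (hρ : ρ ≤ G.r₁) : SuperMeanOn G.hX ρ :=
  G.s4c_supermean G.s4c_X0_base hρ

theorem s4c_supermean_L {ρ : ℝ} (hρ : ρ ≤ G.r₁) : SuperMeanOn G.hL ρ :=
  G.s4c_supermean G.s4c_L0_base hρ

theorem s4c_ρc_pos : 0 < G.ρc := by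
  unfold ρc
  linarith [G.r₁_pos]

theorem s4c_ρc_le : G.ρc ≤ G.r₁ := by
  unfold ρc
  linarith [G.r₁_pos]

end Glance

/-- Assembly of the output of Section 4 from the wall analysis (4J) and the natural boundary (4L). -/
noncomputable def Sec4.ofWalls (G : Glance) (ρ : ℝ) (ρ_pos : 0 < ρ) (hρ : ρ ≤ G.ρc)
    (no_patch_X : ∀ t₀ : ℝ, |t₀| < ρ → ∀ y₁ : ℂ, ENNReal.ofReal y₁.im = G.hX t₀ →
      ¬ G.JointPatchAt G.X0 y₁ t₀)
    (no_patch_L : ∀ t₀ : ℝ, |t₀| < ρ → ∀ y₁ : ℂ, ENNReal.ofReal y₁.im = G.hL t₀ →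
      ¬ G.JointPatchAt G.L0 y₁ t₀)
    (nat_bdry : ∀ s₀ : ℂ, ENNReal.ofReal |s₀.im| = G.Hs →
      ¬ ∃ (ε : ℝ) (P : ℂ → ℂ × ℂ), 0 < ε ∧ MeromorphicOn (fun s => (P s).1) (Metric.ball s₀ ε) ∧
        MeromorphicOn (fun s => (P s).2) (Metric.ball s₀ ε) ∧
        ∀ s ∈ Metric.ball s₀ ε ∩ estrip G.Hs, P =ᶠ[𝓝[≠] s] fun s' => G.Xm (s', 0)) : Sec4 G where
  ρ := ρ
  ρ_pos := ρ_pos
  ρ_le := hρ.trans G.s4c_ρc_le
  width_rel := fun t ht => G.s4c_width_rel t (Metric.ball_subset_ball hρ ht)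
  lsc_X := G.s4c_lsc_X ρ
  lsc_L := G.s4c_lsc_L ρ
  supermean_X := G.s4c_supermean_X (hρ.trans G.s4c_ρc_le)
  supermean_L := G.s4c_supermean_L (hρ.trans G.s4c_ρc_le)
  no_patch_X := no_patch_X
  no_patch_L := no_patch_L
  X := G.Xm
  X_mero₁ := G.s4c_Xm_slice₁ ρ
  X_mero₂ := G.s4c_Xm_slice₂ ρ
  X_base := G.s4c_Xm_base (hρ.trans G.s4c_ρc_le)
  L := G.Lm
  L_mero₁ := G.s4c_Lm_slice₁ ρ
  L_mero₂ := G.s4c_Lm_slice₂ ρ
  L_base := G.s4c_Lm_base (hρ.trans G.s4c_ρc_le)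
  nat_bdry := nat_bdry

end Claimed.Agent.R269
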