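/-
Row 269, P1 Section 4: BRIDGE 4C -> 4J.   Owner: helper19.   No `sorry` in this file.
`G.ctx4C : Ctx4C G` (S4/WallDefs.lean, helper264) is constructed from the exports of unit 4C.
-/
import Claimed.Agent.R269.S4.WidthMain
import Claimed.Agent.R269.S4.WallDefs

set_option autoImplicit false

open Complex ComplexConjugate Filter Topology Set
open scoped ENNReal Real

namespace Claimed.Agent.R269

namespace Glance

variable {G : Glance} {F₀ : ℂ × ℂ → ℂ × ℂ}

theorem tubeU_eq (G : Glance) (F₀ : ℂ × ℂ → ℂ × ℂ) :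
    G.tubeU F₀ = G.utube F₀ ∩ {z | -(G.s / 2) < z.1.im} := by
  have hs := G.s4c_s_pos
  ext z
  constructor
  · rintro ⟨-, h2, h3⟩
    exact ⟨⟨by linarith, h3⟩, h2⟩
  · rintro ⟨⟨-, h3⟩, h2⟩
    exact ⟨s4c_mem_ball_of_lt h3, h2, h3⟩

theorem tubeU_subset_utube (G : Glance) (F₀ : ℂ × ℂ → ℂ × ℂ) : G.tubeU F₀ ⊆ G.utube F₀ := by
  rw [tubeU_eq]
  exact inter_subset_left

theorem isOpen_tubeU (G : Glance) (F₀ : ℂ × ℂ → ℂ × ℂ) : IsOpen (G.tubeU F₀) := by
  rw [tubeU_eq]
  refine (isOpen_utube G F₀).inter ?_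
  exact isOpen_lt continuous_const (Complex.continuous_im.comp continuous_fst)

/-- the maximal primary extension in the form of unit 4J. -/
noncomputable def maxExt0S (hB : G.IsBase F₀) : MaxExt0 G F₀ where
  F := G.maxExt F₀
  mero := (maxExt_mero hB).mono (tubeU_subset_utube G F₀)
  base := fun z hz => maxExt_of_lt (lt_of_abs_lt hz.1)

/-- what unit 4J uses about the primary branch of a base `F₀`. -/
noncomputable def maxExtS (hB : G.IsBase F₀) : MaxExt G F₀ where
  toMaxExt0 := maxExt0S hB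
  isOpen_tube := isOpen_tubeU G F₀
  low := fun t ht => le_trans (ENNReal.ofReal_le_ofReal (by have := G.s4c_s_pos; linarith))
    (hB.le_width ht)
  box := by
    intro z hz
    have hs := G.s4c_s_pos
    obtain ⟨b, ε, F, hb, hzb, hε, hF⟩ := exists_ext_of_mem_utube (tubeU_subset_utube G F₀ hz)
    refine ⟨b, ε, hzb, hε, ?_⟩
    rintro w ⟨⟨hw1, hw2⟩, hw3⟩
    refine ⟨hF.sub hw3, hw1, lt_of_lt_of_le ?_ (s4c_le_width_of_ext hb ⟨_, F, hw3, hF⟩)⟩
    exact (ENNReal.ofReal_lt_ofReal_iff (by linarith)).2 hw2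
  per := by
    intro z hz
    have hz' := tubeU_subset_utube G F₀ hz
    have hm : Mero2At₂ (G.maxExt F₀) z := mero2On₂_iff.1 (maxExt_mero hB) z hz'
    have he : G.maxExt F₀ =ᶠ[𝓝 z] fun w => G.maxExt F₀ (w.1 + 2 * π, w.2) := by
      filter_upwards [(isOpen_utube G F₀).mem_nhds hz'] with w hw
      have := maxExt_add_two_pi hB hw 1
      simpa using this.symm
    exact (hm.eqAt_of_eventuallyEq he).symm
  of_joint := by
    intro y₁ t₀ h
    obtain ⟨ε, P, hε, hP, hPe⟩ := (s4c_good_of_jointPatch hB h).exists_bidisc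
    exact ⟨ε, P, hε, Metric.isOpen_ball.prod Metric.isOpen_ball, hP,
      fun z hz => hPe z hz.1 (tubeU_subset_utube G F₀ hz.2)⟩
  glue := by
    intro t H ht hH hall
    have hs := G.s4c_s_pos
    have hHpos : 0 < H := by
      by_contra hcon
      have h0 : G.width F₀ t = 0 := by rw [hH, ENNReal.ofReal_eq_zero]; linarith
      exact (hB.width_pos ht).ne' h0
    refine s4c_glue hB ht hH fun y hy => ?_
    obtain ⟨W, P, hyW, hW, hP, hPe⟩ := hall y hy
    refine ⟨P, mero2On₂_iff.1 hP _ hyW, ?_⟩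
    have hlow : ∀ᶠ z : ℂ × ℂ in 𝓝 (y, t), -(G.s / 2) < z.1.im := by
      have hc : Continuous fun z : ℂ × ℂ => z.1.im := Complex.continuous_im.comp continuous_fst
      refine hc.continuousAt.eventually (lt_mem_nhds ?_)
      show -(G.s / 2) < y.im
      rw [hy]
      linarith
    filter_upwards [hW.mem_nhds hyW, hlow] with z hzW hzl hzu
    refine hPe z ⟨hzW, ?_⟩
    rw [tubeU_eq]
    exact ⟨hzu, hzl⟩

variable (G)

/-- EVERYTHING unit 4J uses from unit 4C. -/
noncomputable def ctx4C : Ctx4C G where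
  ρ := G.ρc
  ρ_pos := G.s4c_ρc_pos
  ρ_le := G.s4c_ρc_le
  width_rel := G.s4c_width_rel
  lsc_X := G.s4c_lsc_X _
  lsc_L := G.s4c_lsc_L _
  supermean_X := G.s4c_supermean_X G.s4c_ρc_le
  supermean_L := G.s4c_supermean_L G.s4c_ρc_le
  mL := maxExtS G.s4c_L0_base
  mX := maxExtS G.s4c_X0_base

end Glance

end Claimed.Agent.R269
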