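/-
Row 269, P1 Section 4: THE EXPORT `s4_main : Nonempty (Sec4 G)`.   Sub-captain sec 4: helper36.

  4C  (helper19)   `Sec4.ofWalls`, `Glance.ctx4C`          widths, maximal extensions, Lemma 4.1, Proposition 4.7
  4E  (helper36)   `Glance.alg2_of_lensL`                  formal algebra
  4F  (helper36)   `Glance.lensL`                          Theorem 4.3
  4H  (helper183)  `Glance.lensP`                          Theorem 4.4
  4J  (helper264)  `s4j_no_patch_L`, `s4j_no_patch_X`      Theorem 4.8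
  4L  (helper3)    `s4l_nat_bdry` (S4/NatMain.lean)                Corollary 4.9
-/
import Claimed.Agent.R269.S4.WallMain
import Claimed.Agent.R269.S4.WidthMain
import Claimed.Agent.R269.S4.WidthCtx
import Claimed.Agent.R269.S4.LensL
import Claimed.Agent.R269.S4.LensP
import Claimed.Agent.R269.S4.NatMain

set_option autoImplicit false

namespace Claimed.Agent.R269

open Complex Filter Topology
open scoped ENNReal

theorem s4_no_patch_L (G : Glance) (t₀ : ℝ) (ht₀ : |t₀| < G.ρc) (y₁ : ℂ)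
    (hy₁ : ENNReal.ofReal y₁.im = G.hL t₀) : ¬ G.JointPatchAt G.L0 y₁ t₀ :=
  s4j_no_patch_L G.ctx4C G.lensL G.alg2 t₀ ht₀ y₁ hy₁

theorem s4_no_patch_X (G : Glance) (t₀ : ℝ) (ht₀ : |t₀| < G.ρc) (y₁ : ℂ)
    (hy₁ : ENNReal.ofReal y₁.im = G.hX t₀) : ¬ G.JointPatchAt G.X0 y₁ t₀ :=
  s4j_no_patch_X G.ctx4C G.lensP G.alg2 t₀ ht₀ y₁ hy₁

/-- the context of unit 4L for the maximal extension `G.Xm`. -/
theorem s4_nbCtx (G : Glance) : NbCtx G G.ρc G.Xm where
  ρ_pos := G.s4c_ρc_pos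
  ρ_le := G.s4c_ρc_le
  lsc := G.s4c_lsc_X G.ρc
  low := lt_of_lt_of_le
    ((ENNReal.ofReal_lt_ofReal_iff (by have := G.s4c_s_pos; linarith)).2
      (by have := G.s4c_s_pos; linarith))
    (G.s4c_X0_base.le_width (Metric.mem_ball_self G.r₁_pos))
  mero₁ := G.s4c_Xm_slice₁ G.ρc
  mero₂ := G.s4c_Xm_slice₂ G.ρc
  base := G.s4c_Xm_base G.s4c_ρc_le

/-- Corollary 4.9 (EXPORT of unit 4L, helper3: `s4l_nat_bdry`, S4/NatMain.lean). -/
theorem s4_nat_bdry (G : Glance) : ∀ s₀ : ℂ, ENNReal.ofReal |s₀.im| = G.Hs →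
    ¬ ∃ (ε : ℝ) (P : ℂ → ℂ × ℂ), 0 < ε ∧ MeromorphicOn (fun s => (P s).1) (Metric.ball s₀ ε) ∧
      MeromorphicOn (fun s => (P s).2) (Metric.ball s₀ ε) ∧
      ∀ s ∈ Metric.ball s₀ ε ∩ estrip G.Hs, P =ᶠ[𝓝[≠] s] fun s' => G.Xm (s', 0) :=
  s4l_nat_bdry (s4_nbCtx G) fun y₁ hy₁ => by
    have := s4_no_patch_X G 0 (by simpa using G.s4c_ρc_pos) y₁ (by simpa using hy₁)
    simpa using this

/-- EXPORT of Section 4. -/
theorem s4_main (G : Glance) : Nonempty (Sec4 G) :=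
  ⟨Sec4.ofWalls G G.ρc G.s4c_ρc_pos le_rfl (s4_no_patch_X G) (s4_no_patch_L G) (s4_nat_bdry G)⟩

end Claimed.Agent.R269
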