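/-
Row 269, P1 Section 4, unit 4J, leaf LF-S4-4J-count: for `t` outside a countable set the non-regular points of a lens datum are discrete on the slice.
HOST-FREE (toolkit `Lib/Mero2.lean`, `Lib/Mero2b.lean` only).   Blueprint: helper264.

PLAN.  `J := jetU PL PX G.A`; for `q` with `σ.Supp q` put `Φ_q w := eval (J w) q`, `Mero2On Ω` by `s4j_jet_mero` (`G.A` analytic at `z.2`: `s4j_analyticAt_A`).
 * `s4j_reg`: `Mero2On.exists_countable_slice_snd` gives `B`; for `z ∈ W`, `z.2 ∉ B`: `F =ᶠ[genF z] g/k`, `k (·, z.2)` not locally zero at `z.1`.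
   `y ↦ k (y, z.2)` is analytic at `z.1` (composition with `y ↦ (y, z.2)`), so `∀ᶠ y in 𝓝[≠] z.1, k (y, z.2) ≠ 0` (`AnalyticAt.eventually_eq_zero_or_eventually_ne_zero`).
   `eventually_nhds_genF` + `AnalyticAt.eventually_analyticAt`, pulled back along the continuous map `y ↦ (y, z.2)` and restricted to `𝓝[≠]`:
   at such `y`: `F =ᶠ[genF (y,z.2)] g/k` with `g/k` analytic at `(y,z.2)`; `analyticAt_mnf`.
 * `s4j_unit`: apply `Mero2On.exists_countable_generic` on `W' := {z ∈ W | ¬ ∀ᶠ w in genF z, F w = 0}`.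
 * `s4j_countable`: `B :=` union of the sets for `Φ_q`, `q` among `Π.coeff l (l ≤ natDegree Π)`, `A.coeff l (l ≤ natDegree A)`, `B.coeff l (l ≤ natDegree B)`, `D`, `lc Π` (finite union);
   for `l` above the degree the coefficient is `0`, `Φ_0 = 0`, `cf J 0 = mnf 0` is analytic (`analyticAt_mnf` with `H = 0`).  Finite intersection of `∀ᶠ`.
-/
import Claimed.Agent.R269.S4.WallJet

set_option autoImplicit false

namespace Claimed.Agent.R269

open Complex Filter Topology Set Polynomial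
open scoped ENNReal Real

/-- outside a countable set of slices the normal form is analytic off a discrete subset of the slice. -/
theorem s4j_reg {F : ℂ × ℂ → ℂ} {W : Set (ℂ × ℂ)} (hF : Mero2On F W) :
    ∃ B : Set ℂ, B.Countable ∧ ∀ z ∈ W, z.2 ∉ B →
      ∀ᶠ y in 𝓝[≠] z.1, AnalyticAt ℂ (mnf F) (y, z.2) := by
  obtain ⟨B, hB, h1⟩ := hF.exists_countable_slice_snd
  refine ⟨B, hB, fun z hz hzB => ?_⟩
  obtain ⟨g, k, hg, hk, hk0, hFg⟩ := h1 z hz hzB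
  have e1 : ∀ᶠ y in 𝓝[≠] z.1, k (y, z.2) ≠ 0 :=
    ((analyticAt_slice_fst hk).eventually_eq_zero_or_eventually_ne_zero).resolve_left hk0
  have e3 : ∀ᶠ w in 𝓝 z, AnalyticAt ℂ g w ∧ AnalyticAt ℂ k w ∧
      (F =ᶠ[genF w] fun w => g w / k w) := by
    filter_upwards [hg.eventually_analyticAt, hk.eventually_analyticAt,
      eventually_nhds_genF hFg] with w a b c using ⟨a, b, c⟩
  have e4 := ((tendsto_mk_fst z).eventually e3).filter_mono
    (nhdsWithin_le_nhds (s := ({z.1}ᶜ : Set ℂ)))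
  filter_upwards [e1, e4] with y a c
  exact analyticAt_mnf (c.1.div c.2.1 a) c.2.2

/-- the same with non-vanishing, at the points where `F` is not the zero germ. -/
theorem s4j_unit {F : ℂ × ℂ → ℂ} {W : Set (ℂ × ℂ)} (hF : Mero2On F W) :
    ∃ B : Set ℂ, B.Countable ∧ ∀ z ∈ W, z.2 ∉ B → (¬ ∀ᶠ w in genF z, F w = 0) →
      ∀ᶠ y in 𝓝[≠] z.1, AnalyticAt ℂ (mnf F) (y, z.2) ∧ mnf F (y, z.2) ≠ 0 := by
  obtain ⟨B, hB, h1⟩ := Mero2On.exists_countable_generic (F := F)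
    (W := {z | z ∈ W ∧ ¬ ∀ᶠ w in genF z, F w = 0}) (fun z hz => hF z hz.1) (fun z hz => hz.2)
  exact ⟨B, hB, fun z hz hzB h0 => h1 z ⟨hz, h0⟩ hzB⟩

/-- all coefficient functions of a polynomial with supported coefficients. -/
theorem s4j_countable_poly {G : Glance} {σ : ShiftSet}
    {PL PX : ℤ → ℂ × ℂ → ℂ × ℂ} {Ω : Set (ℂ × ℂ)} (hmero : ∀ z ∈ Ω, JetEq σ PL PX PL PX z)
    (hpar : ∀ z ∈ Ω, z.2 ∈ Metric.ball (0 : ℂ) G.r₁) (p : Polynomial (MvPolynomial Var ℂ))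
    (hp : ∀ l, σ.Supp (p.coeff l)) :
    ∃ B : Set ℂ, B.Countable ∧ ∀ z ∈ Ω, z.2 ∉ B →
      ∀ᶠ y in 𝓝[≠] z.1, ∀ l, AnalyticAt ℂ (Glance.cf (jetU PL PX G.A) (p.coeff l)) (y, z.2) := by
  have hm : ∀ l, Mero2On (fun w => MvPolynomial.eval (jetU PL PX G.A w) (p.coeff l)) Ω :=
    fun l z hz => s4j_jet_mero σ (hp l) (s4j_analyticAt_A G (hpar z hz)) (hmero z hz)
  choose B hB h1 using fun l => s4j_reg (hm l)
  refine ⟨⋃ l, B l, countable_iUnion hB, fun z hz hzB => ?_⟩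
  have h2 : ∀ᶠ y in 𝓝[≠] z.1, ∀ l ∈ Finset.range (p.natDegree + 1),
      AnalyticAt ℂ (Glance.cf (jetU PL PX G.A) (p.coeff l)) (y, z.2) :=
    (Filter.eventually_all_finset _).2 fun l _ =>
      h1 l z hz fun h => hzB (mem_iUnion.2 ⟨l, h⟩)
  filter_upwards [h2] with y hy l
  by_cases hl : l < p.natDegree + 1
  · exact hy l (Finset.mem_range.2 hl)
  · rw [Polynomial.coeff_eq_zero_of_natDegree_lt (by omega)]
    refine analyticAt_mnf (H := fun _ => 0) analyticAt_const (Eventually.of_forall fun w => ?_)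
    exact map_zero _

theorem s4j_countable {G : Glance} {c : Fin 2} {σ : ShiftSet} (Λ : G.Lens c σ)
    {PL PX : ℤ → ℂ × ℂ → ℂ × ℂ} {Ω : Set (ℂ × ℂ)} (hmero : ∀ z ∈ Ω, JetEq σ PL PX PL PX z)
    (hpar : ∀ z ∈ Ω, z.2 ∈ Metric.ball (0 : ℂ) G.r₁) :
    ∃ B : Set ℂ, B.Countable ∧ ∀ z ∈ Ω, z.2 ∉ B →
      (¬ ∀ᶠ w in genF z, MvPolynomial.eval (jetU PL PX G.A w) Λ.D = 0) →
      (¬ ∀ᶠ w in genF z, MvPolynomial.eval (jetU PL PX G.A w) Λ.Pi.leadingCoeff = 0) →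
      ∀ᶠ y in 𝓝[≠] z.1, Λ.RegAt (jetU PL PX G.A) (y, z.2) := by
  obtain ⟨B1, hB1, h1⟩ := s4j_countable_poly hmero hpar Λ.Pi Λ.supp_Pi
  obtain ⟨B2, hB2, h2⟩ := s4j_countable_poly hmero hpar Λ.A Λ.supp_A
  obtain ⟨B3, hB3, h3⟩ := s4j_countable_poly hmero hpar Λ.B Λ.supp_B
  have hm : ∀ q : MvPolynomial Var ℂ, σ.Supp q →
      Mero2On (fun w => MvPolynomial.eval (jetU PL PX G.A w) q) Ω :=
    fun q hq z hz => s4j_jet_mero σ hq (s4j_analyticAt_A G (hpar z hz)) (hmero z hz)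
  obtain ⟨B4, hB4, h4⟩ := s4j_unit (hm _ Λ.supp_D)
  obtain ⟨B5, hB5, h5⟩ := s4j_unit (hm _ (Λ.supp_Pi Λ.Pi.natDegree))
  refine ⟨B1 ∪ B2 ∪ B3 ∪ B4 ∪ B5, (((hB1.union hB2).union hB3).union hB4).union hB5,
    fun z hz hzB hD hlc => ?_⟩
  simp only [mem_union, not_or] at hzB
  obtain ⟨⟨⟨⟨b1, b2⟩, b3⟩, b4⟩, b5⟩ := hzB
  filter_upwards [h1 z hz b1, h2 z hz b2, h3 z hz b3, h4 z hz b4 hD, h5 z hz b5 hlc]
    with y a1 a2 a3 a4 a5
  exact ⟨a1, a2, a3, a4.1, a4.2, a5.2⟩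

end Claimed.Agent.R269
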