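/-
Row 269, P1 Section 4, unit 4C (widths): DEFINITIONS and the calculus of PAIRS.   Owner of the unit: helper19.

  `mnf₂ F`, `Mero2At₂`           normal form / meromorphy of pairs, small API for `Mero2On₂`, `Mero2EqAt₂` (all proved here)
  `G.ini`                        the initial domain `|Im y| < 3s/2`, `|t| < r₁`
  `G.IsBase F₀`                  what the general theory uses of `F₀ = X0, L0`: analytic on `G.ini`, `2π`-periodic, even in `t`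
  `G.utube F₀`                   the upper tube `-3s/2 < Im y < h_F(t)`
  `G.maxExt F₀`                  THE maximal primary extension on the upper tube (normal form, equal to `F₀` on `G.ini`)
  `G.Good F₀ y₁ t₀`              flexible patch notion: some `P`, meromorphic at `(y₁,t₀)`, has the germs of `maxExt` at all
                                 nearby points of the tube
  `subgr S a b`                  the region `{(y,t) : t ∈ S, a t < Im y < b t}`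

PLAN OF THE UNIT (files `S4/Width*.lean`, `S4/Super*.lean`; prefix `s4c_`):
  WidthBase   `X0`, `L0` are bases, conjugation symmetries
  WidthBasic  monotonicity, lower bound, lsc, uniqueness of primary extensions, extension from a meromorphic function
  WidthMax    properties of `maxExt`, `s4c_tube_of_mero`
  WidthTwo    the two-sided maximal extensions `G.Xm`, `G.Lm` (fields `X`, `L` of `Sec4`)
  WidthPatch  `Good` versus `JointPatchAt`, criteria, the GLUE lemma (A3)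
  WidthRel*   Lemma 4.1
  Super*      Proposition 4.7
  WidthMain   the export `Sec4C`.
-/
import Claimed.Agent.R269.Lib.Mero2
import Claimed.Agent.R269.S4.Defs

set_option autoImplicit false

open Complex ComplexConjugate Filter Topology Set
open scoped ENNReal Real

namespace Claimed.Agent.R269

/-! ### Pairs -/

/-- normal form of a pair. -/
noncomputable def mnf₂ (F : ℂ × ℂ → ℂ × ℂ) (z : ℂ × ℂ) : ℂ × ℂ :=
  (mnf (fun w => (F w).1) z, mnf (fun w => (F w).2) z)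

/-- a pair of functions meromorphic at `z`. -/
def Mero2At₂ (F : ℂ × ℂ → ℂ × ℂ) (z : ℂ × ℂ) : Prop :=
  Mero2At (fun w => (F w).1) z ∧ Mero2At (fun w => (F w).2) z

theorem mero2On₂_iff {F : ℂ × ℂ → ℂ × ℂ} {W : Set (ℂ × ℂ)} :
    Mero2On₂ F W ↔ ∀ z ∈ W, Mero2At₂ F z :=
  ⟨fun h z hz => ⟨h.1 z hz, h.2 z hz⟩, fun h => ⟨fun z hz => (h z hz).1, fun z hz => (h z hz).2⟩⟩

theorem Mero2On₂.mono {F : ℂ × ℂ → ℂ × ℂ} {W W' : Set (ℂ × ℂ)} (h : Mero2On₂ F W) (hW : W' ⊆ W) :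
    Mero2On₂ F W' :=
  ⟨fun z hz => h.1 z (hW hz), fun z hz => h.2 z (hW hz)⟩

theorem Mero2At₂.refl {F : ℂ × ℂ → ℂ × ℂ} {z : ℂ × ℂ} (h : Mero2At₂ F z) : Mero2EqAt₂ F F z :=
  ⟨h.1.refl, h.2.refl⟩

theorem Mero2EqAt₂.left {F P : ℂ × ℂ → ℂ × ℂ} {z : ℂ × ℂ} (h : Mero2EqAt₂ F P z) : Mero2At₂ F z :=
  ⟨h.1.left, h.2.left⟩

theorem Mero2EqAt₂.right {F P : ℂ × ℂ → ℂ × ℂ} {z : ℂ × ℂ} (h : Mero2EqAt₂ F P z) : Mero2At₂ P z :=
  ⟨h.1.right, h.2.right⟩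

theorem Mero2EqAt₂.symm {F P : ℂ × ℂ → ℂ × ℂ} {z : ℂ × ℂ} (h : Mero2EqAt₂ F P z) :
    Mero2EqAt₂ P F z :=
  ⟨h.1.symm, h.2.symm⟩

theorem Mero2EqAt₂.trans {F P Q : ℂ × ℂ → ℂ × ℂ} {z : ℂ × ℂ} (h : Mero2EqAt₂ F P z)
    (h' : Mero2EqAt₂ P Q z) : Mero2EqAt₂ F Q z :=
  ⟨h.1.trans h'.1, h.2.trans h'.2⟩

theorem Mero2EqAt₂.eventually {F P : ℂ × ℂ → ℂ × ℂ} {z : ℂ × ℂ} (h : Mero2EqAt₂ F P z) :
    ∀ᶠ z' in 𝓝 z, Mero2EqAt₂ F P z' :=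
  h.1.eventually.and h.2.eventually

theorem Mero2At₂.eventually {F : ℂ × ℂ → ℂ × ℂ} {z : ℂ × ℂ} (h : Mero2At₂ F z) :
    ∀ᶠ z' in 𝓝 z, Mero2At₂ F z' :=
  h.1.eventually.and h.2.eventually

theorem Mero2At₂.eqAt_of_eventuallyEq {F P : ℂ × ℂ → ℂ × ℂ} {z : ℂ × ℂ} (h : Mero2At₂ F z)
    (hFP : F =ᶠ[𝓝 z] P) : Mero2EqAt₂ F P z :=
  ⟨h.1.eqAt_of_eventuallyEq (hFP.mono fun w hw => by simp only [hw]),
    h.2.eqAt_of_eventuallyEq (hFP.mono fun w hw => by simp only [hw])⟩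

theorem Mero2At₂.mnf₂_eqAt {F : ℂ × ℂ → ℂ × ℂ} {z : ℂ × ℂ} (h : Mero2At₂ F z) :
    Mero2EqAt₂ (mnf₂ F) F z :=
  ⟨h.1.mnf_eqAt, h.2.mnf_eqAt⟩

theorem mnf₂_congr {F P : ℂ × ℂ → ℂ × ℂ} {z : ℂ × ℂ} (h : Mero2EqAt₂ F P z) :
    mnf₂ F z = mnf₂ P z :=
  Prod.ext (mnf_congr h.1.eventuallyEq) (mnf_congr h.2.eventuallyEq)

/-- the normal form of a pair which is analytic near `z`. -/
theorem mnf₂_eq_of_analyticAt {F H : ℂ × ℂ → ℂ × ℂ} {z : ℂ × ℂ}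
    (h1 : AnalyticAt ℂ (fun w => (H w).1) z) (h2 : AnalyticAt ℂ (fun w => (H w).2) z)
    (h : Mero2EqAt₂ F H z) : mnf₂ F z = H z :=
  Prod.ext (mnf_eq_of_analyticAt h1 h.1.eventuallyEq) (mnf_eq_of_analyticAt h2 h.2.eventuallyEq)

/-- identity theorem for pairs. -/
theorem Mero2On₂.eqAt_of_isPreconnected {F P : ℂ × ℂ → ℂ × ℂ} {W : Set (ℂ × ℂ)}
    (hWc : IsPreconnected W) (hF : Mero2On₂ F W) (hP : Mero2On₂ P W) {z₀ : ℂ × ℂ} (hz₀ : z₀ ∈ W)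
    (h : Mero2EqAt₂ F P z₀) : ∀ z ∈ W, Mero2EqAt₂ F P z := fun z hz =>
  ⟨Mero2On.eqAt_of_isPreconnected hWc hF.1 hP.1 hz₀ h.1 z hz,
    Mero2On.eqAt_of_isPreconnected hWc hF.2 hP.2 hz₀ h.2 z hz⟩

/-- gluing of two pairs. -/
theorem Mero2.exists_glue₂₂ {U V : Set (ℂ × ℂ)} (hU : IsOpen U) (hV : IsOpen V)
    {F P : ℂ × ℂ → ℂ × ℂ} (hF : Mero2On₂ F U) (hP : Mero2On₂ P V)
    (hcomp : ∀ z ∈ U ∩ V, Mero2EqAt₂ F P z) :
    ∃ Fg : ℂ × ℂ → ℂ × ℂ, Mero2On₂ Fg (U ∪ V) ∧ (∀ z ∈ U, Mero2EqAt₂ Fg F z) ∧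
      ∀ z ∈ V, Mero2EqAt₂ Fg P z := by
  obtain ⟨A, hA, hA1, hA2⟩ := Mero2.exists_glue₂ hU hV hF.1 hP.1 fun z hz => (hcomp z hz).1
  obtain ⟨B, hB, hB1, hB2⟩ := Mero2.exists_glue₂ hU hV hF.2 hP.2 fun z hz => (hcomp z hz).2
  exact ⟨fun z => (A z, B z), ⟨hA, hB⟩, fun z hz => ⟨hA1 z hz, hB1 z hz⟩,
    fun z hz => ⟨hA2 z hz, hB2 z hz⟩⟩

/-- gluing of a family of pairs. -/
theorem Mero2.exists_glue_pairs {ι : Type*} (U : ι → Set (ℂ × ℂ)) (hU : ∀ i, IsOpen (U i))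
    (F : ι → ℂ × ℂ → ℂ × ℂ) (hF : ∀ i, Mero2On₂ (F i) (U i))
    (hcomp : ∀ i j, ∀ z ∈ U i ∩ U j, Mero2EqAt₂ (F i) (F j) z) :
    ∃ Fg : ℂ × ℂ → ℂ × ℂ, Mero2On₂ Fg (⋃ i, U i) ∧ ∀ i, ∀ z ∈ U i, Mero2EqAt₂ Fg (F i) z := by
  obtain ⟨A, hA, hA1, -⟩ := Mero2.exists_glue U hU (fun i w => (F i w).1) (fun i => (hF i).1)
    fun i j z hz => (hcomp i j z hz).1
  obtain ⟨B, hB, hB1, -⟩ := Mero2.exists_glue U hU (fun i w => (F i w).2) (fun i => (hF i).2)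
    fun i j z hz => (hcomp i j z hz).2
  exact ⟨fun z => (A z, B z), ⟨hA, hB⟩, fun i z hz => ⟨hA1 i z hz, hB1 i z hz⟩⟩

theorem Mero2At₂.comp_shear {F : ℂ × ℂ → ℂ × ℂ} {a : ℂ → ℂ} {t₀ r : ℂ} {z : ℂ × ℂ}
    (hF : Mero2At₂ F (shear a t₀ r z)) (ha : AnalyticAt ℂ a z.2) (hr : r ≠ 0) :
    Mero2At₂ (fun w => F (shear a t₀ r w)) z :=
  ⟨hF.1.comp_shear ha hr, hF.2.comp_shear ha hr⟩

theorem Mero2EqAt₂.comp_shear {F P : ℂ × ℂ → ℂ × ℂ} {a : ℂ → ℂ} {t₀ r : ℂ} {z : ℂ × ℂ}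
    (h : Mero2EqAt₂ F P (shear a t₀ r z)) (ha : AnalyticAt ℂ a z.2) (hr : r ≠ 0) :
    Mero2EqAt₂ (fun w => F (shear a t₀ r w)) (fun w => P (shear a t₀ r w)) z :=
  ⟨h.1.comp_shear ha hr, h.2.comp_shear ha hr⟩

/-! ### Regions between two graphs -/

/-- the region `{(y,t) : t ∈ S, a t < Im y < b t}`. -/
def subgr (S : Set ℂ) (a b : ℂ → ℝ) : Set (ℂ × ℂ) := {z | z.2 ∈ S ∧ a z.2 < z.1.im ∧ z.1.im < b z.2}

namespace Glance

variable (G : Glance)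

/-- the initial domain `|Im y| < 3s/2`, `|t| < r₁`, on which `X0` and `L0` are holomorphic. -/
def ini : Set (ℂ × ℂ) := hstrip (3 * G.s / 2) ×ˢ Metric.ball (0 : ℂ) G.r₁

/-- What the general theory of widths uses of the primary branch `F₀` (`= X0` or `L0`). -/
structure IsBase (F₀ : ℂ × ℂ → ℂ × ℂ) : Prop where
  an₁ : AnalyticOnNhd ℂ (fun z => (F₀ z).1) G.ini
  an₂ : AnalyticOnNhd ℂ (fun z => (F₀ z).2) G.ini
  per : ∀ z ∈ G.ini, F₀ (z.1 + 2 * π, z.2) = F₀ z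
  even : ∀ z ∈ G.ini, F₀ (z.1, -z.2) = F₀ z

/-- the upper tube `-3s/2 < Im y < h_F(t)` (`t ∈ ball 0 r₁` is automatic: the width vanishes outside). -/
def utube (F₀ : ℂ × ℂ → ℂ × ℂ) : Set (ℂ × ℂ) :=
  {z | -(3 * G.s / 2) < z.1.im ∧ ENNReal.ofReal z.1.im < G.width F₀ z.2}

open Classical in
/-- THE maximal primary extension: `F₀` below `Im y = s/2`, above it the normal form of any primary extension
which reaches the point. -/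
noncomputable def maxExt (F₀ : ℂ × ℂ → ℂ × ℂ) (z : ℂ × ℂ) : ℂ × ℂ :=
  if z.1.im < G.s / 2 then F₀ z
  else if h : ∃ F : ℂ × ℂ → ℂ × ℂ, ∃ (b : ℝ) (V : Set ℂ),
      G.IsPrimaryExt F₀ b V F ∧ z ∈ hband (-(G.s / 2)) b ×ˢ V
    then mnf₂ h.choose z else 0

/-- The flexible patch notion: some `P`, meromorphic at `(y₁,t₀)`, has the germs of the maximal primary extension at all
nearby points of the upper tube. -/
def Good (F₀ : ℂ × ℂ → ℂ × ℂ) (y₁ t₀ : ℂ) : Prop :=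
  ∃ P : ℂ × ℂ → ℂ × ℂ, Mero2At₂ P (y₁, t₀) ∧
    ∀ᶠ z in 𝓝 (y₁, t₀), z ∈ G.utube F₀ → Mero2EqAt₂ P (G.maxExt F₀) z

/-- the radius for which Lemma 4.1 is proved. -/
noncomputable def ρc : ℝ := G.r₁ / 2

end Glance

end Claimed.Agent.R269
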