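/-
Row 269, P1 Section 4, unit 4C, file WidthTool: complements to the `Mero2` toolkit (R269/Lib/Mero2.lean, Mero2b.lean).
Statements: helper19.   LEAF PACKAGE LF-S4-4C-tool (this file).  No paper reading.

PROOFS.
* `mnf_comp_shear` is now in Lib/Mero2b.lean (helper270, proved).
* `mnf_conj_conj`: as `mnf_comp_shear` (Lib/Mero2b.lean), with `analyticAt_conj_conj`; the map `w ↦ (conj w.1, conj w.2)` is an involution which maps `genF z` to
  `genF (conj z)` (take `k^*(w) = conj (k (conj w))`).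
-/
import Claimed.Agent.R269.S4.WidthDefs
import Claimed.Agent.R269.Lib.Mero2b
import Claimed.Agent.R269.Lib.Levi

set_option autoImplicit false

open Complex ComplexConjugate Filter Topology Set
open scoped ENNReal Real

namespace Claimed.Agent.R269

/-- complex conjugation of pairs. -/
noncomputable def cj₂ (v : ℂ × ℂ) : ℂ × ℂ := (conj v.1, conj v.2)

@[simp] theorem cj₂_cj₂ (v : ℂ × ℂ) : cj₂ (cj₂ v) = v := by simp [cj₂]

theorem mnf_conj_conj {F : ℂ × ℂ → ℂ} {z : ℂ × ℂ} :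
    mnf (fun w : ℂ × ℂ => conj (F (conj w.1, conj w.2))) z = conj (mnf F (conj z.1, conj z.2)) := by
  by_cases hex : ∃ H : ℂ × ℂ → ℂ, AnalyticAt ℂ H (conj z.1, conj z.2) ∧
      F =ᶠ[genF (conj z.1, conj z.2)] H
  · obtain ⟨H, hH, hFH⟩ := hex
    rw [mnf_eq_of_analyticAt hH hFH]
    refine mnf_eq_of_analyticAt (H := fun w : ℂ × ℂ => conj (H (conj w.1, conj w.2)))
      (analyticAt_conj_conj hH) ?_
    filter_upwards [(tendsto_genF_conj z).eventually hFH] with w hw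
    rw [hw]
  · rw [mnf_eq_zero hex, map_zero, mnf_eq_zero]
    rintro ⟨H, hH, hFH⟩
    apply hex
    have hzz : ((conj (conj z.1), conj (conj z.2)) : ℂ × ℂ) = z := by simp
    refine ⟨fun w : ℂ × ℂ => conj (H (conj w.1, conj w.2)),
      analyticAt_conj_conj (z := (conj z.1, conj z.2)) (by rw [hzz]; exact hH), ?_⟩
    have h1 := tendsto_genF_conj (conj z.1, conj z.2)
    simp only [hzz] at h1
    filter_upwards [h1.eventually hFH] with w hw
    rw [← hw]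
    simp

theorem mnf₂_comp_shear {F : ℂ × ℂ → ℂ × ℂ} {a : ℂ → ℂ} {t₀ r : ℂ} {z : ℂ × ℂ}
    (ha : AnalyticAt ℂ a z.2) (hr : r ≠ 0) :
    mnf₂ (fun w => F (shear a t₀ r w)) z = mnf₂ F (shear a t₀ r z) :=
  Prod.ext (mnf_comp_shear (F := fun w => (F w).1) ha hr) (mnf_comp_shear (F := fun w => (F w).2) ha hr)

theorem mnf₂_mnf₂ {F : ℂ × ℂ → ℂ × ℂ} {z : ℂ × ℂ} (hF : Mero2At₂ F z) :
    mnf₂ (mnf₂ F) z = mnf₂ F z :=
  mnf₂_congr hF.mnf₂_eqAt

theorem Mero2At₂.conj_conj {F : ℂ × ℂ → ℂ × ℂ} {z : ℂ × ℂ} (hF : Mero2At₂ F (cj₂ z)) :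
    Mero2At₂ (fun w => cj₂ (F (cj₂ w))) z :=
  ⟨hF.1.conj_conj, hF.2.conj_conj⟩

theorem Mero2EqAt₂.conj_conj {F P : ℂ × ℂ → ℂ × ℂ} {z : ℂ × ℂ} (h : Mero2EqAt₂ F P (cj₂ z)) :
    Mero2EqAt₂ (fun w => cj₂ (F (cj₂ w))) (fun w => cj₂ (P (cj₂ w))) z :=
  ⟨h.1.conj_conj, h.2.conj_conj⟩

end Claimed.Agent.R269
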